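import Vale.Agent.Lib.P195.AR.Ex3

/-!
# P195: operators applied to 1

`ap (d^α g(x,y)) = (∂/∂x)^α g(x,y)`: the differential operator with symbol `f` (d on the left)
applied to the constant function 1.
-/

namespace Vale.Agent.P195.AR

open MvPolynomial

variable {k : Type} [Field k]

theorem ext_mono {M : Type} [AddCommGroup M] [Module k M] (S T : PA k →ₗ[k] M)
    (h : ∀ s, S (monomial s 1) = T (monomial s 1)) (f : PA k) : S f = T f := by
  rw [f.as_sum, map_sum, map_sum]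
  apply Finset.sum_congr rfl
  intro s _
  have : monomial s (coeff s f) = coeff s f • monomial s (1 : k) := by
    rw [smul_monomial, smul_eq_mul, mul_one]
  rw [this, map_smul, map_smul, h s]

/-- the exponent with the d part erased -/
noncomputable def er (s : Vr →₀ ℕ) : Vr →₀ ℕ := (s.erase (Vr.d 0)).erase (Vr.d 1)

theorem er_d0 (s : Vr →₀ ℕ) : er s (Vr.d 0) = 0 := by
  rw [er, Finsupp.erase_ne (by decide), Finsupp.erase_same]

theorem er_d1 (s : Vr →₀ ℕ) : er s (Vr.d 1) = 0 := by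
  rw [er, Finsupp.erase_same]

theorem er_ne (s : Vr →₀ ℕ) {v : Vr} (h0 : v ≠ Vr.d 0) (h1 : v ≠ Vr.d 1) : er s v = s v := by
  rw [er, Finsupp.erase_ne h1, Finsupp.erase_ne h0]

theorem er_add_d (s : Vr →₀ ℕ) {v : Vr} (h : v = Vr.d 0 ∨ v = Vr.d 1) (n : ℕ) :
    er (s + Finsupp.single v n) = er s := by
  ext w
  by_cases h0 : w = Vr.d 0
  · subst h0; rw [er_d0, er_d0]
  · by_cases h1 : w = Vr.d 1
    · subst h1; rw [er_d1, er_d1]
    · rw [er_ne _ h0 h1, er_ne _ h0 h1, Finsupp.add_apply, Finsupp.single_apply]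
      rcases h with rfl | rfl
      · rw [if_neg (Ne.symm h0), add_zero]
      · rw [if_neg (Ne.symm h1), add_zero]

theorem er_sub (s : Vr →₀ ℕ) (v : Vr) (n : ℕ) :
    er (s - Finsupp.single v n) = er s - Finsupp.single v n := by
  ext w
  by_cases h2 : w = Vr.d 0
  · subst h2
    rw [er_d0, Finsupp.tsub_apply, er_d0, Nat.zero_sub]
  · by_cases h3 : w = Vr.d 1
    · subst h3
      rw [er_d1, Finsupp.tsub_apply, er_d1, Nat.zero_sub]
    · rw [er_ne _ h2 h3, Finsupp.tsub_apply, Finsupp.tsub_apply, er_ne _ h2 h3]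

theorem er_add (s : Vr →₀ ℕ) {v : Vr} (h0 : v ≠ Vr.d 0) (h1 : v ≠ Vr.d 1) (n : ℕ) :
    er (s + Finsupp.single v n) = er s + Finsupp.single v n := by
  ext w
  by_cases h2 : w = Vr.d 0
  · subst h2
    rw [er_d0, Finsupp.add_apply, er_d0, Finsupp.single_apply, if_neg h0, add_zero]
  · by_cases h3 : w = Vr.d 1
    · subst h3
      rw [er_d1, Finsupp.add_apply, er_d1, Finsupp.single_apply, if_neg h1, add_zero]
    · rw [er_ne _ h2 h3, Finsupp.add_apply, Finsupp.add_apply, er_ne _ h2 h3]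

/-- the derivative as a linear map -/
noncomputable def pdl (v : Vr) : PA k →ₗ[k] PA k := (pderiv (R := k) v).toLinearMap

theorem pdl_apply (v : Vr) (f : PA k) : pdl v f = pderiv v f := rfl

theorem pdl_pow_comm (u v : Vr) (n : ℕ) (f : PA k) :
    (pdl u ^ n) (pderiv v f) = pderiv v ((pdl u ^ n) f) := by
  induction n with
  | zero => simp
  | succ n ih =>
    rw [pow_succ', Module.End.mul_apply, Module.End.mul_apply, ih, pdl_apply, pdl_apply,
      pderiv_comm]

/-- the operator applied to 1 -/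
noncomputable def ap : PA k →ₗ[k] PA k :=
  (basisMonomials Vr k).constr k
    (fun s => (pdl (Vr.x 0) ^ s (Vr.d 0)) ((pdl (Vr.x 1) ^ s (Vr.d 1)) (monomial (er s) 1)))

theorem ap_monomial (s : Vr →₀ ℕ) : ap (monomial s (1 : k)) =
    (pdl (Vr.x 0) ^ s (Vr.d 0)) ((pdl (Vr.x 1) ^ s (Vr.d 1)) (monomial (er s) 1)) := by
  have := (basisMonomials Vr k).constr_basis k
    (fun s : Vr →₀ ℕ => (pdl (Vr.x 0) ^ s (Vr.d 0))
      ((pdl (Vr.x 1) ^ s (Vr.d 1)) (monomial (er s) (1 : k)))) s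
  rw [coe_basisMonomials] at this
  exact this

theorem ap_pderiv_gen {v : Vr} (h0 : v ≠ Vr.d 0) (h1 : v ≠ Vr.d 1) (f : PA k) :
    ap (pderiv v f) = pderiv v (ap f) := by
  refine ext_mono (ap ∘ₗ pdl v) (pdl v ∘ₗ ap) ?_ f
  intro s
  rw [LinearMap.comp_apply, LinearMap.comp_apply, pdl_apply, pdl_apply, pderiv_monomial, one_mul]
  have e : monomial (s - Finsupp.single v 1) (s v : k)
      = (s v : k) • monomial (s - Finsupp.single v 1) 1 := by
    rw [smul_monomial, smul_eq_mul, mul_one]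
  rw [e, map_smul, ap_monomial, ap_monomial, ← pdl_pow_comm, ← pdl_pow_comm, pderiv_monomial,
    er_sub, er_ne _ h0 h1, one_mul]
  have e0 : (s - Finsupp.single v 1 : Vr →₀ ℕ) (Vr.d 0) = s (Vr.d 0) := by
    rw [Finsupp.tsub_apply, Finsupp.single_apply, if_neg h0, Nat.sub_zero]
  have e1 : (s - Finsupp.single v 1 : Vr →₀ ℕ) (Vr.d 1) = s (Vr.d 1) := by
    rw [Finsupp.tsub_apply, Finsupp.single_apply, if_neg h1, Nat.sub_zero]
  have e2 : monomial (er s - Finsupp.single v 1) (s v : k)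
      = (s v : k) • monomial (er s - Finsupp.single v 1) 1 := by
    rw [smul_monomial, smul_eq_mul, mul_one]
  rw [e0, e1, e2, map_smul, map_smul]

theorem ap_pderiv (i : Fin 2) (f : PA k) :
    ap (pderiv (Vr.x i) f) = pderiv (Vr.x i) (ap f) :=
  ap_pderiv_gen (by simp) (by simp) f

theorem ap_dy (i : Fin 2) (f : PA k) : ap (dy i f) = dy i (ap f) :=
  ap_pderiv_gen (by simp) (by simp) f

theorem ap_ld (i : Fin 2) (f : PA k) : ap (ld i f) = pderiv (Vr.x i) (ap f) := by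
  refine ext_mono (ap ∘ₗ ld i) (pdl (Vr.x i) ∘ₗ ap) ?_ f
  intro s
  rw [LinearMap.comp_apply, LinearMap.comp_apply, pdl_apply, ld_apply, X, monomial_mul, one_mul,
    ap_monomial, ap_monomial, add_comm (Finsupp.single _ _) s]
  have hi : i = 0 ∨ i = 1 := by fin_cases i <;> simp
  rcases hi with rfl | rfl
  · rw [er_add_d _ (Or.inl rfl)]
    have h0 : (s + Finsupp.single (Vr.d 0) 1 : Vr →₀ ℕ) (Vr.d 0) = s (Vr.d 0) + 1 := by simp
    have h1 : (s + Finsupp.single (Vr.d 0) 1 : Vr →₀ ℕ) (Vr.d 1) = s (Vr.d 1) := by simp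
    rw [h0, h1, pow_succ', Module.End.mul_apply, pdl_apply]
  · rw [er_add_d _ (Or.inr rfl)]
    have h0 : (s + Finsupp.single (Vr.d 1) 1 : Vr →₀ ℕ) (Vr.d 0) = s (Vr.d 0) := by simp
    have h1 : (s + Finsupp.single (Vr.d 1) 1 : Vr →₀ ℕ) (Vr.d 1) = s (Vr.d 1) + 1 := by simp
    rw [h0, h1, pow_succ', Module.End.mul_apply, pdl_apply, pdl_pow_comm]

theorem ap_rd (i : Fin 2) (f : PA k) : ap (rd i f) = 0 := by
  have : rd i f = ld i f - pderiv (Vr.x i) f := rfl
  rw [this, map_sub, ap_ld, ap_pderiv, sub_self]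

theorem pdl_pow_mul_ne {u v : Vr} (h : v ≠ u) (n : ℕ) (g : PA k) :
    (pdl u ^ n) (X v * g) = X v * (pdl u ^ n) g := by
  induction n with
  | zero => simp
  | succ n ih =>
    rw [pow_succ', Module.End.mul_apply, Module.End.mul_apply, ih, pdl_apply, pdl_apply,
      pderiv_mul, pderiv_X_of_ne h, zero_mul, zero_add]

theorem pdl_pow_mul_self (v : Vr) (n : ℕ) (g : PA k) :
    (pdl v ^ n) (X v * g) = X v * (pdl v ^ n) g + (n : k) • (pdl v ^ (n - 1)) g := by
  induction n with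
  | zero => simp
  | succ n ih =>
    rw [pow_succ', Module.End.mul_apply, Module.End.mul_apply, ih, map_add, map_smul, pdl_apply,
      pderiv_mul, pderiv_X_self, one_mul, add_tsub_cancel_right]
    have e : (n : k) • (pdl v) ((pdl v ^ (n - 1)) g) = (n : k) • (pdl v ^ n) g := by
      rcases n with _ | n
      · simp
      · rw [add_tsub_cancel_right, pow_succ', Module.End.mul_apply]
    rw [e, pdl_apply]
    push_cast
    rw [add_smul, one_smul]
    ring

theorem er_sub_d (s : Vr →₀ ℕ) {v : Vr} (h : v = Vr.d 0 ∨ v = Vr.d 1) (n : ℕ) :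
    er (s - Finsupp.single v n) = er s := by
  rw [er_sub]
  ext w
  rw [Finsupp.tsub_apply, Finsupp.single_apply]
  split_ifs with hw
  · subst hw
    rcases h with rfl | rfl
    · rw [er_d0, Nat.zero_sub]
    · rw [er_d1, Nat.zero_sub]
  · rw [Nat.sub_zero]

theorem ap_lx (i : Fin 2) (f : PA k) : ap (lx i f) = X (Vr.x i) * ap f := by
  refine ext_mono (ap ∘ₗ lx i) (LinearMap.mulLeft k (X (Vr.x i)) ∘ₗ ap) ?_ f
  intro s
  rw [LinearMap.comp_apply, LinearMap.comp_apply, LinearMap.mulLeft_apply, lx_apply, map_sub,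
    pderiv_monomial, one_mul]
  have e1 : X (Vr.x i) * monomial s (1 : k) = monomial (s + Finsupp.single (Vr.x i) 1) 1 := by
    rw [X, monomial_mul, one_mul, add_comm]
  have e2 : monomial (s - Finsupp.single (Vr.d i) 1) (s (Vr.d i) : k)
      = (s (Vr.d i) : k) • monomial (s - Finsupp.single (Vr.d i) 1) 1 := by
    rw [smul_monomial, smul_eq_mul, mul_one]
  have hd : (Vr.d i) = Vr.d 0 ∨ (Vr.d i) = Vr.d 1 := by fin_cases i <;> simp
  have e3 : monomial (er (s + Finsupp.single (Vr.x i) 1)) (1 : k)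
      = X (Vr.x i) * monomial (er s) 1 := by
    rw [er_add _ (by simp) (by simp), X, monomial_mul, one_mul, add_comm]
  have a0 : (s + Finsupp.single (Vr.x i) 1 : Vr →₀ ℕ) (Vr.d 0) = s (Vr.d 0) := by simp
  have a1 : (s + Finsupp.single (Vr.x i) 1 : Vr →₀ ℕ) (Vr.d 1) = s (Vr.d 1) := by simp
  rw [e1, e2, map_smul, ap_monomial, ap_monomial, ap_monomial, e3, er_sub_d _ hd, a0, a1]
  have hi : i = 0 ∨ i = 1 := by fin_cases i <;> simp
  rcases hi with rfl | rfl
  · have b0 : (s - Finsupp.single (Vr.d 0) 1 : Vr →₀ ℕ) (Vr.d 0) = s (Vr.d 0) - 1 := by simp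
    have b1 : (s - Finsupp.single (Vr.d 0) 1 : Vr →₀ ℕ) (Vr.d 1) = s (Vr.d 1) := by simp
    rw [b0, b1, pdl_pow_mul_ne (by decide), pdl_pow_mul_self]
    ring
  · have b0 : (s - Finsupp.single (Vr.d 1) 1 : Vr →₀ ℕ) (Vr.d 0) = s (Vr.d 0) := by simp
    have b1 : (s - Finsupp.single (Vr.d 1) 1 : Vr →₀ ℕ) (Vr.d 1) = s (Vr.d 1) - 1 := by simp
    rw [b0, b1, pdl_pow_mul_self, map_add, map_smul, pdl_pow_mul_ne (by decide)]
    ring

theorem ap_my (i : Fin 2) (f : PA k) : ap (my i f) = my i (ap f) := by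
  refine ext_mono (ap ∘ₗ my i) (my i ∘ₗ ap) ?_ f
  intro s
  rw [LinearMap.comp_apply, LinearMap.comp_apply, my_apply, my_apply]
  have e1 : X (Vr.y i) * monomial s (1 : k) = monomial (s + Finsupp.single (Vr.y i) 1) 1 := by
    rw [X, monomial_mul, one_mul, add_comm]
  have e3 : monomial (er (s + Finsupp.single (Vr.y i) 1)) (1 : k)
      = X (Vr.y i) * monomial (er s) 1 := by
    rw [er_add _ (by simp) (by simp), X, monomial_mul, one_mul, add_comm]
  have a0 : (s + Finsupp.single (Vr.y i) 1 : Vr →₀ ℕ) (Vr.d 0) = s (Vr.d 0) := by simp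
  have a1 : (s + Finsupp.single (Vr.y i) 1 : Vr →₀ ℕ) (Vr.d 1) = s (Vr.d 1) := by simp
  rw [e1, ap_monomial, ap_monomial, e3, a0, a1, pdl_pow_mul_ne (by simp), pdl_pow_mul_ne (by simp)]

theorem ap_of_zero {a m : ℤ} {f : PA k} (hf : f ∈ FF k a 0 m) : ap f = f := by
  have h := SP_ext (k := k) (ap : PA k →ₗ[k] PA k) LinearMap.id (p := FC a 0 m) ?_ hf
  · exact h
  · intro s c hs
    obtain ⟨-, h2, -⟩ := hs
    have h0 : s (Vr.d 0) = 0 := by omega
    have h1 : s (Vr.d 1) = 0 := by omega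
    have he : er s = s := by
      ext v
      by_cases v0 : v = Vr.d 0
      · subst v0; rw [er_d0, h0]
      · by_cases v1 : v = Vr.d 1
        · subst v1; rw [er_d1, h1]
        · rw [er_ne _ v0 v1]
    have e : monomial s c = c • monomial s (1 : k) := by
      rw [smul_monomial, smul_eq_mul, mul_one]
    rw [e, map_smul, map_smul, ap_monomial, h0, h1, he, pow_zero, pow_zero]
    rfl

theorem pdl_pow_FF (i : Fin 2) (n : ℕ) {a m : ℤ} {f : PA k} (hf : f ∈ FF k a 0 m) :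
    (pdl (Vr.x i) ^ n) f ∈ FF k (a - n) 0 m := by
  induction n with
  | zero => simpa using hf
  | succ n ih =>
    rw [pow_succ', Module.End.mul_apply, pdl_apply]
    apply FF_px (by fin_cases i <;> simp)
    have e : a - ((n + 1 : ℕ) : ℤ) + 1 = a - n := by push_cast; ring
    rw [e]
    exact ih

theorem ap_mem {m a b : ℤ} {f : PA k} (hf : f ∈ (G m a b : Submodule k (PA k))) :
    ap f ∈ (G m a 0 : Submodule k (PA k)) := by
  refine G_induction (ap : PA k →ₗ[k] PA k) _ ?_ f hf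
  rintro s ⟨h1, h2, h3⟩
  rw [ap_monomial, G_eq]
  simp only [ydeg, xdeg, ddeg] at h1 h2 h3
  push_cast at h1 h2 h3
  have h4 : monomial (er s) (1 : k) ∈ FF k (a + s (Vr.d 0) + s (Vr.d 1)) 0 m := by
    intro t ht
    rw [coeff_monomial] at ht
    split_ifs at ht with hst
    · subst hst
      refine ⟨?_, ?_, ?_⟩
      · rw [er_d0, er_d1, er_ne _ (by simp) (by simp), er_ne _ (by simp) (by simp)]
        push_cast
        omega
      · rw [er_d0, er_d1]
        simp
      · rw [er_ne _ (by simp) (by simp), er_ne _ (by simp) (by simp)]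
        exact h1
    · exact absurd rfl ht
  have h5 := pdl_pow_FF 0 (s (Vr.d 0)) (pdl_pow_FF 1 (s (Vr.d 1)) h4)
  have e : a + (s (Vr.d 0) : ℤ) + (s (Vr.d 1) : ℤ) - (s (Vr.d 1) : ℤ) - (s (Vr.d 0) : ℤ) = a := by
    ring
  rwa [e] at h5

/-- division by the d's for exact order -/
theorem exdG {a b m : ℤ} (hb : 1 ≤ b) {q : PA k} (hq : q ∈ GG k a b m) :
    ∃ p1 ∈ GG k (a + 1) (b - 1) m, ∃ p2 ∈ GG k (a + 1) (b - 1) m,
      q = X (Vr.d 0) * p1 + X (Vr.d 1) * p2 := by
  obtain ⟨g, hg, h, hh, e⟩ := SP_split (fun s => s (Vr.d 0) = 0) hq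
  obtain ⟨g', rfl⟩ := SP_dvd (Vr.d 1) (fun s hs => by
    obtain ⟨⟨h1, h2, -⟩, h4⟩ := hs
    intro h5
    rw [h4, h5] at h2
    push_cast at h2
    omega) hg
  obtain ⟨h', rfl⟩ := SP_dvd (Vr.d 0) (fun s hs => hs.2) hh
  refine ⟨h', GG_d2.mp (SP_mono (fun s hs => hs.1) hh), g',
    GG_d3.mp (SP_mono (fun s hs => hs.1) hg), ?_⟩
  rw [e, add_comm]

/-- (b2) -/
theorem exb2_nat (n : ℕ) : ∀ {c b m : ℤ} {f : PA k}, b < n → f ∈ FF k c b m → ap f = 0 →
    ∃ a1 ∈ FF k (c + 1) (b - 1) m, ∃ a2 ∈ FF k (c + 1) (b - 1) m, f = rd 0 a1 + rd 1 a2 := by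
  induction n with
  | zero =>
    intro c b m f hb hf _
    have hb' : b < 0 := by simpa using hb
    exact ⟨0, Submodule.zero_mem _, 0, Submodule.zero_mem _, by
      rw [FF_zero_b hf hb', map_zero, map_zero, add_zero]⟩
  | succ n ih =>
    intro c b m f hb hf h
    by_cases hb1 : 1 ≤ b
    · obtain ⟨t, ht, l, hl, e⟩ := FF_top hf
      obtain ⟨p1, hp1, p2, hp2, e2⟩ := exdG hb1 ht
      have h1F := GG_le hp1
      have h2F := GG_le hp2
      have h3 : f - (rd 0 p1 + rd 1 p2) ∈ FF k c (b - 1) m := by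
        have e3 : f - (rd 0 p1 + rd 1 p2)
            = l + pderiv (Vr.x 0) p1 + pderiv (Vr.x 1) p2 := by
          rw [rd_apply, rd_apply, e, e2]; ring
        rw [e3]
        exact Submodule.add_mem _ (Submodule.add_mem _ hl (FF_px (Or.inl rfl) h1F))
          (FF_px (Or.inr rfl) h2F)
      have h4 : ap (f - (rd 0 p1 + rd 1 p2)) = 0 := by
        rw [map_sub, map_add, ap_rd, ap_rd, h]
        simp
      obtain ⟨a1, ha1, a2, ha2, e5⟩ := ih (by push_cast at hb; omega) h3 h4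
      refine ⟨p1 + a1, Submodule.add_mem _ h1F (FF_mono (by omega) ha1),
        p2 + a2, Submodule.add_mem _ h2F (FF_mono (by omega) ha2), ?_⟩
      rw [map_add, map_add]
      linear_combination e5
    · have h0 : f ∈ FF k c 0 m := FF_mono (by omega) hf
      rw [ap_of_zero h0] at h
      exact ⟨0, Submodule.zero_mem _, 0, Submodule.zero_mem _, by
        rw [h, map_zero, map_zero, add_zero]⟩

theorem exb2 {c b m : ℤ} {f : PA k} (hf : f ∈ FF k c b m) (h : ap f = 0) :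
    ∃ a1 ∈ FF k (c + 1) (b - 1) m, ∃ a2 ∈ FF k (c + 1) (b - 1) m, f = rd 0 a1 + rd 1 a2 :=
  exb2_nat (b.toNat + 1) (by omega) hf h

/-- (e) -/
theorem exe_nat (n : ℕ) : ∀ {a b m : ℤ} {f : PA k}, 0 ≤ a → b < n → f ∈ FF k (a + 1) b m →
    ∃ f1 ∈ FF k a b m, ∃ f2 ∈ FF k a b m, f = lx 0 f1 + lx 1 f2 := by
  induction n with
  | zero =>
    intro a b m f _ hb hf
    have hb' : b < 0 := by simpa using hb
    exact ⟨0, Submodule.zero_mem _, 0, Submodule.zero_mem _, by
      rw [FF_zero_b hf hb', map_zero, map_zero, add_zero]⟩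
  | succ n ih =>
    intro a b m f ha hb hf
    by_cases hb0 : b < 0
    · exact ⟨0, Submodule.zero_mem _, 0, Submodule.zero_mem _, by
        rw [FF_zero_b hf hb0, map_zero, map_zero, add_zero]⟩
    · obtain ⟨t, ht, l, hl, e⟩ := FF_top hf
      obtain ⟨p1, hp1, p2, hp2, e2⟩ := exd1G (by omega) ht
      have h1F := GG_le hp1
      have h2F := GG_le hp2
      have h3 : f - (lx 0 p1 + lx 1 p2) ∈ FF k (a + 1) (b - 1) m := by
        have e3 : f - (lx 0 p1 + lx 1 p2)
            = l + pderiv (Vr.d 0) p1 + pderiv (Vr.d 1) p2 := by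
          rw [lx_apply, lx_apply, e, e2]; ring
        rw [e3]
        exact Submodule.add_mem _ (Submodule.add_mem _ hl (FF_pd (Or.inl rfl) h1F))
          (FF_pd (Or.inr rfl) h2F)
      obtain ⟨a1, ha1, a2, ha2, e5⟩ := ih ha (by push_cast at hb; omega) h3
      refine ⟨p1 + a1, Submodule.add_mem _ h1F (FF_mono (by omega) ha1),
        p2 + a2, Submodule.add_mem _ h2F (FF_mono (by omega) ha2), ?_⟩
      rw [map_add, map_add]
      linear_combination e5

theorem exe {a b m : ℤ} (ha : 0 ≤ a) {f : PA k} (hf : f ∈ FF k (a + 1) b m) :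
    ∃ f1 ∈ FF k a b m, ∃ f2 ∈ FF k a b m, f = lx 0 f1 + lx 1 f2 :=
  exe_nat (b.toNat + 1) ha (by omega) hf

end Vale.Agent.P195.AR
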