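import Vale.Agent.Lib.P195.AR.Ev

/-!
# P195: windows: maps, components, exactness

* `Wn.map θ hθ hA hB : Wn N →ₗ[R k] Wn N'`, `φ ↦ θ ∘ φ`;
* `Wn.exists_glue`: glueing from components;
* `Wn.inj`, `Wn.exact`, `Wn.surj`: criteria in terms of the evaluations at the five vertices
  and the spaces `A`, `B`;
* `WE L`: the window `(L, 0, 0)`.
-/

namespace Vale.Agent.P195.AR

open MvPolynomial

variable {k : Type} [Field k]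

/-- composition with `θ` -/
noncomputable def Wn.map {N N' : Wd k} (θ : N.L.V →ₗ[k] N'.L.V) (hθ : θ ∈ Hom N.L N'.L)
    (hA : ∀ g ∈ N.A, θ ∘ₗ g ∈ N'.A) (hB : ∀ g ∈ N.B, θ ∘ₗ g ∈ N'.B) :
    Wn N →ₗ[R k] Wn N' where
  toFun φ := Wn.mk (θ ∘ₗ φ.f) ⟨Hom.comp hθ φ.mem.1, hA _ φ.mem.2.1, hB _ φ.mem.2.2⟩
  map_add' _ _ := Wn.ext (LinearMap.comp_add _ _ _)
  map_smul' _ _ := rfl

theorem Wn.map_f {N N' : Wd k} (θ : N.L.V →ₗ[k] N'.L.V) (hθ : θ ∈ Hom N.L N'.L)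
    (hA : ∀ g ∈ N.A, θ ∘ₗ g ∈ N'.A) (hB : ∀ g ∈ N.B, θ ∘ₗ g ∈ N'.B) (φ : Wn N) :
    (Wn.map θ hθ hA hB φ).f = θ ∘ₗ φ.f := rfl

/-- the window `(L, 0, 0)` -/
noncomputable abbrev WE (L : Bf k) : Wd k where
  L := L
  A := ⊥
  B := ⊥
  hA := bot_le
  hB := bot_le
  BA := by
    intro g hg
    rw [Submodule.mem_bot] at hg
    rw [hg, LinearMap.zero_comp]; exact Submodule.zero_mem _
  AB := by
    intro g hg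
    rw [Submodule.mem_bot] at hg
    rw [hg, LinearMap.zero_comp]; exact Submodule.zero_mem _

theorem WE_A {L : Bf k} {g : (hat (Tal k)).V →ₗ[k] L.V} (hg : g ∈ (WE L).A) : g = 0 :=
  (Submodule.mem_bot k).1 hg

theorem WE_B {L : Bf k} {g : (hat (Tbe k)).V →ₗ[k] L.V} (hg : g ∈ (WE L).B) : g = 0 :=
  (Submodule.mem_bot k).1 hg

/-- `Wn.map` out of a window `(L, 0, 0)` -/
noncomputable def Wn.mapE {L : Bf k} {N : Wd k} (θ : L.V →ₗ[k] N.L.V) (hθ : θ ∈ Hom L N.L) :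
    Wn (WE L) →ₗ[R k] Wn N :=
  Wn.map (N := WE L) θ hθ
    (fun g hg => by
      rw [WE_A hg, LinearMap.comp_zero]; exact Submodule.zero_mem _)
    (fun g hg => by
      rw [WE_B hg, LinearMap.comp_zero]; exact Submodule.zero_mem _)

theorem Wn.mapE_f {L : Bf k} {N : Wd k} (θ : L.V →ₗ[k] N.L.V) (hθ : θ ∈ Hom L N.L)
    (φ : Wn (WE L)) : (Wn.mapE θ hθ φ).f = θ ∘ₗ φ.f := rfl

/-- the component at one of the five vertices -/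
noncomputable def cmp {L : Bf k} (φ : (TT k).V →ₗ[k] L.V) (t : Vt) : (T k t).V →ₗ[k] L.V :=
  φ ∘ₗ inc (Vx.e t) ∘ₗ jn (T k t)

theorem cmp_mem {L : Bf k} {φ : (TT k).V →ₗ[k] L.V} (hφ : φ ∈ Hom (TT k) L) (t : Vt) :
    cmp φ t ∈ HomW (T k t) L.toBw :=
  HomW.comp hφ.1 (HomW.comp (inc_mem (Vx.e t)).1 (jn_mem (T k t)))

theorem cmp_comp {L L' : Bf k} (θ : L.V →ₗ[k] L'.V) (φ : (TT k).V →ₗ[k] L.V) (t : Vt) :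
    cmp (L := L') (θ ∘ₗ φ) t = θ ∘ₗ cmp φ t := rfl

/-- `φ` is determined by its components -/
theorem ext_cmp {L : Bf k} {φ ψ : (TT k).V →ₗ[k] L.V} (hφ : φ ∈ Hom (TT k) L)
    (hψ : ψ ∈ Hom (TT k) L) (h : ∀ t, cmp φ t = cmp ψ t) (hA : φ ∘ₗ inc .al = ψ ∘ₗ inc .al)
    (hB : φ ∘ₗ inc .be = ψ ∘ₗ inc .be) : φ = ψ := by
  apply LinearMap.ext
  intro u
  rw [← sum_inc_prj u, map_sum, map_sum]
  refine Finset.sum_congr rfl fun v _ => ?_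
  have : φ ∘ₗ inc v = ψ ∘ₗ inc v := by
    rcases v with t | _ | _
    · have h1 := jn_ex (M := T k t) (L := L) (f := φ ∘ₗ inc (Vx.e t)) (Hom.comp hφ (inc_mem (Vx.e t)))
      have h2 := jn_ex (M := T k t) (L := L) (f := ψ ∘ₗ inc (Vx.e t)) (Hom.comp hψ (inc_mem (Vx.e t)))
      rw [← h1, ← h2]
      exact congrArg (ex (M := T k t)) (h t)
    · exact hA
    · exact hB
  exact congrArg (fun f => f (prj v u)) this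

/-- glueing -/
noncomputable def glue {L : Bf k} (c : ∀ v : Vx, (hat (T7 k v)).V →ₗ[k] L.V) :
    (TT k).V →ₗ[k] L.V := ∑ v, c v ∘ₗ prj v

theorem glue_mem {L : Bf k} {c : ∀ v : Vx, (hat (T7 k v)).V →ₗ[k] L.V}
    (hc : ∀ v, c v ∈ Hom (hat (T7 k v)) L) : glue c ∈ Hom (TT k) L :=
  Submodule.sum_mem _ fun v _ => Hom.comp (hc v) (prj_mem v)

theorem glue_inc {L : Bf k} (c : ∀ v : Vx, (hat (T7 k v)).V →ₗ[k] L.V) (w : Vx) :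
    glue c ∘ₗ inc w = c w := by
  apply LinearMap.ext
  intro u
  rw [LinearMap.comp_apply, glue, LinearMap.sum_apply, Finset.sum_eq_single w]
  · rw [LinearMap.comp_apply]
    have := congrArg (fun f => f u) (prj_inc (k := k) w)
    exact congrArg (c w) this
  · intro v _ hv
    rw [LinearMap.comp_apply]
    have := congrArg (fun f => f u) (prj_inc_ne (k := k) hv)
    exact (congrArg (c v) this).trans (map_zero _)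
  · intro h; exact absurd (Finset.mem_univ w) h

/-- the family of components of a glued map -/
noncomputable def cfam {L : Bf k} (c : ∀ t : Vt, (T k t).V →ₗ[k] L.V)
    (α : (hat (Tal k)).V →ₗ[k] L.V) (β : (hat (Tbe k)).V →ₗ[k] L.V) :
    ∀ v : Vx, (hat (T7 k v)).V →ₗ[k] L.V
  | .e t => ex (M := T k t) (c t)
  | .al => α
  | .be => β

/-- there is an element of the window with given components -/
theorem Wn.exists_glue (N : Wd k) (c : ∀ t : Vt, (T k t).V →ₗ[k] N.L.V)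
    (hc : ∀ t, c t ∈ HomW (T k t) N.L.toBw) (α : (hat (Tal k)).V →ₗ[k] N.L.V) (hα : α ∈ N.A)
    (β : (hat (Tbe k)).V →ₗ[k] N.L.V) (hβ : β ∈ N.B) :
    ∃ φ : Wn N, (∀ t, cmp φ.f t = c t) ∧ φ.f ∘ₗ inc .al = α ∧ φ.f ∘ₗ inc .be = β := by
  have hm : ∀ v, cfam c α β v ∈ Hom (hat (T7 k v)) N.L := by
    intro v
    rcases v with t | _ | _
    · exact ex_mem (hc t)
    · exact N.hA hα
    · exact N.hB hβ
  have hal : glue (cfam c α β) ∘ₗ inc .al = α := glue_inc _ .al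
  have hbe : glue (cfam c α β) ∘ₗ inc .be = β := glue_inc _ .be
  refine ⟨Wn.mk (glue (cfam c α β)) ⟨glue_mem hm, ?_, ?_⟩, fun t => ?_, hal, hbe⟩
  · rw [hal]; exact hα
  · rw [hbe]; exact hβ
  · change (glue (cfam c α β) ∘ₗ inc (Vx.e t)) ∘ₗ jn (T k t) = c t
    rw [glue_inc]
    exact ex_jn (M := T k t) (c t)

/-- vanishing of a component from the values on generators -/
theorem cmp_eq_zero {L : Bf k} {φ : (TT k).V →ₗ[k] L.V} (hφ : φ ∈ Hom (TT k) L)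
    (hO : ∀ b : Fin 3, cmp φ (Vt.o b) u0 = 0)
    (hP : ∀ e : Fin 2, cmp φ (Vt.p e) (u0, 0) = 0 ∧ cmp φ (Vt.p e) (0, u0) = 0) (t : Vt) :
    cmp φ t = 0 := by
  rcases t with b | e
  · exact TO_ext (N := L.toBw) (cmp_mem hφ (Vt.o b)) (Submodule.zero_mem _) (hO b)
  · exact TP_ext (N := L.toBw) (cmp_mem hφ (Vt.p e)) (Submodule.zero_mem _) (hP e).1 (hP e).2

theorem gen_o_mem {L : Bf k} {φ : (TT k).V →ₗ[k] L.V} (hφ : φ ∈ Hom (TT k) L) (b : Fin 3) :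
    cmp φ (Vt.o b) u0 ∈ L.F 0 (-(b : ℕ)) :=
  (cmp_mem hφ (Vt.o b)).2.2 _ _ _ (u0_mem _)

theorem gen_p_mem {L : Bf k} {φ : (TT k).V →ₗ[k] L.V} (hφ : φ ∈ Hom (TT k) L) (e : Fin 2) :
    cmp φ (Vt.p e) (u0, 0) ∈ L.F 0 0 ∧ cmp φ (Vt.p e) (0, u0) ∈ L.F 0 0 ∧
      L.x 1 (cmp φ (Vt.p e) (u0, 0)) - L.x 0 (cmp φ (Vt.p e) (0, u0)) ∈
        L.F 1 (-((e : ℕ) + 1)) := by
  have h := cmp_mem hφ (Vt.p e)
  refine ⟨h.2.2 _ _ _ (e1_mem _ (by positivity)), h.2.2 _ _ _ (e2_mem _ (by positivity)), ?_⟩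
  have h3 := h.2.2 _ _ _ (e12_mem (k := k) ((e : ℕ) + 1))
  have e1 := h.1 1 (u0, 0)
  have e2 := h.1 0 (0, u0)
  have e4 : (lx0 1 u0, -lx0 0 u0) = (T k (Vt.p e)).x 1 (u0, 0) - (T k (Vt.p e)).x 0 (0, u0) := by
    refine Prod.ext ?_ ?_
    · change lx0 1 u0 = lx0 1 u0 - lx0 0 0
      rw [map_zero, sub_zero]
    · change -lx0 0 u0 = lx0 1 0 - lx0 0 u0
      rw [map_zero, zero_sub]
  rw [← e1, ← e2, ← map_sub, ← e4]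
  exact h3

/-- injectivity of a map of windows -/
theorem Wn.inj {N N' : Wd k} (θ : N.L.V →ₗ[k] N'.L.V) (hθ : θ ∈ Hom N.L N'.L)
    (hA : ∀ g ∈ N.A, θ ∘ₗ g ∈ N'.A) (hB : ∀ g ∈ N.B, θ ∘ₗ g ∈ N'.B)
    (h0 : ∀ v ∈ N.L.F 0 0, θ v = 0 → v = 0)
    (iA : ∀ g ∈ N.A, θ ∘ₗ g = 0 → g = 0) (iB : ∀ g ∈ N.B, θ ∘ₗ g = 0 → g = 0) :
    Function.Injective (Wn.map θ hθ hA hB) := by
  rw [injective_iff_map_eq_zero]
  intro φ hφ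
  have hz : θ ∘ₗ φ.f = 0 := congrArg Wn.f hφ
  apply Wn.ext
  have hc : ∀ t, θ ∘ₗ cmp φ.f t = 0 := by
    intro t
    rw [← cmp_comp (L' := N'.L), hz]; rfl
  refine ext_cmp φ.mem.1 (Submodule.zero_mem _) ?_ ?_ ?_
  · refine cmp_eq_zero φ.mem.1 ?_ ?_
    · intro b
      refine h0 _ ?_ (congrArg (fun f => f u0) (hc (Vt.o b)))
      exact N.L.mono _ _ _ (by simp) (gen_o_mem φ.mem.1 b)
    · intro e
      exact ⟨h0 _ (gen_p_mem φ.mem.1 e).1 (congrArg (fun f => f (u0, 0)) (hc (Vt.p e))),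
        h0 _ (gen_p_mem φ.mem.1 e).2.1 (congrArg (fun f => f (0, u0)) (hc (Vt.p e)))⟩
  · refine (iA _ φ.mem.2.1 ?_).trans rfl
    rw [← LinearMap.comp_assoc, hz]; rfl
  · refine (iB _ φ.mem.2.2 ?_).trans rfl
    rw [← LinearMap.comp_assoc, hz]; rfl

/-- exactness of maps of windows at the middle term -/
theorem Wn.exact {N1 N2 N3 : Wd k} (θ : N1.L.V →ₗ[k] N2.L.V) (hθ : θ ∈ Hom N1.L N2.L)
    (hA : ∀ g ∈ N1.A, θ ∘ₗ g ∈ N2.A) (hB : ∀ g ∈ N1.B, θ ∘ₗ g ∈ N2.B)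
    (η : N2.L.V →ₗ[k] N3.L.V) (hη : η ∈ Hom N2.L N3.L)
    (hA' : ∀ g ∈ N2.A, η ∘ₗ g ∈ N3.A) (hB' : ∀ g ∈ N2.B, η ∘ₗ g ∈ N3.B)
    (h0 : ∀ v ∈ N1.L.F 0 0, η (θ v) = 0)
    (zA : ∀ g ∈ N1.A, η ∘ₗ θ ∘ₗ g = 0) (zB : ∀ g ∈ N1.B, η ∘ₗ θ ∘ₗ g = 0)
    (hO : ∀ b : Fin 3, ∀ v ∈ N2.L.F 0 (-(b : ℕ)), η v = 0 →
      ∃ w ∈ N1.L.F 0 (-(b : ℕ)), θ w = v)
    (hP : ∀ e : Fin 2, ∀ v1 ∈ N2.L.F 0 0, ∀ v2 ∈ N2.L.F 0 0,
      N2.L.x 1 v1 - N2.L.x 0 v2 ∈ N2.L.F 1 (-((e : ℕ) + 1)) → η v1 = 0 → η v2 = 0 →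
      ∃ w1 ∈ N1.L.F 0 0, ∃ w2 ∈ N1.L.F 0 0,
        N1.L.x 1 w1 - N1.L.x 0 w2 ∈ N1.L.F 1 (-((e : ℕ) + 1)) ∧ θ w1 = v1 ∧ θ w2 = v2)
    (eA : ∀ g ∈ N2.A, η ∘ₗ g = 0 → ∃ g' ∈ N1.A, θ ∘ₗ g' = g)
    (eB : ∀ g ∈ N2.B, η ∘ₗ g = 0 → ∃ g' ∈ N1.B, θ ∘ₗ g' = g) :
    Function.Exact (Wn.map θ hθ hA hB) (Wn.map η hη hA' hB') := by
  intro φ
  constructor
  · intro hφ
    have hz : η ∘ₗ φ.f = 0 := congrArg Wn.f hφ
    have hc : ∀ t, η ∘ₗ cmp φ.f t = 0 := by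
      intro t
      rw [← cmp_comp (L' := N3.L), hz]; rfl
    have hex : ∀ t, ∃ c ∈ HomW (T k t) N1.L.toBw, θ ∘ₗ c = cmp φ.f t := by
      intro t
      rcases t with b | e
      · obtain ⟨w, hw, hw'⟩ := hO b _ (gen_o_mem φ.mem.1 b) (congrArg (fun f => f u0) (hc (Vt.o b)))
        obtain ⟨c, hc1, hc2⟩ := TO_exists N1.L.toBw (b : ℕ) w hw
        refine ⟨c, hc1, TO_ext (N := N2.L.toBw) (HomW.comp hθ.1 hc1) (cmp_mem φ.mem.1 (Vt.o b)) ?_⟩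
        rw [LinearMap.comp_apply, hc2, hw']
      · obtain ⟨g1, g2, g3⟩ := gen_p_mem φ.mem.1 e
        obtain ⟨w1, hw1, w2, hw2, hw3, e1, e2⟩ := hP e _ g1 _ g2 g3
          (congrArg (fun f => f (u0, 0)) (hc (Vt.p e))) (congrArg (fun f => f (0, u0)) (hc (Vt.p e)))
        obtain ⟨c, hc1, hc2, hc3⟩ := TP_exists N1.L.toBw ((e : ℕ) + 1) (by positivity) w1 w2 hw1
          hw2 hw3
        refine ⟨c, hc1, TP_ext (N := N2.L.toBw) (HomW.comp hθ.1 hc1) (cmp_mem φ.mem.1 (Vt.p e))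
          ?_ ?_⟩
        · rw [LinearMap.comp_apply, hc2, e1]
        · rw [LinearMap.comp_apply, hc3, e2]
    choose c hc1 hc2 using hex
    obtain ⟨α, hα, hα'⟩ := eA _ φ.mem.2.1 (by rw [← LinearMap.comp_assoc, hz]; rfl)
    obtain ⟨β, hβ, hβ'⟩ := eB _ φ.mem.2.2 (by rw [← LinearMap.comp_assoc, hz]; rfl)
    obtain ⟨ψ, p1, p2, p3⟩ := Wn.exists_glue N1 c hc1 α hα β hβ
    refine ⟨ψ, Wn.ext ?_⟩
    rw [Wn.map_f]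
    refine ext_cmp (Hom.comp hθ ψ.mem.1) φ.mem.1 ?_ ?_ ?_
    · intro t; rw [cmp_comp, p1, hc2]
    · rw [LinearMap.comp_assoc, p2, hα']
    · rw [LinearMap.comp_assoc, p3, hβ']
  · rintro ⟨ψ, rfl⟩
    apply Wn.ext
    rw [Wn.map_f, Wn.map_f]
    refine ext_cmp (Hom.comp hη (Hom.comp hθ ψ.mem.1)) (Submodule.zero_mem _) ?_ ?_ ?_
    · refine cmp_eq_zero (Hom.comp hη (Hom.comp hθ ψ.mem.1)) ?_ ?_
      · intro b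
        exact h0 _ (N1.L.mono _ _ _ (by simp) (gen_o_mem ψ.mem.1 b))
      · intro e
        exact ⟨h0 _ (gen_p_mem ψ.mem.1 e).1, h0 _ (gen_p_mem ψ.mem.1 e).2.1⟩
    · exact zA _ ψ.mem.2.1
    · exact zB _ ψ.mem.2.2

/-- surjectivity of a map of windows -/
theorem Wn.surj {N1 N2 : Wd k} (θ : N1.L.V →ₗ[k] N2.L.V) (hθ : θ ∈ Hom N1.L N2.L)
    (hA : ∀ g ∈ N1.A, θ ∘ₗ g ∈ N2.A) (hB : ∀ g ∈ N1.B, θ ∘ₗ g ∈ N2.B)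
    (hO : ∀ b : Fin 3, ∀ v ∈ N2.L.F 0 (-(b : ℕ)), ∃ w ∈ N1.L.F 0 (-(b : ℕ)), θ w = v)
    (hP : ∀ e : Fin 2, ∀ v1 ∈ N2.L.F 0 0, ∀ v2 ∈ N2.L.F 0 0,
      N2.L.x 1 v1 - N2.L.x 0 v2 ∈ N2.L.F 1 (-((e : ℕ) + 1)) →
      ∃ w1 ∈ N1.L.F 0 0, ∃ w2 ∈ N1.L.F 0 0,
        N1.L.x 1 w1 - N1.L.x 0 w2 ∈ N1.L.F 1 (-((e : ℕ) + 1)) ∧ θ w1 = v1 ∧ θ w2 = v2)
    (eA : ∀ g ∈ N2.A, ∃ g' ∈ N1.A, θ ∘ₗ g' = g)
    (eB : ∀ g ∈ N2.B, ∃ g' ∈ N1.B, θ ∘ₗ g' = g) :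
    Function.Surjective (Wn.map θ hθ hA hB) := by
  intro φ
  have := Wn.exact (N3 := N2) θ hθ hA hB (0 : N2.L.V →ₗ[k] N2.L.V) (Submodule.zero_mem _)
    (fun g _ => by rw [LinearMap.zero_comp]; exact Submodule.zero_mem _)
    (fun g _ => by rw [LinearMap.zero_comp]; exact Submodule.zero_mem _)
    (fun v _ => rfl) (fun g _ => rfl) (fun g _ => rfl)
    (fun b v hv _ => hO b v hv) (fun e v1 h1 v2 h2 h3 _ _ => hP e v1 h1 v2 h2 h3)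
    (fun g hg _ => eA g hg) (fun g hg _ => eB g hg)
  exact (this φ).1 rfl

/-! ### windows `(hat M, 0, 0)` and maps `hm f` -/

/-- the `P_e`-condition for exactness of `M1 → M2 → M3` at `M2`, from exactness at three places
and the surjectivity property of `M0` -/
theorem exP_of {M0 M1 M2 M3 : Bw k} {f0 : M0.V →ₗ[k] M1.V} {f1 : M1.V →ₗ[k] M2.V}
    {f2 : M2.V →ₗ[k] M3.V} (hf0 : f0 ∈ HomW M0 M1) (hf1 : f1 ∈ HomW M1 M2)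
    (hf2 : f2 ∈ HomW M2 M3) (a e : ℤ) (he : 0 ≤ e) (h01 : ∀ v ∈ M0.F a 0, f1 (f0 v) = 0)
    (E2 : ∀ v ∈ M2.F a 0, f2 v = 0 → ∃ w ∈ M1.F a 0, f1 w = v)
    (E2' : ∀ v ∈ M2.F (a + 1) (-e), f2 v = 0 → ∃ w ∈ M1.F (a + 1) (-e), f1 w = v)
    (E1 : ∀ v ∈ M1.F (a + 1) 0, f1 v = 0 → ∃ w ∈ M0.F (a + 1) 0, f0 w = v)
    (S : ∀ v ∈ M0.F (a + 1) 0, ∃ v1 ∈ M0.F a 0, ∃ v2 ∈ M0.F a 0, ∃ v3 ∈ M0.F (a + 1) (-e),
      v = M0.x 1 v1 - M0.x 0 v2 + v3)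
    (v1 : M2.V) (h1 : v1 ∈ M2.F a 0) (v2 : M2.V) (h2 : v2 ∈ M2.F a 0)
    (h3 : M2.x 1 v1 - M2.x 0 v2 ∈ M2.F (a + 1) (-e)) (z1 : f2 v1 = 0) (z2 : f2 v2 = 0) :
    ∃ w1 ∈ M1.F a 0, ∃ w2 ∈ M1.F a 0, M1.x 1 w1 - M1.x 0 w2 ∈ M1.F (a + 1) (-e) ∧
      f1 w1 = v1 ∧ f1 w2 = v2 := by
  obtain ⟨y1, hy1, ey1⟩ := E2 v1 h1 z1
  obtain ⟨y2, hy2, ey2⟩ := E2 v2 h2 z2
  have hc : M1.x 1 y1 - M1.x 0 y2 ∈ M1.F (a + 1) 0 :=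
    Submodule.sub_mem _ (M1.Fx _ _ _ _ hy1) (M1.Fx _ _ _ _ hy2)
  have hfc : f1 (M1.x 1 y1 - M1.x 0 y2) = M2.x 1 v1 - M2.x 0 v2 := by
    rw [map_sub, hf1.1, hf1.1, ey1, ey2]
  have hz : f2 (M2.x 1 v1 - M2.x 0 v2) = 0 := by
    rw [map_sub, hf2.1, hf2.1, z1, z2, map_zero, map_zero, sub_zero]
  obtain ⟨c', hc', ec'⟩ := E2' _ h3 hz
  obtain ⟨y', hy', ey'⟩ := E1 (M1.x 1 y1 - M1.x 0 y2 - c')
    (Submodule.sub_mem _ hc (M1.mono _ _ _ (by omega) hc')) (by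
      rw [map_sub, hfc, ec', sub_self])
  obtain ⟨w1, hw1, w2, hw2, w3, hw3, ew⟩ := S y' hy'
  refine ⟨y1 - f0 w1, Submodule.sub_mem _ hy1 (hf0.2.2 _ _ _ hw1), y2 - f0 w2,
    Submodule.sub_mem _ hy2 (hf0.2.2 _ _ _ hw2), ?_, ?_, ?_⟩
  · have : M1.x 1 (y1 - f0 w1) - M1.x 0 (y2 - f0 w2) = c' + f0 w3 := by
      have e3 : f0 y' = M1.x 1 (f0 w1) - M1.x 0 (f0 w2) + f0 w3 := by
        rw [ew, map_add, map_sub, hf0.1, hf0.1]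
      rw [map_sub, map_sub]
      have e4 : M1.x 1 (f0 w1) - M1.x 0 (f0 w2) = f0 y' - f0 w3 := by rw [e3]; abel
      have e5 : M1.x 1 y1 - M1.x 1 (f0 w1) - (M1.x 0 y2 - M1.x 0 (f0 w2)) =
        (M1.x 1 y1 - M1.x 0 y2) - (M1.x 1 (f0 w1) - M1.x 0 (f0 w2)) := by abel
      rw [e5, e4, ey']
      abel
    rw [this]
    exact Submodule.add_mem _ hc' (hf0.2.2 _ _ _ hw3)
  · rw [map_sub, ey1]
    rw [h01 w1 hw1, sub_zero]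
  · rw [map_sub, ey2]
    rw [h01 w2 hw2, sub_zero]

/-- the surjectivity property -/
def SurP (M : Bw k) : Prop := ∀ a : ℤ, 0 ≤ a → ∀ e : ℤ, 0 ≤ e → ∀ v ∈ M.F (a + 1) 0,
  ∃ v1 ∈ M.F a 0, ∃ v2 ∈ M.F a 0, ∃ v3 ∈ M.F (a + 1) (-e), v = M.x 1 v1 - M.x 0 v2 + v3

/-- exactness of windows of hats, from exactness of `M1 → M2 → M3` at all `(a,b)` with
`0 ≤ a`, `-2 ≤ b ≤ 0` and exactness of `M0 → M1 → M2` at all `(a,0)`, `0 ≤ a` -/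
theorem exact_hm {M0 M1 M2 M3 : Bw k} {f0 : M0.V →ₗ[k] M1.V} {f1 : M1.V →ₗ[k] M2.V}
    {f2 : M2.V →ₗ[k] M3.V} (hf0 : f0 ∈ HomW M0 M1) (hf1 : f1 ∈ HomW M1 M2)
    (hf2 : f2 ∈ HomW M2 M3)
    (h01 : ∀ a : ℤ, 0 ≤ a → ∀ v ∈ M0.F a 0, f1 (f0 v) = 0)
    (h12 : ∀ a : ℤ, 0 ≤ a → ∀ v ∈ M1.F a 0, f2 (f1 v) = 0)
    (E2 : ∀ a b : ℤ, 0 ≤ a → -2 ≤ b → b ≤ 0 → ∀ v ∈ M2.F a b, f2 v = 0 →
      ∃ w ∈ M1.F a b, f1 w = v)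
    (E1 : ∀ a : ℤ, 0 ≤ a → ∀ v ∈ M1.F a 0, f1 v = 0 → ∃ w ∈ M0.F a 0, f0 w = v)
    (S : SurP M0) :
    Function.Exact (Wn.mapE (L := hat M1) (N := WE (hat M2)) (hm f1) (hm_mem hf1))
      (Wn.mapE (L := hat M2) (N := WE (hat M3)) (hm f2) (hm_mem hf2)) := by
  apply Wn.exact (N1 := WE (hat M1)) (N2 := WE (hat M2)) (N3 := WE (hat M3))
  · rintro ⟨v1, v2⟩ ⟨hv1, hv2⟩
    exact Prod.ext (h12 0 le_rfl _ hv1) (h12 (0 + 1) (by norm_num) _ hv2)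
  · intro g hg
    rw [WE_A hg, LinearMap.comp_zero, LinearMap.comp_zero]
  · intro g hg
    rw [WE_B hg, LinearMap.comp_zero, LinearMap.comp_zero]
  · rintro b ⟨v1, v2⟩ ⟨hv1, hv2⟩ hv
    have hb : -2 ≤ (-(b : ℕ) : ℤ) := by omega
    obtain ⟨w1, hw1, e1⟩ := E2 0 _ le_rfl hb (by omega) v1 hv1 (congrArg Prod.fst hv)
    obtain ⟨w2, hw2, e2⟩ := E2 (0 + 1) _ (by norm_num) hb (by omega) v2 hv2
      (congrArg Prod.snd hv)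
    exact ⟨(w1, w2), ⟨hw1, hw2⟩, Prod.ext e1 e2⟩
  · rintro e ⟨v1, v1'⟩ ⟨hv1, hv1'⟩ ⟨v2, v2'⟩ ⟨hv2, hv2'⟩ ⟨h3, h3'⟩ z1 z2
    have he : -2 ≤ (-((e : ℕ) + 1) : ℤ) := by omega
    obtain ⟨w1, hw1, w2, hw2, hw3, e1, e2⟩ := exP_of hf0 hf1 hf2 0 ((e : ℕ) + 1) (by positivity)
      (h01 0 le_rfl) (E2 0 0 le_rfl (by norm_num) le_rfl)
      (E2 (0 + 1) _ (by norm_num) he (by omega)) (E1 (0 + 1) (by norm_num))
      (S 0 le_rfl _ (by positivity)) v1 hv1 v2 hv2 h3 (congrArg Prod.fst z1)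
      (congrArg Prod.fst z2)
    obtain ⟨w1', hw1', w2', hw2', hw3', e1', e2'⟩ := exP_of hf0 hf1 hf2 (0 + 1) ((e : ℕ) + 1)
      (by positivity) (h01 (0 + 1) (by norm_num)) (E2 (0 + 1) 0 (by norm_num) (by norm_num) le_rfl)
      (E2 (0 + 1 + 1) _ (by norm_num) he (by omega)) (E1 (0 + 1 + 1) (by norm_num))
      (S (0 + 1) (by norm_num) _ (by positivity)) v1' hv1' v2' hv2' h3' (congrArg Prod.snd z1)
      (congrArg Prod.snd z2)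
    exact ⟨(w1, w1'), ⟨hw1, hw1'⟩, (w2, w2'), ⟨hw2, hw2'⟩, ⟨hw3, hw3'⟩, Prod.ext e1 e1',
      Prod.ext e2 e2'⟩
  · intro g hg _
    exact ⟨0, Submodule.zero_mem _, by rw [WE_A hg, LinearMap.comp_zero]⟩
  · intro g hg _
    exact ⟨0, Submodule.zero_mem _, by rw [WE_B hg, LinearMap.comp_zero]⟩

/-- surjectivity of windows of hats -/
theorem surj_hm {M0 M1 M2 : Bw k} {f0 : M0.V →ₗ[k] M1.V} {f1 : M1.V →ₗ[k] M2.V}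
    (hf0 : f0 ∈ HomW M0 M1) (hf1 : f1 ∈ HomW M1 M2)
    (h01 : ∀ a : ℤ, 0 ≤ a → ∀ v ∈ M0.F a 0, f1 (f0 v) = 0)
    (E2 : ∀ a b : ℤ, 0 ≤ a → -2 ≤ b → b ≤ 0 → ∀ v ∈ M2.F a b, ∃ w ∈ M1.F a b, f1 w = v)
    (E1 : ∀ a : ℤ, 0 ≤ a → ∀ v ∈ M1.F a 0, f1 v = 0 → ∃ w ∈ M0.F a 0, f0 w = v)
    (S : SurP M0) :
    Function.Surjective (Wn.mapE (L := hat M1) (N := WE (hat M2)) (hm f1) (hm_mem hf1)) := by
  intro φ
  have := exact_hm (M3 := M2) (f2 := 0) hf0 hf1 (Submodule.zero_mem _) h01 (fun _ _ _ _ => rfl)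
    (fun a b h1 h2 h3 v hv _ => E2 a b h1 h2 h3 v hv) E1 S
  exact (this φ).1 rfl

/-- injectivity of windows of hats -/
theorem inj_hm {M1 M2 : Bw k} {f1 : M1.V →ₗ[k] M2.V} (hf1 : f1 ∈ HomW M1 M2)
    (E1 : ∀ a : ℤ, 0 ≤ a → ∀ v ∈ M1.F a 0, f1 v = 0 → v = 0) :
    Function.Injective (Wn.mapE (L := hat M1) (N := WE (hat M2)) (hm f1) (hm_mem hf1)) := by
  apply Wn.inj (N := WE (hat M1)) (N' := WE (hat M2))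
  · rintro ⟨v1, v2⟩ ⟨hv1, hv2⟩ hv
    exact Prod.ext (E1 0 le_rfl _ hv1 (congrArg Prod.fst hv))
      (E1 (0 + 1) (by norm_num) _ hv2 (congrArg Prod.snd hv))
  · intro g hg _; exact WE_A hg
  · intro g hg _; exact WE_B hg

end Vale.Agent.P195.AR
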