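import Mathlib.Data.Finsupp.Interval
import Vale.Agent.Lib.P195.AR.Win

/-!
# P195: finite dimensionality of the windows and of the ring `R`
-/

namespace Vale.Agent.P195.AR

open MvPolynomial

variable {k : Type} [Field k]

theorem Gs_finite (m a b : ℤ) : (Gs m a b).Finite := by
  have h : Gs m a b ⊆ Set.Icc 0 (Finsupp.equivFunOnFinite.symm
      (fun _ : Vr => m.toNat + a.natAbs + b.toNat)) := by
    rintro μ ⟨h1, h2, h3⟩
    refine ⟨by simp, fun v => ?_⟩
    simp only [ydeg, xdeg, ddeg, Finsupp.equivFunOnFinite_symm_apply_apply] at *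
    rcases v with i | i | i <;> fin_cases i <;> simp only [Fin.zero_eta, Fin.mk_one] <;> omega
  exact (Set.finite_Icc _ _).subset h

/-- the spaces `G m a b` are finite-dimensional -/
theorem G_fg (m a b : ℤ) : (G m a b : Submodule k (PA k)).FG := by
  have : Finite (Gs m a b) := (Gs_finite m a b).to_subtype
  exact Module.Finite.iff_fg.1 (Module.Finite.of_basis (basisRestrictSupport k (Gs m a b)))

theorem G_finite (m a b : ℤ) : Module.Finite k (G m a b : Submodule k (PA k)) :=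
  Module.Finite.iff_fg.2 (G_fg m a b)

/-- preimages of finite-dimensional spaces under injective maps -/
theorem fg_comap {V W : Type*} [AddCommGroup V] [Module k V] [AddCommGroup W] [Module k W]
    (f : V →ₗ[k] W) (hf : Function.Injective f) {S : Submodule k W} (hS : S.FG) :
    (S.comap f).FG :=
  Submodule.fg_of_fg_map_injective f hf (hS.of_le (Submodule.map_comap_le f S))

theorem GP_fg (m e a b : ℤ) : (GP k m e a b).FG :=
  ((G_fg m a (b + e)).prod (G_fg m a (b + e))).of_le inf_le_left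

theorem SO_fg (m a0 b0 a b : ℤ) : ((SO k m a0 b0).F a b).FG := G_fg _ _ _
theorem SP_fg (m a0 e a b : ℤ) : ((SP k m a0 e).F a b).FG := GP_fg _ _ _ _
theorem TO_fg (b0 a b : ℤ) : ((TO k b0).F a b).FG :=
  fg_comap _ Subtype.val_injective (G_fg _ _ _)
theorem TP_fg (e a b : ℤ) : ((TP k e).F a b).FG :=
  fg_comap (inc2 k) (fun _ _ h => Prod.ext (Subtype.ext (congrArg Prod.fst h))
    (Subtype.ext (congrArg Prod.snd h))) (GP_fg _ _ _ _)

theorem prod_fg {M N : Bw k} (hM : ∀ a b, (M.F a b).FG) (hN : ∀ a b, (N.F a b).FG) (a b : ℤ) :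
    ((M.prod N).F a b).FG := (hM a b).prod (hN a b)
theorem shift_fg {M : Bw k} (hM : ∀ a b, (M.F a b).FG) (a0 b0 a b : ℤ) :
    ((M.shift a0 b0).F a b).FG := hM _ _
theorem pi_fg {ι : Type} [Finite ι] {N : ι → Bw k} (hN : ∀ i a b, ((N i).F a b).FG) (a b : ℤ) :
    ((Bw.pi N).F a b).FG := Submodule.fg_pi fun i => hN i a b
theorem hat_fg {M : Bw k} (hM : ∀ a b, (M.F a b).FG) (a b : ℤ) : ((hat M).F a b).FG :=
  (hM a b).prod (hM (a + 1) b)
theorem triv_fg {M : Bw k} (hM : ∀ a b, (M.F a b).FG) (a b : ℤ) : ((triv M).F a b).FG := hM a b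

theorem Hx_fg (n : ℤ) : (Hx k n).FG := by
  have h1 : ({μ : Fin 2 →₀ ℕ | (μ 0 + μ 1 : ℤ) = n}).Finite := by
    have h : {μ : Fin 2 →₀ ℕ | (μ 0 + μ 1 : ℤ) = n} ⊆ Set.Icc 0 (Finsupp.equivFunOnFinite.symm
        (fun _ : Fin 2 => n.toNat)) := by
      intro μ h1
      refine ⟨by simp, fun v => ?_⟩
      simp only [Set.mem_ofPred_eq, Finsupp.equivFunOnFinite_symm_apply_apply] at *
      fin_cases v <;> simp only [Fin.zero_eta, Fin.mk_one] <;> omega
    exact (Set.finite_Icc _ _).subset h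
  have : Finite {μ : Fin 2 →₀ ℕ | (μ 0 + μ 1 : ℤ) = n} := h1.to_subtype
  exact Module.Finite.iff_fg.1 (Module.Finite.of_basis (basisRestrictSupport k _))

theorem XX_fg (n a b : ℤ) : ((XX k n).F a b).FG := Hx_fg _

theorem T7_fg (v : Vx) (a b : ℤ) : ((T7 k v).F a b).FG := by
  rcases v with t | _ | _
  · rcases t with b | e
    · exact TO_fg _ _ _
    · exact TP_fg _ _ _
  · exact TP_fg _ _ _
  · exact prod_fg (TO_fg _) (TO_fg _) _ _

theorem TT_fg (a b : ℤ) : ((TT k).F a b).FG := hat_fg (pi_fg T7_fg) a b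

/-- an element of a window is determined by finitely many values -/
noncomputable def gensMap (N : Wd k) : Wn N →ₗ[k]
    (Fin 3 → N.L.F 0 0) × (Fin 2 → N.L.F 0 0 × N.L.F 0 0) × N.A × N.B where
  toFun φ := (fun b => ⟨cmp φ.f (Vt.o b) u0, N.L.mono _ _ _ (by simp) (gen_o_mem φ.mem.1 b)⟩,
    fun e => (⟨cmp φ.f (Vt.p e) (u0, 0), (gen_p_mem φ.mem.1 e).1⟩,
      ⟨cmp φ.f (Vt.p e) (0, u0), (gen_p_mem φ.mem.1 e).2.1⟩),
    ⟨φ.f ∘ₗ inc .al, φ.mem.2.1⟩, ⟨φ.f ∘ₗ inc .be, φ.mem.2.2⟩)
  map_add' _ _ := rfl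
  map_smul' _ _ := rfl

theorem gensMap_injective (N : Wd k) : Function.Injective (gensMap N) := by
  rw [injective_iff_map_eq_zero]
  intro φ hφ
  have h1 := congrArg Prod.fst hφ
  have h2 := congrArg (fun z => z.2.1) hφ
  have h3 := congrArg (fun z => z.2.2.1) hφ
  have h4 := congrArg (fun z => z.2.2.2) hφ
  apply Wn.ext
  refine ext_cmp φ.mem.1 (Submodule.zero_mem _) ?_ ?_ ?_
  · refine cmp_eq_zero φ.mem.1 (fun b => congrArg Subtype.val (congrFun h1 b)) fun e => ⟨?_, ?_⟩
    · exact congrArg Subtype.val (congrArg Prod.fst (congrFun h2 e))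
    · exact congrArg Subtype.val (congrArg Prod.snd (congrFun h2 e))
  · exact congrArg Subtype.val h3
  · exact congrArg Subtype.val h4

/-- windows are finite-dimensional -/
theorem Wn_finite (N : Wd k) (h0 : (N.L.F 0 0).FG) (hA : N.A.FG) (hB : N.B.FG) :
    Module.Finite k (Wn N) := by
  have i0 : Module.Finite k (N.L.F 0 0) := Module.Finite.iff_fg.2 h0
  have iA : Module.Finite k N.A := Module.Finite.iff_fg.2 hA
  have iB : Module.Finite k N.B := Module.Finite.iff_fg.2 hB
  exact Module.Finite.of_injective (gensMap N) (gensMap_injective N)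

theorem WE_finite {L : Bf k} (h0 : (L.F 0 0).FG) : Module.Finite k (Wn (WE L)) :=
  Wn_finite (WE L) h0 Submodule.fg_bot Submodule.fg_bot

/-- `R → Win WR` -/
noncomputable def RtoWn : R k →ₗ[k] Wn (WR k) where
  toFun r := Wn.mk (N := WR k) r.1.unop r.2
  map_add' _ _ := rfl
  map_smul' _ _ := rfl

theorem RtoWn_injective : Function.Injective (RtoWn (k := k)) := fun _ _ h =>
  Subtype.ext (MulOpposite.unop_injective (congrArg Wn.f h))

/-- `R` is finite-dimensional -/
theorem R_finite : Module.Finite k (R k) := by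
  have : Module.Finite k (Wn (WR k)) := Wn_finite (WR k) (TT_fg 0 0)
    (Submodule.fg_span (Set.toFinite _)) (Submodule.fg_span (Set.toFinite _))
  exact Module.Finite.of_injective RtoWn RtoWn_injective

end Vale.Agent.P195.AR
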