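import Vale.Agent.Lib.P195.AR.Nd1
import Vale.Agent.Lib.P195.AR.Fin
import Vale.Agent.Lib.P195.Formal.Prod

/-!
# P195: final assembly, with the remaining inputs as arguments
-/

namespace Vale.Agent.P195.AR

open MvPolynomial SeqM H1 CategoryTheory CategoryTheory.Abelian

variable {k : Type} [Field k]

theorem algebraMap_smul_Wn {N : Wd k} (c : k) (φ : Wn N) : algebraMap k (R k) c • φ = c • φ := by
  apply Wn.ext
  apply LinearMap.ext
  intro u
  change φ.f (((algebraMap k (R k) c).1.unop : (TT k).V →ₗ[k] (TT k).V) u) = c • φ.f u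
  rw [← map_smul]
  rfl

noncomputable instance tower_Wn (N : Wd k) : IsScalarTower k (R k) (Wn N) where
  smul_assoc c r φ := by
    apply Wn.ext
    apply LinearMap.ext
    intro u
    change φ.f ((c • r).1.unop u) = c • φ.f (r.1.unop u)
    rw [← map_smul]
    rfl

theorem WM_finite : Module.Finite (R k) (Wn (WM k)) := by
  have h : Module.Finite k (Wn (WM k)) :=
    Wn_finite (WM k) (hat_fg (shift_fg (TO_fg 2) (-1) 0) 0 0) Submodule.fg_bot
      (Submodule.fg_span (Set.finite_singleton _))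
  exact Module.Finite.of_restrictScalars_finite k (R k) (Wn (WM k))

variable [CharZero k]

open Vale.Agent.P195.F

variable (k) in
/-- `X_0` -/
abbrev X0t : Type := Wn (WE (triv (XX k ((0 : ℕ) : ℤ))))

theorem gd_R {A : Type} [Ring A] {T : LTower.{0} A} {K : Vx → Type} [∀ v, AddCommGroup (K v)]
    [∀ v, Module A (K v)] (p : ∀ v, A →ₗ[A] K v) (q : ∀ v, K v →ₗ[A] A)
    (h : ∀ r, ∑ v, q v (p v r) = r) (hg : ∀ v, T.Good (K v)) : T.Good A :=
  LTower.Good.of_decomp p q h hg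

theorem gj_R {A : Type} [Ring A] {T : LTower.{0} A} {K : Vx → Type} [∀ v, AddCommGroup (K v)]
    [∀ v, Module A (K v)] (p : ∀ v, A →ₗ[A] K v) (q : ∀ v, K v →ₗ[A] A)
    (h : ∀ r, ∑ v, q v (p v r) = r) (hg : ∀ v, T.J0Inj (K v)) : T.J0Inj A :=
  LTower.J0Inj.of_decomp p q h hg

theorem gx_R {A : Type} [Ring A] {X3 X2 X1 X0 I : ModuleCat.{0} A} {E : LEx4 X3 X2 X1 X0 I}
    {K : Vx → Type} [∀ v, AddCommGroup (K v)]
    [∀ v, Module A (K v)] (p : ∀ v, A →ₗ[A] K v) (q : ∀ v, K v →ₗ[A] A)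
    (h : ∀ r, ∑ v, q v (p v r) = r) (hg : ∀ v, E.Hex (K v)) : E.Hex A :=
  LEx4.Hex.of_decomp p q h hg

theorem gt_R {A : Type} [Ring A] {X3 X2 X1 X0 I : ModuleCat.{0} A} {E : LEx4 X3 X2 X1 X0 I}
    {K : Vx → Type} [∀ v, AddCommGroup (K v)]
    [∀ v, Module A (K v)] (p : ∀ v, A →ₗ[A] K v) (q : ∀ v, K v →ₗ[A] A)
    (h : ∀ r, ∑ v, q v (p v r) = r) (hg : ∀ v, E.Hext (K v)) : E.Hext A :=
  LEx4.Hext.of_decomp p q h hg

theorem good_R (hgood : ∀ v, (tow k).Good (Wn (WJ k v))) : (tow k).Good (R k) := by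
  refine gd_R (A := R k) (T := tow k) (K := fun v => Wn (WJ k v)) (fun v => jP v)
    (fun v => jI v) ?_ ?_
  · intro r
    exact sum_jI_jP r
  · intro v
    exact hgood v

theorem j0_R (hj0 : ∀ v, (tow k).J0Inj (Wn (WJ k v))) : (tow k).J0Inj (R k) := by
  refine gj_R (A := R k) (T := tow k) (K := fun v => Wn (WJ k v)) (fun v => jP v)
    (fun v => jI v) ?_ ?_
  · intro r
    exact sum_jI_jP r
  · intro v
    exact hj0 v

theorem hex_R (hex : ∀ v, (EM (k := k)).Hex (Wn (WJ k v))) : (EM (k := k)).Hex (R k) := by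
  refine gx_R (A := R k) (E := EM (k := k)) (K := fun v => Wn (WJ k v)) (fun v => jP v)
    (fun v => jI v) ?_ ?_
  · intro r
    exact sum_jI_jP r
  · intro v
    exact hex v

theorem hext_R (hext : ∀ v, (EM (k := k)).Hext (Wn (WJ k v))) : (EM (k := k)).Hext (R k) := by
  refine gt_R (A := R k) (E := EM (k := k)) (K := fun v => Wn (WJ k v)) (fun v => jP v)
    (fun v => jI v) ?_ ?_
  · intro r
    exact sum_jI_jP r
  · intro v
    exact hext v

/-- the final assembly -/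
theorem assembly
    (hgood : ∀ v, (tow k).Good (Wn (WJ k v))) (hj0 : ∀ v, (tow k).J0Inj (Wn (WJ k v)))
    (horth : (tow k).Orth)
    (hex : ∀ v, (EM (k := k)).Hex (Wn (WJ k v))) (hext : ∀ v, (EM (k := k)).Hext (Wn (WJ k v)))
    (hexM : (EM (k := k)).Hex (Wn (WM k)))
    (hM : ∀ f : Wn (WM k) →ₗ[R k] Wn (WM k), ∃ c : k, ∀ x, f x = algebraMap k (R k) c • x)
    (hY : ∀ f : X0t k →ₗ[R k] X0t k, ∃ c : k, ∀ x, f x = algebraMap k (R k) c • x)
    (nd2 : ∀ f : Wn (WE (hat (B3 k 0))) →ₗ[R k] X0t k, ∃ (c : k)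
      (g : Wn (WE (hat (B2 k 0))) →ₗ[R k] X0t k),
      ∀ x, f x = algebraMap k (R k) c • mp (W3 x) + g (mc 0 x)) :
    (∀ i : ℕ, 1 ≤ i → Subsingleton (Ext (ModuleCat.of (R k) (Wn (WM k)))
      (ModuleCat.of (R k) (Wn (WM k))) i)) ∧
    (∀ i : ℕ, 1 ≤ i → Subsingleton (Ext (ModuleCat.of (R k) (Wn (WM k)))
      (ModuleCat.of (R k) (R k)) i)) := by
  have h1 := good_R hgood
  have h2 := j0_R hj0
  have h3 := hex_R hex
  have h4 := hext_R hext
  have p2 := WJ_projective (k := k) Vx.al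
  have p1 := WJ_projective (k := k) Vx.be
  have f2 := WJ_finite (k := k) Vx.al
  have f1 := WJ_finite (k := k) Vx.be
  refine F.counterexample (k := k) (R := R k) (tow k) h1 horth h2 (Wn (WM k))
    (P2 := ModuleCat.of (R k) (Wn (WJ k Vx.al))) (P1 := ModuleCat.of (R k) (Wn (WJ k Vx.be)))
    p2 p1 f2 f1 (EM (k := k)) W3 (psM4 k) h3 h4 hexM hM ?_ ?_ ?_
  · exact hY
  · exact nd1
  · exact nd2

end Vale.Agent.P195.AR
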