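import Vale.Agent.Lib.P195.AR.RelTop

/-!
# P195: the base case `C(0,0)`, `C(1,0)` (5.2 of PROOF.md)
-/

namespace Vale.Agent.P195.AR.S5

open MvPolynomial

variable {k : Type} [Field k]

theorem fin2_all {Q : Fin 2 → Prop} (h0 : Q 0) (h1 : Q 1) : ∀ i, Q i := by
  intro i; fin_cases i
  · exact h0
  · exact h1

theorem G_zero_H {m a : ℤ} {f : PA k} (hf : f ∈ (G m a 0 : Submodule k (PA k))) :
    f ∈ (H m a 0 : Submodule k (PA k)) := by
  obtain ⟨f0, h0, f1, h1, rfl⟩ := G_split _ _ _ _ hf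
  rw [G_neg m a (0 - 1) (by omega)] at h1
  rw [(Submodule.mem_bot k).1 h1, add_zero]
  exact Hcast h0 rfl (by ring) rfl

theorem G_neg_eq {m a b : ℤ} {f : PA k} (hf : f ∈ (G m a b : Submodule k (PA k)))
    (h : m < 0 ∨ b < 0 ∨ a + b < 0) : f = 0 := by
  rw [G_neg m a b h] at hf
  exact (Submodule.mem_bot k).1 hf

/-- on `H m p 0` the operator `lx i` is multiplication by `x_i` -/
theorem lx_H0 {i : Fin 2} {m p : ℤ} {f : PA k} (hf : f ∈ (H m p 0 : Submodule k (PA k))) :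
    lx i f = X (Vr.x i) * f := by
  have h1 := lx_top (i := i) (m' := m) (a' := p - 0 + 1) (b' := -1) hf rfl rfl (by norm_num)
  have h2 := G_neg_eq h1 (by omega)
  exact sub_eq_zero.1 h2

theorem ell_H0 {m p : ℤ} {u : Fin 2 → PA k} (hu : ∀ i, u i ∈ (H m p 0 : Submodule k (PA k))) :
    ell u = X (Vr.x 1) * u 0 - X (Vr.x 0) * u 1 := by
  rw [ell, lx_H0 (hu 0), lx_H0 (hu 1)]

theorem Qh_H0 {m p : ℤ} {f : PA k} (hf : f ∈ (H m p 0 : Submodule k (PA k))) :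
    Qh f = Qp * f := by
  rw [Qh, lx_H0 hf, lx_H0 hf, my_apply, my_apply, Qp]; ring

/-- pairs in `H m a 0` with `ell = 0` -/
theorem pair0 {m a : ℤ} {u : Fin 2 → PA k} (hu : ∀ i, u i ∈ (H m a 0 : Submodule k (PA k)))
    (h : ell u = 0) : ∃ g ∈ (H m (a - 1) 0 : Submodule k (PA k)), ∀ i, u i = X (Vr.x i) * g := by
  rw [ell_H0 hu, sub_eq_zero] at h
  obtain ⟨g, hg, h0, h1⟩ := koszul_x (hu 0) h
  exact ⟨g, hg, fin2_all h0 h1⟩

theorem W1_zero {a : ℤ} {n : ℕ} {Γ Λ : Fin 2 → PA k} (h : W1 a 0 n Γ Λ) :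
    Γ = 0 ∧ ∃ g ∈ (H (n - 1) (a - 1) 0 : Submodule k (PA k)), ∀ i, Λ i = X (Vr.x i) * g := by
  obtain ⟨h1, h2, h3⟩ := h
  refine ⟨funext fun j => G_neg_eq (h1 j) (by omega), ?_⟩
  exact pair0 (fun i => G_zero_H (h2 i)) (G_neg_eq h3 (by omega))

theorem W2_zero {a : ℤ} {n : ℕ} {P : Fin 2 → Fin 2 → PA k} (h : W2 a 0 n P) :
    ∃ g : Fin 2 → PA k, (∀ c, g c ∈ (H n (a - 1) 0 : Submodule k (PA k))) ∧
      ∀ c i, P c i = X (Vr.x i) * g c := by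
  have h1 : ∀ c, ∃ g ∈ (H n (a - 1) 0 : Submodule k (PA k)), ∀ i, P c i = X (Vr.x i) * g :=
    fun c => pair0 (fun i => G_zero_H (h.1 c i)) (G_neg_eq (h.2 c) (by omega))
  choose g hg hP using h1
  exact ⟨g, hg, hP⟩

theorem base_W1 {n : ℕ} {Γ Λ : Fin 2 → PA k} (h : W1 0 0 n Γ Λ) : Γ = 0 ∧ Λ = 0 := by
  obtain ⟨h1, g, hg, h2⟩ := W1_zero h
  refine ⟨h1, funext fun i => ?_⟩
  rw [H_neg _ _ _ (by omega)] at hg
  rw [h2 i, (Submodule.mem_bot k).1 hg, mul_zero]; rfl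

theorem base_W2 {n : ℕ} {P : Fin 2 → Fin 2 → PA k} (h : W2 0 0 n P) : P = 0 := by
  obtain ⟨g, hg, h2⟩ := W2_zero h
  refine funext fun c => funext fun i => ?_
  have hgc := hg c
  rw [H_neg _ _ _ (by omega)] at hgc
  rw [h2 c i, (Submodule.mem_bot k).1 hgc, mul_zero]; rfl

/-- `d1P` on `Γ = 0`, `Λ_i = x_i g` -/
theorem d1P_base {m : ℤ} {n : ℕ} {g : PA k} (hg : g ∈ (H m 0 0 : Submodule k (PA k)))
    (c i : Fin 2) : d1P n 0 (fun i => X (Vr.x i) * g) c i =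
      -(((n : k) + 1) • (X (Vr.x i) * (X (Vr.y c) * g))) := by
  have h1 : ell (fun i => X (Vr.x i) * g) = 0 := by
    rw [ell_H0 (fun i => x_mem_H i _ _ _ _ hg)]; ring
  have h2 : kap (0 : Fin 2 → PA k) = 0 := by simp [kap]
  have h3 : dyp c (0 : PA k) = 0 := by
    fin_cases c <;> simp [dyp]
  have h4 : etp i (0 : PA k) = 0 := by
    fin_cases i <;> simp [etp]
  rw [d1P, h1, h2, h3, map_zero, map_zero, h4, Pi.zero_apply, map_zero, smul_zero, my_apply]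
  have h5 : X (Vr.y c) * (X (Vr.x i) * g) = (X (Vr.x i) * (X (Vr.y c) * g) : PA k) := by ring
  rw [h5]
  ring

/-- `d2S` on `P^c_i = x_i g_c` -/
theorem d2S_base {m : ℤ} {n : ℕ} {g : Fin 2 → PA k}
    (hg : ∀ c, g c ∈ (H m 0 0 : Submodule k (PA k))) :
    d2S n (fun c i => X (Vr.x i) * g c) = X (Vr.x 0) * (-(((n : k) + 1) • g 0) +
      X (Vr.y 0) * (dy 0 (g 0) + dy 1 (g 1))) + X (Vr.x 1) * (-(((n : k) + 1) • g 1) +
      X (Vr.y 1) * (dy 0 (g 0) + dy 1 (g 1))) := by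
  have h1 : ∀ c, ell (fun i => X (Vr.x i) * g c) = 0 := by
    intro c
    rw [ell_H0 (fun i => x_mem_H i _ _ _ _ (hg c))]; ring
  have hdy : ∀ (c i : Fin 2) (f : PA k), dy c (X (Vr.x i) * f) = X (Vr.x i) * dy c f :=
    fun c i f => dy_rx c i f
  rw [d2S, h1, h1]
  simp only [hdy, map_zero, sub_zero, add_zero, my_apply, smul_add, mul_add, mul_neg,
    mul_smul_comm]
  ring

/-- coefficients of `x_0`, `x_1` -/
theorem x_coeffs {m : ℤ} {u v : PA k} (hu : u ∈ (H m 0 0 : Submodule k (PA k)))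
    (hv : v ∈ (H m 0 0 : Submodule k (PA k))) (h : X (Vr.x 0) * u + X (Vr.x 1) * v = 0) :
    u = 0 ∧ v = 0 := by
  have h1 : X (Vr.x 1) * v = X (Vr.x 0) * (-u) := by
    rw [mul_neg]; exact eq_neg_of_add_eq_zero_right h
  obtain ⟨g, hg, h2, h3⟩ := koszul_x hv h1
  rw [H_neg _ _ _ (by omega)] at hg
  rw [(Submodule.mem_bot k).1 hg, mul_zero] at h2 h3
  exact ⟨neg_eq_zero.1 h3, h2⟩

variable [CharZero k]

theorem nk_ne (n : ℕ) : ((n : k) + 1) ≠ 0 := Nat.cast_add_one_ne_zero n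

theorem base1 {n : ℕ} {Γ Λ : Fin 2 → PA k} (h : W1 1 0 n Γ Λ) (hd : ∀ c i, d1P n Γ Λ c i = 0) :
    Γ = 0 ∧ Λ = 0 := by
  obtain ⟨h1, g, hg, h2⟩ := W1_zero h
  have h3 : Λ = fun i => X (Vr.x i) * g := funext h2
  subst h1
  subst h3
  refine ⟨rfl, ?_⟩
  have h4 := hd 0 0
  rw [d1P_base (Hcast hg rfl (by ring) rfl), neg_eq_zero] at h4
  have h5 := (smul_eq_zero.1 h4).resolve_left (nk_ne n)
  have h6 := (mul_eq_zero.1 h5).resolve_left (X_ne_zero _)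
  have h7 := (mul_eq_zero.1 h6).resolve_left (X_ne_zero _)
  funext i
  rw [h7, mul_zero]; rfl

theorem base2 {n : ℕ} {P : Fin 2 → Fin 2 → PA k} (h : W2 1 0 n P) (hd : d2S n P = 0) :
    ∃ Γ Λ : Fin 2 → PA k, W1 1 0 n Γ Λ ∧ ∀ c i, d1P n Γ Λ c i = P c i := by
  obtain ⟨g, hg, h2⟩ := W2_zero h
  have hg0 : ∀ c, g c ∈ (H n 0 0 : Submodule k (PA k)) := fun c => Hcast (hg c) rfl (by ring) rfl
  have hP : P = fun c i => X (Vr.x i) * g c := funext fun c => funext fun i => h2 c i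
  subst hP
  rw [d2S_base hg0] at hd
  have hD : dy 0 (g 0) + dy 1 (g 1) ∈ (H (n - 1) 0 0 : Submodule k (PA k)) :=
    Submodule.add_mem _ (dy_mem_H 0 _ _ _ _ (hg0 0)) (dy_mem_H 1 _ _ _ _ (hg0 1))
  set D := dy 0 (g 0) + dy 1 (g 1) with hDdef
  have hm : ∀ c, -(((n : k) + 1) • g c) + X (Vr.y c) * D ∈ (H n 0 0 : Submodule k (PA k)) := fun c =>
    Submodule.add_mem _ (Submodule.neg_mem _ (Submodule.smul_mem _ _ (hg0 c)))
      (Hcast (y_mem_H c _ _ _ _ hD) (by ring) rfl rfl)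
  obtain ⟨e0, e1⟩ := x_coeffs (hm 0) (hm 1) hd
  have e : ∀ c, ((n : k) + 1) • g c = X (Vr.y c) * D := by
    apply fin2_all
    · exact (neg_add_eq_zero.1 e0)
    · exact (neg_add_eq_zero.1 e1)
  set s : k := -((((n : k) + 1) * ((n : k) + 1))⁻¹) with hs
  have hsD : s • D ∈ (H (n - 1) 0 0 : Submodule k (PA k)) := Submodule.smul_mem _ _ hD
  refine ⟨0, fun i => X (Vr.x i) * (s • D), ⟨?_, ?_, ?_⟩, ?_⟩
  · intro j; exact Submodule.zero_mem _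
  · intro i
    exact Hle (x_mem_H i _ _ _ _ hsD) rfl (by ring) le_rfl
  · rw [ell_H0 (fun i => x_mem_H i _ _ _ _ hsD)]
    have : X (Vr.x 1) * (X (Vr.x 0) * (s • D)) - X (Vr.x 0) * (X (Vr.x 1) * (s • D)) = (0 : PA k) := by
      ring
    rw [this]; exact Submodule.zero_mem _
  · intro c i
    rw [d1P_base hsD]
    have h3 : g c = ((n : k) + 1)⁻¹ • (X (Vr.y c) * D) := by
      rw [← e, smul_smul, inv_mul_cancel₀ (nk_ne n), one_smul]
    change _ = X (Vr.x i) * g c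
    rw [h3, mul_smul_comm, mul_smul_comm, mul_smul_comm, smul_smul, ← neg_smul]
    congr 1
    rw [hs]
    have := nk_ne (k := k) n
    field_simp

end Vale.Agent.P195.AR.S5
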