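import Vale.Agent.Lib.P195.AR.Base

/-!
# P195: the base case: the groups `J` (5.2 of PROOF.md)
-/

namespace Vale.Agent.P195.AR.S5

open MvPolynomial

variable {k : Type} [Field k] [CharZero k]

omit [CharZero k] in
theorem div_y {m p q : ℤ} {f : PA k} (hf : f ∈ (H m p q : Submodule k (PA k))) :
    dy 0 (X (Vr.y 0) * f) + dy 1 (X (Vr.y 1) * f) = ((m : k) + 2) • f := by
  have e := euler_y hf
  rw [dy_apply, dy_apply, pd_mul, pd_mul, if_pos rfl, if_pos rfl]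
  have h1 : X (Vr.y 0) * pderiv (Vr.y 0) f + f + (X (Vr.y 1) * pderiv (Vr.y 1) f + f) =
      (X (Vr.y 0) * pderiv (Vr.y 0) f + X (Vr.y 1) * pderiv (Vr.y 1) f) + (f + f) := by ring
  rw [h1, e, ← two_smul k f, ← add_smul]

theorem nk_ne2 (n : ℕ) : ((n : k) + 2) ≠ 0 := by
  have h := nk_ne (k := k) (n + 1)
  rw [Nat.cast_add, Nat.cast_one, add_assoc, one_add_one_eq_two] at h
  exact h

omit [CharZero k] in
theorem cast_succ_succ (n : ℕ) : (((n + 1 : ℕ) : k) + 1) = (n : k) + 2 := by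
  push_cast; ring

/-- the map `J` kills the image of `d2S` -/
theorem baseJ1 {n : ℕ} {c : k} (hc : c ≠ 0) {Ψ : PA k} {P : Fin 2 → Fin 2 → PA k}
    (hΨ : Ψ ∈ (G n 0 0 : Submodule k (PA k))) (h : W2 1 0 (n + 1) P)
    (hd : c • Qh Ψ = d2S (n + 1) P) : Ψ = 0 := by
  have hΨH : Ψ ∈ (H n 0 0 : Submodule k (PA k)) := G_zero_H hΨ
  obtain ⟨g, hg, h2⟩ := W2_zero h
  have hg0 : ∀ c, g c ∈ (H (n + 1) 0 0 : Submodule k (PA k)) := fun c =>
    Hcast (hg c) (by push_cast; ring) (by ring) rfl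
  have hP : P = fun c i => X (Vr.x i) * g c := funext fun c => funext fun i => h2 c i
  subst hP
  rw [d2S_base hg0, Qh_H0 hΨH, cast_succ_succ] at hd
  have hD : dy 0 (g 0) + dy 1 (g 1) ∈ (H n 0 0 : Submodule k (PA k)) :=
    Submodule.add_mem _ (Hcast (dy_mem_H 0 _ _ _ _ (hg0 0)) (by ring) rfl rfl)
      (Hcast (dy_mem_H 1 _ _ _ _ (hg0 1)) (by ring) rfl rfl)
  have hDd : ∀ c, dy c (g c) = dy c (g c) := fun _ => rfl
  generalize hDD : dy 0 (g 0) + dy 1 (g 1) = D at hd hD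
  have hm : ∀ i, c • (X (Vr.y i) * Ψ) + ((n : k) + 2) • g i - X (Vr.y i) * D ∈
      (H (n + 1) 0 0 : Submodule k (PA k)) := fun i =>
    Submodule.sub_mem _ (Submodule.add_mem _ (Submodule.smul_mem _ _ (y_mem_H i _ _ _ _ hΨH))
      (Submodule.smul_mem _ _ (hg0 i))) (y_mem_H i _ _ _ _ hD)
  have hx : X (Vr.x 0) * (c • (X (Vr.y 0) * Ψ) + ((n : k) + 2) • g 0 - X (Vr.y 0) * D) +
      X (Vr.x 1) * (c • (X (Vr.y 1) * Ψ) + ((n : k) + 2) • g 1 - X (Vr.y 1) * D) = 0 := by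
    have h3 : c • (Qp * Ψ) = X (Vr.x 0) * (c • (X (Vr.y 0) * Ψ)) + X (Vr.x 1) * (c • (X (Vr.y 1) * Ψ)) := by
      rw [mul_smul_comm, mul_smul_comm, ← smul_add, Qp]
      congr 1
      ring
    rw [h3] at hd
    linear_combination hd
  obtain ⟨e0, e1⟩ := x_coeffs (hm 0) (hm 1) hx
  have f0 := congrArg (dy 0) e0
  have f1 := congrArg (dy 1) e1
  rw [map_sub, map_add, map_smul, map_smul, map_zero] at f0 f1
  have h4 := div_y hΨH
  have h5 := div_y hD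
  have h6 : c • (dy 0 (X (Vr.y 0) * Ψ) + dy 1 (X (Vr.y 1) * Ψ)) + ((n : k) + 2) • (dy 0 (g 0) +
      dy 1 (g 1)) - (dy 0 (X (Vr.y 0) * D) + dy 1 (X (Vr.y 1) * D)) = 0 := by
    rw [smul_add, smul_add]
    linear_combination f0 + f1
  rw [h4, h5, hDD, Int.cast_natCast, add_sub_cancel_right, smul_smul] at h6
  exact (smul_eq_zero.1 h6).resolve_left (mul_ne_zero hc (nk_ne2 n))

theorem split_x0 {m : ℤ} {f : PA k} (hf : f ∈ (H m 1 0 : Submodule k (PA k))) :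
    ∃ u : Fin 2 → PA k, (∀ i, u i ∈ (H m 0 0 : Submodule k (PA k))) ∧
      f = X (Vr.x 0) * u 0 + X (Vr.x 1) * u 1 := by
  obtain ⟨u, hu, v, hv, e⟩ := split_x le_rfl hf
  refine ⟨![-v, u], fin2_all (Submodule.neg_mem _ (Hcast hv rfl (by ring) rfl))
    (Hcast hu rfl (by ring) rfl), ?_⟩
  rw [e]
  change _ = X (Vr.x 0) * (-v) + X (Vr.x 1) * u
  ring

omit [CharZero k] in
theorem W2_of {n : ℕ} {g : Fin 2 → PA k} (hg : ∀ c, g c ∈ (H n 0 0 : Submodule k (PA k))) :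
    W2 1 0 n (fun c i => X (Vr.x i) * g c) := by
  refine ⟨fun c i => Hle (x_mem_H i _ _ _ _ (hg c)) rfl (by ring) le_rfl, fun c => ?_⟩
  rw [ell_H0 (fun i => x_mem_H i _ _ _ _ (hg c))]
  have : X (Vr.x 1) * (X (Vr.x 0) * g c) - X (Vr.x 0) * (X (Vr.x 1) * g c) = (0 : PA k) := by ring
  rw [this]; exact Submodule.zero_mem _

theorem d2S_div0 {n : ℕ} {u : Fin 2 → PA k} (hu : ∀ c, u c ∈ (H n 0 0 : Submodule k (PA k)))
    (h : dy 0 (u 0) + dy 1 (u 1) = 0) :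
    d2S n (fun c i => X (Vr.x i) * (-(((n : k) + 1)⁻¹ • u c))) =
      X (Vr.x 0) * u 0 + X (Vr.x 1) * u 1 := by
  have hg : ∀ c, -(((n : k) + 1)⁻¹ • u c) ∈ (H n 0 0 : Submodule k (PA k)) := fun c =>
    Submodule.neg_mem _ (Submodule.smul_mem _ _ (hu c))
  have h1 : dy 0 (-(((n : k) + 1)⁻¹ • u 0)) + dy 1 (-(((n : k) + 1)⁻¹ • u 1)) = 0 := by
    rw [map_neg, map_neg, map_smul, map_smul, ← neg_add, ← smul_add, h, smul_zero, neg_zero]
  rw [d2S_base hg, h1, smul_neg, smul_neg, neg_neg, neg_neg, smul_smul, smul_smul,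
    mul_inv_cancel₀ (nk_ne n), one_smul, one_smul, mul_zero, mul_zero, add_zero, add_zero]

theorem div0_exists {n : ℕ} {u : Fin 2 → PA k}
    (hu : ∀ c, u c ∈ (H n 0 0 : Submodule k (PA k))) (h : dy 0 (u 0) + dy 1 (u 1) = 0) :
    ∃ P : Fin 2 → Fin 2 → PA k, W2 1 0 n P ∧ d2S n P = X (Vr.x 0) * u 0 + X (Vr.x 1) * u 1 := by
  have hg : ∀ c, -(((n : k) + 1)⁻¹ • u c) ∈ (H n 0 0 : Submodule k (PA k)) := fun c =>
    Submodule.neg_mem _ (Submodule.smul_mem _ _ (hu c))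
  have h1 := W2_of hg
  have h2 := d2S_div0 hu h
  exact ⟨_, h1, h2⟩

theorem baseJ2 {n : ℕ} {c : k} (hc : c ≠ 0) {Ψ : PA k}
    (hΨ : Ψ ∈ (G (n + 1 : ℕ) 1 0 : Submodule k (PA k))) :
    ∃ Ψ' ∈ (G n 0 0 : Submodule k (PA k)), ∃ P : Fin 2 → Fin 2 → PA k, W2 1 0 (n + 1) P ∧
      Ψ = c • Qh Ψ' + d2S (n + 1) P := by
  obtain ⟨u, hu, e⟩ := split_x0 (G_zero_H hΨ)
  have hj : dy 0 (u 0) + dy 1 (u 1) ∈ (H n 0 0 : Submodule k (PA k)) :=
    Submodule.add_mem _ (Hcast (dy_mem_H 0 _ _ _ _ (hu 0)) (by push_cast; ring) rfl rfl)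
      (Hcast (dy_mem_H 1 _ _ _ _ (hu 1)) (by push_cast; ring) rfl rfl)
  have h4 := div_y hj
  set j := dy 0 (u 0) + dy 1 (u 1) with hjdef
  set s : k := (c * ((n : k) + 2))⁻¹ with hs
  have hcs : c * s * ((n : k) + 2) = 1 := by
    rw [hs]
    have := nk_ne2 (k := k) n
    field_simp
  have hsj : s • j ∈ (H n 0 0 : Submodule k (PA k)) := Submodule.smul_mem _ _ hj
  have hv : ∀ i, u i - (c * s) • (X (Vr.y i) * j) ∈ (H (n + 1 : ℕ) 0 0 : Submodule k (PA k)) :=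
    fun i => Submodule.sub_mem _ (hu i) (Submodule.smul_mem _ _
      (Hcast (y_mem_H i _ _ _ _ hj) (by push_cast; ring) rfl rfl))
  have hdiv : dy 0 (u 0 - (c * s) • (X (Vr.y 0) * j)) + dy 1 (u 1 - (c * s) • (X (Vr.y 1) * j)) = 0 := by
    rw [map_sub, map_sub, map_smul, map_smul]
    have h5 : dy 0 (u 0) - (c * s) • dy 0 (X (Vr.y 0) * j) +
        (dy 1 (u 1) - (c * s) • dy 1 (X (Vr.y 1) * j)) =
        j - (c * s) • (dy 0 (X (Vr.y 0) * j) + dy 1 (X (Vr.y 1) * j)) := by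
      rw [hjdef, smul_add]; abel
    rw [h5, h4, Int.cast_natCast, smul_smul, hcs, one_smul, sub_self]
  obtain ⟨P, hP, hP2⟩ := div0_exists hv hdiv
  refine ⟨s • j, Hle hsj rfl (by ring) le_rfl, P, hP, ?_⟩
  rw [hP2, Qh_H0 hsj, e, mul_smul_comm, smul_smul, Qp, mul_sub, mul_sub,
    mul_smul_comm, mul_smul_comm, add_mul, smul_add, mul_assoc, mul_assoc]
  ring

theorem baseJ3 {Ψ : PA k} (hΨ : Ψ ∈ (G (0 : ℕ) 1 0 : Submodule k (PA k))) :
    ∃ P : Fin 2 → Fin 2 → PA k, W2 1 0 0 P ∧ Ψ = d2S 0 P := by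
  obtain ⟨u, hu, e⟩ := split_x0 (G_zero_H hΨ)
  have h0 : ∀ c i, dy c (u i) = 0 := by
    intro c i
    have h1 := dy_mem_H c _ _ _ _ (hu i)
    rw [H_neg _ _ _ (by norm_num)] at h1
    exact (Submodule.mem_bot k).1 h1
  obtain ⟨P, hP, hP2⟩ := div0_exists hu (by rw [h0, h0, add_zero])
  exact ⟨P, hP, by rw [hP2, e]⟩

end Vale.Agent.P195.AR.S5
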