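import Mathlib.Algebra.MvPolynomial.PDeriv
import Mathlib.Algebra.MvPolynomial.Division
import Mathlib.RingTheory.Derivation.Lie
import Mathlib.RingTheory.MvPolynomial.Basic
import Mathlib.RingTheory.MvPolynomial.Homogeneous
import Mathlib.Tactic

/-!
# P195 (disproof of the Auslander-Reiten conjecture): the polynomial model

`PA k = k[x₁,x₂,d₁,d₂,y₁,y₂]`. A polynomial without `y` is the symbol of an element of the Weyl
algebra written with the `d` on the LEFT of the `x`. Left multiplications: `lx i = x_i - ∂/∂d_i`,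
`ld i = d_i`; right multiplications: `rx i = x_i`, `rd i = d_i - ∂/∂x_i`. Left and right
multiplications commute. `my i`, `dy i`: multiplication by `y_i` and `∂/∂y_i`.

`G m a b` = polynomials all of whose monomials have `y`-degree `m`, (`x`-degree) - (`d`-degree) `= a`
and `d`-degree `≤ b`; this is `S_m ⊗ W[a,b]`.
-/

namespace Vale.Agent.P195.AR

open MvPolynomial

/-- the six variables -/
inductive Vr | x (i : Fin 2) | d (i : Fin 2) | y (i : Fin 2)
  deriving DecidableEq, Fintype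

variable (k : Type) [Field k]

/-- the polynomial ring in `x, d, y` -/
abbrev PA : Type := MvPolynomial Vr k

variable {k}

/-- right multiplication by `x_i` -/
noncomputable def rx (i : Fin 2) : PA k →ₗ[k] PA k := LinearMap.mulLeft k (X (Vr.x i))
/-- right multiplication by `d_i` -/
noncomputable def rd (i : Fin 2) : PA k →ₗ[k] PA k :=
  LinearMap.mulLeft k (X (Vr.d i)) - (pderiv (R := k) (Vr.x i)).toLinearMap
/-- left multiplication by `x_i` -/
noncomputable def lx (i : Fin 2) : PA k →ₗ[k] PA k :=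
  LinearMap.mulLeft k (X (Vr.x i)) - (pderiv (R := k) (Vr.d i)).toLinearMap
/-- left multiplication by `d_i` -/
noncomputable def ld (i : Fin 2) : PA k →ₗ[k] PA k := LinearMap.mulLeft k (X (Vr.d i))
/-- multiplication by `y_i` -/
noncomputable def my (i : Fin 2) : PA k →ₗ[k] PA k := LinearMap.mulLeft k (X (Vr.y i))
/-- `∂/∂y_i` -/
noncomputable def dy (i : Fin 2) : PA k →ₗ[k] PA k := (pderiv (R := k) (Vr.y i)).toLinearMap

theorem rx_apply (i : Fin 2) (p : PA k) : rx i p = X (Vr.x i) * p := rfl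
theorem rd_apply (i : Fin 2) (p : PA k) : rd i p = X (Vr.d i) * p - pderiv (Vr.x i) p := rfl
theorem lx_apply (i : Fin 2) (p : PA k) : lx i p = X (Vr.x i) * p - pderiv (Vr.d i) p := rfl
theorem ld_apply (i : Fin 2) (p : PA k) : ld i p = X (Vr.d i) * p := rfl
theorem my_apply (i : Fin 2) (p : PA k) : my i p = X (Vr.y i) * p := rfl
theorem dy_apply (i : Fin 2) (p : PA k) : dy i p = pderiv (Vr.y i) p := rfl

/-- `x`-degree of a monomial -/
def xdeg (μ : Vr →₀ ℕ) : ℕ := μ (Vr.x 0) + μ (Vr.x 1)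
/-- `d`-degree of a monomial -/
def ddeg (μ : Vr →₀ ℕ) : ℕ := μ (Vr.d 0) + μ (Vr.d 1)
/-- `y`-degree of a monomial -/
def ydeg (μ : Vr →₀ ℕ) : ℕ := μ (Vr.y 0) + μ (Vr.y 1)

/-- exponents allowed in `G m a b` -/
def Gs (m a b : ℤ) : Set (Vr →₀ ℕ) :=
  {μ | (ydeg μ : ℤ) = m ∧ (xdeg μ : ℤ) - ddeg μ = a ∧ (ddeg μ : ℤ) ≤ b}

/-- `S_m ⊗ W[a,b]` -/
noncomputable def G (m a b : ℤ) : Submodule k (PA k) := restrictSupport k (Gs m a b)

theorem mem_G (m a b : ℤ) (p : PA k) :
    p ∈ G m a b ↔ ∀ μ ∈ p.support, (ydeg μ : ℤ) = m ∧ (xdeg μ : ℤ) - ddeg μ = a ∧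
      (ddeg μ : ℤ) ≤ b := Iff.rfl

theorem G_mono (m a b b' : ℤ) (h : b ≤ b') : (G m a b : Submodule k (PA k)) ≤ G m a b' :=
  fun _ hp _ hμ => ⟨(hp hμ).1, (hp hμ).2.1, (hp hμ).2.2.trans h⟩

theorem G_neg (m a b : ℤ) (h : m < 0 ∨ b < 0 ∨ a + b < 0) :
    (G m a b : Submodule k (PA k)) = ⊥ := by
  rw [eq_bot_iff]
  intro p hp
  rw [Submodule.mem_bot, ← MvPolynomial.support_eq_empty, Finset.eq_empty_iff_forall_notMem]
  intro μ hμ
  obtain ⟨h1, h2, h3⟩ := hp hμ
  rcases h with h | h | h <;> omega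

theorem monomial_mem_G (m a b : ℤ) (μ : Vr →₀ ℕ) (c : k) (h : μ ∈ Gs m a b) :
    monomial μ c ∈ (G m a b : Submodule k (PA k)) := by
  intro ν hν
  have := MvPolynomial.support_monomial_subset hν
  rw [Finset.mem_singleton] at this
  rw [this]; exact h

/-- to check that a linear map sends `G m a b` into `S` it is enough to check it on monomials -/
theorem G_induction {m a b : ℤ} {M : Type*} [AddCommGroup M] [Module k M] (φ : PA k →ₗ[k] M)
    (S : Submodule k M) (h : ∀ μ ∈ Gs m a b, φ (monomial μ 1) ∈ S) (p : PA k)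
    (hp : p ∈ (G m a b : Submodule k (PA k))) : φ p ∈ S := by
  rw [p.as_sum, map_sum]
  apply Submodule.sum_mem
  intro μ hμ
  have : monomial μ (coeff μ p) = coeff μ p • monomial μ (1 : k) := by
    rw [smul_monomial, smul_eq_mul, mul_one]
  rw [this, map_smul]
  exact S.smul_mem _ (h μ (hp hμ))

theorem mulX_mem (v : Vr) {m a b m' a' b' : ℤ}
    (h : ∀ μ ∈ Gs m a b, μ + Finsupp.single v 1 ∈ Gs m' a' b') (p : PA k)
    (hp : p ∈ (G m a b : Submodule k (PA k))) : X v * p ∈ (G m' a' b' : Submodule k (PA k)) := by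
  refine G_induction (LinearMap.mulLeft k (X v)) _ ?_ p hp
  intro μ hμ
  rw [LinearMap.mulLeft_apply, X, monomial_mul, mul_one, add_comm]
  exact monomial_mem_G _ _ _ _ _ (h μ hμ)

theorem pderiv_mem (v : Vr) {m a b m' a' b' : ℤ}
    (h : ∀ μ ∈ Gs m a b, μ v ≠ 0 → μ - Finsupp.single v 1 ∈ Gs m' a' b') (p : PA k)
    (hp : p ∈ (G m a b : Submodule k (PA k))) :
    pderiv v p ∈ (G m' a' b' : Submodule k (PA k)) := by
  refine G_induction (pderiv (R := k) v).toLinearMap _ ?_ p hp
  intro μ hμ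
  change pderiv v (monomial μ 1) ∈ _
  rw [pderiv_monomial]
  by_cases h0 : μ v = 0
  · rw [h0]; simp
  · exact monomial_mem_G _ _ _ _ _ (h μ hμ h0)

theorem rx_mem (i : Fin 2) (m a b : ℤ) (p : PA k) (hp : p ∈ (G m a b : Submodule k (PA k))) :
    rx i p ∈ (G m (a + 1) b : Submodule k (PA k)) := by
  refine mulX_mem _ ?_ p hp
  rintro μ ⟨h1, h2, h3⟩
  fin_cases i <;> simp [Gs, ydeg, xdeg, ddeg] at * <;> omega

theorem ld_mem (i : Fin 2) (m a b : ℤ) (p : PA k) (hp : p ∈ (G m a b : Submodule k (PA k))) :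
    ld i p ∈ (G m (a - 1) (b + 1) : Submodule k (PA k)) := by
  refine mulX_mem _ ?_ p hp
  rintro μ ⟨h1, h2, h3⟩
  fin_cases i <;> simp [Gs, ydeg, xdeg, ddeg] at * <;> omega

theorem my_mem (i : Fin 2) (m a b : ℤ) (p : PA k) (hp : p ∈ (G m a b : Submodule k (PA k))) :
    my i p ∈ (G (m + 1) a b : Submodule k (PA k)) := by
  refine mulX_mem _ ?_ p hp
  rintro μ ⟨h1, h2, h3⟩
  fin_cases i <;> simp [Gs, ydeg, xdeg, ddeg] at * <;> omega

theorem dy_mem (i : Fin 2) (m a b : ℤ) (p : PA k) (hp : p ∈ (G m a b : Submodule k (PA k))) :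
    dy i p ∈ (G (m - 1) a b : Submodule k (PA k)) := by
  refine pderiv_mem _ ?_ p hp
  rintro μ ⟨h1, h2, h3⟩ h0
  fin_cases i <;> simp [Gs, ydeg, xdeg, ddeg] at * <;> omega

theorem rd_mem (i : Fin 2) (m a b : ℤ) (p : PA k) (hp : p ∈ (G m a b : Submodule k (PA k))) :
    rd i p ∈ (G m (a - 1) (b + 1) : Submodule k (PA k)) := by
  refine Submodule.sub_mem _ (ld_mem i m a b p hp) ?_
  refine pderiv_mem _ ?_ p hp
  rintro μ ⟨h1, h2, h3⟩ h0
  fin_cases i <;> simp [Gs, ydeg, xdeg, ddeg] at * <;> omega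

theorem lx_mem (i : Fin 2) (m a b : ℤ) (p : PA k) (hp : p ∈ (G m a b : Submodule k (PA k))) :
    lx i p ∈ (G m (a + 1) b : Submodule k (PA k)) := by
  refine Submodule.sub_mem _ (rx_mem i m a b p hp) ?_
  refine pderiv_mem _ ?_ p hp
  rintro μ ⟨h1, h2, h3⟩ h0
  fin_cases i <;> simp [Gs, ydeg, xdeg, ddeg] at * <;> omega

/-! ### commutation relations -/

theorem lx_rx (i j : Fin 2) (p : PA k) : lx i (rx j p) = rx j (lx i p) := by
  simp only [lx_apply, rx_apply, Derivation.leibniz, pderiv_X, smul_eq_mul]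
  rw [Pi.single_eq_of_ne (by simp)]
  ring

theorem ld_rx (i j : Fin 2) (p : PA k) : ld i (rx j p) = rx j (ld i p) := by
  simp only [ld_apply, rx_apply]; ring

theorem ld_rd (i j : Fin 2) (p : PA k) : ld i (rd j p) = rd j (ld i p) := by
  simp only [ld_apply, rd_apply, Derivation.leibniz, pderiv_X, smul_eq_mul]
  rw [Pi.single_eq_of_ne (by simp)]
  ring

theorem pderiv_comm (u v : Vr) (p : PA k) : pderiv u (pderiv v p) = pderiv v (pderiv u p) := by
  have : ⁅(pderiv u : Derivation k (PA k) (PA k)), (pderiv v : Derivation k (PA k) (PA k))⁆ = 0 := by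
    apply MvPolynomial.derivation_ext
    intro w
    rw [Derivation.commutator_apply, pderiv_X, pderiv_X, Pi.single_apply, Pi.single_apply]
    split_ifs <;> simp
  have h2 := congrArg (fun D : Derivation k (PA k) (PA k) => D p) this
  simp only [Derivation.commutator_apply, Derivation.zero_apply] at h2
  exact sub_eq_zero.1 h2

theorem lx_rd (i j : Fin 2) (p : PA k) : lx i (rd j p) = rd j (lx i p) := by
  simp only [lx_apply, rd_apply, map_sub, Derivation.leibniz, pderiv_X, smul_eq_mul]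
  rw [pderiv_comm (Vr.d i) (Vr.x j)]
  fin_cases i <;> fin_cases j <;> simp <;> ring

theorem rx_comm (i j : Fin 2) (p : PA k) : rx i (rx j p) = rx j (rx i p) := by
  simp only [rx_apply]; ring

theorem lx_comm (i j : Fin 2) (p : PA k) : lx i (lx j p) = lx j (lx i p) := by
  simp only [lx_apply, map_sub, Derivation.leibniz, pderiv_X, smul_eq_mul]
  rw [pderiv_comm (Vr.d i) (Vr.d j)]
  fin_cases i <;> fin_cases j <;> simp <;> ring

theorem ld_comm (i j : Fin 2) (p : PA k) : ld i (ld j p) = ld j (ld i p) := by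
  simp only [ld_apply]; ring

theorem rd_comm (i j : Fin 2) (p : PA k) : rd i (rd j p) = rd j (rd i p) := by
  simp only [rd_apply, map_sub, Derivation.leibniz, pderiv_X, smul_eq_mul]
  rw [pderiv_comm (Vr.x i) (Vr.x j)]
  fin_cases i <;> fin_cases j <;> simp <;> ring

/-- `rx_i rd_j = rd_j rx_i + δ_ij` -/
theorem rx_rd (i j : Fin 2) (p : PA k) :
    rx i (rd j p) = rd j (rx i p) + if i = j then p else 0 := by
  simp only [rd_apply, rx_apply, Derivation.leibniz, pderiv_X, smul_eq_mul]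
  fin_cases i <;> fin_cases j <;> simp <;> ring

/-- `ld_j lx_i = lx_i ld_j + δ_ij` -/
theorem ld_lx (i j : Fin 2) (p : PA k) :
    ld j (lx i p) = lx i (ld j p) + if i = j then p else 0 := by
  simp only [ld_apply, lx_apply, Derivation.leibniz, pderiv_X, smul_eq_mul]
  fin_cases i <;> fin_cases j <;> simp <;> ring

/-- the four left and four right operators commute with `my`, `dy` -/
theorem my_rx (i j : Fin 2) (p : PA k) : my i (rx j p) = rx j (my i p) := by
  simp only [my_apply, rx_apply]; ring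
theorem my_ld (i j : Fin 2) (p : PA k) : my i (ld j p) = ld j (my i p) := by
  simp only [my_apply, ld_apply]; ring
theorem my_rd (i j : Fin 2) (p : PA k) : my i (rd j p) = rd j (my i p) := by
  simp only [my_apply, rd_apply, Derivation.leibniz, pderiv_X, smul_eq_mul]
  rw [Pi.single_eq_of_ne (by simp)]
  ring
theorem my_lx (i j : Fin 2) (p : PA k) : my i (lx j p) = lx j (my i p) := by
  simp only [my_apply, lx_apply, Derivation.leibniz, pderiv_X, smul_eq_mul]
  rw [Pi.single_eq_of_ne (by simp)]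
  ring
theorem dy_rx (i j : Fin 2) (p : PA k) : dy i (rx j p) = rx j (dy i p) := by
  simp only [dy_apply, rx_apply, Derivation.leibniz, pderiv_X, smul_eq_mul]
  rw [Pi.single_eq_of_ne (by simp)]
  ring
theorem dy_ld (i j : Fin 2) (p : PA k) : dy i (ld j p) = ld j (dy i p) := by
  simp only [dy_apply, ld_apply, Derivation.leibniz, pderiv_X, smul_eq_mul]
  rw [Pi.single_eq_of_ne (by simp)]
  ring
theorem dy_rd (i j : Fin 2) (p : PA k) : dy i (rd j p) = rd j (dy i p) := by
  simp only [dy_apply, rd_apply, map_sub, Derivation.leibniz, pderiv_X, smul_eq_mul]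
  rw [Pi.single_eq_of_ne (by simp), pderiv_comm (Vr.y i)]
  ring
theorem dy_lx (i j : Fin 2) (p : PA k) : dy i (lx j p) = lx j (dy i p) := by
  simp only [dy_apply, lx_apply, map_sub, Derivation.leibniz, pderiv_X, smul_eq_mul]
  rw [Pi.single_eq_of_ne (by simp), pderiv_comm (Vr.y i)]
  ring
theorem my_comm (i j : Fin 2) (p : PA k) : my i (my j p) = my j (my i p) := by
  simp only [my_apply]; ring
theorem dy_comm (i j : Fin 2) (p : PA k) : dy i (dy j p) = dy j (dy i p) := by
  simp only [dy_apply]; exact pderiv_comm _ _ _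
/-- `dy_i my_j = my_j dy_i + δ_ij` -/
theorem dy_my (i j : Fin 2) (p : PA k) :
    dy i (my j p) = my j (dy i p) + if i = j then p else 0 := by
  simp only [dy_apply, my_apply, Derivation.leibniz, pderiv_X, smul_eq_mul]
  fin_cases i <;> fin_cases j <;> simp

end Vale.Agent.P195.AR
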