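import Vale.Agent.Lib.P195.AR.Ap

/-!
# P195: the facts (a)-(e) in terms of `G m a b` and the operators
-/

namespace Vale.Agent.P195.AR

open MvPolynomial

variable {k : Type} [Field k]

theorem om_mul (f : PA k) : om * f = rx 0 (my 1 f) - rx 1 (my 0 f) := by
  simp only [om, rx_apply, my_apply]; ring

/-! ### the specialisation `sg` (y := x) and the operators -/

theorem sg_x (i : Fin 2) : sg (X (Vr.x i) : PA k) = X (Vr.x i) := by simp [sg]
theorem sg_d (i : Fin 2) : sg (X (Vr.d i) : PA k) = X (Vr.d i) := by simp [sg]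
theorem sg_y (i : Fin 2) : sg (X (Vr.y i) : PA k) = X (Vr.x i) := by simp [sg]

theorem sg_rx (i : Fin 2) (f : PA k) : sg (rx i f) = rx i (sg f) := by
  rw [rx_apply, rx_apply, map_mul, sg_x]
theorem sg_ld (i : Fin 2) (f : PA k) : sg (ld i f) = ld i (sg f) := by
  rw [ld_apply, ld_apply, map_mul, sg_d]
theorem sg_my (i : Fin 2) (f : PA k) : sg (my i f) = rx i (sg f) := by
  rw [my_apply, rx_apply, map_mul, sg_y]

theorem sg_pderiv_d (i : Fin 2) (f : PA k) :
    pderiv (Vr.d i) (sg f) = sg (pderiv (Vr.d i) f) := by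
  induction f using MvPolynomial.induction_on with
  | C a => simp [sg]
  | add p q hp hq => rw [map_add, map_add, map_add, map_add, hp, hq]
  | mul_X p v hp =>
    rw [map_mul, pderiv_mul, hp, pderiv_mul, map_add, map_mul, map_mul]
    congr 2
    rcases v with j | j | j
    · rw [sg_x, pderiv_X_of_ne (by simp), map_zero]
    · rw [sg_d]
      by_cases hij : j = i
      · subst hij; rw [pderiv_X_self, map_one]
      · rw [pderiv_X_of_ne (by simpa using hij), map_zero]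
    · rw [sg_y, pderiv_X_of_ne (by simp), pderiv_X_of_ne (by simp), map_zero]

theorem sg_pderiv_x (i : Fin 2) (f : PA k) :
    pderiv (Vr.x i) (sg f) = sg (pderiv (Vr.x i) f) + sg (pderiv (Vr.y i) f) := by
  induction f using MvPolynomial.induction_on with
  | C a => simp [sg]
  | add p q hp hq =>
    simp only [map_add, hp, hq]
    ring
  | mul_X p v hp =>
    rw [map_mul, pderiv_mul, hp, pderiv_mul, map_add, map_mul, map_mul, pderiv_mul, map_add,
      map_mul, map_mul]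
    have e : pderiv (Vr.x i) (sg (X v : PA k))
        = sg (pderiv (Vr.x i) (X v : PA k)) + sg (pderiv (Vr.y i) (X v : PA k)) := by
      rcases v with j | j | j
      · rw [sg_x, pderiv_X_of_ne (i := Vr.y i) (by simp), map_zero, add_zero]
        by_cases hij : j = i
        · subst hij; rw [pderiv_X_self, map_one]
        · rw [pderiv_X_of_ne (by simpa using hij), map_zero]
      · rw [sg_d, pderiv_X_of_ne (by simp), pderiv_X_of_ne (by simp), map_zero, add_zero]
      · rw [sg_y, pderiv_X_of_ne (i := Vr.x i) (j := Vr.y j) (by simp), map_zero, zero_add]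
        by_cases hij : j = i
        · subst hij; rw [pderiv_X_self, pderiv_X_self, map_one]
        · rw [pderiv_X_of_ne (by simpa using hij), pderiv_X_of_ne (by simpa using hij), map_zero]
    rw [e]
    ring

theorem sg_lx (i : Fin 2) (f : PA k) : sg (lx i f) = lx i (sg f) := by
  rw [lx_apply, lx_apply, map_sub, map_mul, sg_x, sg_pderiv_d]

theorem sg_rd (i : Fin 2) (f : PA k) : sg (rd i f) = rd i (sg f) + sg (dy i f) := by
  rw [rd_apply, rd_apply, dy_apply, map_sub, map_mul, sg_d, sg_pderiv_x]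
  ring

theorem sg_mem {m a b : ℤ} {f : PA k} (hf : f ∈ (G m a b : Submodule k (PA k))) :
    sg f ∈ (G 0 (a + m) b : Submodule k (PA k)) := by
  refine G_induction (sg : PA k →ₐ[k] PA k).toLinearMap _ ?_ f hf
  rintro s ⟨h1, h2, h3⟩
  change sg (monomial s 1) ∈ _
  have e : sg (monomial s (1 : k)) = monomial (Finsupp.single (Vr.x 0) (s (Vr.x 0) + s (Vr.y 0))
      + Finsupp.single (Vr.x 1) (s (Vr.x 1) + s (Vr.y 1))
      + Finsupp.single (Vr.d 0) (s (Vr.d 0)) + Finsupp.single (Vr.d 1) (s (Vr.d 1))) 1 := by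
    have hs : s = Finsupp.single (Vr.x 0) (s (Vr.x 0)) + Finsupp.single (Vr.x 1) (s (Vr.x 1))
        + Finsupp.single (Vr.d 0) (s (Vr.d 0)) + Finsupp.single (Vr.d 1) (s (Vr.d 1))
        + Finsupp.single (Vr.y 0) (s (Vr.y 0)) + Finsupp.single (Vr.y 1) (s (Vr.y 1)) := by
      ext v
      simp only [Finsupp.add_apply, Finsupp.single_apply]
      rcases v with j | j | j <;> fin_cases j <;> simp
    have hX : ∀ (v : Vr) (n : ℕ), (monomial (Finsupp.single v n) (1 : k)) = X v ^ n := by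
      intro v n
      rw [X_pow_eq_monomial]
    have hs2 : monomial s (1 : k) = X (Vr.x 0) ^ s (Vr.x 0) * X (Vr.x 1) ^ s (Vr.x 1)
        * X (Vr.d 0) ^ s (Vr.d 0) * X (Vr.d 1) ^ s (Vr.d 1) * X (Vr.y 0) ^ s (Vr.y 0)
        * X (Vr.y 1) ^ s (Vr.y 1) := by
      conv_lhs => rw [hs]
      simp only [← hX, monomial_mul, mul_one]
    rw [hs2]
    simp only [map_mul, map_pow, sg_x, sg_d, sg_y]
    simp only [← hX, monomial_mul, mul_one]
    refine congrArg (fun t => monomial t (1 : k)) ?_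
    ext v
    simp only [Finsupp.add_apply, Finsupp.single_apply]
    rcases v with j | j | j <;> fin_cases j <;> simp
  rw [e]
  apply monomial_mem_G
  simp only [ydeg, xdeg, ddeg] at h1 h2 h3
  push_cast at h1 h2 h3
  refine ⟨?_, ?_, ?_⟩ <;> simp [ydeg, xdeg, ddeg] <;> omega

/-! ### (a) -/

theorem fa1 {m a b : ℤ} {f : PA k} (hf : f ∈ (G m a b : Submodule k (PA k))) (h : sg f = 0) :
    ∃ f' ∈ (G (m - 1) (a - 1) b : Submodule k (PA k)), f = om * f' := by
  simp only [G_eq] at hf ⊢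
  exact exa1 hf h

theorem fa2 {m a b : ℤ} (ha : 0 ≤ a) (hm : 0 ≤ m) {w : PA k}
    (hw : w ∈ (G 0 (a + m) b : Submodule k (PA k))) :
    ∃ f ∈ (G m a b : Submodule k (PA k)), sg f = w := by
  simp only [G_eq] at hw ⊢
  exact exa2 ha hm hw

theorem om_inj {f : PA k} (h : om * f = 0) : f = 0 := by
  rcases mul_eq_zero.mp h with h1 | h1
  · exfalso
    have h2 := congrArg (coeff (Finsupp.single (Vr.x 0) 1 + Finsupp.single (Vr.y 1) 1)) h1
    rw [om, coeff_sub, coeff_X_mul, coeff_X_mul', coeff_X, coeff_zero] at h2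
    simp at h2
  · exact h1

theorem om_mem {m a b : ℤ} {f : PA k} (hf : f ∈ (G m a b : Submodule k (PA k))) :
    om * f ∈ (G (m + 1) (a + 1) b : Submodule k (PA k)) := by
  rw [om_mul]
  exact Submodule.sub_mem _ (rx_mem _ _ _ _ _ (my_mem _ _ _ _ _ hf))
    (rx_mem _ _ _ _ _ (my_mem _ _ _ _ _ hf))

/-! ### (b) -/

theorem fb1 {m c b : ℤ} {a1 a2 : PA k} (h1 : a1 ∈ (G m c b : Submodule k (PA k)))
    (h2 : a2 ∈ (G m c b : Submodule k (PA k))) (h : rd 0 a1 + rd 1 a2 = 0) :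
    ∃ v ∈ (G m (c + 1) (b - 1) : Submodule k (PA k)), a1 = rd 1 v ∧ a2 = - rd 0 v := by
  simp only [G_eq] at h1 h2 ⊢
  exact exb1 h1 h2 h

theorem fb2 {m c b : ℤ} {f : PA k} (hf : f ∈ (G m c b : Submodule k (PA k))) (h : ap f = 0) :
    ∃ a1 ∈ (G m (c + 1) (b - 1) : Submodule k (PA k)),
    ∃ a2 ∈ (G m (c + 1) (b - 1) : Submodule k (PA k)), f = rd 0 a1 + rd 1 a2 := by
  simp only [G_eq] at hf ⊢
  exact exb2 hf h

theorem fb3 (i : Fin 2) {v : PA k} (h : rd i v = 0) : v = 0 := exb3 i h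

/-! ### (c) -/

theorem euler_my {m a b : ℤ} {f : PA k} (hf : f ∈ (G m a b : Submodule k (PA k))) :
    my 0 (dy 0 f) + my 1 (dy 1 f) = (m : k) • f := by
  rw [G_eq] at hf
  exact euler_y hf

theorem fc1 [CharZero k] {m a b : ℤ} {q : PA k} (hq : q ∈ (G m a b : Submodule k (PA k))) :
    ∃ q1 ∈ (G (m + 1) a b : Submodule k (PA k)), ∃ q2 ∈ (G (m + 1) a b : Submodule k (PA k)),
      dy 0 q1 + dy 1 q2 = q := by
  simp only [G_eq] at hq ⊢
  exact exc1 hq

theorem fc2 [CharZero k] {m a b : ℤ} (hm : 0 ≤ m) {q1 q2 : PA k}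
    (h1 : q1 ∈ (G m a b : Submodule k (PA k))) (h2 : q2 ∈ (G m a b : Submodule k (PA k)))
    (h : dy 0 q1 + dy 1 q2 = 0) :
    ∃ H ∈ (G (m + 1) a b : Submodule k (PA k)), q1 = dy 1 H ∧ q2 = - dy 0 H := by
  simp only [G_eq] at h1 h2 ⊢
  exact exc2 hm h1 h2 h

/-! ### (d) -/

theorem fd1 {m a b : ℤ} (ha : 0 ≤ a) {q : PA k}
    (hq : q ∈ (G m (a + 1) b : Submodule k (PA k))) :
    ∃ p1 ∈ (G m a b : Submodule k (PA k)), ∃ p2 ∈ (G m a b : Submodule k (PA k)),
      q = rx 0 p1 + rx 1 p2 := by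
  simp only [G_eq] at hq ⊢
  exact exd1 ha hq

theorem fd2 {m a b : ℤ} {p1 p2 : PA k} (h1 : p1 ∈ (G m a b : Submodule k (PA k)))
    (h : rx 0 p1 + rx 1 p2 = 0) :
    ∃ w ∈ (G m (a - 1) b : Submodule k (PA k)), p1 = rx 1 w ∧ p2 = - rx 0 w := by
  simp only [G_eq] at h1 ⊢
  exact exd2 h1 h

theorem rx_inj (i : Fin 2) {f : PA k} (h : rx i f = 0) : f = 0 := by
  rw [rx_apply] at h
  exact (mul_eq_zero.mp h).resolve_left (X_ne_zero (R := k) (Vr.x i))

/-! ### (e) -/

theorem fe {m a b : ℤ} (ha : 0 ≤ a) {f : PA k} (hf : f ∈ (G m (a + 1) b : Submodule k (PA k))) :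
    ∃ f1 ∈ (G m a b : Submodule k (PA k)), ∃ f2 ∈ (G m a b : Submodule k (PA k)),
      f = lx 0 f1 + lx 1 f2 := by
  simp only [G_eq] at hf ⊢
  exact exe ha hf

/-! ### evaluation -/

/-- `ev : f(y) ⊗ w ↦ w (f)`: specialise y := x and apply the operator to 1 -/
noncomputable def ev : PA k →ₗ[k] PA k := ap ∘ₗ (sg : PA k →ₐ[k] PA k).toLinearMap

theorem ev_apply (f : PA k) : ev f = ap (sg f) := rfl

theorem ev_ld (i : Fin 2) (f : PA k) : ev (ld i f) = pderiv (Vr.x i) (ev f) := by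
  rw [ev_apply, ev_apply, sg_ld, ap_ld]

theorem ev_lx (i : Fin 2) (f : PA k) : ev (lx i f) = X (Vr.x i) * ev f := by
  rw [ev_apply, ev_apply, sg_lx, ap_lx]

theorem ev_rd (i : Fin 2) (f : PA k) : ev (rd i f) = ev (dy i f) := by
  rw [ev_apply, ev_apply, sg_rd, map_add, ap_rd, zero_add]

theorem ev_my (i : Fin 2) (f : PA k) : ev (my i f) = ev (rx i f) := by
  rw [ev_apply, ev_apply, sg_my, sg_rx]

theorem ev_mem {m a b : ℤ} {f : PA k} (hf : f ∈ (G m a b : Submodule k (PA k))) :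
    ev f ∈ (G 0 (a + m) 0 : Submodule k (PA k)) := ap_mem (sg_mem hf)

end Vale.Agent.P195.AR
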