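import Vale.Agent.Lib.P195.AR.Obj

/-!
# P195: the standard bifiltered modules

* `SO m a0 b0 = S_m ⊗ W(a0,b0)`, carrier `PA k`;
* `SP m a0 e = S_m ⊗ P_e(a0,0)`, carrier `PA k × PA k`;
* `XX n = k[x](n)`;
* `TO b = W(0,b)` and `TP e = P_e` with carriers `Y0`, `Y0 × Y0`, `Y0` the polynomials without `y`.
-/

namespace Vale.Agent.P195.AR

open MvPolynomial

variable {k : Type} [Field k]

/-- `q(p) = x₁ p₁ + x₂ p₂` (right multiplications) -/
noncomputable def qq : (PA k × PA k) →ₗ[k] PA k := (rx 0).coprod (rx 1)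

theorem qq_apply (p : PA k × PA k) : qq p = rx 0 p.1 + rx 1 p.2 := rfl

/-- `wp(w) = (x₂ w, - x₁ w)` (right multiplications) -/
noncomputable def wp : PA k →ₗ[k] (PA k × PA k) := (rx 1).prod (-rx 0)

theorem wp_apply (w : PA k) : wp w = (rx 1 w, - rx 0 w) := rfl

theorem qq_wp (w : PA k) : qq (wp w) = 0 := by
  rw [qq_apply, wp_apply]
  simp only [map_neg]
  rw [rx_comm 0 1, add_neg_cancel]

variable (k)

/-- the module `W` with `S_m` coefficients, as a bifiltered module: `S_m ⊗ W(a0,b0)` -/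
noncomputable abbrev SO (m a0 b0 : ℤ) : Bw k where
  V := PA k
  x := lx
  d := ld
  xx := fun i j v => lx_comm i j v
  dd := fun i j v => ld_comm i j v
  dx := fun i j v => ld_lx i j v
  F := fun a b => G m (a + a0) (b + b0)
  mono := fun a b b' h => G_mono _ _ _ _ (by omega)
  Fx := fun i a b v hv => by
    have := lx_mem i _ _ _ v hv
    rwa [show a + a0 + 1 = a + 1 + a0 by ring] at this
  Fd := fun i a b v hv => by
    have := ld_mem i _ _ _ v hv
    rwa [show a + a0 - 1 = a - 1 + a0 by ring, show b + b0 + 1 = b + 1 + b0 by ring] at this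

/-- the filtration of `S_m ⊗ P_e` -/
noncomputable def GP (m e a b : ℤ) : Submodule k (PA k × PA k) :=
  (G m a (b + e)).prod (G m a (b + e)) ⊓ (G m (a + 1) b).comap qq

variable {k}

theorem mem_GP (m e a b : ℤ) (p : PA k × PA k) : p ∈ GP k m e a b ↔
    (p.1 ∈ (G m a (b + e) : Submodule k (PA k)) ∧ p.2 ∈ (G m a (b + e) : Submodule k (PA k))) ∧
      rx 0 p.1 + rx 1 p.2 ∈ (G m (a + 1) b : Submodule k (PA k)) := Iff.rfl

variable (k)

/-- `S_m ⊗ P_e(a0,0)` -/
noncomputable abbrev SP (m a0 e : ℤ) : Bw k where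
  V := PA k × PA k
  x := fun i => (lx i).prodMap (lx i)
  d := fun i => (ld i).prodMap (ld i)
  xx := fun i j v => Prod.ext (lx_comm i j _) (lx_comm i j _)
  dd := fun i j v => Prod.ext (ld_comm i j _) (ld_comm i j _)
  dx := fun i j v => by
    refine Prod.ext ((ld_lx i j _).trans ?_) ((ld_lx i j _).trans ?_) <;> split_ifs <;> simp
  F := fun a b => GP k m e (a + a0) b
  mono := fun a b b' h v hv => by
    obtain ⟨⟨h1, h2⟩, h3⟩ := hv
    exact ⟨⟨G_mono _ _ _ _ (by omega) h1, G_mono _ _ _ _ (by omega) h2⟩,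
      G_mono _ _ _ _ (by omega) h3⟩
  Fx := fun i a b v hv => by
    obtain ⟨⟨h1, h2⟩, h3⟩ := hv
    have h1' := lx_mem i _ _ _ _ h1
    have h2' := lx_mem i _ _ _ _ h2
    have h3' := lx_mem i _ _ _ _ h3
    rw [show a + a0 + 1 = a + 1 + a0 by ring] at h1' h2' h3'
    refine ⟨⟨h1', h2'⟩, ?_⟩
    change rx 0 (lx i v.1) + rx 1 (lx i v.2) ∈
      (G m (a + 1 + a0 + 1) b : Submodule k (PA k))
    rwa [← lx_rx, ← lx_rx, ← map_add]
  Fd := fun i a b v hv => by
    obtain ⟨⟨h1, h2⟩, h3⟩ := hv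
    have h1' := ld_mem i _ _ _ _ h1
    have h2' := ld_mem i _ _ _ _ h2
    have h3' := ld_mem i _ _ _ _ h3
    rw [show a + a0 - 1 = a - 1 + a0 by ring, show b + e + 1 = b + 1 + e by ring] at h1' h2'
    rw [show a + a0 + 1 - 1 = a - 1 + a0 + 1 by ring] at h3'
    refine ⟨⟨h1', h2'⟩, ?_⟩
    change rx 0 (ld i v.1) + rx 1 (ld i v.2) ∈
      (G m (a - 1 + a0 + 1) (b + 1) : Submodule k (PA k))
    rwa [← ld_rx, ← ld_rx, ← map_add]

/-- homogeneous polynomials of degree `n` -/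
noncomputable def Hx (n : ℤ) : Submodule k (MvPolynomial (Fin 2) k) :=
  restrictSupport k {μ | (μ 0 + μ 1 : ℤ) = n}

variable {k}

theorem Hx_induction {n : ℤ} {M : Type*} [AddCommGroup M] [Module k M]
    (φ : MvPolynomial (Fin 2) k →ₗ[k] M)
    (S : Submodule k M) (h : ∀ μ : Fin 2 →₀ ℕ, (μ 0 + μ 1 : ℤ) = n → φ (monomial μ 1) ∈ S)
    (p : MvPolynomial (Fin 2) k) (hp : p ∈ Hx k n) : φ p ∈ S := by
  rw [p.as_sum, map_sum]
  apply Submodule.sum_mem
  intro μ hμ
  have : monomial μ (coeff μ p) = coeff μ p • monomial μ (1 : k) := by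
    rw [smul_monomial, smul_eq_mul, mul_one]
  rw [this, map_smul]
  exact S.smul_mem _ (h μ (hp hμ))

theorem monomial_mem_Hx {n : ℤ} (μ : Fin 2 →₀ ℕ) (c : k) (h : (μ 0 + μ 1 : ℤ) = n) :
    monomial μ c ∈ Hx k n := by
  intro ν hν
  have := MvPolynomial.support_monomial_subset hν
  rw [Finset.mem_singleton] at this
  rw [this]; exact h

theorem X_mul_mem_Hx (i : Fin 2) (n : ℤ) (p : MvPolynomial (Fin 2) k) (hp : p ∈ Hx k n) :
    X i * p ∈ Hx k (n + 1) := by
  refine Hx_induction (LinearMap.mulLeft k (X i)) _ ?_ p hp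
  intro μ hμ
  rw [LinearMap.mulLeft_apply, X, monomial_mul, mul_one]
  refine monomial_mem_Hx _ _ ?_
  fin_cases i <;> simp <;> omega

theorem pderiv_mem_Hx (i : Fin 2) (n : ℤ) (p : MvPolynomial (Fin 2) k) (hp : p ∈ Hx k n) :
    pderiv i p ∈ Hx k (n - 1) := by
  refine Hx_induction (pderiv (R := k) i).toLinearMap _ ?_ p hp
  intro μ hμ
  change pderiv i (monomial μ 1) ∈ _
  rw [pderiv_monomial]
  by_cases h0 : μ i = 0
  · rw [h0]; simp
  · refine monomial_mem_Hx _ _ ?_
    fin_cases i <;> simp at * <;> omega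

theorem pderiv_comm2 (u v : Fin 2) (p : MvPolynomial (Fin 2) k) :
    pderiv u (pderiv v p) = pderiv v (pderiv u p) := by
  have : ⁅(pderiv u : Derivation k (MvPolynomial (Fin 2) k) (MvPolynomial (Fin 2) k)),
      (pderiv v : Derivation k (MvPolynomial (Fin 2) k) (MvPolynomial (Fin 2) k))⁆ = 0 := by
    apply MvPolynomial.derivation_ext
    intro w
    rw [Derivation.commutator_apply, pderiv_X, pderiv_X, Pi.single_apply, Pi.single_apply]
    split_ifs <;> simp
  have h2 := congrArg (fun D : Derivation k (MvPolynomial (Fin 2) k)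
    (MvPolynomial (Fin 2) k) => D p) this
  simp only [Derivation.commutator_apply, Derivation.zero_apply] at h2
  exact sub_eq_zero.1 h2

variable (k)

/-- `k[x]` with `F a b` the polynomials of degree `n + a` -/
noncomputable abbrev XX (n : ℤ) : Bw k where
  V := MvPolynomial (Fin 2) k
  x := fun i => LinearMap.mulLeft k (X i)
  d := fun i => (pderiv (R := k) i).toLinearMap
  xx := fun i j v => by simp only [LinearMap.mulLeft_apply]; ring
  dd := fun i j v => pderiv_comm2 i j v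
  dx := fun i j v => by
    simp only [LinearMap.mulLeft_apply]
    change pderiv j (X i * v) = X i * pderiv j v + _
    rw [Derivation.leibniz, pderiv_X]
    fin_cases i <;> fin_cases j <;> simp
  F := fun a _ => Hx k (n + a)
  mono := fun a b b' h => le_refl _
  Fx := fun i a b v hv => by
    have := X_mul_mem_Hx i _ v hv
    rwa [add_assoc] at this
  Fd := fun i a b v hv => by
    have := pderiv_mem_Hx i _ v hv
    rwa [add_sub_assoc] at this

/-! ### the modules `T` (carriers without `y`) -/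

/-- the polynomials without `y` (= the Weyl algebra) -/
noncomputable def Y0 : Submodule k (PA k) := restrictSupport k {μ | ydeg μ = 0}

variable {k}

theorem G0_le_Y0 (a b : ℤ) : (G 0 a b : Submodule k (PA k)) ≤ Y0 k := fun _ hp _ hμ => by
  have := (hp hμ).1
  exact_mod_cast this

theorem Y0_induction {M : Type*} [AddCommGroup M] [Module k M] (φ : PA k →ₗ[k] M)
    (S : Submodule k M) (h : ∀ μ : Vr →₀ ℕ, ydeg μ = 0 → φ (monomial μ 1) ∈ S) (p : PA k)
    (hp : p ∈ Y0 k) : φ p ∈ S := by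
  rw [p.as_sum, map_sum]
  apply Submodule.sum_mem
  intro μ hμ
  have : monomial μ (coeff μ p) = coeff μ p • monomial μ (1 : k) := by
    rw [smul_monomial, smul_eq_mul, mul_one]
  rw [this, map_smul]
  exact S.smul_mem _ (h μ (hp hμ))

theorem monomial_mem_Y0 (μ : Vr →₀ ℕ) (c : k) (h : ydeg μ = 0) : monomial μ c ∈ Y0 k := by
  intro ν hν
  have := MvPolynomial.support_monomial_subset hν
  rw [Finset.mem_singleton] at this
  rw [this]; exact h

theorem mulX_mem_Y0 (v : Vr) (h : ∀ μ : Vr →₀ ℕ, ydeg μ = 0 → ydeg (μ + Finsupp.single v 1) = 0)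
    (p : PA k) (hp : p ∈ Y0 k) : X v * p ∈ Y0 k := by
  refine Y0_induction (LinearMap.mulLeft k (X v)) _ ?_ p hp
  intro μ hμ
  rw [LinearMap.mulLeft_apply, X, monomial_mul, mul_one, add_comm]
  exact monomial_mem_Y0 _ _ (h μ hμ)

theorem pderiv_mem_Y0 (v : Vr) (p : PA k) (hp : p ∈ Y0 k) : pderiv v p ∈ Y0 k := by
  refine Y0_induction (pderiv (R := k) v).toLinearMap _ ?_ p hp
  intro μ hμ
  change pderiv v (monomial μ 1) ∈ _
  rw [pderiv_monomial]
  refine monomial_mem_Y0 _ _ ?_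
  simp only [ydeg, Finsupp.tsub_apply] at *
  omega

theorem rx_mem_Y0 (i : Fin 2) (p : PA k) (hp : p ∈ Y0 k) : rx i p ∈ Y0 k := by
  refine mulX_mem_Y0 _ ?_ p hp
  intro μ hμ
  fin_cases i <;> simp [ydeg] at * <;> omega

theorem ld_mem_Y0 (i : Fin 2) (p : PA k) (hp : p ∈ Y0 k) : ld i p ∈ Y0 k := by
  refine mulX_mem_Y0 _ ?_ p hp
  intro μ hμ
  fin_cases i <;> simp [ydeg] at * <;> omega

theorem lx_mem_Y0 (i : Fin 2) (p : PA k) (hp : p ∈ Y0 k) : lx i p ∈ Y0 k :=
  (Y0 k).sub_mem (rx_mem_Y0 i p hp) (pderiv_mem_Y0 _ p hp)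

theorem rd_mem_Y0 (i : Fin 2) (p : PA k) (hp : p ∈ Y0 k) : rd i p ∈ Y0 k :=
  (Y0 k).sub_mem (ld_mem_Y0 i p hp) (pderiv_mem_Y0 _ p hp)

theorem one_mem_Y0 : (1 : PA k) ∈ Y0 k := monomial_mem_Y0 0 1 (by simp [ydeg])

/-- the operators on `Y0` -/
noncomputable def lx0 (i : Fin 2) : Y0 k →ₗ[k] Y0 k := (lx i).restrict (lx_mem_Y0 i)
/-- the operators on `Y0` -/
noncomputable def ld0 (i : Fin 2) : Y0 k →ₗ[k] Y0 k := (ld i).restrict (ld_mem_Y0 i)
/-- the operators on `Y0` -/
noncomputable def rx0 (i : Fin 2) : Y0 k →ₗ[k] Y0 k := (rx i).restrict (rx_mem_Y0 i)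
/-- the operators on `Y0` -/
noncomputable def rd0 (i : Fin 2) : Y0 k →ₗ[k] Y0 k := (rd i).restrict (rd_mem_Y0 i)

theorem lx0_coe (i : Fin 2) (p : Y0 k) : (lx0 i p : PA k) = lx i p := rfl
theorem ld0_coe (i : Fin 2) (p : Y0 k) : (ld0 i p : PA k) = ld i p := rfl
theorem rx0_coe (i : Fin 2) (p : Y0 k) : (rx0 i p : PA k) = rx i p := rfl
theorem rd0_coe (i : Fin 2) (p : Y0 k) : (rd0 i p : PA k) = rd i p := rfl

theorem ld0_lx0 (i j : Fin 2) (v : Y0 k) :
    ld0 j (lx0 i v) = lx0 i (ld0 j v) + if i = j then v else 0 := by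
  have h := ld_lx i j (v : PA k)
  apply Subtype.ext
  rw [ld0_coe, lx0_coe, h]
  split_ifs
  · rw [Submodule.coe_add, lx0_coe, ld0_coe]
  · rw [Submodule.coe_add, lx0_coe, ld0_coe, Submodule.coe_zero]

theorem lx0_comm (i j : Fin 2) (v : Y0 k) : lx0 i (lx0 j v) = lx0 j (lx0 i v) :=
  Subtype.ext (lx_comm i j (v : PA k))

theorem ld0_comm (i j : Fin 2) (v : Y0 k) : ld0 i (ld0 j v) = ld0 j (ld0 i v) :=
  Subtype.ext (ld_comm i j (v : PA k))

variable (k)

/-- `W(0,b)` -/
noncomputable abbrev TO (b0 : ℤ) : Bw k where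
  V := Y0 k
  x := lx0
  d := ld0
  xx := lx0_comm
  dd := ld0_comm
  dx := ld0_lx0
  F := fun a b => (G 0 a (b + b0)).comap (Y0 k).subtype
  mono := fun a b b' h v hv => by
    change (v : PA k) ∈ (G 0 a (b + b0) : Submodule k (PA k)) at hv
    change (v : PA k) ∈ (G 0 a (b' + b0) : Submodule k (PA k))
    exact G_mono _ _ _ _ (by omega) hv
  Fx := fun i a b v hv => by
    change (v : PA k) ∈ (G 0 a (b + b0) : Submodule k (PA k)) at hv
    change lx i (v : PA k) ∈ (G 0 (a + 1) (b + b0) : Submodule k (PA k))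
    exact lx_mem i _ _ _ (v : PA k) hv
  Fd := fun i a b v hv => by
    change (v : PA k) ∈ (G 0 a (b + b0) : Submodule k (PA k)) at hv
    change ld i (v : PA k) ∈ (G 0 (a - 1) (b + 1 + b0) : Submodule k (PA k))
    have := ld_mem i _ _ _ (v : PA k) hv
    rwa [show b + b0 + 1 = b + 1 + b0 by ring] at this

/-- `Y0 × Y0 → PA × PA` -/
noncomputable def inc2 : (Y0 k × Y0 k) →ₗ[k] (PA k × PA k) :=
  (Y0 k).subtype.prodMap (Y0 k).subtype

/-- `P_e` -/
noncomputable abbrev TP (e : ℤ) : Bw k where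
  V := Y0 k × Y0 k
  x := fun i => (lx0 i).prodMap (lx0 i)
  d := fun i => (ld0 i).prodMap (ld0 i)
  xx := fun i j v => Prod.ext (lx0_comm i j _) (lx0_comm i j _)
  dd := fun i j v => Prod.ext (ld0_comm i j _) (ld0_comm i j _)
  dx := fun i j v => by
    refine Prod.ext ((ld0_lx0 i j v.1).trans ?_)
      ((ld0_lx0 i j v.2).trans ?_) <;> split_ifs <;> simp
  F := fun a b => (GP k 0 e a b).comap (inc2 k)
  mono := fun a b b' h v hv => by
    have := (SP k 0 0 e).mono a b b' h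
    simp only [add_zero] at this
    exact this hv
  Fx := fun i a b v hv => by
    have := (SP k 0 0 e).Fx i a b (inc2 k v) (by simp only [add_zero]; exact hv)
    simp only [add_zero] at this
    exact this
  Fd := fun i a b v hv => by
    have := (SP k 0 0 e).Fd i a b (inc2 k v) (by simp only [add_zero]; exact hv)
    simp only [add_zero] at this
    exact this

end Vale.Agent.P195.AR
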