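import Vale.Agent.Lib.P195.AR.HChase
import Vale.Agent.Lib.P195.AR.Facts
import Vale.Agent.Lib.P195.AR.Std

/-! # P195, part H1: the maps of the resolution are maps of bifiltered modules; the evaluation -/

namespace Vale.Agent.P195.AR.H1

open MvPolynomial

variable {k : Type} [Field k]

/-- forget `d` and `y` -/
noncomputable def resx : PA k →ₐ[k] MvPolynomial (Fin 2) k :=
  aeval (fun v => match v with
    | .x i => X i
    | .d _ => 0
    | .y _ => 0)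

/-- the inclusion of the polynomials in `x` -/
noncomputable def incx : MvPolynomial (Fin 2) k →ₐ[k] PA k :=
  aeval (fun i => X (Vr.x i))

theorem resx_incx (v : MvPolynomial (Fin 2) k) : resx (incx v) = v := by
  have : (resx : PA k →ₐ[k] _).comp incx = AlgHom.id k (MvPolynomial (Fin 2) k) := by
    apply MvPolynomial.algHom_ext
    intro i
    simp [resx, incx]
  exact congrArg (fun φ : MvPolynomial (Fin 2) k →ₐ[k] MvPolynomial (Fin 2) k => φ v) this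

theorem incx_mem {a : ℤ} {v : MvPolynomial (Fin 2) k} (hv : v ∈ Hx k a) :
    incx v ∈ (G 0 a 0 : Submodule k (PA k)) := by
  refine Hx_induction (incx : MvPolynomial (Fin 2) k →ₐ[k] PA k).toLinearMap _ ?_ v hv
  intro μ hμ
  change incx (monomial μ 1) ∈ _
  have e : (incx (monomial μ 1) : PA k) = monomial (Finsupp.single (Vr.x 0) (μ 0)
      + Finsupp.single (Vr.x 1) (μ 1)) 1 := by
    rw [incx, aeval_monomial, map_one, one_mul, Finsupp.prod_fintype _ _ (fun i => pow_zero _),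
      Fin.prod_univ_two, X_pow_eq_monomial, X_pow_eq_monomial, monomial_mul, mul_one]
  rw [e]
  apply monomial_mem_G
  refine ⟨?_, ?_, ?_⟩
  · simp [ydeg]
  · simp [xdeg, ddeg]
    omega
  · simp [ddeg]

/-- on the polynomials in `x` only, `incx ∘ resx` is the identity -/
theorem incx_resx {a : ℤ} {f : PA k} (hf : f ∈ (G 0 a 0 : Submodule k (PA k))) :
    incx (resx f) = f := by
  have h1 := G_induction (m := 0) (a := a) (b := 0)
    ((incx : MvPolynomial (Fin 2) k →ₐ[k] PA k).toLinearMap ∘ₗ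
      (resx : PA k →ₐ[k] MvPolynomial (Fin 2) k).toLinearMap - LinearMap.id) ⊥ ?_ f hf
  · rw [Submodule.mem_bot] at h1
    simp only [LinearMap.sub_apply, LinearMap.comp_apply, AlgHom.toLinearMap_apply,
      LinearMap.id_apply] at h1
    exact sub_eq_zero.1 h1
  · rintro s ⟨h1, h2, h3⟩
    simp only [ydeg, xdeg, ddeg] at h1 h2 h3
    push_cast at h1 h2 h3
    have d0 : s (Vr.d 0) = 0 := by omega
    have d1 : s (Vr.d 1) = 0 := by omega
    have y0 : s (Vr.y 0) = 0 := by omega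
    have y1 : s (Vr.y 1) = 0 := by omega
    rw [Submodule.mem_bot]
    simp only [LinearMap.sub_apply, LinearMap.comp_apply, AlgHom.toLinearMap_apply,
      LinearMap.id_apply]
    rw [sub_eq_zero]
    have hs : s = Finsupp.single (Vr.x 0) (s (Vr.x 0)) + Finsupp.single (Vr.x 1) (s (Vr.x 1)) := by
      ext v
      simp only [Finsupp.add_apply, Finsupp.single_apply]
      rcases v with j | j | j <;> fin_cases j <;> simp [d0, d1, y0, y1]
    have hs2 : monomial s (1 : k) = X (Vr.x 0) ^ s (Vr.x 0) * X (Vr.x 1) ^ s (Vr.x 1) := by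
      conv_lhs => rw [hs]
      simp only [X_pow_eq_monomial, monomial_mul, mul_one]
    rw [hs2]
    simp [resx, incx]

theorem resx_mem {a : ℤ} {f : PA k} (hf : f ∈ (G 0 a 0 : Submodule k (PA k))) :
    resx f ∈ Hx k a := by
  refine G_induction (resx : PA k →ₐ[k] MvPolynomial (Fin 2) k).toLinearMap _ ?_ f hf
  rintro s ⟨h1, h2, h3⟩
  simp only [ydeg, xdeg, ddeg] at h1 h2 h3
  push_cast at h1 h2 h3
  have d0 : s (Vr.d 0) = 0 := by omega
  have d1 : s (Vr.d 1) = 0 := by omega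
  have y0 : s (Vr.y 0) = 0 := by omega
  have y1 : s (Vr.y 1) = 0 := by omega
  have hs : s = Finsupp.single (Vr.x 0) (s (Vr.x 0)) + Finsupp.single (Vr.x 1) (s (Vr.x 1)) := by
    ext v
    simp only [Finsupp.add_apply, Finsupp.single_apply]
    rcases v with j | j | j <;> fin_cases j <;> simp [d0, d1, y0, y1]
  have hs2 : monomial s (1 : k) = X (Vr.x 0) ^ s (Vr.x 0) * X (Vr.x 1) ^ s (Vr.x 1) := by
    conv_lhs => rw [hs]
    simp only [X_pow_eq_monomial, monomial_mul, mul_one]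
  change resx (monomial s 1) ∈ _
  rw [hs2]
  have e : (resx (X (Vr.x 0) ^ s (Vr.x 0) * X (Vr.x 1) ^ s (Vr.x 1)) : MvPolynomial (Fin 2) k)
      = monomial (Finsupp.single 0 (s (Vr.x 0)) + Finsupp.single 1 (s (Vr.x 1))) 1 := by
    rw [map_mul, map_pow, map_pow, show (resx (X (Vr.x 0) : PA k)) = X 0 from by simp [resx],
      show (resx (X (Vr.x 1) : PA k)) = X 1 from by simp [resx], X_pow_eq_monomial,
      X_pow_eq_monomial, monomial_mul, mul_one]
  rw [e]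
  apply monomial_mem_Hx
  simp
  omega

theorem resx_pderiv (i : Fin 2) (f : PA k) :
    resx (pderiv (Vr.x i) f) = pderiv i (resx f) := by
  induction f using MvPolynomial.induction_on with
  | C a => simp [resx]
  | add p q hp hq => simp only [map_add, hp, hq]
  | mul_X p v hp =>
    simp only [map_mul, Derivation.leibniz, smul_eq_mul, hp, map_add]
    cases v with
    | x j => fin_cases i <;> fin_cases j <;> simp [resx, pderiv_X]
    | d j => fin_cases i <;> fin_cases j <;> simp [resx, pderiv_X]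
    | y j => fin_cases i <;> fin_cases j <;> simp [resx, pderiv_X]

/-- the evaluation `Q0 → XX n` -/
noncomputable def evX : PA k →ₗ[k] MvPolynomial (Fin 2) k :=
  (resx : PA k →ₐ[k] MvPolynomial (Fin 2) k).toLinearMap ∘ₗ ev

theorem evX_apply (f : PA k) : evX f = resx (ev f) := rfl

theorem ev_eq (f : PA k) : ev f = ap (dg f) := rfl

theorem evX_lx (i : Fin 2) (f : PA k) : evX (lx i f) = X i * evX f := by
  rw [evX_apply, ev_lx, map_mul, evX_apply]
  congr 1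
  simp [resx]

theorem evX_ld (i : Fin 2) (f : PA k) : evX (ld i f) = pderiv i (evX f) := by
  rw [evX_apply, ev_ld, resx_pderiv, evX_apply]

theorem evX_mem {m a b : ℤ} {f : PA k} (hf : f ∈ (G m a b : Submodule k (PA k))) :
    evX f ∈ Hx k (a + m) := resx_mem (ev_mem hf)

theorem evX_zero {m a b : ℤ} {f : PA k} (hf : f ∈ (G m a b : Submodule k (PA k)))
    (h : evX f = 0) : ap (dg f) = 0 := by
  have h1 := incx_resx (ev_mem hf)
  have h2 : resx (ev f) = 0 := h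
  rw [h2, map_zero] at h1
  exact h1.symm

theorem evX_surj [CharZero k] {n : ℕ} {a b : ℤ} (ha : 0 ≤ a) (hb : 0 ≤ b)
    {v : MvPolynomial (Fin 2) k} (hv : v ∈ Hx k (n + a)) :
    ∃ f ∈ (G n a b : Submodule k (PA k)), evX f = v := by
  have h1 : incx v ∈ (G 0 (a + n) 0 : Submodule k (PA k)) :=
    G_cast (incx_mem hv) rfl (by ring) rfl
  obtain ⟨f, hf, e⟩ := factA2 (m := n) ha (by omega) (G_mono _ _ _ _ hb h1)
  refine ⟨f, hf, ?_⟩
  rw [evX_apply, ev_eq, e]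
  have h2 : ap (incx v : PA k) = incx v := ap_of_zero (by rw [← G_eq]; exact h1)
  rw [h2, resx_incx]

/-! ### the maps as filtered maps -/

theorem nsm (n : ℕ) (f : PA k) : (n : PA k) * f = (n : k) • f := by
  rw [smul_eq_C_mul, map_natCast]
theorem n1sm (n : ℕ) (f : PA k) : ((n : PA k) + 1) * f = ((n : k) + 1) • f := by
  rw [smul_eq_C_mul, map_add, map_natCast, map_one]
theorem n2sm (n : ℕ) (f : PA k) : ((n : PA k) + 2) * f = ((n : k) + 2) • f := by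
  rw [smul_eq_C_mul, map_add, map_natCast, map_ofNat]

theorem lx_dy (i j : Fin 2) (p : PA k) : lx i (dy j p) = dy j (lx i p) := (dy_lx j i p).symm
theorem ld_dy (i j : Fin 2) (p : PA k) : ld i (dy j p) = dy j (ld i p) := (dy_ld j i p).symm
theorem lx_my (i j : Fin 2) (p : PA k) : lx i (my j p) = my j (lx i p) := (my_lx j i p).symm
theorem ld_my (i j : Fin 2) (p : PA k) : ld i (my j p) = my j (ld i p) := (my_ld j i p).symm

/-- the maps in terms of the operators -/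
theorem fA_op (n : ℕ) (z : (PA k × PA k) × (PA k × PA k)) : fA n z =
    (rd 0 (rx 0 (dy 0 z.1.1) + rx 1 (dy 1 z.1.1)) - (n : k) • dy 0 z.1.1)
    + (rd 1 (rx 0 (dy 0 z.1.2) + rx 1 (dy 1 z.1.2)) - (n : k) • dy 1 z.1.2)
    - ((n : k) + 1) • (my 0 z.2.1 + my 1 z.2.2)
    + (my 0 (rd 0 (rx 0 z.2.1 + rx 1 z.2.2)) + my 1 (rd 1 (rx 0 z.2.1 + rx 1 z.2.2))) := by
  rw [← nsm, ← nsm, ← n1sm]; rfl

theorem kap_op (z : (PA k × PA k) × (PA k × PA k)) : kap z =
    my 0 (rx 0 z.2.1 + rx 1 z.2.2) - my 1 (rx 0 z.1.1 + rx 1 z.1.2) := rfl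

theorem bw_op (z : (PA k × PA k) × (PA k × PA k)) : bw z =
    rd 0 (dy 1 z.1.1 - dy 0 z.1.2) + rd 1 (dy 1 z.2.1 - dy 0 z.2.2) := rfl

theorem fB_op (n : ℕ) (z : (PA k × PA k) × (PA k × PA k)) : fB n z =
    ((((n : k) + 1) • (my 0 z.1.1 + my 1 z.1.2) + rd 1 (kap z),
      ((n : k) + 1) • (my 0 z.2.1 + my 1 z.2.2) - rd 0 (kap z)),
     (-(((n : k) + 1) • (dy 0 z.1.1 + dy 1 z.2.1)) + rx 1 (bw z),
      -(((n : k) + 1) • (dy 0 z.1.2 + dy 1 z.2.2)) - rx 0 (bw z))) := by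
  rw [← n1sm, ← n1sm, ← n1sm, ← n1sm]; rfl

theorem fC_op (n : ℕ) (h : PA k) : fC n h =
    ((-(((n : k) + 1) • h) + my 0 (dy 0 h) + rx 1 (rd 1 h), my 0 (dy 1 h) - rx 0 (rd 1 h)),
     (my 1 (dy 0 h) - rx 1 (rd 0 h), -(((n : k) + 1) • h) + my 1 (dy 1 h) + rx 0 (rd 0 h))) := by
  rw [← n1sm]; rfl

theorem fF0_op (n : ℕ) (f : PA k) : fF0 n f = ((n : k) + 1) • (rx 0 (dy 0 f) + rx 1 (dy 1 f)) := by
  rw [← n1sm]; rfl

theorem fF3_op (n : ℕ) (f : PA k) : fF3 n f = ((n : k) + 2) • (rx 0 (dy 0 f) + rx 1 (dy 1 f)) := by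
  rw [← n2sm]; rfl

theorem fF1_op (n : ℕ) (z : (PA k × PA k) × (PA k × PA k)) : fF1 n z =
    ((((n : k) + 1) • ((rx 0 (dy 0 z.1.1) + rx 1 (dy 1 z.1.1)) + my 0 (rx 0 z.2.1 + rx 1 z.2.2)),
      ((n : k) + 1) • ((rx 0 (dy 0 z.1.2) + rx 1 (dy 1 z.1.2)) + my 1 (rx 0 z.2.1 + rx 1 z.2.2))),
     (rx 1 (((n : k) + 2) • (dy 1 z.2.1 - dy 0 z.2.2)),
      -(rx 0 (((n : k) + 2) • (dy 1 z.2.1 - dy 0 z.2.2))))) := by
  rw [← n1sm, ← n1sm, ← n2sm]; rfl

theorem Dq_op (z : (PA k × PA k) × (PA k × PA k)) : Dq z =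
    dy 0 (rx 0 z.1.1 + rx 1 z.1.2) + dy 1 (rx 0 z.2.1 + rx 1 z.2.2) := rfl

theorem fF2_op (n : ℕ) (z : (PA k × PA k) × (PA k × PA k)) : fF2 n z =
    ((((n : k) + 2) • ((rx 0 (dy 0 z.1.1) + rx 1 (dy 1 z.1.1)) - Dq z) + rx 1 (rd 1 (Dq z)),
      ((n : k) + 2) • (rx 0 (dy 0 z.1.2) + rx 1 (dy 1 z.1.2)) - rx 0 (rd 1 (Dq z))),
     (((n : k) + 2) • (rx 0 (dy 0 z.2.1) + rx 1 (dy 1 z.2.1)) - rx 1 (rd 0 (Dq z)),
      ((n : k) + 2) • ((rx 0 (dy 0 z.2.2) + rx 1 (dy 1 z.2.2)) - Dq z) + rx 0 (rd 0 (Dq z)))) := by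
  rw [← n2sm, ← n2sm, ← n2sm, ← n2sm]; rfl

variable (k)

/-- the modules of the resolution -/
noncomputable abbrev B3 (n : ℕ) : Bw k := SO k n 0 0
noncomputable abbrev B2 (n : ℕ) : Bw k := (SP k n 0 1).prod (SP k n 0 1)
noncomputable abbrev B1 (n : ℕ) : Bw k :=
  ((SO k (n + 1) 0 1).prod (SO k (n + 1) 0 1)).prod (SP k (n - 1) 0 2)
noncomputable abbrev B0 (n : ℕ) : Bw k := SO k n 0 2

variable {k}

theorem mem_B3 {n : ℕ} {a b : ℤ} {z : PA k} : z ∈ (B3 k n).F a b ↔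
    z ∈ (G n a b : Submodule k (PA k)) := by
  change z ∈ (G n (a + 0) (b + 0) : Submodule k (PA k)) ↔ _
  rw [add_zero, add_zero]

theorem mem_B0 {n : ℕ} {a b : ℤ} {z : PA k} : z ∈ (B0 k n).F a b ↔
    z ∈ (G n a (b + 2) : Submodule k (PA k)) := by
  change z ∈ (G n (a + 0) (b + 2) : Submodule k (PA k)) ↔ _
  rw [add_zero]

theorem mem_SP {m e a b : ℤ} {p : PA k × PA k} : p ∈ (SP k m 0 e).F a b ↔ MP e m a b p := by
  change p ∈ GP k m e (a + 0) b ↔ _
  rw [add_zero]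
  exact ⟨fun h => ⟨h.1.1, h.1.2, h.2⟩, fun h => ⟨⟨h.1, h.2.1⟩, h.2.2⟩⟩

theorem mem_B2 {n : ℕ} {a b : ℤ} {z : (PA k × PA k) × (PA k × PA k)} :
    z ∈ (B2 k n).F a b ↔ M2 n a b z := by
  change (z.1 ∈ (SP k n 0 1).F a b ∧ z.2 ∈ (SP k n 0 1).F a b) ↔ _
  rw [mem_SP, mem_SP]
  rfl

theorem mem_B1 {n : ℕ} {a b : ℤ} {z : (PA k × PA k) × (PA k × PA k)} :
    z ∈ (B1 k n).F a b ↔ M1 n a b z := by
  change ((z.1.1 ∈ (G (n + 1) (a + 0) (b + 1) : Submodule k (PA k)) ∧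
    z.1.2 ∈ (G (n + 1) (a + 0) (b + 1) : Submodule k (PA k))) ∧ z.2 ∈ (SP k (n - 1) 0 2).F a b) ↔ _
  rw [mem_SP, add_zero]
  rfl

theorem mA_hom (n : ℕ) : mA n ∈ HomW (B1 k n) (B0 k n) := by
  refine ⟨fun i z => ?_, fun i z => ?_, fun a b z hz => ?_⟩
  · change fA n ((lx i z.1.1, lx i z.1.2), (lx i z.2.1, lx i z.2.2)) = lx i (fA n z)
    rw [fA_op, fA_op]
    simp only [map_add, map_sub, map_smul, lx_rd, lx_rx, lx_dy, lx_my]
  · change fA n ((ld i z.1.1, ld i z.1.2), (ld i z.2.1, ld i z.2.2)) = ld i (fA n z)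
    rw [fA_op, fA_op]
    simp only [map_add, map_sub, map_smul, ld_rd, ld_rx, ld_dy, ld_my]
  · rw [mem_B1] at hz
    rw [mem_B0]
    exact fA_mem hz

theorem mB_hom (n : ℕ) : mB n ∈ HomW (B2 k n) (B1 k n) := by
  refine ⟨fun i z => ?_, fun i z => ?_, fun a b z hz => ?_⟩
  · change fB n ((lx i z.1.1, lx i z.1.2), (lx i z.2.1, lx i z.2.2)) =
      ((lx i (fB n z).1.1, lx i (fB n z).1.2), (lx i (fB n z).2.1, lx i (fB n z).2.2))
    rw [fB_op, fB_op]
    simp only [kap_op, bw_op, map_add, map_sub, map_neg, map_smul, lx_rd, lx_rx, lx_dy, lx_my]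
  · change fB n ((ld i z.1.1, ld i z.1.2), (ld i z.2.1, ld i z.2.2)) =
      ((ld i (fB n z).1.1, ld i (fB n z).1.2), (ld i (fB n z).2.1, ld i (fB n z).2.2))
    rw [fB_op, fB_op]
    simp only [kap_op, bw_op, map_add, map_sub, map_neg, map_smul, ld_rd, ld_rx, ld_dy, ld_my]
  · rw [mem_B2] at hz
    rw [mem_B1]
    exact fB_mem hz

theorem mC_hom (n : ℕ) : mC n ∈ HomW (B3 k n) (B2 k n) := by
  refine ⟨fun i z => ?_, fun i z => ?_, fun a b z hz => ?_⟩
  · change fC n (lx i z) =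
      ((lx i (fC n z).1.1, lx i (fC n z).1.2), (lx i (fC n z).2.1, lx i (fC n z).2.2))
    rw [fC_op, fC_op]
    simp only [map_add, map_sub, map_neg, map_smul, lx_rd, lx_rx, lx_dy, lx_my]
  · change fC n (ld i z) =
      ((ld i (fC n z).1.1, ld i (fC n z).1.2), (ld i (fC n z).2.1, ld i (fC n z).2.2))
    rw [fC_op, fC_op]
    simp only [map_add, map_sub, map_neg, map_smul, ld_rd, ld_rx, ld_dy, ld_my]
  · rw [mem_B3] at hz
    rw [mem_B2]
    exact fC_mem hz (Eul_of_mem hz)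

theorem evX_hom (n : ℕ) : evX ∈ HomW (B0 k n) (XX k n) := by
  refine ⟨fun i z => evX_lx i z, fun i z => evX_ld i z, fun a b z hz => ?_⟩
  rw [mem_B0] at hz
  have := evX_mem hz
  change evX z ∈ Hx k (n + a)
  rwa [add_comm]

theorem mF0_hom (n : ℕ) : mF0 n ∈ HomW (B0 k (n + 1)) ((B0 k n).shift 1 0) := by
  refine ⟨fun i z => ?_, fun i z => ?_, fun a b z hz => ?_⟩
  · change fF0 n (lx i z) = lx i (fF0 n z)
    rw [fF0_op, fF0_op]
    simp only [map_add, map_smul, lx_rx, lx_dy]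
  · change fF0 n (ld i z) = ld i (fF0 n z)
    rw [fF0_op, fF0_op]
    simp only [map_add, map_smul, ld_rx, ld_dy]
  · rw [mem_B0] at hz
    push_cast at hz
    change fF0 n z ∈ (B0 k n).F (a + 1) (b + 0)
    rw [mem_B0, add_zero]
    exact fF0_mem hz

theorem mF3_hom (n : ℕ) : mF3 n ∈ HomW (B3 k (n + 1)) ((B3 k n).shift 1 0) := by
  refine ⟨fun i z => ?_, fun i z => ?_, fun a b z hz => ?_⟩
  · change fF3 n (lx i z) = lx i (fF3 n z)
    rw [fF3_op, fF3_op]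
    simp only [map_add, map_smul, lx_rx, lx_dy]
  · change fF3 n (ld i z) = ld i (fF3 n z)
    rw [fF3_op, fF3_op]
    simp only [map_add, map_smul, ld_rx, ld_dy]
  · rw [mem_B3] at hz
    push_cast at hz
    change fF3 n z ∈ (B3 k n).F (a + 1) (b + 0)
    rw [mem_B3, add_zero]
    exact fF3_mem hz

theorem mF1_hom (n : ℕ) : mF1 n ∈ HomW (B1 k (n + 1)) ((B1 k n).shift 1 0) := by
  refine ⟨fun i z => ?_, fun i z => ?_, fun a b z hz => ?_⟩
  · change fF1 n ((lx i z.1.1, lx i z.1.2), (lx i z.2.1, lx i z.2.2)) =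
      ((lx i (fF1 n z).1.1, lx i (fF1 n z).1.2), (lx i (fF1 n z).2.1, lx i (fF1 n z).2.2))
    rw [fF1_op, fF1_op]
    simp only [map_add, map_sub, map_neg, map_smul, lx_rx, lx_dy, lx_my]
  · change fF1 n ((ld i z.1.1, ld i z.1.2), (ld i z.2.1, ld i z.2.2)) =
      ((ld i (fF1 n z).1.1, ld i (fF1 n z).1.2), (ld i (fF1 n z).2.1, ld i (fF1 n z).2.2))
    rw [fF1_op, fF1_op]
    simp only [map_add, map_sub, map_neg, map_smul, ld_rx, ld_dy, ld_my]
  · rw [mem_B1] at hz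
    change fF1 n z ∈ (B1 k n).F (a + 1) (b + 0)
    rw [mem_B1, add_zero]
    exact fF1_mem hz

theorem mF2_hom (n : ℕ) : mF2 n ∈ HomW (B2 k (n + 1)) ((B2 k n).shift 1 0) := by
  refine ⟨fun i z => ?_, fun i z => ?_, fun a b z hz => ?_⟩
  · change fF2 n ((lx i z.1.1, lx i z.1.2), (lx i z.2.1, lx i z.2.2)) =
      ((lx i (fF2 n z).1.1, lx i (fF2 n z).1.2), (lx i (fF2 n z).2.1, lx i (fF2 n z).2.2))
    rw [fF2_op, fF2_op]
    simp only [Dq_op, map_add, map_sub, map_smul, lx_rd, lx_rx, lx_dy]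
  · change fF2 n ((ld i z.1.1, ld i z.1.2), (ld i z.2.1, ld i z.2.2)) =
      ((ld i (fF2 n z).1.1, ld i (fF2 n z).1.2), (ld i (fF2 n z).2.1, ld i (fF2 n z).2.2))
    rw [fF2_op, fF2_op]
    simp only [Dq_op, map_add, map_sub, map_smul, ld_rd, ld_rx, ld_dy]
  · rw [mem_B2] at hz
    change fF2 n z ∈ (B2 k n).F (a + 1) (b + 0)
    rw [mem_B2, add_zero]
    exact fF2_mem hz

end Vale.Agent.P195.AR.H1
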