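import Vale.Agent.Lib.P195.AR.GA

/-!
# P195: the cochain complex `C_n(O(a,r))` (section 5 of PROOF.md), in `PA k` (`y` = eta)

Level `n : ℕ`. Cochains: `Φ`; `(Γ_j, Λ_i)`; `Π^c_i` (`P c i`); `Ψ`. Indices start at 0.
`W0 .. W3 a r n` = the windows for `N = O(a,r)`. `Rel.lean` etc.: relative exactness.
-/

namespace Vale.Agent.P195.AR.S5

open MvPolynomial

variable {k : Type} [Field k]

/-! ### memberships with free indices -/

theorem Gle {m a b m' a' b' : ℤ} {f : PA k} (hf : f ∈ (G m a b : Submodule k (PA k)))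
    (hm : m = m') (ha : a = a') (hb : b ≤ b') : f ∈ (G m' a' b' : Submodule k (PA k)) := by
  subst hm; subst ha; exact G_mono _ _ _ _ hb hf

theorem Hle {m p q a b m' : ℤ} {f : PA k} (hf : f ∈ (H m p q : Submodule k (PA k)))
    (hm : m = m') (h1 : p - q = a) (h2 : q ≤ b) : f ∈ (G m' a b : Submodule k (PA k)) := by
  subst hm; exact H_le_G _ _ _ _ _ h1 h2 hf

theorem lxG {i : Fin 2} {m a b m' a' b' : ℤ} {f : PA k}
    (hf : f ∈ (G m a b : Submodule k (PA k))) (hm : m = m') (ha : a + 1 = a') (hb : b ≤ b') :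
    lx i f ∈ (G m' a' b' : Submodule k (PA k)) := Gle (lx_mem i _ _ _ f hf) hm ha hb

theorem ldG {i : Fin 2} {m a b m' a' b' : ℤ} {f : PA k}
    (hf : f ∈ (G m a b : Submodule k (PA k))) (hm : m = m') (ha : a - 1 = a') (hb : b + 1 ≤ b') :
    ld i f ∈ (G m' a' b' : Submodule k (PA k)) := Gle (ld_mem i _ _ _ f hf) hm ha hb

theorem myG {i : Fin 2} {m a b m' a' b' : ℤ} {f : PA k}
    (hf : f ∈ (G m a b : Submodule k (PA k))) (hm : m + 1 = m') (ha : a = a') (hb : b ≤ b') :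
    my i f ∈ (G m' a' b' : Submodule k (PA k)) := Gle (my_mem i _ _ _ f hf) hm ha hb

theorem dyG {i : Fin 2} {m a b m' a' b' : ℤ} {f : PA k}
    (hf : f ∈ (G m a b : Submodule k (PA k))) (hm : m - 1 = m') (ha : a = a') (hb : b ≤ b') :
    dy i f ∈ (G m' a' b' : Submodule k (PA k)) := Gle (dy_mem i _ _ _ f hf) hm ha hb

theorem Hcast {m p q m' p' q' : ℤ} {f : PA k} (hf : f ∈ (H m p q : Submodule k (PA k)))
    (hm : m = m') (hp : p = p') (hq : q = q') : f ∈ (H m' p' q' : Submodule k (PA k)) := by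
  subst hm; subst hp; subst hq; exact hf

/-- the top symbol of `lx i f` is `x_i f` -/
theorem lx_top {i : Fin 2} {m p q m' a' b' : ℤ} {f : PA k}
    (hf : f ∈ (H m p q : Submodule k (PA k))) (hm : m = m') (ha : p - q + 1 = a')
    (hb : q - 1 ≤ b') : lx i f - X (Vr.x i) * f ∈ (G m' a' b' : Submodule k (PA k)) := by
  have h1 : lx i f - X (Vr.x i) * f = -pderiv (Vr.d i) f := by rw [lx_apply]; ring
  rw [h1]
  exact Submodule.neg_mem _ (Hle (dd_mem_H i _ _ _ _ hf) hm (by omega) hb)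

/-! ### the operators -/

/-- `Qh = y_0 X_0 + y_1 X_1` -/
noncomputable def Qh (f : PA k) : PA k := my 0 (lx 0 f) + my 1 (lx 1 f)
/-- `Lh = X_1 ∂_{y_0} - X_0 ∂_{y_1}` -/
noncomputable def Lh (f : PA k) : PA k := lx 1 (dy 0 f) - lx 0 (dy 1 f)
/-- `X_1 u_0 - X_0 u_1` -/
noncomputable def ell (u : Fin 2 → PA k) : PA k := lx 1 (u 0) - lx 0 (u 1)
/-- `y^⊥_0 = y_1`, `y^⊥_1 = - y_0` -/
noncomputable def etp (i : Fin 2) (f : PA k) : PA k := if i = 0 then my 1 f else -my 0 f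
/-- `∂^⊥_0 = ∂_{y_1}`, `∂^⊥_1 = - ∂_{y_0}` -/
noncomputable def dyp (i : Fin 2) (f : PA k) : PA k := if i = 0 then dy 1 f else -dy 0 f
/-- `D_0 Γ_1 - D_1 Γ_0` -/
noncomputable def kap (Γ : Fin 2 → PA k) : PA k := ld 0 (Γ 1) - ld 1 (Γ 0)

/-- `d0`, component `Γ` -/
noncomputable def d0G (n : ℕ) (Φ : PA k) (j : Fin 2) : PA k := Qh (ld j Φ) - (n : k) • my j Φ
/-- `d0`, component `Λ` -/
noncomputable def d0L (n : ℕ) (Φ : PA k) (i : Fin 2) : PA k :=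
  -(((n : k) + 1) • dy i Φ) + lx i (ld 0 (dy 0 Φ) + ld 1 (dy 1 Φ))
/-- `d1` -/
noncomputable def d1P (n : ℕ) (Γ Λ : Fin 2 → PA k) (c i : Fin 2) : PA k :=
  ((n : k) + 1) • dy i (Γ c) + lx i (dyp c (kap Γ)) - ((n : k) + 1) • my c (Λ i) +
    etp i (ld c (ell Λ))
/-- `d2` -/
noncomputable def d2S (n : ℕ) (P : Fin 2 → Fin 2 → PA k) : PA k :=
  -(((n : k) + 1) • (P 0 0 + P 1 1)) +
    (my 0 (dy 0 (P 0 0)) + my 1 (dy 0 (P 0 1)) + my 0 (dy 1 (P 1 0)) + my 1 (dy 1 (P 1 1))) +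
    (ld 1 (ell (P 0)) - ld 0 (ell (P 1)))

theorem ell_d0 (n : ℕ) (Φ : PA k) : ell (d0L n Φ) = -(((n : k) + 1) • Lh Φ) := by
  simp only [ell, d0L, Lh, map_add, map_neg, map_smul, smul_sub]
  rw [lx_comm 0 1, lx_comm 0 1]
  ring

theorem ell_d1 (n : ℕ) (Γ Λ : Fin 2 → PA k) (c : Fin 2) : ell (d1P n Γ Λ c) =
    ((n : k) + 1) • Lh (Γ c) - ((n : k) + 1) • my c (ell Λ) + Qh (ld c (ell Λ)) := by
  have e1 : etp 0 (ld c (ell Λ)) = my 1 (ld c (ell Λ)) := if_pos rfl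
  have e2 : etp 1 (ld c (ell Λ)) = -my 0 (ld c (ell Λ)) := if_neg (by decide)
  rw [ell, d1P, d1P, e1, e2]
  simp only [Lh, Qh, map_add, map_sub, map_neg, map_smul, smul_sub, my_lx]
  rw [lx_comm 1 0 (dyp c (kap Γ))]
  have e3 : my c (ell Λ) = lx 1 (my c (Λ 0)) - lx 0 (my c (Λ 1)) := by
    rw [ell, map_sub, my_lx, my_lx]
  rw [e3, smul_sub]
  ring

/-! ### the windows of `O(a,r)` -/

/-- `C^0` -/
def W0 (a r : ℤ) (n : ℕ) (Φ : PA k) : Prop := Φ ∈ (G n a (r - 2) : Submodule k (PA k))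
/-- `C^1` -/
def W1 (a r : ℤ) (n : ℕ) (Γ Λ : Fin 2 → PA k) : Prop :=
  (∀ j, Γ j ∈ (G (n + 1) a (r - 1) : Submodule k (PA k))) ∧
  (∀ i, Λ i ∈ (G (n - 1) a r : Submodule k (PA k))) ∧
  ell Λ ∈ (G (n - 1) (a + 1) (r - 2) : Submodule k (PA k))
/-- `C^2` -/
def W2 (a r : ℤ) (n : ℕ) (P : Fin 2 → Fin 2 → PA k) : Prop :=
  (∀ c i, P c i ∈ (G n a r : Submodule k (PA k))) ∧
  ∀ c, ell (P c) ∈ (G n (a + 1) (r - 1) : Submodule k (PA k))
/-- `C^3` -/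
def W3 (a r : ℤ) (n : ℕ) (Ψ : PA k) : Prop := Ψ ∈ (G n a r : Submodule k (PA k))

theorem ell_add (u v : Fin 2 → PA k) : ell (u + v) = ell u + ell v := by
  simp only [ell, Pi.add_apply, map_add]; ring
theorem ell_sub (u v : Fin 2 → PA k) : ell (u - v) = ell u - ell v := by
  simp only [ell, Pi.sub_apply, map_sub]; ring

end Vale.Agent.P195.AR.S5
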