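import Vale.Agent.Lib.P195.AR.Eta2
import Vale.Agent.Lib.P195.AR.RelDefs
import Vale.Agent.Lib.P195.AR.HHom

/-!
# P195: the cochain complexes: `th` of the differentials

`th Φ ∘ fA = (d0G, d0L)`, `(th Γ, th Λ) ∘ fB = d1P`, `th P ∘ fC = d2S`, `th Ψ ∘ fF3 = (n+2) Qh Ψ`.
-/

namespace Vale.Agent.P195.AR.S5

open MvPolynomial

variable {k : Type} [Field k]

/-- the map of `B0` (or `B3`) given by `Φ` -/
noncomputable def t0 (Φ : PA k) : PA k →ₗ[k] PA k := th Φ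
/-- the map of `B1` given by `(Γ, Λ)` -/
noncomputable def t1 (Γ Λ : Fin 2 → PA k) : ((PA k × PA k) × (PA k × PA k)) →ₗ[k] PA k :=
  ((th (Γ 0)).coprod (th (Γ 1))).coprod ((th (Λ 0)).coprod (th (Λ 1)))
/-- the map of `B2` given by `P` -/
noncomputable def t2 (P : Fin 2 → Fin 2 → PA k) : ((PA k × PA k) × (PA k × PA k)) →ₗ[k] PA k :=
  ((th (P 0 0)).coprod (th (P 0 1))).coprod ((th (P 1 0)).coprod (th (P 1 1)))

theorem t1_apply (Γ Λ : Fin 2 → PA k) (z : (PA k × PA k) × (PA k × PA k)) :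
    t1 Γ Λ z = th (Γ 0) z.1.1 + th (Γ 1) z.1.2 + (th (Λ 0) z.2.1 + th (Λ 1) z.2.2) := rfl

theorem t2_apply (P : Fin 2 → Fin 2 → PA k) (z : (PA k × PA k) × (PA k × PA k)) :
    t2 P z = th (P 0 0) z.1.1 + th (P 0 1) z.1.2 + (th (P 1 0) z.2.1 + th (P 1 1) z.2.2) := rfl

theorem th_sub (Φ Φ' : PA k) (p : PA k) : th (Φ - Φ') p = th Φ p - th Φ' p := by
  have := th_add (Φ - Φ') Φ' p
  rw [sub_add_cancel] at this
  rw [this, add_sub_cancel_right]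

theorem th_neg (Φ : PA k) (p : PA k) : th (-Φ) p = -th Φ p := by
  have := th_smul (-1) Φ p
  rwa [neg_one_smul, neg_one_smul] at this

/-! ### `y`-degrees -/

theorem Coch_ydeg_add {v : Vr} (hv : ∀ i, v ≠ Vr.y i) (ν : Vr →₀ ℕ) :
    ydeg (Finsupp.single v 1 + ν) = ydeg ν := by
  simp only [ydeg, Finsupp.add_apply, Finsupp.single_eq_of_ne' (hv 0),
    Finsupp.single_eq_of_ne' (hv 1), zero_add]

theorem Coch_ydeg_sub {v : Vr} (hv : ∀ i, v ≠ Vr.y i) (ν : Vr →₀ ℕ) :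
    ydeg (ν - Finsupp.single v 1) = ydeg ν := by
  simp only [ydeg, Finsupp.tsub_apply, Finsupp.single_eq_of_ne' (hv 0),
    Finsupp.single_eq_of_ne' (hv 1), tsub_zero]

theorem Coch_X {m : ℤ} {p : PA k} {v : Vr} (hv : ∀ i, v ≠ Vr.y i) (hp : Yd m p) :
    Yd m (X v * p) := by
  intro μ hμ
  rw [MvPolynomial.support_X_mul, Finset.mem_map] at hμ
  obtain ⟨ν, hν, rfl⟩ := hμ
  change (ydeg (Finsupp.single v 1 + ν) : ℤ) = m
  rw [Coch_ydeg_add hv]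
  exact hp ν hν

theorem Coch_sub {m : ℤ} {p q : PA k} (hp : Yd m p) (hq : Yd m q) : Yd m (p - q) := by
  have h1 : p ∈ restrictSupport k {μ : Vr →₀ ℕ | (ydeg μ : ℤ) = m} := hp
  have h2 : q ∈ restrictSupport k {μ : Vr →₀ ℕ | (ydeg μ : ℤ) = m} := hq
  exact Submodule.sub_mem _ h1 h2

theorem Coch_pd {m : ℤ} {p : PA k} {v : Vr} (hv : ∀ i, v ≠ Vr.y i) (hp : Yd m p) :
    Yd m (pderiv v p) := by
  have h2 : pderiv v p ∈ restrictSupport k {μ : Vr →₀ ℕ | (ydeg μ : ℤ) = m} := by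
    rw [p.as_sum, map_sum]
    apply Submodule.sum_mem
    intro μ hμ
    rw [pderiv_monomial]
    intro ν hν
    have := MvPolynomial.support_monomial_subset hν
    rw [Finset.mem_singleton] at this
    rw [this]
    change (ydeg (μ - Finsupp.single v 1) : ℤ) = m
    rw [Coch_ydeg_sub hv]
    exact hp μ hμ
  exact h2

theorem Coch_lx {m : ℤ} {p : PA k} (i : Fin 2) (hp : Yd m p) : Yd m (lx i p) := by
  rw [lx_apply]
  exact Coch_sub (Coch_X (fun j => by simp) hp) (Coch_pd (fun j => by simp) hp)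

theorem Coch_ld {m : ℤ} {p : PA k} (i : Fin 2) (hp : Yd m p) : Yd m (ld i p) :=
  Coch_X (fun j => by simp) hp

/-- `th Φ ∘ fA` -/
theorem th_fA {n : ℕ} {Φ : PA k} (hΦ : Yd n Φ) {z : (PA k × PA k) × (PA k × PA k)}
    (h1 : Yd (n + 1) z.1.1) (h2 : Yd (n + 1) z.1.2) :
    th Φ (H1.fA n z) = t1 (d0G n Φ) (d0L n Φ) z := by
  have e1 : ∀ (i j : Fin 2) (g : PA k), Yd (n + 1) g →
      th Φ (rd j (rx i (dy i g))) = th (my i (lx i (ld j Φ))) g := fun i j g hg => by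
    rw [th_rd, th_rx, th_dy _ n (Coch_lx i (Coch_ld j hΦ)) i g hg]
  have e2 : ∀ (j : Fin 2) (g : PA k), Yd (n + 1) g → th Φ (dy j g) = th (my j Φ) g :=
    fun j g hg => th_dy _ n hΦ j g hg
  have e3 : ∀ (i j : Fin 2) (g : PA k), th Φ (my j (rd j (rx i g))) =
      th (lx i (ld j (dy j Φ))) g := fun i j g => by rw [th_my, th_rd, th_rx]
  rw [H1.fA_op, t1_apply]
  simp only [map_add, map_sub, map_smul, e1 _ _ _ h1, e1 _ _ _ h2, e2 _ _ h1, e2 _ _ h2, e3,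
    d0G, d0L, Qh, th_add, th_sub, th_smul, th_neg, smul_add, th_my Φ]
  abel

/-- `(th Γ, th Λ) ∘ fB` -/
theorem th_fB {n : ℕ} {Γ Λ : Fin 2 → PA k} (hΛ : ∀ i, Yd (n - 1) (Λ i))
    {z : (PA k × PA k) × (PA k × PA k)} (h1 : Yd n z.1.1) (h2 : Yd n z.1.2) (h3 : Yd n z.2.1)
    (h4 : Yd n z.2.2) : t1 Γ Λ (H1.fB n z) = t2 (d1P n Γ Λ) z := by
  have c : ∀ {g : PA k}, Yd n g → Yd ((n : ℤ) - 1 + 1) g := fun {g} hg => by
    rw [sub_add_cancel]; exact hg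
  have e1 : ∀ (l i j s : Fin 2) (g : PA k), Yd n g →
      th (Λ l) (rx i (rd j (dy s g))) = th (my s (ld j (lx i (Λ l)))) g := fun l i j s g hg => by
    rw [th_rx, th_rd, th_dy _ (n - 1) (Coch_ld j (Coch_lx i (hΛ l))) s g (c hg)]
  have e2 : ∀ (l j : Fin 2) (g : PA k), Yd n g → th (Λ l) (dy j g) = th (my j (Λ l)) g :=
    fun l j g hg => th_dy _ (n - 1) (hΛ l) j g (c hg)
  have e3 : ∀ (l i j s : Fin 2) (g : PA k), th (Γ l) (rd s (my j (rx i g))) =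
      th (lx i (dy j (ld s (Γ l)))) g := fun l i j s g => by rw [th_rd, th_my, th_rx]
  have e4 : ∀ (l j : Fin 2) (g : PA k), th (Γ l) (my j g) = th (dy j (Γ l)) g :=
    fun l j g => th_my _ _ _
  have p0 : ∀ f : PA k, dyp 0 f = dy 1 f := fun f => if_pos rfl
  have p1 : ∀ f : PA k, dyp 1 f = -dy 0 f := fun f => if_neg (by decide)
  have q0 : ∀ f : PA k, etp 0 f = my 1 f := fun f => if_pos rfl
  have q1 : ∀ f : PA k, etp 1 f = -my 0 f := fun f => if_neg (by decide)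
  rw [H1.fB_op, t1_apply, t2_apply]
  simp only [H1.kap_op, H1.bw_op, map_add, map_sub, map_neg, map_smul, e1 _ _ _ _ _ h1,
    e1 _ _ _ _ _ h2, e1 _ _ _ _ _ h3, e1 _ _ _ _ _ h4, e2 _ _ _ h1, e2 _ _ _ h2, e2 _ _ _ h3,
    e2 _ _ _ h4, e3, e4, d1P, kap, ell, p0, p1, q0, q1, th_add, th_sub, th_smul, th_neg,
    smul_add, smul_sub]
  abel

/-- `th P ∘ fC` -/
theorem th_fC {n : ℕ} {P : Fin 2 → Fin 2 → PA k} (hP : ∀ c i, Yd n (P c i)) {h : PA k}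
    (hh : Yd n h) : t2 P (H1.fC n h) = th (d2S n P) h := by
  have hh' : Yd ((n : ℤ) - 1 + 1) h := by rw [sub_add_cancel]; exact hh
  have e1 : ∀ c i j s : Fin 2, th (P c i) (my j (dy s h)) = th (my s (dy j (P c i))) h :=
    fun c i j s => by rw [th_my, th_dy _ (n - 1) (Yd_dy j (hP c i)) s h hh']
  have e2 : ∀ c i j s : Fin 2, th (P c i) (rx j (rd s h)) = th (ld s (lx j (P c i))) h :=
    fun c i j s => by rw [th_rx, th_rd]
  rw [H1.fC_op, t2_apply]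
  simp only [map_add, map_sub, map_neg, map_smul, e1, e2, d2S, ell, th_add, th_sub, th_smul,
    th_neg, smul_add]
  abel

/-- `th Ψ ∘ fF3` -/
theorem th_fF3 {n : ℕ} {Ψ : PA k} (hΨ : Yd n Ψ) {f : PA k} (hf : Yd (n + 1) f) :
    th Ψ (H1.fF3 n f) = th (((n : k) + 2) • Qh Ψ) f := by
  have e1 : ∀ i : Fin 2, th Ψ (rx i (dy i f)) = th (my i (lx i Ψ)) f := fun i => by
    rw [th_rx, th_dy _ n (Coch_lx i hΨ) i f hf]
  rw [H1.fF3_op]
  simp only [map_add, map_smul, e1, Qh, th_add, th_smul]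

end Vale.Agent.P195.AR.S5
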