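import Vale.Agent.Lib.P195.AR.RelDefs

/-!
# P195: the cochain complexes: the differentials preserve the windows
-/

namespace Vale.Agent.P195.AR.S5

open MvPolynomial

variable {k : Type} [Field k]

theorem CochW_Qh {m a b m' a' b' : ℤ} {f : PA k} (hf : f ∈ (G m a b : Submodule k (PA k)))
    (hm : m + 1 = m') (ha : a + 1 = a') (hb : b ≤ b') :
    Qh f ∈ (G m' a' b' : Submodule k (PA k)) := by
  have h1 : ∀ i : Fin 2, my i (lx i f) ∈ (G m' a' b' : Submodule k (PA k)) := fun i =>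
    myG (lxG hf rfl rfl le_rfl) hm ha hb
  exact Submodule.add_mem _ (h1 0) (h1 1)

theorem CochW_Lh {m a b m' a' b' : ℤ} {f : PA k} (hf : f ∈ (G m a b : Submodule k (PA k)))
    (hm : m - 1 = m') (ha : a + 1 = a') (hb : b ≤ b') :
    Lh f ∈ (G m' a' b' : Submodule k (PA k)) := by
  have h1 : ∀ i j : Fin 2, lx j (dy i f) ∈ (G m' a' b' : Submodule k (PA k)) := fun i j =>
    lxG (dyG hf rfl rfl le_rfl) hm ha hb
  exact Submodule.sub_mem _ (h1 0 1) (h1 1 0)

theorem CochW_etp (i : Fin 2) {m a b m' a' b' : ℤ} {f : PA k}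
    (hf : f ∈ (G m a b : Submodule k (PA k))) (hm : m + 1 = m') (ha : a = a') (hb : b ≤ b') :
    etp i f ∈ (G m' a' b' : Submodule k (PA k)) := by
  unfold etp
  split_ifs
  · exact myG hf hm ha hb
  · exact Submodule.neg_mem _ (myG hf hm ha hb)

theorem CochW_dyp (i : Fin 2) {m a b m' a' b' : ℤ} {f : PA k}
    (hf : f ∈ (G m a b : Submodule k (PA k))) (hm : m - 1 = m') (ha : a = a') (hb : b ≤ b') :
    dyp i f ∈ (G m' a' b' : Submodule k (PA k)) := by
  unfold dyp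
  split_ifs
  · exact dyG hf hm ha hb
  · exact Submodule.neg_mem _ (dyG hf hm ha hb)

theorem W1_d0 {a r : ℤ} {n : ℕ} {Φ : PA k} (h : W0 a r n Φ) : W1 a r n (d0G n Φ) (d0L n Φ) := by
  unfold W0 at h
  refine ⟨fun j => ?_, fun i => ?_, ?_⟩
  · refine Submodule.sub_mem _ ?_ (Submodule.smul_mem _ _ ?_)
    · exact CochW_Qh (a := a - 1) (b := r - 1) (ldG h rfl rfl (by omega)) rfl (by omega) le_rfl
    · exact myG h rfl rfl (by omega)
  · have hd : ∀ l : Fin 2, ld l (dy l Φ) ∈ (G ((n : ℤ) - 1) (a - 1) (r - 1) : Submodule k (PA k)) :=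
      fun l => ldG (dyG h rfl rfl le_rfl) rfl rfl (by omega)
    refine Submodule.add_mem _ (Submodule.neg_mem _ (Submodule.smul_mem _ _ ?_)) ?_
    · exact dyG h rfl rfl (by omega)
    · exact lxG (Submodule.add_mem _ (hd 0) (hd 1)) rfl (by omega) (by omega)
  · rw [ell_d0]
    exact Submodule.neg_mem _ (Submodule.smul_mem _ _ (CochW_Lh h rfl rfl le_rfl))

theorem W2_d1 {a r : ℤ} {n : ℕ} {Γ Λ : Fin 2 → PA k} (h : W1 a r n Γ Λ) :
    W2 a r n (d1P n Γ Λ) := by
  obtain ⟨h1, h2, h3⟩ := h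
  refine ⟨fun c i => ?_, fun c => ?_⟩
  · have hk : kap Γ ∈ (G ((n : ℤ) + 1) (a - 1) r : Submodule k (PA k)) :=
      Submodule.sub_mem _ (ldG (h1 1) rfl rfl (by omega)) (ldG (h1 0) rfl rfl (by omega))
    refine Submodule.add_mem _ (Submodule.sub_mem _ (Submodule.add_mem _
      (Submodule.smul_mem _ _ ?_) ?_) (Submodule.smul_mem _ _ ?_)) ?_
    · exact dyG (h1 c) (by omega) rfl (by omega)
    · exact lxG (CochW_dyp c hk rfl rfl le_rfl) (by omega) (by omega) le_rfl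
    · exact myG (h2 i) (by omega) rfl le_rfl
    · exact CochW_etp i (ldG h3 rfl rfl le_rfl) (by omega) (by omega) (by omega)
  · rw [ell_d1]
    refine Submodule.add_mem _ (Submodule.sub_mem _ (Submodule.smul_mem _ _ ?_)
      (Submodule.smul_mem _ _ ?_)) ?_
    · exact CochW_Lh (h1 c) (by omega) rfl le_rfl
    · exact myG h3 (by omega) rfl (by omega)
    · exact CochW_Qh (ldG h3 rfl rfl le_rfl) (by omega) (by omega) (by omega)

theorem W3_d2 {a r : ℤ} {n : ℕ} {P : Fin 2 → Fin 2 → PA k} (h : W2 a r n P) :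
    W3 a r n (d2S n P) := by
  obtain ⟨h1, h2⟩ := h
  have e : ∀ i j c l : Fin 2, my i (dy j (P c l)) ∈ (G n a r : Submodule k (PA k)) :=
    fun i j c l => myG (dyG (h1 c l) rfl rfl le_rfl) (by omega) rfl le_rfl
  have e2 : ∀ i c : Fin 2, ld i (ell (P c)) ∈ (G n a r : Submodule k (PA k)) :=
    fun i c => ldG (h2 c) rfl (by omega) (by omega)
  unfold W3 d2S
  refine Submodule.add_mem _ (Submodule.add_mem _ (Submodule.neg_mem _ (Submodule.smul_mem _ _
    (Submodule.add_mem _ (h1 0 0) (h1 1 1)))) ?_) ?_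
  · exact Submodule.add_mem _ (Submodule.add_mem _ (Submodule.add_mem _ (e _ _ _ _) (e _ _ _ _))
      (e _ _ _ _)) (e _ _ _ _)
  · exact Submodule.sub_mem _ (e2 _ _) (e2 _ _)

theorem W3_Qh {a r : ℤ} {n : ℕ} {Ψ : PA k} (h : W3 a r n Ψ) :
    W3 (a + 1) r (n + 1) (((n : k) + 2) • Qh Ψ) := by
  unfold W3 at h ⊢
  exact Submodule.smul_mem _ _ (CochW_Qh h (by push_cast; ring) rfl le_rfl)

end Vale.Agent.P195.AR.S5
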