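import Vale.Agent.Lib.P195.AR.Dict
import Vale.Agent.Lib.P195.AR.Coch

/-!
# P195: the four dictionaries `DB0 .. DB3` for the modules of the resolution
-/

namespace Vale.Agent.P195.AR.S5

open MvPolynomial

variable {k : Type} [Field k]

theorem coprod_mem {Q Q' N : Bw k} {f : Q.V →ₗ[k] N.V} {g : Q'.V →ₗ[k] N.V}
    (hf : f ∈ HomW Q N) (hg : g ∈ HomW Q' N) : f.coprod g ∈ HomW (Q.prod Q') N := by
  refine ⟨fun i v => ?_, fun i v => ?_, fun a b v hv => ?_⟩
  · change f (Q.x i v.1) + g (Q'.x i v.2) = N.x i (f v.1 + g v.2)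
    rw [hf.1, hg.1, map_add]
  · change f (Q.d i v.1) + g (Q'.d i v.2) = N.d i (f v.1 + g v.2)
    rw [hf.2.1, hg.2.1, map_add]
  · exact (N.F a b).add_mem (hf.2.2 a b _ hv.1) (hg.2.2 a b _ hv.2)

theorem coprod_inl {Q Q' N : Bw k} {θ : (Q.prod Q').V →ₗ[k] N.V} (h : θ ∈ HomW (Q.prod Q') N) :
    θ ∘ₗ LinearMap.inl k Q.V Q'.V ∈ HomW Q N := by
  refine ⟨fun i v => ?_, fun i v => ?_, fun a b v hv => ?_⟩
  · refine (congrArg θ ?_).trans (h.1 i (v, 0))
    exact Prod.ext rfl (map_zero (Q'.x i)).symm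
  · refine (congrArg θ ?_).trans (h.2.1 i (v, 0))
    exact Prod.ext rfl (map_zero (Q'.d i)).symm
  · exact h.2.2 a b (v, 0) ⟨hv, (Q'.F a b).zero_mem⟩

theorem coprod_inr {Q Q' N : Bw k} {θ : (Q.prod Q').V →ₗ[k] N.V} (h : θ ∈ HomW (Q.prod Q') N) :
    θ ∘ₗ LinearMap.inr k Q.V Q'.V ∈ HomW Q' N := by
  refine ⟨fun i v => ?_, fun i v => ?_, fun a b v hv => ?_⟩
  · refine (congrArg θ ?_).trans (h.1 i (0, v))
    exact Prod.ext (map_zero (Q.x i)).symm rfl
  · refine (congrArg θ ?_).trans (h.2.1 i (0, v))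
    exact Prod.ext (map_zero (Q.d i)).symm rfl
  · exact h.2.2 a b (0, v) ⟨(Q.F a b).zero_mem, hv⟩

theorem coprod_split {Q Q' N : Bw k} (θ : (Q.prod Q').V →ₗ[k] N.V) (v : (Q.prod Q').V) :
    θ v = (θ ∘ₗ LinearMap.inl k Q.V Q'.V) v.1 + (θ ∘ₗ LinearMap.inr k Q.V Q'.V) v.2 := by
  change _ = θ (v.1, 0) + θ (0, v.2)
  rw [← map_add]
  exact congrArg θ (Prod.ext (add_zero _).symm (zero_add _).symm)

theorem th_zero_left (p : PA k) : th (0 : PA k) p = 0 := by
  have := th_add (0 : PA k) 0 p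
  rw [add_zero] at this
  exact left_eq_add.1 this

/-! ### one `SO` -/

theorem so_Yd {m b p q : ℤ} {v : PA k} (hv : v ∈ (SO k m 0 b).F p q) : Yd m v := by
  have hv' : v ∈ (G m (p + 0) (q + b) : Submodule k (PA k)) := hv
  exact Yd_of_G hv'

theorem sp_Yd {m e p q : ℤ} {v : PA k × PA k} (hv : v ∈ (SP k m 0 e).F p q) :
    Yd m v.1 ∧ Yd m v.2 := by
  have hv' : v ∈ GP k m e (p + 0) q := hv
  exact ⟨Yd_of_G hv'.1.1, Yd_of_G hv'.1.2⟩

theorem ym_so {m b : ℤ} (hb : 0 ≤ b) {c0 c1 : ℕ} (h : (c0 + c1 : ℤ) = m) :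
    (ym c0 c1 : PA k) ∈ (SO k m 0 b).F 0 0 := by
  change _ ∈ (G m (0 + 0) (0 + b) : Submodule k (PA k))
  rw [add_zero]
  exact ym_mem_G _ _ _ h _ (by omega)

theorem ym_sp0 {m e : ℤ} (he : 0 ≤ e) {c0 c1 : ℕ} (h : (c0 + c1 : ℤ) = m) :
    ((ym c0 c1, 0) : PA k × PA k) ∈ (SP k m 0 e).F 0 0 := by
  have h3 : rx 0 (ym c0 c1 : PA k) ∈ (G m (0 + 1) 0 : Submodule k (PA k)) :=
    rx_mem 0 _ _ _ _ (ym_mem_G _ _ _ h _ le_rfl)
  have h1 : (ym c0 c1 : PA k) ∈ (G m 0 (0 + e) : Submodule k (PA k)) :=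
    ym_mem_G _ _ _ h _ (by omega)
  change _ ∈ GP k m e (0 + 0) 0
  rw [mem_GP, add_zero, map_zero, add_zero]
  exact ⟨⟨h1, Submodule.zero_mem _⟩, h3⟩

theorem ym_sp1 {m e : ℤ} (he : 0 ≤ e) {c0 c1 : ℕ} (h : (c0 + c1 : ℤ) = m) :
    ((0, ym c0 c1) : PA k × PA k) ∈ (SP k m 0 e).F 0 0 := by
  have h3 : rx 1 (ym c0 c1 : PA k) ∈ (G m (0 + 1) 0 : Submodule k (PA k)) :=
    rx_mem 1 _ _ _ _ (ym_mem_G _ _ _ h _ le_rfl)
  have h1 : (ym c0 c1 : PA k) ∈ (G m 0 (0 + e) : Submodule k (PA k)) :=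
    ym_mem_G _ _ _ h _ (by omega)
  have e1 : rx 0 (0 : PA k) + rx 1 (ym c0 c1 : PA k) = rx 1 (ym c0 c1) := by
    rw [map_zero, zero_add]
  change _ ∈ GP k m e (0 + 0) 0
  rw [mem_GP, add_zero, e1]
  exact ⟨⟨Submodule.zero_mem _, h1⟩, h3⟩

theorem so_uniq [CharZero k] {m b : ℤ} (hb : 0 ≤ b) {Φ : PA k} (hΦ : Yd m Φ)
    (h : ∀ v ∈ (SO k m 0 b).F 0 0, th Φ v = 0) : Φ = 0 := by
  refine eq_zero_of_dyn hΦ fun c0 c1 hc => ?_
  rw [← th_ym]
  exact h _ (ym_so hb hc)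

theorem sp_uniq [CharZero k] {m e : ℤ} (he : 0 ≤ e) {u : Fin 2 → PA k} (hu : ∀ i, Yd m (u i))
    (h : ∀ v ∈ (SP k m 0 e).F 0 0, (th (u 0)).coprod (th (u 1)) v = 0) : u = 0 := by
  have h0 : u 0 = 0 := by
    refine eq_zero_of_dyn (hu 0) fun c0 c1 hc => ?_
    have := h _ (ym_sp0 he hc)
    change th (u 0) (ym c0 c1) + th (u 1) 0 = 0 at this
    rwa [map_zero, add_zero, th_ym] at this
  have h1 : u 1 = 0 := by
    refine eq_zero_of_dyn (hu 1) fun c0 c1 hc => ?_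
    have := h _ (ym_sp1 he hc)
    change th (u 0) 0 + th (u 1) (ym c0 c1) = 0 at this
    rwa [map_zero, zero_add, th_ym] at this
  funext i
  fin_cases i
  · exact h0
  · exact h1

variable [CharZero k]

theorem sp_exi {m e a r : ℤ} (he : 0 ≤ e) {θ : (PA k × PA k) →ₗ[k] PA k}
    (hθ : θ ∈ HomW (SP k m 0 e) (SO k 0 a r)) :
    ∃ u : Fin 2 → PA k, (∀ i, u i ∈ (G m a r : Submodule k (PA k))) ∧
      ell u ∈ (G m (a + 1) (r - e) : Submodule k (PA k)) ∧
      ∀ p q v, v ∈ (SP k m 0 e).F p q → θ v = (th (u 0)).coprod (th (u 1)) v := by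
  obtain ⟨u0, h0, u1, h1, h2, h3⟩ := exists_th_SP he hθ
  refine ⟨![u0, u1], fun i => ?_, h2, fun p q v hv => ?_⟩
  · fin_cases i
    · exact h0
    · exact h1
  · obtain ⟨g1, g2⟩ := sp_Yd hv
    exact h3 v g1 g2

/-- the dictionary for `B0` -/
noncomputable def DB0 (n : ℕ) : Dic (H1.B0 k n) (PA k) where
  W := fun a r c => W0 a r n c
  t := th
  tadd := fun c c' v => th_add c c' v
  zero := fun a r => Submodule.zero_mem _
  sub := fun a r c c' h h' => Submodule.sub_mem _ h h'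
  mono := fun a r r' c h hc => G_mono _ _ _ _ (by omega) hc
  mem := fun a r c h => th_mem_SO h
  exi := fun a r θ hθ => by
    obtain ⟨Φ, h1, h2⟩ := exists_th_SO hθ
    exact ⟨Φ, h1, fun p q v hv => h2 v (so_Yd hv)⟩
  uniq := fun a r c h hv => so_uniq (b := 2) (by omega) (Yd_of_G h) hv

/-- the dictionary for `B3` -/
noncomputable def DB3 (n : ℕ) : Dic (H1.B3 k n) (PA k) where
  W := fun a r c => W3 a r n c
  t := th
  tadd := fun c c' v => th_add c c' v
  zero := fun a r => Submodule.zero_mem _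
  sub := fun a r c c' h h' => Submodule.sub_mem _ h h'
  mono := fun a r r' c h hc => G_mono _ _ _ _ h hc
  mem := fun a r c h => th_mem_SO (by
    have h' : c ∈ (G n a r : Submodule k (PA k)) := h
    rwa [sub_zero])
  exi := fun a r θ hθ => by
    obtain ⟨Φ, h1, h2⟩ := exists_th_SO hθ
    rw [sub_zero] at h1
    exact ⟨Φ, h1, fun p q v hv => h2 v (so_Yd hv)⟩
  uniq := fun a r c h hv => so_uniq (b := 0) le_rfl (Yd_of_G h) hv

/-- the dictionary for `B2` -/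
noncomputable def DB2 (n : ℕ) : Dic (H1.B2 k n) (Fin 2 → Fin 2 → PA k) where
  W := fun a r c => W2 a r n c
  t := t2
  tadd := fun c c' v => by
    rw [t2_apply, t2_apply, t2_apply]
    simp only [Pi.add_apply, th_add]
    abel
  zero := fun a r => ⟨fun _ _ => Submodule.zero_mem _, fun c => by
    have : ell ((0 : Fin 2 → Fin 2 → PA k) c) = 0 := by
      change lx 1 (0 : PA k) - lx 0 (0 : PA k) = 0
      rw [map_zero, map_zero, sub_zero]
    rw [this]
    exact Submodule.zero_mem _⟩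
  sub := fun a r c c' h h' => ⟨fun i j => Submodule.sub_mem _ (h.1 i j) (h'.1 i j), fun i => by
    have e : ell ((c - c') i) = ell (c i) - ell (c' i) := ell_sub _ _
    rw [e]
    exact Submodule.sub_mem _ (h.2 i) (h'.2 i)⟩
  mono := fun a r r' c h hc => ⟨fun i j => G_mono _ _ _ _ h (hc.1 i j),
    fun i => G_mono _ _ _ _ (by omega) (hc.2 i)⟩
  mem := fun a r c h => coprod_mem (Q := SP k n 0 1) (Q' := SP k n 0 1)
    (th_mem_SP (by omega) (h.1 0 0) (h.1 0 1) (h.2 0))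
    (th_mem_SP (by omega) (h.1 1 0) (h.1 1 1) (h.2 1))
  exi := fun a r θ hθ => by
    obtain ⟨u, u1, u2, u3⟩ := sp_exi (e := 1) (by omega)
      (coprod_inl (Q := SP k n 0 1) (Q' := SP k n 0 1) hθ)
    obtain ⟨w, w1, w2, w3⟩ := sp_exi (e := 1) (by omega)
      (coprod_inr (Q := SP k n 0 1) (Q' := SP k n 0 1) hθ)
    refine ⟨![u, w], ⟨fun c i => ?_, fun c => ?_⟩, fun p q v hv => ?_⟩
    · fin_cases c
      · exact u1 i
      · exact w1 i
    · fin_cases c
      · exact u2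
      · exact w2
    · rw [coprod_split (Q := SP k n 0 1) (Q' := SP k n 0 1) (N := SO k 0 a r) θ v,
        u3 p q v.1 hv.1, w3 p q v.2 hv.2]
      rfl
  uniq := fun a r c h hv => by
    have h0 : c 0 = 0 := by
      refine sp_uniq (m := n) (e := 1) (by omega) (fun i => Yd_of_G (h.1 0 i)) fun v hv' => ?_
      have := hv (v, 0) ⟨hv', Submodule.zero_mem _⟩
      rw [t2_apply] at this
      change th (c 0 0) v.1 + th (c 0 1) v.2 + (th (c 1 0) 0 + th (c 1 1) 0) = 0 at this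
      rwa [map_zero, map_zero, add_zero, add_zero] at this
    have h1 : c 1 = 0 := by
      refine sp_uniq (m := n) (e := 1) (by omega) (fun i => Yd_of_G (h.1 1 i)) fun v hv' => ?_
      have := hv (0, v) ⟨Submodule.zero_mem _, hv'⟩
      rw [t2_apply] at this
      change th (c 0 0) 0 + th (c 0 1) 0 + (th (c 1 0) v.1 + th (c 1 1) v.2) = 0 at this
      rwa [map_zero, map_zero, zero_add, zero_add] at this
    funext i
    fin_cases i
    · exact h0
    · exact h1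

/-- the dictionary for `B1` -/
noncomputable def DB1 (n : ℕ) : Dic (H1.B1 k n) ((Fin 2 → PA k) × (Fin 2 → PA k)) where
  W := fun a r c => W1 a r n c.1 c.2
  t := fun c => t1 c.1 c.2
  tadd := fun c c' v => by
    rw [t1_apply, t1_apply, t1_apply]
    simp only [Prod.fst_add, Prod.snd_add, Pi.add_apply, th_add]
    abel
  zero := fun a r => ⟨fun _ => Submodule.zero_mem _, fun _ => Submodule.zero_mem _, by
    have : ell ((0 : (Fin 2 → PA k) × (Fin 2 → PA k)).2) = 0 := by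
      change lx 1 (0 : PA k) - lx 0 (0 : PA k) = 0
      rw [map_zero, map_zero, sub_zero]
    rw [this]
    exact Submodule.zero_mem _⟩
  sub := fun a r c c' h h' => ⟨fun i => Submodule.sub_mem _ (h.1 i) (h'.1 i),
    fun i => Submodule.sub_mem _ (h.2.1 i) (h'.2.1 i), by
    have e : ell ((c - c').2) = ell c.2 - ell c'.2 := ell_sub _ _
    rw [e]
    exact Submodule.sub_mem _ h.2.2 h'.2.2⟩
  mono := fun a r r' c h hc => ⟨fun i => G_mono _ _ _ _ (by omega) (hc.1 i),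
    fun i => G_mono _ _ _ _ h (hc.2.1 i), G_mono _ _ _ _ (by omega) hc.2.2⟩
  mem := fun a r c h => coprod_mem (Q := (SO k (n + 1) 0 1).prod (SO k (n + 1) 0 1))
    (Q' := SP k (n - 1) 0 2)
    (coprod_mem (Q := SO k (n + 1) 0 1) (Q' := SO k (n + 1) 0 1) (th_mem_SO (h.1 0))
      (th_mem_SO (h.1 1)))
    (th_mem_SP (by omega) (h.2.1 0) (h.2.1 1) h.2.2)
  exi := fun a r θ hθ => by
    have g0 := coprod_inl (Q := (SO k (n + 1) 0 1).prod (SO k (n + 1) 0 1))
      (Q' := SP k (n - 1) 0 2) hθ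
    obtain ⟨u0, u1, u2⟩ := exists_th_SO (coprod_inl (Q := SO k (n + 1) 0 1)
      (Q' := SO k (n + 1) 0 1) g0)
    obtain ⟨w0, w1, w2⟩ := exists_th_SO (coprod_inr (Q := SO k (n + 1) 0 1)
      (Q' := SO k (n + 1) 0 1) g0)
    obtain ⟨l, l1, l2, l3⟩ := sp_exi (e := 2) (by omega)
      (coprod_inr (Q := (SO k (n + 1) 0 1).prod (SO k (n + 1) 0 1)) (Q' := SP k (n - 1) 0 2) hθ)
    refine ⟨(![u0, w0], l), ⟨fun i => ?_, l1, l2⟩, fun p q v hv => ?_⟩
    · fin_cases i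
      · exact u1
      · exact w1
    · rw [coprod_split (Q := (SO k (n + 1) 0 1).prod (SO k (n + 1) 0 1))
        (Q' := SP k (n - 1) 0 2) (N := SO k 0 a r) θ v,
        coprod_split (Q := SO k (n + 1) 0 1) (Q' := SO k (n + 1) 0 1) (N := SO k 0 a r) _ v.1,
        u2 v.1.1 (so_Yd hv.1.1), w2 v.1.2 (so_Yd hv.1.2), l3 p q v.2 hv.2]
      rfl
  uniq := fun a r c h hv => by
    have h0 : c.1 0 = 0 := by
      refine so_uniq (m := n + 1) (b := 1) (by omega) (Yd_of_G (h.1 0)) fun v hv' => ?_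
      have := hv ((v, 0), (0, 0)) ⟨⟨hv', Submodule.zero_mem _⟩, Submodule.zero_mem _⟩
      rw [t1_apply] at this
      change th (c.1 0) v + th (c.1 1) 0 + (th (c.2 0) 0 + th (c.2 1) 0) = 0 at this
      rwa [map_zero, map_zero, map_zero, add_zero, add_zero, add_zero] at this
    have h1 : c.1 1 = 0 := by
      refine so_uniq (m := n + 1) (b := 1) (by omega) (Yd_of_G (h.1 1)) fun v hv' => ?_
      have := hv ((0, v), (0, 0)) ⟨⟨Submodule.zero_mem _, hv'⟩, Submodule.zero_mem _⟩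
      rw [t1_apply] at this
      change th (c.1 0) 0 + th (c.1 1) v + (th (c.2 0) 0 + th (c.2 1) 0) = 0 at this
      rwa [map_zero, map_zero, map_zero, zero_add, add_zero, add_zero] at this
    have h2 : c.2 = 0 := by
      refine sp_uniq (m := n - 1) (e := 2) (by omega) (fun i => Yd_of_G (h.2.1 i)) fun v hv' => ?_
      have := hv ((0, 0), v) ⟨Submodule.zero_mem _, hv'⟩
      rw [t1_apply] at this
      change th (c.1 0) 0 + th (c.1 1) 0 + (th (c.2 0) v.1 + th (c.2 1) v.2) = 0 at this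
      rwa [map_zero, map_zero, zero_add, zero_add] at this
    refine Prod.ext ?_ h2
    funext i
    fin_cases i
    · exact h0
    · exact h1

end Vale.Agent.P195.AR.S5
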