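import Vale.Agent.Lib.P195.AR.Eta

/-!
# P195: `HomW (SO k m 0 b) (SO k 0 a0 b0)` and `HomW (SP k m 0 e) (SO k 0 a0 b0)`

See `AR/Eta.lean`. Characteristic zero is needed here.
-/

namespace Vale.Agent.P195.AR

open MvPolynomial

variable {k : Type} [Field k]

theorem dyn_mem {m a b : ℤ} {p : PA k} (hp : p ∈ (G m a b : Submodule k (PA k))) (c0 c1 : ℕ) :
    dyn c0 c1 p ∈ (G (m - c0 - c1) a b : Submodule k (PA k)) := by
  have h1 : ∀ (i : Fin 2) (n : ℕ) (m : ℤ) (p : PA k), p ∈ (G m a b : Submodule k (PA k)) →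
      ((dy i : Module.End k (PA k)) ^ n) p ∈ (G (m - n) a b : Submodule k (PA k)) := by
    intro i n
    induction n with
    | zero => intro m p h; simpa using h
    | succ n ih =>
      intro m p h
      rw [pow_succ', Module.End.mul_apply]
      have := dy_mem i _ _ _ _ (ih m p h)
      rwa [show m - (n : ℤ) - 1 = m - ((n + 1 : ℕ) : ℤ) by push_cast; ring] at this
  have := h1 0 c0 _ _ (h1 1 c1 m p hp)
  rw [show m - (c1 : ℤ) - c0 = m - c0 - c1 by ring] at this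
  exact this

theorem dy_pow_monomial (i : Fin 2) (n : ℕ) (μ : Vr →₀ ℕ) :
    ((dy i : Module.End k (PA k)) ^ n) (monomial μ 1) =
      ((μ (Vr.y i)).descFactorial n : k) • monomial (μ - Finsupp.single (Vr.y i) n) 1 := by
  induction n with
  | zero => simp
  | succ n ih =>
    rw [pow_succ', Module.End.mul_apply, ih, map_smul, dy_apply, pderiv_monomial,
      Nat.descFactorial_succ, tsub_tsub, ← Finsupp.single_add]
    have e : (μ - Finsupp.single (Vr.y i) n : Vr →₀ ℕ) (Vr.y i) = μ (Vr.y i) - n := by simp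
    rw [e, one_mul, smul_monomial, smul_monomial, smul_eq_mul, smul_eq_mul, mul_one,
      Nat.cast_mul, mul_comm]

theorem dyn_monomial (a b : ℕ) (μ : Vr →₀ ℕ) :
    dyn a b (monomial μ (1 : k)) =
      ((μ (Vr.y 0)).descFactorial a * (μ (Vr.y 1)).descFactorial b : k) •
        monomial (μ - Finsupp.single (Vr.y 0) a - Finsupp.single (Vr.y 1) b) 1 := by
  change ((dy 0 : Module.End k (PA k)) ^ a) (((dy 1 : Module.End k (PA k)) ^ b)
    (monomial μ 1)) = _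
  rw [dy_pow_monomial, map_smul, dy_pow_monomial, smul_smul]
  have e : (μ - Finsupp.single (Vr.y 1) b : Vr →₀ ℕ) (Vr.y 0) = μ (Vr.y 0) := by simp
  rw [e, mul_comm, tsub_right_comm]

/-- Taylor's formula -/
noncomputable def tay (m : ℤ) (g : ℕ → ℕ → PA k) : PA k :=
  ∑ i : Fin (m.toNat + 1), (((i : ℕ).factorial * (m.toNat - i).factorial : ℕ) : k)⁻¹ •
    ymul i (m.toNat - i) (g i (m.toNat - i))

theorem tay_mem {m a b : ℤ} (hm : 0 ≤ m) {g : ℕ → ℕ → PA k}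
    (hg : ∀ c0 c1 : ℕ, (c0 + c1 : ℤ) = m → g c0 c1 ∈ (G 0 a b : Submodule k (PA k))) :
    tay m g ∈ (G m a b : Submodule k (PA k)) := by
  refine Submodule.sum_mem _ fun i _ => Submodule.smul_mem _ _ ?_
  have := i.2
  have h := ymul_mem i (m.toNat - i) 0 a b _ (hg i (m.toNat - i) (by omega))
  rwa [show (0 : ℤ) + (i : ℕ) + ((m.toNat - (i : ℕ) : ℕ) : ℤ) = m by omega] at h

variable [CharZero k]

theorem tay_dyn {m : ℤ} (p : PA k) (hp : Yd m p) : tay m (fun a b => dyn a b p) = p := by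
  have hlin : ∃ F : PA k →ₗ[k] PA k, ∀ p, F p = tay m (fun a b => dyn a b p) := by
    refine ⟨∑ i : Fin (m.toNat + 1), (((i : ℕ).factorial * (m.toNat - i).factorial : ℕ) : k)⁻¹ •
      (ymul i (m.toNat - i) ∘ₗ dyn i (m.toNat - i)), fun p => ?_⟩
    rw [LinearMap.sum_apply]
    rfl
  obtain ⟨F, hF⟩ := hlin
  rw [← hF]
  have key : ∀ μ : Vr →₀ ℕ, (ydeg μ : ℤ) = m → F (monomial μ 1) = monomial μ 1 := by
    intro μ hμ
    rw [hF, tay]
    simp only [ydeg] at hμ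
    have hlt : μ (Vr.y 0) < m.toNat + 1 := by omega
    have h1 : μ (Vr.y 1) = m.toNat - μ (Vr.y 0) := by omega
    rw [Finset.sum_eq_single (⟨μ (Vr.y 0), hlt⟩ : Fin (m.toNat + 1))]
    · change (((μ (Vr.y 0)).factorial * (m.toNat - μ (Vr.y 0)).factorial : ℕ) : k)⁻¹ •
        ymul (μ (Vr.y 0)) (m.toNat - μ (Vr.y 0))
          (dyn (μ (Vr.y 0)) (m.toNat - μ (Vr.y 0)) (monomial μ 1)) = _
      rw [dyn_monomial, ← h1, Nat.descFactorial_self, Nat.descFactorial_self, map_smul,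
        smul_smul, ← Nat.cast_mul, inv_mul_cancel₀, one_smul, ymul_apply, ym_eq, monomial_mul,
        one_mul]
      · refine congrArg (fun μ => (monomial μ (1 : k) : PA k)) (Finsupp.ext fun v => ?_)
        rcases v with i | i | i <;> fin_cases i <;> simp
      · exact_mod_cast mul_ne_zero (Nat.factorial_ne_zero _) (Nat.factorial_ne_zero _)
    · intro i _ hi
      rw [dyn_monomial]
      have hi' : (i : ℕ) ≠ μ (Vr.y 0) := fun h => hi (Fin.ext h)
      rcases lt_or_gt_of_ne hi' with h | h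
      · have : μ (Vr.y 1) < m.toNat - i := by omega
        rw [Nat.descFactorial_of_lt this, Nat.cast_zero, mul_zero, zero_smul, map_zero, smul_zero]
      · rw [Nat.descFactorial_of_lt h, Nat.cast_zero, zero_mul, zero_smul, map_zero, smul_zero]
    · intro h; exact absurd (Finset.mem_univ _) h
  conv_lhs => rw [p.as_sum, map_sum]
  conv_rhs => rw [p.as_sum]
  refine Finset.sum_congr rfl fun μ hμ => ?_
  have : monomial μ (coeff μ p) = coeff μ p • monomial μ (1 : k) := by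
    rw [smul_monomial, smul_eq_mul, mul_one]
  rw [this, map_smul, key μ (hp μ hμ)]

/-- membership from the derivatives -/
theorem mem_of_dyn {m a b : ℤ} {p : PA k} (hp : Yd m p)
    (h : ∀ c0 c1 : ℕ, (c0 + c1 : ℤ) = m → dyn c0 c1 p ∈ (G 0 a b : Submodule k (PA k))) :
    p ∈ (G m a b : Submodule k (PA k)) := by
  by_cases hm : 0 ≤ m
  · rw [← tay_dyn p hp]
    exact tay_mem hm h
  · rw [Yd_neg (by omega) hp]
    exact Submodule.zero_mem _

theorem eq_zero_of_dyn {m : ℤ} {p : PA k} (hp : Yd m p)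
    (h : ∀ c0 c1 : ℕ, (c0 + c1 : ℤ) = m → dyn c0 c1 p = 0) : p = 0 := by
  by_cases hm : 0 ≤ m
  · rw [← tay_dyn p hp, tay]
    refine Finset.sum_eq_zero fun i _ => ?_
    have := i.2
    rw [h i (m.toNat - i) (by omega), map_zero, smul_zero]
  · exact Yd_neg (by omega) hp

/-- the derivatives of a Taylor polynomial -/
theorem dyn_tay {m : ℤ} {g : ℕ → ℕ → PA k}
    (hg : ∀ c0 c1 : ℕ, (c0 + c1 : ℤ) = m → Yd 0 (g c0 c1)) (a b : ℕ) (hab : (a + b : ℤ) = m) :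
    dyn a b (tay m g) = g a b := by
  have key : ∀ (c d : ℕ) (w : PA k), Yd 0 w → (c + d : ℤ) = m →
      dyn a b (ymul c d w) = if a = c ∧ b = d then ((a.factorial * b.factorial : ℕ) : k) • w
        else 0 := by
    intro c d w hw hcd
    have hmono : ∀ μ : Vr →₀ ℕ, ydeg μ = 0 → dyn a b (ymul c d (monomial μ (1 : k))) =
        if a = c ∧ b = d then ((a.factorial * b.factorial : ℕ) : k) • monomial μ 1 else 0 := by
      intro μ hμ
      simp only [ydeg] at hμ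
      have m0 : μ (Vr.y 0) = 0 := by omega
      have m1 : μ (Vr.y 1) = 0 := by omega
      rw [ymul_apply, ym_eq, monomial_mul, one_mul, dyn_monomial]
      have e0 : (Finsupp.single (Vr.y 0) c + Finsupp.single (Vr.y 1) d + μ : Vr →₀ ℕ)
          (Vr.y 0) = c := by simp [m0]
      have e1 : (Finsupp.single (Vr.y 0) c + Finsupp.single (Vr.y 1) d + μ : Vr →₀ ℕ)
          (Vr.y 1) = d := by simp [m1]
      rw [e0, e1]
      by_cases h : a = c ∧ b = d
      · obtain ⟨rfl, rfl⟩ := h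
        rw [if_pos ⟨rfl, rfl⟩, Nat.descFactorial_self, Nat.descFactorial_self, ← Nat.cast_mul]
        refine congrArg (fun μ => ((a.factorial * b.factorial : ℕ) : k) •
          (monomial μ (1 : k) : PA k)) (Finsupp.ext fun v => ?_)
        rcases v with i | i | i <;> fin_cases i <;> simp
      · rw [if_neg h]
        rcases Nat.lt_trichotomy c a with h' | h' | h'
        · rw [Nat.descFactorial_of_lt h', Nat.cast_zero, zero_mul, zero_smul]
        · exact absurd ⟨h'.symm, by omega⟩ h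
        · have : d < b := by omega
          rw [Nat.descFactorial_of_lt this, Nat.cast_zero, mul_zero, zero_smul]
    conv_lhs => rw [w.as_sum, map_sum, map_sum]
    by_cases h : a = c ∧ b = d
    · rw [if_pos h]
      conv_rhs => rw [w.as_sum, Finset.smul_sum]
      refine Finset.sum_congr rfl fun μ hμ => ?_
      have : monomial μ (coeff μ w) = coeff μ w • monomial μ (1 : k) := by
        rw [smul_monomial, smul_eq_mul, mul_one]
      have h0 : ydeg μ = 0 := by have := hw μ hμ; omega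
      rw [this, map_smul, map_smul, hmono μ h0, if_pos h, smul_comm]
    · rw [if_neg h]
      refine Finset.sum_eq_zero fun μ hμ => ?_
      have : monomial μ (coeff μ w) = coeff μ w • monomial μ (1 : k) := by
        rw [smul_monomial, smul_eq_mul, mul_one]
      have h0 : ydeg μ = 0 := by have := hw μ hμ; omega
      rw [this, map_smul, map_smul, hmono μ h0, if_neg h, smul_zero]
  rw [tay, map_sum]
  have ha : a < m.toNat + 1 := by omega
  have hb : b = m.toNat - a := by omega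
  rw [Finset.sum_eq_single (⟨a, ha⟩ : Fin (m.toNat + 1))]
  · rw [map_smul, key _ _ _ (hg _ _ (by change ((a : ℕ) : ℤ) + ((m.toNat - a : ℕ) : ℤ) = m; omega))
      (by change ((a : ℕ) : ℤ) + ((m.toNat - a : ℕ) : ℤ) = m; omega), if_pos ⟨rfl, hb⟩, smul_smul,
      hb, inv_mul_cancel₀, one_smul]
    exact_mod_cast mul_ne_zero (Nat.factorial_ne_zero _) (Nat.factorial_ne_zero _)
  · intro i _ hi
    have := i.2
    rw [map_smul, key _ _ _ (hg _ _ (by omega)) (by omega), if_neg, smul_zero]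
    rintro ⟨h, _⟩
    exact hi (Fin.ext h.symm)
  · intro h; exact absurd (Finset.mem_univ _) h

omit [CharZero k] in
/-- `Φ ∈ G m a0 (b0 - b)` gives a map in `HomW (SO k m 0 b) (SO k 0 a0 b0)` -/
theorem th_mem_SO {m a0 b0 b : ℤ} {Φ : PA k} (hΦ : Φ ∈ (G m a0 (b0 - b) : Submodule k (PA k))) :
    th Φ ∈ HomW (SO k m 0 b) (SO k 0 a0 b0) := by
  refine ⟨fun i v => th_lx Φ i v, fun i v => th_ld Φ i v, fun p q v hv => ?_⟩
  have hv' : v ∈ (G m (p + 0) (q + b) : Submodule k (PA k)) := hv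
  rw [add_zero] at hv'
  have := lift_mem (SO k 0 0 0) (fun a b => dyn a b Φ) m a0 (b0 - b) (fun c0 c1 h => by
    change dyn c0 c1 Φ ∈ (G 0 (a0 + 0) (b0 - b + 0) : Submodule k (PA k))
    have h2 := dyn_mem hΦ c0 c1
    rw [show m - (c0 : ℤ) - c1 = 0 by omega] at h2
    rwa [add_zero, add_zero]) p (q + b) v hv'
  have h3 : th Φ v ∈ (G 0 (p + a0 + 0) (q + b + (b0 - b) + 0) : Submodule k (PA k)) := this
  rw [add_zero, add_zero, show q + b + (b0 - b) = q + b0 by ring] at h3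
  exact h3

omit [CharZero k] in
theorem ym_mem_G (c0 c1 : ℕ) (m : ℤ) (h : (c0 + c1 : ℤ) = m) (b : ℤ) (hb : 0 ≤ b) :
    (ym c0 c1 : PA k) ∈ (G m 0 b : Submodule k (PA k)) := by
  have h1 : ymul c0 c1 (1 : PA k) ∈ (G (0 + c0 + c1) 0 b : Submodule k (PA k)) :=
    ymul_mem c0 c1 0 0 b 1 (one_mem_G b hb)
  rw [ymul_apply, mul_one] at h1
  rwa [show (0 : ℤ) + c0 + c1 = m by omega] at h1

/-- every map in `HomW (SO k m 0 b) (SO k 0 a0 b0)` is `th Φ` on polynomials of `y`-degree `m` -/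
theorem exists_th_SO {m a0 b0 b : ℤ} {θ : PA k →ₗ[k] PA k}
    (hθ : θ ∈ HomW (SO k m 0 b) (SO k 0 a0 b0)) :
    ∃ Φ ∈ (G m a0 (b0 - b) : Submodule k (PA k)), ∀ p, Yd m p → θ p = th Φ p := by
  have hval : ∀ c0 c1 : ℕ, (c0 + c1 : ℤ) = m →
      θ (ym c0 c1) ∈ (G 0 a0 (b0 - b) : Submodule k (PA k)) := by
    intro c0 c1 h
    have h1 : (ym c0 c1 : PA k) ∈ (SO k m 0 b).F 0 (-b) := by
      change _ ∈ (G m (0 + 0) (-b + b) : Submodule k (PA k))
      rw [add_zero]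
      exact ym_mem_G _ _ _ h _ (by omega)
    have h2 : θ (ym c0 c1) ∈ (G 0 (0 + a0) (-b + b0) : Submodule k (PA k)) := hθ.2.2 _ _ _ h1
    rwa [zero_add, show -b + b0 = b0 - b by ring] at h2
  by_cases hm : 0 ≤ m
  · refine ⟨tay m (fun c0 c1 => θ (ym c0 c1)), tay_mem hm hval, fun p hp => ?_⟩
    refine PA_ext_mem (N := SO k 0 0 0) (f := θ) (g := th _) hθ.1 hθ.2.1
      (fun i v => th_lx _ i v) (fun i v => th_ld _ i v) m (fun a b hab => ?_) p hp
    rw [th_ym, dyn_tay (fun c0 c1 h => Yd_of_G (hval c0 c1 h)) a b hab]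
  · refine ⟨0, Submodule.zero_mem _, fun p hp => ?_⟩
    rw [Yd_neg (by omega) hp, map_zero, map_zero]

/-- uniqueness of `Φ` -/
theorem th_inj {m : ℤ} {Φ : PA k} (hΦ : Yd m Φ) (h : ∀ p, Yd m p → th Φ p = 0) : Φ = 0 := by
  refine eq_zero_of_dyn hΦ fun c0 c1 hc => ?_
  rw [← th_ym]
  exact h _ (Yd_of_G (ym_mem_G c0 c1 m hc 0 le_rfl))

omit [CharZero k] in
/-- `Λ₁, Λ₂ ∈ G m a0 b0` with `lx 1 Λ₁ - lx 0 Λ₂ ∈ G m (a0+1) (b0-e)` give a map in
`HomW (SP k m 0 e) (SO k 0 a0 b0)` -/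
theorem th_mem_SP {m a0 b0 e : ℤ} (he : 0 ≤ e) {Λ1 Λ2 : PA k}
    (h1 : Λ1 ∈ (G m a0 b0 : Submodule k (PA k))) (h2 : Λ2 ∈ (G m a0 b0 : Submodule k (PA k)))
    (h3 : lx 1 Λ1 - lx 0 Λ2 ∈ (G m (a0 + 1) (b0 - e) : Submodule k (PA k))) :
    (th Λ1).coprod (th Λ2) ∈ HomW (SP k m 0 e) (SO k 0 a0 b0) := by
  refine ⟨fun i v => ?_, fun i v => ?_, fun p q v hv => ?_⟩
  · change th Λ1 (lx i v.1) + th Λ2 (lx i v.2) = lx i (th Λ1 v.1 + th Λ2 v.2)
    rw [th_lx, th_lx, map_add]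
  · change th Λ1 (ld i v.1) + th Λ2 (ld i v.2) = ld i (th Λ1 v.1 + th Λ2 v.2)
    rw [th_ld, th_ld, map_add]
  · have hv' : v ∈ GP k m e (p + 0) q := hv
    rw [add_zero] at hv'
    obtain ⟨p', ⟨hp1, hp2⟩, w, hw, hpw⟩ := GP_dec he v hv'
    have e1 : (th Λ1).coprod (th Λ2) v = (th Λ1 p'.1 + th Λ2 p'.2) +
        th (lx 1 Λ1 - lx 0 Λ2) w := by
      have e2 : th (lx 1 Λ1 - lx 0 Λ2) w = th (lx 1 Λ1) w - th (lx 0 Λ2) w := by
        have := th_add (lx 1 Λ1 - lx 0 Λ2) (lx 0 Λ2) w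
        rw [sub_add_cancel] at this
        rw [this, add_sub_cancel_right]
      rw [e2, ← th_rx, ← th_rx, hpw, LinearMap.coprod_apply]
      simp only [Prod.fst_add, Prod.snd_add, wp_apply, map_add, map_neg]
      abel
    rw [e1]
    have m1 := (th_mem_SO (b := 0) (b0 := b0) (m := m) (a0 := a0) (Φ := Λ1)
      (by rwa [sub_zero])).2.2 p q p'.1 (by
        change p'.1 ∈ (G m (p + 0) (q + 0) : Submodule k (PA k))
        rwa [add_zero, add_zero])
    have m2 := (th_mem_SO (b := 0) (b0 := b0) (m := m) (a0 := a0) (Φ := Λ2)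
      (by rwa [sub_zero])).2.2 p q p'.2 (by
        change p'.2 ∈ (G m (p + 0) (q + 0) : Submodule k (PA k))
        rwa [add_zero, add_zero])
    have m3 := (th_mem_SO (b := e) (b0 := b0) (m := m) (a0 := a0 + 1)
      (Φ := lx 1 Λ1 - lx 0 Λ2) h3).2.2 (p - 1) q w (by
        change w ∈ (G m (p - 1 + 0) (q + e) : Submodule k (PA k))
        rwa [add_zero])
    have m3' : th (lx 1 Λ1 - lx 0 Λ2) w ∈ (G 0 (p - 1 + (a0 + 1)) (q + b0) :
      Submodule k (PA k)) := m3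
    rw [show p - 1 + (a0 + 1) = p + a0 by ring] at m3'
    exact Submodule.add_mem _ (Submodule.add_mem _ m1 m2) m3'

/-- every map in `HomW (SP k m 0 e) (SO k 0 a0 b0)` is given by a pair `(Λ₁, Λ₂)` -/
theorem exists_th_SP {m a0 b0 e : ℤ} (he : 0 ≤ e) {θ : (PA k × PA k) →ₗ[k] PA k}
    (hθ : θ ∈ HomW (SP k m 0 e) (SO k 0 a0 b0)) :
    ∃ Λ1 ∈ (G m a0 b0 : Submodule k (PA k)), ∃ Λ2 ∈ (G m a0 b0 : Submodule k (PA k)),
      lx 1 Λ1 - lx 0 Λ2 ∈ (G m (a0 + 1) (b0 - e) : Submodule k (PA k)) ∧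
      ∀ p : PA k × PA k, Yd m p.1 → Yd m p.2 → θ p = th Λ1 p.1 + th Λ2 p.2 := by
  have t1 : θ ∘ₗ LinearMap.inl k (PA k) (PA k) ∈ HomW (SO k m 0 0) (SO k 0 a0 b0) := by
    refine ⟨fun i v => ?_, fun i v => ?_, fun p q v hv => ?_⟩
    · refine (congrArg θ ?_).trans (hθ.1 i (v, 0))
      exact Prod.ext rfl (map_zero (lx i)).symm
    · refine (congrArg θ ?_).trans (hθ.2.1 i (v, 0))
      exact Prod.ext rfl (map_zero (ld i)).symm
    · refine hθ.2.2 p q (v, 0) ?_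
      have hv' : v ∈ (G m (p + 0) (q + 0) : Submodule k (PA k)) := hv
      rw [add_zero, add_zero] at hv'
      change (v, 0) ∈ GP k m e (p + 0) q
      rw [mem_GP, add_zero]
      refine ⟨⟨G_mono _ _ _ _ (by omega) hv', Submodule.zero_mem _⟩, ?_⟩
      rw [map_zero, add_zero]
      exact rx_mem 0 _ _ _ _ hv'
  have t2 : θ ∘ₗ LinearMap.inr k (PA k) (PA k) ∈ HomW (SO k m 0 0) (SO k 0 a0 b0) := by
    refine ⟨fun i v => ?_, fun i v => ?_, fun p q v hv => ?_⟩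
    · refine (congrArg θ ?_).trans (hθ.1 i (0, v))
      exact Prod.ext (map_zero (lx i)).symm rfl
    · refine (congrArg θ ?_).trans (hθ.2.1 i (0, v))
      exact Prod.ext (map_zero (ld i)).symm rfl
    · refine hθ.2.2 p q (0, v) ?_
      have hv' : v ∈ (G m (p + 0) (q + 0) : Submodule k (PA k)) := hv
      rw [add_zero, add_zero] at hv'
      change (0, v) ∈ GP k m e (p + 0) q
      rw [mem_GP, add_zero]
      refine ⟨⟨Submodule.zero_mem _, G_mono _ _ _ _ (by omega) hv'⟩, ?_⟩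
      rw [map_zero, zero_add]
      exact rx_mem 1 _ _ _ _ hv'
  obtain ⟨Λ1, hΛ1, e1⟩ := exists_th_SO t1
  obtain ⟨Λ2, hΛ2, e2⟩ := exists_th_SO t2
  rw [sub_zero] at hΛ1 hΛ2
  refine ⟨Λ1, hΛ1, Λ2, hΛ2, ?_, fun p hp1 hp2 => ?_⟩
  · refine mem_of_dyn ?_ fun c0 c1 hc => ?_
    · exact Yd_of_G (Submodule.sub_mem _ (lx_mem 1 _ _ _ _ hΛ1) (lx_mem 0 _ _ _ _ hΛ2))
    · have hy : Yd m (ym c0 c1 : PA k) := Yd_of_G (ym_mem_G c0 c1 m hc 0 le_rfl)
      rw [map_sub, dyn_comm (lx 1) (fun j p => dy_lx j 1 p),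
        dyn_comm (lx 0) (fun j p => dy_lx j 0 p), ← th_ym, ← th_ym, ← e1 _ hy, ← e2 _ hy]
      have h1 : lx 1 ((θ ∘ₗ LinearMap.inl k (PA k) (PA k)) (ym c0 c1)) -
          lx 0 ((θ ∘ₗ LinearMap.inr k (PA k) (PA k)) (ym c0 c1)) = θ (wp (ym c0 c1)) := by
        have a1 := hθ.1 1 (ym c0 c1, 0)
        have a2 := hθ.1 0 (0, ym c0 c1)
        change lx 1 (θ (ym c0 c1, 0)) - lx 0 (θ (0, ym c0 c1)) = _
        refine (congrArg₂ (· - ·) a1.symm a2.symm).trans ?_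
        rw [← map_sub]
        refine congrArg θ (Prod.ext ?_ ?_)
        · change lx 1 (ym c0 c1) - lx 0 0 = rx 1 (ym c0 c1)
          rw [map_zero, sub_zero, rx_ym]
        · change lx 1 0 - lx 0 (ym c0 c1) = -rx 0 (ym c0 c1)
          rw [map_zero, zero_sub, rx_ym]
      rw [h1]
      have h2 : wp (ym c0 c1 : PA k) ∈ (SP k m 0 e).F 1 (-e) := by
        change _ ∈ GP k m e (1 + 0) (-e)
        have g : (ym c0 c1 : PA k) ∈ (G m 0 (-e + e) : Submodule k (PA k)) :=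
          ym_mem_G _ _ _ hc _ (by omega)
        have g1 := rx_mem 1 _ _ _ _ g
        have g0 := rx_mem 0 _ _ _ _ g
        rw [zero_add] at g1 g0
        rw [mem_GP, add_zero]
        refine ⟨⟨g1, Submodule.neg_mem _ g0⟩, ?_⟩
        have := qq_wp (ym c0 c1 : PA k)
        rw [qq_apply] at this
        rw [this]
        exact Submodule.zero_mem _
      have h3 : θ (wp (ym c0 c1)) ∈ (G 0 (1 + a0) (-e + b0) : Submodule k (PA k)) :=
        hθ.2.2 _ _ _ h2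
      rwa [show (1 : ℤ) + a0 = a0 + 1 by ring, show -e + b0 = b0 - e by ring] at h3
  · have h1 := e1 _ hp1
    have h2 := e2 _ hp2
    rw [← h1, ← h2]
    change _ = θ (p.1, 0) + θ (0, p.2)
    rw [← map_add]
    exact congrArg θ (Prod.ext (add_zero _).symm (zero_add _).symm)

omit [CharZero k]

/-- `TO k b` and `SO k 0 0 b` have the same windows -/
noncomputable def isoO (b : ℤ) :
    Wn (WE (hat (TO k b))) ≃ₗ[R k] Wn (WE (hat (SO k 0 0 b))) := by
  have hθ : (Y0 k).subtype ∈ HomW (TO k b) (SO k 0 0 b) := by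
    refine ⟨fun i v => rfl, fun i v => rfl, fun p q v hv => ?_⟩
    change (v : PA k) ∈ (G 0 (p + 0) (q + b) : Submodule k (PA k))
    rw [add_zero]
    exact hv
  refine LinearEquiv.ofBijective
    (Wn.mapE (L := hat (TO k b)) (N := WE (hat (SO k 0 0 b))) (hm (Y0 k).subtype) (hm_mem hθ))
    ⟨inj_hm hθ fun a _ v _ h => Subtype.ext h, ?_⟩
  have hlift : ∀ (a c : ℤ) (v : PA k), v ∈ (SO k 0 0 b).F a c →
      ∃ w ∈ (TO k b).F a c, (Y0 k).subtype w = v := by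
    intro a c v hv
    have hv' : v ∈ (G 0 (a + 0) (c + b) : Submodule k (PA k)) := hv
    rw [add_zero] at hv'
    exact ⟨⟨v, G0_le_Y0 _ _ hv'⟩, hv', rfl⟩
  apply Wn.surj (N1 := WE (hat (TO k b))) (N2 := WE (hat (SO k 0 0 b)))
  · rintro c ⟨v1, v2⟩ ⟨hv1, hv2⟩
    obtain ⟨w1, hw1, rfl⟩ := hlift _ _ v1 hv1
    obtain ⟨w2, hw2, rfl⟩ := hlift _ _ v2 hv2
    exact ⟨(w1, w2), ⟨hw1, hw2⟩, rfl⟩
  · rintro e ⟨v1, v1'⟩ ⟨hv1, hv1'⟩ ⟨v2, v2'⟩ ⟨hv2, hv2'⟩ ⟨h3, h3'⟩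
    obtain ⟨w1, hw1, rfl⟩ := hlift _ _ v1 hv1
    obtain ⟨w1', hw1', rfl⟩ := hlift _ _ v1' hv1'
    obtain ⟨w2, hw2, rfl⟩ := hlift _ _ v2 hv2
    obtain ⟨w2', hw2', rfl⟩ := hlift _ _ v2' hv2'
    refine ⟨(w1, w1'), ⟨hw1, hw1'⟩, (w2, w2'), ⟨hw2, hw2'⟩, ⟨?_, ?_⟩, rfl, rfl⟩
    · obtain ⟨z, hz, hz'⟩ := hlift _ _ _ h3
      have : z = lx0 1 w1 - lx0 0 w2 := Subtype.ext hz'
      rw [this] at hz
      exact hz
    · obtain ⟨z, hz, hz'⟩ := hlift _ _ _ h3'
      have : z = lx0 1 w1' - lx0 0 w2' := Subtype.ext hz'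
      rw [this] at hz
      exact hz
  · intro g hg
    exact ⟨0, Submodule.zero_mem _, by rw [WE_A hg]; exact LinearMap.comp_zero _⟩
  · intro g hg
    exact ⟨0, Submodule.zero_mem _, by rw [WE_B hg]; exact LinearMap.comp_zero _⟩

/-- `TP k e` and `SP k 0 0 e` have the same windows -/
noncomputable def isoP (e : ℤ) :
    Wn (WE (hat (TP k e))) ≃ₗ[R k] Wn (WE (hat (SP k 0 0 e))) := by
  have hθ : inc2 k ∈ HomW (TP k e) (SP k 0 0 e) := by
    refine ⟨fun i v => rfl, fun i v => rfl, fun p q v hv => ?_⟩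
    change inc2 k v ∈ GP k 0 e (p + 0) q
    rw [add_zero]
    exact hv
  refine LinearEquiv.ofBijective
    (Wn.mapE (L := hat (TP k e)) (N := WE (hat (SP k 0 0 e))) (hm (inc2 k)) (hm_mem hθ))
    ⟨inj_hm hθ fun a _ v _ h => Prod.ext (Subtype.ext (congrArg Prod.fst h))
      (Subtype.ext (congrArg Prod.snd h)), ?_⟩
  have hlift : ∀ (a c : ℤ) (v : PA k × PA k), v ∈ (SP k 0 0 e).F a c →
      ∃ w ∈ (TP k e).F a c, inc2 k w = v := by
    intro a c v hv
    have hv' : v ∈ GP k 0 e (a + 0) c := hv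
    rw [add_zero] at hv'
    exact ⟨(⟨v.1, G0_le_Y0 _ _ hv'.1.1⟩, ⟨v.2, G0_le_Y0 _ _ hv'.1.2⟩), hv', rfl⟩
  have hinj : ∀ z z' : Y0 k × Y0 k, inc2 k z = inc2 k z' → z = z' := fun z z' h =>
    Prod.ext (Subtype.ext (congrArg Prod.fst h)) (Subtype.ext (congrArg Prod.snd h))
  apply Wn.surj (N1 := WE (hat (TP k e))) (N2 := WE (hat (SP k 0 0 e)))
  · rintro c ⟨v1, v2⟩ ⟨hv1, hv2⟩
    obtain ⟨w1, hw1, rfl⟩ := hlift _ _ v1 hv1
    obtain ⟨w2, hw2, rfl⟩ := hlift _ _ v2 hv2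
    exact ⟨(w1, w2), ⟨hw1, hw2⟩, rfl⟩
  · rintro c ⟨v1, v1'⟩ ⟨hv1, hv1'⟩ ⟨v2, v2'⟩ ⟨hv2, hv2'⟩ ⟨h3, h3'⟩
    obtain ⟨w1, hw1, rfl⟩ := hlift _ _ v1 hv1
    obtain ⟨w1', hw1', rfl⟩ := hlift _ _ v1' hv1'
    obtain ⟨w2, hw2, rfl⟩ := hlift _ _ v2 hv2
    obtain ⟨w2', hw2', rfl⟩ := hlift _ _ v2' hv2'
    refine ⟨(w1, w1'), ⟨hw1, hw1'⟩, (w2, w2'), ⟨hw2, hw2'⟩, ⟨?_, ?_⟩, rfl, rfl⟩
    · obtain ⟨z, hz, hz'⟩ := hlift _ _ _ h3
      have : z = (TP k e).x 1 w1 - (TP k e).x 0 w2 := hinj _ _ hz'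
      rw [this] at hz
      exact hz
    · obtain ⟨z, hz, hz'⟩ := hlift _ _ _ h3'
      have : z = (TP k e).x 1 w1' - (TP k e).x 0 w2' := hinj _ _ hz'
      rw [this] at hz
      exact hz
  · intro g hg
    exact ⟨0, Submodule.zero_mem _, by rw [WE_A hg]; exact LinearMap.comp_zero _⟩
  · intro g hg
    exact ⟨0, Submodule.zero_mem _, by rw [WE_B hg]; exact LinearMap.comp_zero _⟩

end Vale.Agent.P195.AR
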