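import Vale.Agent.Lib.P195.AR.PeLift
import Vale.Agent.Lib.P195.AR.Eta2
import Vale.Agent.Lib.P195.Formal.Rel2

/-!
# P195: `R`-linear maps `Wn (WE (hat Q)) → Wn (WE (hat (SO k 0 a r)))` as pairs of cochains

`Dic Q C`: the maps in `HomW Q (SO k 0 a r)` are given by the elements `c : C` with `W a r c`.
`Rep D f c0 c1`: the map `f` is given by `c0` (window `a`) and `c1` (window `a + 1`).
-/

namespace Vale.Agent.P195.AR.S5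

open MvPolynomial

variable {k : Type} [Field k]

/-- a dictionary for the maps `Q → O(a,r)` -/
structure Dic (Q : Bw k) (C : Type) [AddCommGroup C] where
  W : ℤ → ℤ → C → Prop
  t : C → (Q.V →ₗ[k] PA k)
  tadd : ∀ c c' v, t (c + c') v = t c v + t c' v
  zero : ∀ a r, W a r 0
  sub : ∀ a r c c', W a r c → W a r c' → W a r (c - c')
  mono : ∀ a r r' c, r ≤ r' → W a r c → W a r' c
  mem : ∀ a r c, W a r c → t c ∈ HomW Q (SO k 0 a r)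
  exi : ∀ a r θ, θ ∈ HomW Q (SO k 0 a r) →
    ∃ c, W a r c ∧ ∀ p q v, v ∈ Q.F p q → θ v = t c v
  uniq : ∀ a r c, W a r c → (∀ v ∈ Q.F 0 0, t c v = 0) → c = 0

theorem pair_hom {Q : Bw k} {a r : ℤ} {θ0 θ1 : Q.V →ₗ[k] PA k} (h0 : θ0 ∈ HomW Q (SO k 0 a r))
    (h1 : θ1 ∈ HomW Q (SO k 0 (a + 1) r)) : θ0.prod θ1 ∈ HomW Q (hat (SO k 0 a r)).toBw := by
  refine ⟨fun i v => Prod.ext (h0.1 i v) (h1.1 i v), fun i v => Prod.ext (h0.2.1 i v) (h1.2.1 i v),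
    fun p q v hv => ⟨h0.2.2 p q v hv, ?_⟩⟩
  have := h1.2.2 p q v hv
  change θ1 v ∈ (G 0 (p + (a + 1)) (q + r) : Submodule k (PA k)) at this
  change θ1 v ∈ (G 0 (p + 1 + a) (q + r) : Submodule k (PA k))
  rwa [show p + (a + 1) = p + 1 + a by ring] at this

theorem pair_hom_inv {Q : Bw k} {a r : ℤ} {θ : Q.V →ₗ[k] (PA k × PA k)}
    (h : θ ∈ HomW Q (hat (SO k 0 a r)).toBw) :
    LinearMap.fst k (PA k) (PA k) ∘ₗ θ ∈ HomW Q (SO k 0 a r) ∧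
      LinearMap.snd k (PA k) (PA k) ∘ₗ θ ∈ HomW Q (SO k 0 (a + 1) r) := by
  refine ⟨⟨fun i v => congrArg Prod.fst (h.1 i v), fun i v => congrArg Prod.fst (h.2.1 i v),
    fun p q v hv => (h.2.2 p q v hv).1⟩, ⟨fun i v => congrArg Prod.snd (h.1 i v),
    fun i v => congrArg Prod.snd (h.2.1 i v), fun p q v hv => ?_⟩⟩
  have : (θ v).2 ∈ (G 0 (p + 1 + a) (q + r) : Submodule k (PA k)) := (h.2.2 p q v hv).2
  change (θ v).2 ∈ (G 0 (p + (a + 1)) (q + r) : Submodule k (PA k))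
  rwa [show p + (a + 1) = p + 1 + a by ring]

namespace Dic

variable {Q : Bw k} {C : Type} [AddCommGroup C] (D : Dic Q C)

/-- the map into the hat given by two cochains -/
noncomputable def tt (c0 c1 : C) : Q.V →ₗ[k] (PA k × PA k) := (D.t c0).prod (D.t c1)

theorem tt_apply (c0 c1 : C) (v : Q.V) : D.tt c0 c1 v = (D.t c0 v, D.t c1 v) := rfl

theorem tt_mem {a r : ℤ} {c0 c1 : C} (h0 : D.W a r c0) (h1 : D.W (a + 1) r c1) :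
    D.tt c0 c1 ∈ HomW Q (hat (SO k 0 a r)).toBw := pair_hom (D.mem _ _ _ h0) (D.mem _ _ _ h1)

theorem t_zero (v : Q.V) : D.t 0 v = 0 := by
  have := D.tadd 0 0 v
  rw [add_zero] at this
  exact left_eq_add.1 this

theorem t_sub (c c' : C) (v : Q.V) : D.t (c - c') v = D.t c v - D.t c' v := by
  have := D.tadd (c - c') c' v
  rw [sub_add_cancel] at this
  rw [this, add_sub_cancel_right]

/-- `f` is given by `c0`, `c1` -/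
def Rep {a r : ℤ} (f : Wn (WE (hat Q)) →ₗ[R k] Wn (WE (hat (SO k 0 a r)))) (c0 c1 : C) : Prop :=
  D.W a r c0 ∧ D.W (a + 1) r c1 ∧
    ∀ x, (f x).f = ex (M := Q) (L := hat (SO k 0 a r)) (D.tt c0 c1) ∘ₗ x.f

variable {D}

theorem Rep.of {a r : ℤ} {c0 c1 : C} (h0 : D.W a r c0) (h1 : D.W (a + 1) r c1) :
    ∃ f : Wn (WE (hat Q)) →ₗ[R k] Wn (WE (hat (SO k 0 a r))), D.Rep f c0 c1 :=
  ⟨Wn.mapE (L := hat Q) (N := WE (hat (SO k 0 a r))) (ex (D.tt c0 c1))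
    (ex_mem (L := hat (SO k 0 a r)) (D.tt_mem h0 h1)), h0, h1, fun _ => rfl⟩

theorem Rep.exists (E : Fp Q) {a r : ℤ}
    (f : Wn (WE (hat Q)) →ₗ[R k] Wn (WE (hat (SO k 0 a r)))) : ∃ c0 c1, D.Rep f c0 c1 := by
  obtain ⟨θ, hθ, rfl⟩ := E.exists_th (N := WE (hat (SO k 0 a r))) f
  obtain ⟨g0, g1⟩ := pair_hom_inv hθ
  obtain ⟨c0, h0, e0⟩ := D.exi _ _ _ g0
  obtain ⟨c1, h1, e1⟩ := D.exi _ _ _ g1
  refine ⟨c0, c1, h0, h1, fun x => ?_⟩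
  rw [Wn.mapE_f]
  refine comp_eq_of_F (L := hat Q) (L' := hat (SO k 0 a r)) x.mem (ex_mem hθ)
    (ex_mem (L := hat (SO k 0 a r)) (D.tt_mem h0 h1)) ?_
  rintro ⟨v1, v2⟩ ⟨hv1, hv2⟩
  have a1 : θ v1 = D.tt c0 c1 v1 := Prod.ext (e0 _ _ _ hv1) (e1 _ _ _ hv1)
  have a2 : θ v2 = D.tt c0 c1 v2 := Prod.ext (e0 _ _ _ hv2) (e1 _ _ _ hv2)
  rw [ex_apply, ex_apply, a1, a2]

theorem Rep.eq_zero {a r : ℤ} {f : Wn (WE (hat Q)) →ₗ[R k] Wn (WE (hat (SO k 0 a r)))}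
    (h : D.Rep f 0 0) (x : Wn (WE (hat Q))) : f x = 0 := by
  apply Wn.ext
  rw [h.2.2 x]
  apply LinearMap.ext
  intro u
  rw [LinearMap.comp_apply, ex_apply, D.tt_apply, D.tt_apply, D.t_zero, D.t_zero]
  change ((0 : PA k), (0 : PA k)) + ((0 : PA k), (0 : PA k)) = 0
  exact Prod.ext (add_zero _) (add_zero _)

theorem Rep.uniq_zero {a r : ℤ} {f : Wn (WE (hat Q)) →ₗ[R k] Wn (WE (hat (SO k 0 a r)))}
    {c0 c1 : C} (h : D.Rep f c0 c1) (hf : ∀ x, f x = 0) : c0 = 0 ∧ c1 = 0 := by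
  obtain ⟨h0, h1, h2⟩ := h
  have h3 : ∀ v ∈ Q.F 0 0, D.tt c0 c1 v = 0 := by
    intro v hv
    refine mapE_zero_o (N := WE (hat (SO k 0 a r))) (D.tt_mem h0 h1) (fun φ => ?_) 0 v ?_
    · rw [← hf φ]
      exact Wn.ext (h2 φ).symm
    · have e : (-((0 : Fin 3) : ℕ) : ℤ) = 0 := by simp
      rw [e]; exact hv
  exact ⟨D.uniq _ _ _ h0 fun v hv => congrArg Prod.fst (h3 v hv),
    D.uniq _ _ _ h1 fun v hv => congrArg Prod.snd (h3 v hv)⟩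

theorem Rep.sub' {a r : ℤ} {f f' : Wn (WE (hat Q)) →ₗ[R k] Wn (WE (hat (SO k 0 a r)))}
    {c0 c1 c0' c1' : C} (h : D.Rep f c0 c1) (h' : D.Rep f' c0' c1') :
    D.Rep (f - f') (c0 - c0') (c1 - c1') := by
  refine ⟨D.sub _ _ _ _ h.1 h'.1, D.sub _ _ _ _ h.2.1 h'.2.1, fun x => ?_⟩
  rw [LinearMap.sub_apply]
  have e1 : (f x - f' x).f = (f x).f - (f' x).f := rfl
  rw [e1, h.2.2 x, h'.2.2 x]
  apply LinearMap.ext
  intro u
  rw [LinearMap.sub_apply, LinearMap.comp_apply, LinearMap.comp_apply, LinearMap.comp_apply,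
    ex_apply, ex_apply, ex_apply]
  have e2 : ∀ v, D.tt (c0 - c0') (c1 - c1') v = D.tt c0 c1 v - D.tt c0' c1' v := fun v =>
    Prod.ext (D.t_sub _ _ v) (D.t_sub _ _ v)
  rw [e2, e2, map_sub]
  abel

theorem Rep.comp {Q' : Bw k} {C' : Type} [AddCommGroup C'] {D' : Dic Q' C'} {g : Q'.V →ₗ[k] Q.V}
    (hg : g ∈ HomW Q' Q) {a r : ℤ} {f : Wn (WE (hat Q)) →ₗ[R k] Wn (WE (hat (SO k 0 a r)))}
    {c0 c1 : C} (h : D.Rep f c0 c1) {c0' c1' : C'} (h0 : D'.W a r c0') (h1 : D'.W (a + 1) r c1')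
    (e0 : ∀ p q v, v ∈ Q'.F p q → D.t c0 (g v) = D'.t c0' v)
    (e1 : ∀ p q v, v ∈ Q'.F p q → D.t c1 (g v) = D'.t c1' v) :
    D'.Rep (f ∘ₗ Wn.mapE (L := hat Q') (N := WE (hat Q)) (hm g) (hm_mem hg)) c0' c1' := by
  refine ⟨h0, h1, fun x => ?_⟩
  rw [LinearMap.comp_apply, h.2.2, Wn.mapE_f, ← LinearMap.comp_assoc]
  refine comp_eq_of_F (L := hat Q') (L' := hat (SO k 0 a r)) x.mem
    (Hom.comp (ex_mem (L := hat (SO k 0 a r)) (D.tt_mem h.1 h.2.1)) (hm_mem hg))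
    (ex_mem (L := hat (SO k 0 a r)) (D'.tt_mem h0 h1)) ?_
  rintro ⟨v1, v2⟩ ⟨hv1, hv2⟩
  have a1 : D.tt c0 c1 (g v1) = D'.tt c0' c1' v1 := Prod.ext (e0 _ _ _ hv1) (e1 _ _ _ hv1)
  have a2 : D.tt c0 c1 (g v2) = D'.tt c0' c1' v2 := Prod.ext (e0 _ _ _ hv2) (e1 _ _ _ hv2)
  rw [LinearMap.comp_apply, ex_apply, ex_apply]
  change D.tt c0 c1 (g v1) + (hat (SO k 0 a r)).s (D.tt c0 c1 (g v2)) = _
  rw [a1, a2]

theorem Rep.comps {Q' : Bw k} {C' : Type} [AddCommGroup C'] {D' : Dic Q' C'} {g : Q'.V →ₗ[k] Q.V}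
    (hg : g ∈ HomW Q' (Q.shift 1 0)) {a r : ℤ}
    {f : Wn (WE (hat Q)) →ₗ[R k] Wn (WE (hat (SO k 0 a r)))}
    {c0 c1 : C} (h : D.Rep f c0 c1) {c1' : C'} (h1 : D'.W (a + 1) r c1')
    (e1 : ∀ p q v, v ∈ Q'.F p q → D.t c0 (g v) = D'.t c1' v) :
    D'.Rep (f ∘ₗ Wn.mapE (L := hat Q') (N := WE (hat Q)) (sm g) (sm_mem hg)) 0 c1' := by
  refine ⟨D'.zero _ _, h1, fun x => ?_⟩
  rw [LinearMap.comp_apply, h.2.2, Wn.mapE_f, ← LinearMap.comp_assoc]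
  refine comp_eq_of_F (L := hat Q') (L' := hat (SO k 0 a r)) x.mem
    (Hom.comp (ex_mem (L := hat (SO k 0 a r)) (D.tt_mem h.1 h.2.1)) (sm_mem hg))
    (ex_mem (L := hat (SO k 0 a r)) (D'.tt_mem (D'.zero _ _) h1)) ?_
  rintro ⟨v1, v2⟩ ⟨hv1, hv2⟩
  rw [LinearMap.comp_apply, ex_apply, ex_apply]
  change D.tt c0 c1 0 + ((0 : PA k), D.t c0 (g v1)) = (D'.t 0 v1, D'.t c1' v1) +
    ((0 : PA k), D'.t 0 v2)
  rw [map_zero, e1 _ _ _ hv1, D'.t_zero, D'.t_zero]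
  exact Prod.ext rfl ((zero_add _).trans (add_zero _).symm)

/-- composition with the inclusion -/
theorem Rep.comp_jO {a r r' : ℤ} (hr : r' ≤ r)
    {f : Wn (WE (hat Q)) →ₗ[R k] Wn (WE (hat (SO k 0 a r')))} {c0 c1 : C} (h : D.Rep f c0 c1) :
    D.Rep (jO hr ∘ₗ f) c0 c1 := by
  refine ⟨D.mono _ _ _ _ hr h.1, D.mono _ _ _ _ hr h.2.1, fun x => ?_⟩
  have e1 : ((jO hr ∘ₗ f) x).f = hm (M := SO k 0 a r') (N := SO k 0 a r) LinearMap.id ∘ₗ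
    (f x).f := rfl
  rw [e1, h.2.2]
  rfl

theorem Rep.range (E : Fp Q) {a r r' : ℤ} (hr : r' ≤ r)
    {f : Wn (WE (hat Q)) →ₗ[R k] Wn (WE (hat (SO k 0 a r)))} {c0 c1 : C} (h : D.Rep f c0 c1) :
    (∀ x, f x ∈ LinearMap.range (jO (k := k) (a := a) hr)) ↔ D.W a r' c0 ∧ D.W (a + 1) r' c1 := by
  constructor
  · intro hf
    obtain ⟨f', hf'⟩ := F.exists_lift (R := R k) (X := Wn (WE (hat Q)))
      (N' := Wn (WE (hat (SO k 0 a r')))) (N := Wn (WE (hat (SO k 0 a r))))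
      (j := jO (k := k) (a := a) hr) (jO_inj hr) f hf
    obtain ⟨c0', c1', h'⟩ := Rep.exists (D := D) E f'
    have h2 := Rep.sub' h (Rep.comp_jO hr h')
    have h3 : ∀ x, (f - jO hr ∘ₗ f') x = 0 := fun x => sub_eq_zero.2 (hf' x).symm
    obtain ⟨e0, e1⟩ := Rep.uniq_zero h2 h3
    rw [sub_eq_zero.1 e0, sub_eq_zero.1 e1]
    exact ⟨h'.1, h'.2.1⟩
  · rintro ⟨h0, h1⟩ x
    obtain ⟨f', h'⟩ := Rep.of (D := D) h0 h1
    have h2 := Rep.sub' h (Rep.comp_jO hr h')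
    rw [sub_self, sub_self] at h2
    have h3 : (f - jO hr ∘ₗ f') x = 0 := Rep.eq_zero h2 x
    have h4 : f x = jO hr (f' x) := sub_eq_zero.1 h3
    exact ⟨f' x, h4.symm⟩

end Dic

end Vale.Agent.P195.AR.S5
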