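import Vale.Agent.Lib.P195.AR.Fp

/-!
# P195: maps out of `S_m ⊗ O(0,b)` and `S_m ⊗ P_e` as polynomials in `η` (= `y`)

For `Φ : PA k` (with `y` playing the role of `η`) `th Φ : PA k → PA k` is the map commuting with the
left operators with `th Φ (ym a b) = ∂_y^(a,b) Φ`. For `p` of `y`-degree `m` and `Φ` of `y`-degree
`m`: `th Φ (rx i p) = th (lx i Φ) p`, `th Φ (rd i p) = th (ld i Φ) p`,
`th Φ (my i p) = th (dy i Φ) p`, `th Φ (dy i p) = th (my i Φ) p`.

`SO_hom`, `SO_hom_exists`: `HomW (SO k m 0 b) (SO k 0 a0 b0)` corresponds to `Φ ∈ G m a0 (b0 - b)`;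
`SP_hom`, `SP_hom_exists`: `HomW (SP k m 0 e) (SO k 0 a0 b0)` corresponds to pairs `(Λ₁, Λ₂)` in
`G m a0 b0` with `lx 1 Λ₁ - lx 0 Λ₂ ∈ G m (a0+1) (b0-e)`.
-/

namespace Vale.Agent.P195.AR

open MvPolynomial

variable {k : Type} [Field k]

/-- `∂_{y_1}^a ∂_{y_2}^b` -/
noncomputable def dyn (a b : ℕ) : PA k →ₗ[k] PA k :=
  ((dy 0 : Module.End k (PA k)) ^ a) * ((dy 1 : Module.End k (PA k)) ^ b)

/-- the map given by `Φ` -/
noncomputable def th (Φ : PA k) : PA k →ₗ[k] PA k := lift (SO k 0 0 0) (fun a b => dyn a b Φ)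

theorem th_lx (Φ : PA k) (i : Fin 2) (p : PA k) : th Φ (lx i p) = lx i (th Φ p) :=
  lift_lx (SO k 0 0 0) _ i p

theorem th_ld (Φ : PA k) (i : Fin 2) (p : PA k) : th Φ (ld i p) = ld i (th Φ p) :=
  lift_ld (SO k 0 0 0) _ i p

theorem th_ym (Φ : PA k) (a b : ℕ) : th Φ (ym a b) = dyn a b Φ := lift_ym (SO k 0 0 0) _ a b

theorem th_add (Φ Φ' : PA k) (p : PA k) : th (Φ + Φ') p = th Φ p + th Φ' p := by
  have := PA_ext (N := SO k 0 0 0) (f := th (Φ + Φ')) (g := th Φ + th Φ')
    (fun i v => th_lx _ i v) (fun i v => th_ld _ i v)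
    (fun i v => by rw [LinearMap.add_apply, LinearMap.add_apply, th_lx, th_lx]; exact (map_add (lx i) _ _).symm)
    (fun i v => by rw [LinearMap.add_apply, LinearMap.add_apply, th_ld, th_ld]; exact (map_add (ld i) _ _).symm)
    (fun a b => by rw [LinearMap.add_apply, th_ym, th_ym, th_ym, map_add])
  exact congrArg (fun f : PA k →ₗ[k] PA k => f p) this

theorem th_smul (c : k) (Φ : PA k) (p : PA k) : th (c • Φ) p = c • th Φ p := by
  have := PA_ext (N := SO k 0 0 0) (f := th (c • Φ)) (g := c • th Φ)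
    (fun i v => th_lx _ i v) (fun i v => th_ld _ i v)
    (fun i v => by rw [LinearMap.smul_apply, LinearMap.smul_apply, th_lx]; exact (map_smul (lx i) _ _).symm)
    (fun i v => by rw [LinearMap.smul_apply, LinearMap.smul_apply, th_ld]; exact (map_smul (ld i) _ _).symm)
    (fun a b => by rw [LinearMap.smul_apply, th_ym, th_ym, map_smul])
  exact congrArg (fun f : PA k →ₗ[k] PA k => f p) this

/-- `dyn` commutes with operators commuting with `dy` -/
theorem dyn_comm (F : PA k →ₗ[k] PA k) (h : ∀ i p, dy i (F p) = F (dy i p)) (a b : ℕ) (p : PA k) :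
    dyn a b (F p) = F (dyn a b p) := by
  have h1 : ∀ (i : Fin 2) (n : ℕ) (p : PA k),
      ((dy i : Module.End k (PA k)) ^ n) (F p) = F (((dy i : Module.End k (PA k)) ^ n) p) := by
    intro i n
    induction n with
    | zero => intro p; simp
    | succ n ih =>
      intro p
      rw [pow_succ', Module.End.mul_apply, ih, h, Module.End.mul_apply]
  change ((dy 0 : Module.End k (PA k)) ^ a) (((dy 1 : Module.End k (PA k)) ^ b) (F p)) = _
  rw [h1, h1]
  rfl

theorem th_rx (Φ : PA k) (i : Fin 2) (p : PA k) : th Φ (rx i p) = th (lx i Φ) p := by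
  have := PA_ext (N := SO k 0 0 0) (f := th Φ ∘ₗ rx i) (g := th (lx i Φ))
    (fun j v => by
      change th Φ (rx i (lx j v)) = lx j (th Φ (rx i v))
      rw [← lx_rx, th_lx])
    (fun j v => by
      change th Φ (rx i (ld j v)) = ld j (th Φ (rx i v))
      rw [← ld_rx, th_ld])
    (fun j v => th_lx _ j v) (fun j v => th_ld _ j v)
    (fun a b => by
      change th Φ (rx i (ym a b)) = th (lx i Φ) (ym a b)
      rw [rx_ym, th_lx, th_ym, th_ym, dyn_comm (lx i) (fun j p => dy_lx j i p)])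
  exact congrArg (fun f : PA k →ₗ[k] PA k => f p) this

theorem th_rd (Φ : PA k) (i : Fin 2) (p : PA k) : th Φ (rd i p) = th (ld i Φ) p := by
  have := PA_ext (N := SO k 0 0 0) (f := th Φ ∘ₗ rd i) (g := th (ld i Φ))
    (fun j v => by
      change th Φ (rd i (lx j v)) = lx j (th Φ (rd i v))
      rw [← lx_rd, th_lx])
    (fun j v => by
      change th Φ (rd i (ld j v)) = ld j (th Φ (rd i v))
      rw [← ld_rd, th_ld])
    (fun j v => th_lx _ j v) (fun j v => th_ld _ j v)
    (fun a b => by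
      change th Φ (rd i (ym a b)) = th (ld i Φ) (ym a b)
      rw [rd_ym, th_ld, th_ym, th_ym, dyn_comm (ld i) (fun j p => dy_ld j i p)])
  exact congrArg (fun f : PA k →ₗ[k] PA k => f p) this

theorem dyn_succ0 (a b : ℕ) (p : PA k) : dyn (a + 1) b p = dyn a b (dy 0 p) := by
  have hc : Commute (dy 0 : Module.End k (PA k)) (dy 1) := LinearMap.ext fun v => dy_comm 0 1 v
  have e : (dyn (a + 1) b : Module.End k (PA k)) = dyn a b * dy 0 := by
    rw [dyn, dyn, pow_succ, mul_assoc, mul_assoc, (hc.pow_right b).eq]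
  exact congrArg (fun f : PA k →ₗ[k] PA k => f p) e

theorem dyn_succ1 (a b : ℕ) (p : PA k) : dyn a (b + 1) p = dyn a b (dy 1 p) := by
  have e : (dyn a (b + 1) : Module.End k (PA k)) = dyn a b * dy 1 := by
    rw [dyn, dyn, pow_succ, mul_assoc]
  exact congrArg (fun f : PA k →ₗ[k] PA k => f p) e

theorem my_ym0 (a b : ℕ) : my 0 (ym a b : PA k) = ym (a + 1) b := by
  rw [my_apply, ym, ym, pow_succ]; ring

theorem my_ym1 (a b : ℕ) : my 1 (ym a b : PA k) = ym a (b + 1) := by
  rw [my_apply, ym, ym, pow_succ]; ring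

theorem th_my (Φ : PA k) (i : Fin 2) (p : PA k) : th Φ (my i p) = th (dy i Φ) p := by
  have := PA_ext (N := SO k 0 0 0) (f := th Φ ∘ₗ my i) (g := th (dy i Φ))
    (fun j v => by
      change th Φ (my i (lx j v)) = lx j (th Φ (my i v))
      rw [my_lx, th_lx])
    (fun j v => by
      change th Φ (my i (ld j v)) = ld j (th Φ (my i v))
      rw [my_ld, th_ld])
    (fun j v => th_lx _ j v) (fun j v => th_ld _ j v)
    (fun a b => by
      change th Φ (my i (ym a b)) = th (dy i Φ) (ym a b)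
      rcases i with ⟨_ | _ | i, hi⟩
      · change th Φ (my 0 (ym a b)) = th (dy 0 Φ) (ym a b)
        rw [my_ym0, th_ym, th_ym, dyn_succ0]
      · change th Φ (my 1 (ym a b)) = th (dy 1 Φ) (ym a b)
        rw [my_ym1, th_ym, th_ym, dyn_succ1]
      · omega)
  exact congrArg (fun f : PA k →ₗ[k] PA k => f p) this

/-- `y`-degree of a polynomial -/
def Yd (m : ℤ) (p : PA k) : Prop := ∀ μ ∈ p.support, (ydeg μ : ℤ) = m

theorem Yd_of_G {m a b : ℤ} {p : PA k} (h : p ∈ (G m a b : Submodule k (PA k))) : Yd m p :=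
  fun _ hμ => (h hμ).1

theorem Yd_neg {m : ℤ} (hm : m < 0) {p : PA k} (h : Yd m p) : p = 0 := by
  rw [← MvPolynomial.support_eq_empty, Finset.eq_empty_iff_forall_notMem]
  intro μ hμ
  have := h μ hμ
  omega

theorem Yd_dy {m : ℤ} {p : PA k} (i : Fin 2) (h : Yd m p) : Yd (m - 1) (dy i p) := by
  have h1 : p ∈ restrictSupport k {μ : Vr →₀ ℕ | (ydeg μ : ℤ) = m} := h
  have key : ∀ μ ∈ {μ : Vr →₀ ℕ | (ydeg μ : ℤ) = m}, dy i (monomial μ (1 : k)) ∈
      restrictSupport k {μ : Vr →₀ ℕ | (ydeg μ : ℤ) = m - 1} := by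
    intro μ hμ
    rw [dy_apply, pderiv_monomial]
    by_cases h0 : μ (Vr.y i) = 0
    · rw [h0]; simp
    · intro ν hν
      have := MvPolynomial.support_monomial_subset hν
      rw [Finset.mem_singleton] at this
      rw [this]
      simp only [Set.mem_setOf_eq, ydeg] at hμ ⊢
      fin_cases i <;> simp at * <;> omega
  have h2 : dy i p ∈ restrictSupport k {μ : Vr →₀ ℕ | (ydeg μ : ℤ) = m - 1} := by
    rw [p.as_sum, map_sum]
    apply Submodule.sum_mem
    intro μ hμ
    have : monomial μ (coeff μ p) = coeff μ p • monomial μ (1 : k) := by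
      rw [smul_monomial, smul_eq_mul, mul_one]
    rw [this, map_smul]
    exact Submodule.smul_mem _ _ (key μ (h1 hμ))
  exact h2

/-- derivatives of order higher than the degree vanish -/
theorem dyn_eq_zero {m : ℤ} {p : PA k} (h : Yd m p) (a b : ℕ) (hab : m < a + b) :
    dyn a b p = 0 := by
  have h1 : ∀ (i : Fin 2) (n : ℕ) (m : ℤ) (p : PA k), Yd m p →
      Yd (m - n) (((dy i : Module.End k (PA k)) ^ n) p) := by
    intro i n
    induction n with
    | zero => intro m p h; simpa using h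
    | succ n ih =>
      intro m p h
      rw [pow_succ', Module.End.mul_apply]
      have := Yd_dy i (ih m p h)
      rwa [show m - (n : ℤ) - 1 = m - ((n + 1 : ℕ) : ℤ) by push_cast; ring] at this
  exact Yd_neg (by omega) (h1 0 a _ _ (h1 1 b m p h))

theorem dyn_my (i : Fin 2) (a b : ℕ) (p : PA k) :
    dyn a b (my i p) = my i (dyn a b p) +
      (if i = 0 then (a : k) • dyn (a - 1) b p else (b : k) • dyn a (b - 1) p) := by
  have hpow : ∀ (j : Fin 2) (n : ℕ) (p : PA k), ((dy j : Module.End k (PA k)) ^ n) (my i p) =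
      my i (((dy j : Module.End k (PA k)) ^ n) p) +
        if j = i then (n : k) • ((dy j : Module.End k (PA k)) ^ (n - 1)) p else 0 := by
    intro j n
    induction n with
    | zero => intro p; simp
    | succ n ih =>
      intro p
      rw [pow_succ, Module.End.mul_apply, dy_my, map_add, ih, Module.End.mul_apply]
      by_cases h : j = i
      · simp only [h, if_true, Nat.add_sub_cancel]
        rcases Nat.eq_zero_or_pos n with rfl | hn
        · simp
        · have e2 : ((dy i : Module.End k (PA k)) ^ (n - 1)) (dy i p) =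
              ((dy i : Module.End k (PA k)) ^ n) p := by
            rw [← Module.End.mul_apply, ← pow_succ, Nat.sub_add_cancel hn]
          rw [e2, Nat.cast_succ, add_smul, one_smul]
          abel
      · simp [h]
  change ((dy 0 : Module.End k (PA k)) ^ a) (((dy 1 : Module.End k (PA k)) ^ b) (my i p)) = _
  rw [hpow 1 b, map_add, hpow 0 a]
  rcases i with ⟨_ | _ | i, hi⟩
  · simp [dyn, Module.End.mul_apply]
  · simp [dyn, Module.End.mul_apply]
  · omega

theorem dy_ym0 (a b : ℕ) : dy 0 (ym a b : PA k) = (a : k) • ym (a - 1) b := by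
  rw [dy_apply, ym_eq, ym_eq, pderiv_monomial, smul_monomial]
  have e1 : (Finsupp.single (Vr.y 0) a + Finsupp.single (Vr.y 1) b : Vr →₀ ℕ) (Vr.y 0) = a := by
    simp
  have e2 : (Finsupp.single (Vr.y 0) a + Finsupp.single (Vr.y 1) b : Vr →₀ ℕ) -
      Finsupp.single (Vr.y 0) 1 = Finsupp.single (Vr.y 0) (a - 1) + Finsupp.single (Vr.y 1) b := by
    refine Finsupp.ext fun v => ?_
    rcases v with i | i | i <;> fin_cases i <;> simp
  rw [e1, e2, one_mul, smul_eq_mul, mul_one]

theorem dy_ym1 (a b : ℕ) : dy 1 (ym a b : PA k) = (b : k) • ym a (b - 1) := by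
  rw [dy_apply, ym_eq, ym_eq, pderiv_monomial, smul_monomial]
  have e1 : (Finsupp.single (Vr.y 0) a + Finsupp.single (Vr.y 1) b : Vr →₀ ℕ) (Vr.y 1) = b := by
    simp
  have e2 : (Finsupp.single (Vr.y 0) a + Finsupp.single (Vr.y 1) b : Vr →₀ ℕ) -
      Finsupp.single (Vr.y 1) 1 = Finsupp.single (Vr.y 0) a + Finsupp.single (Vr.y 1) (b - 1) := by
    refine Finsupp.ext fun v => ?_
    rcases v with i | i | i <;> fin_cases i <;> simp
  rw [e1, e2, one_mul, smul_eq_mul, mul_one]

/-- `th Φ (∂_i p) = th (y_i Φ) p` for `Φ` of `y`-degree `m` and `p` of `y`-degree `m + 1` -/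
theorem th_dy (Φ : PA k) (m : ℤ) (hΦ : Yd m Φ) (i : Fin 2) (p : PA k) (hp : Yd (m + 1) p) :
    th Φ (dy i p) = th (my i Φ) p := by
  refine PA_ext_mem (N := SO k 0 0 0) (f := th Φ ∘ₗ dy i) (g := th (my i Φ))
    (fun j v => by
      change th Φ (dy i (lx j v)) = lx j (th Φ (dy i v))
      rw [dy_lx, th_lx])
    (fun j v => by
      change th Φ (dy i (ld j v)) = ld j (th Φ (dy i v))
      rw [dy_ld, th_ld])
    (fun j v => th_lx _ j v) (fun j v => th_ld _ j v) (m + 1)
    (fun a b hab => ?_) p hp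
  change th Φ (dy i (ym a b)) = th (my i Φ) (ym a b)
  rw [th_ym, dyn_my, dyn_eq_zero hΦ a b (by omega), map_zero, zero_add]
  rcases i with ⟨_ | _ | i, hi⟩
  · change th Φ (dy 0 (ym a b)) = _
    rw [dy_ym0, map_smul, th_ym]
    simp
  · change th Φ (dy 1 (ym a b)) = _
    rw [dy_ym1, map_smul, th_ym]
    simp
  · omega

end Vale.Agent.P195.AR
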