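import Vale.Agent.Lib.P195.AR.Lift

/-!
# P195: maps out of `TO b` and `TP e`

`HomW (TO k b) N = N.F 0 (-b)` by `f ↦ f u0`, and
`HomW (TP k e) N = {(u₁,u₂) ∈ (N.F 0 0)² | x₂ u₁ - x₁ u₂ ∈ N.F 1 (-e)}` by
`f ↦ (f (u0,0), f (0,u0))`.
-/

namespace Vale.Agent.P195.AR

open MvPolynomial

variable {k : Type} [Field k]

/-- the generator `1` of `Y0` -/
noncomputable def u0 : Y0 k := ⟨1, one_mem_Y0⟩

theorem u0_coe : ((u0 : Y0 k) : PA k) = 1 := rfl

theorem ym_zero : (ym 0 0 : PA k) = 1 := by simp [ym]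

theorem one_mem_G (b : ℤ) (hb : 0 ≤ b) : (1 : PA k) ∈ (G 0 0 b : Submodule k (PA k)) :=
  monomial_mem_G 0 0 b 0 1 (by simp [Gs, ydeg, xdeg, ddeg, hb])

theorem mem_Y0_deg (p : Y0 k) : ∀ μ ∈ (p : PA k).support, (ydeg μ : ℤ) = 0 := fun μ hμ => by
  have : ydeg μ = 0 := p.2 hμ
  exact_mod_cast this

/-- the projection of a polynomial to `Y0` (as the universal map) -/
noncomputable def toY0 : PA k →ₗ[k] Y0 k :=
  lift (TO k 0) (fun a b => if a = 0 ∧ b = 0 then u0 else 0)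

theorem toY0_coe (p : Y0 k) : toY0 (p : PA k) = p := by
  apply Subtype.ext
  have := PA_ext_mem (N := SO k 0 0 0) (f := (Y0 k).subtype ∘ₗ toY0) (g := LinearMap.id)
    (fun i v => by
      change ((toY0 (lx i v) : Y0 k) : PA k) = lx i (toY0 v : Y0 k)
      rw [toY0, lift_lx]; rfl)
    (fun i v => by
      change ((toY0 (ld i v) : Y0 k) : PA k) = ld i (toY0 v : Y0 k)
      rw [toY0, lift_ld]; rfl)
    (fun i v => rfl) (fun i v => rfl) 0
    (fun a b h => by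
      have ha : a = 0 := by omega
      have hb : b = 0 := by omega
      subst ha; subst hb
      change ((toY0 (ym 0 0) : Y0 k) : PA k) = ym 0 0
      rw [toY0, lift_ym, if_pos ⟨rfl, rfl⟩, u0_coe, ym_zero])
    (p : PA k) (mem_Y0_deg p)
  exact this

theorem Y0_ext {N : Bw k} {f g : Y0 k →ₗ[k] N.V} (hfx : ∀ i v, f (lx0 i v) = N.x i (f v))
    (hfd : ∀ i v, f (ld0 i v) = N.d i (f v)) (hgx : ∀ i v, g (lx0 i v) = N.x i (g v))
    (hgd : ∀ i v, g (ld0 i v) = N.d i (g v)) (h : f u0 = g u0) : f = g := by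
  have hx : ∀ (i : Fin 2) (v : PA k), toY0 (lx i v) = lx0 i (toY0 v) := fun i v =>
    lift_lx (TO k 0) _ i v
  have hd : ∀ (i : Fin 2) (v : PA k), toY0 (ld i v) = ld0 i (toY0 v) := fun i v =>
    lift_ld (TO k 0) _ i v
  have key : f ∘ₗ toY0 = g ∘ₗ toY0 := by
    apply PA_ext (N := N)
    · intro i v; rw [LinearMap.comp_apply, hx, hfx]; rfl
    · intro i v; rw [LinearMap.comp_apply, hd, hfd]; rfl
    · intro i v; rw [LinearMap.comp_apply, hx, hgx]; rfl
    · intro i v; rw [LinearMap.comp_apply, hd, hgd]; rfl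
    · intro a b
      rw [LinearMap.comp_apply, LinearMap.comp_apply, toY0, lift_ym]
      split_ifs
      · exact h
      · rw [map_zero, map_zero]
  apply LinearMap.ext
  intro p
  have := congrArg (fun F : PA k →ₗ[k] N.V => F p) key
  simp only [LinearMap.comp_apply, toY0_coe] at this
  exact this

theorem TO_ext {N : Bw k} {b : ℤ} {f g : (TO k b).V →ₗ[k] N.V} (hf : f ∈ HomW (TO k b) N)
    (hg : g ∈ HomW (TO k b) N) (h : f u0 = g u0) : f = g :=
  Y0_ext hf.1 hf.2.1 hg.1 hg.2.1 h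

theorem u0_mem (b : ℤ) : (u0 : Y0 k) ∈ (TO k b).F 0 (-b) := by
  change (1 : PA k) ∈ (G 0 0 (-b + b) : Submodule k (PA k))
  exact one_mem_G _ (by omega)

theorem TO_exists (N : Bw k) (b : ℤ) (ν : N.V) (hν : ν ∈ N.F 0 (-b)) :
    ∃ f ∈ HomW (TO k b) N, f u0 = ν := by
  obtain ⟨F, hF⟩ : ∃ F : PA k →ₗ[k] N.V, F = lift N (fun _ _ => ν) := ⟨_, rfl⟩
  refine ⟨F ∘ₗ (Y0 k).subtype, ⟨fun i v => ?_, fun i v => ?_, fun a c v hv => ?_⟩, ?_⟩
  · change F ((lx0 i v : Y0 k) : PA k) = N.x i (F (v : PA k))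
    rw [lx0_coe, hF, lift_lx]
  · change F ((ld0 i v : Y0 k) : PA k) = N.d i (F (v : PA k))
    rw [ld0_coe, hF, lift_ld]
  · have := lift_mem N (fun _ _ => ν) 0 0 (-b) (fun _ _ _ => hν) _ _ (v : PA k) hv
    rw [show a + 0 = a by ring, show c + b + -b = c by ring, ← hF] at this
    exact this
  · change F (1 : PA k) = ν
    rw [← ym_zero, hF, lift_ym]

/-- membership of the generators of `TP` -/
theorem e1_mem (e : ℤ) (he : 0 ≤ e) : ((u0, 0) : Y0 k × Y0 k) ∈ (TP k e).F 0 0 := by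
  refine ⟨⟨?_, ?_⟩, ?_⟩
  · exact one_mem_G _ (by omega)
  · exact Submodule.zero_mem _
  · change rx 0 (1 : PA k) + rx 1 (0 : PA k) ∈ (G 0 (0 + 1) 0 : Submodule k (PA k))
    rw [map_zero, add_zero]
    exact rx_mem 0 0 0 0 1 (one_mem_G 0 le_rfl)

theorem e2_mem (e : ℤ) (he : 0 ≤ e) : ((0, u0) : Y0 k × Y0 k) ∈ (TP k e).F 0 0 := by
  refine ⟨⟨?_, ?_⟩, ?_⟩
  · exact Submodule.zero_mem _
  · exact one_mem_G _ (by omega)
  · change rx 0 (0 : PA k) + rx 1 (1 : PA k) ∈ (G 0 (0 + 1) 0 : Submodule k (PA k))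
    rw [map_zero (rx 0), zero_add (rx 1 (1 : PA k))]
    exact rx_mem 1 0 0 0 1 (one_mem_G 0 le_rfl)

theorem e12_mem (e : ℤ) :
    (lx0 1 u0, -lx0 0 u0) ∈ (TP k e).F 1 (-e) := by
  have h1 : lx 1 (1 : PA k) = rx 1 1 := by simp [lx_apply, rx_apply]
  have h0 : lx 0 (1 : PA k) = rx 0 1 := by simp [lx_apply, rx_apply]
  refine ⟨⟨?_, ?_⟩, ?_⟩
  · change lx 1 (1 : PA k) ∈ (G 0 1 (-e + e) : Submodule k (PA k))
    exact lx_mem 1 0 0 _ _ (one_mem_G _ (by omega))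
  · change -(lx 0 (1 : PA k)) ∈ (G 0 1 (-e + e) : Submodule k (PA k))
    exact Submodule.neg_mem _ (lx_mem 0 0 0 _ _ (one_mem_G _ (by omega)))
  · change rx 0 (lx 1 (1 : PA k)) + rx 1 (-(lx 0 (1 : PA k))) ∈
      (G 0 (1 + 1) (-e) : Submodule k (PA k))
    rw [h1, h0, map_neg, rx_comm, add_neg_cancel]
    exact Submodule.zero_mem _

theorem TP_ext {N : Bw k} {e : ℤ} {f g : (TP k e).V →ₗ[k] N.V} (hf : f ∈ HomW (TP k e) N)
    (hg : g ∈ HomW (TP k e) N) (h1 : f (u0, 0) = g (u0, 0)) (h2 : f (0, u0) = g (0, u0)) :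
    f = g := by
  have a1 : f ∘ₗ LinearMap.inl k (Y0 k) (Y0 k) = g ∘ₗ LinearMap.inl k (Y0 k) (Y0 k) := by
    refine Y0_ext (N := N) (fun i v => ?_) (fun i v => ?_) (fun i v => ?_) (fun i v => ?_) h1
    · refine (congrArg f ?_).trans (hf.1 i (v, 0))
      exact Prod.ext rfl (map_zero (lx0 i)).symm
    · refine (congrArg f ?_).trans (hf.2.1 i (v, 0))
      exact Prod.ext rfl (map_zero (ld0 i)).symm
    · refine (congrArg g ?_).trans (hg.1 i (v, 0))
      exact Prod.ext rfl (map_zero (lx0 i)).symm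
    · refine (congrArg g ?_).trans (hg.2.1 i (v, 0))
      exact Prod.ext rfl (map_zero (ld0 i)).symm
  have a2 : f ∘ₗ LinearMap.inr k (Y0 k) (Y0 k) = g ∘ₗ LinearMap.inr k (Y0 k) (Y0 k) := by
    refine Y0_ext (N := N) (fun i v => ?_) (fun i v => ?_) (fun i v => ?_) (fun i v => ?_) h2
    · refine (congrArg f ?_).trans (hf.1 i (0, v))
      exact Prod.ext (map_zero (lx0 i)).symm rfl
    · refine (congrArg f ?_).trans (hf.2.1 i (0, v))
      exact Prod.ext (map_zero (ld0 i)).symm rfl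
    · refine (congrArg g ?_).trans (hg.1 i (0, v))
      exact Prod.ext (map_zero (lx0 i)).symm rfl
    · refine (congrArg g ?_).trans (hg.2.1 i (0, v))
      exact Prod.ext (map_zero (ld0 i)).symm rfl
  exact LinearMap.prod_ext a1 a2

/-- `x₁ p₁ + x₂ p₂ = 0` implies `p = wp(w)` -/
theorem exists_wp {m a b : ℤ} (p : PA k × PA k) (h1 : p.1 ∈ (G m a b : Submodule k (PA k)))
    (h2 : p.2 ∈ (G m a b : Submodule k (PA k))) (hq : rx 0 p.1 + rx 1 p.2 = 0) :
    ∃ w ∈ (G m (a - 1) b : Submodule k (PA k)), p = wp w := by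
  have hd : (X (Vr.x 1) : PA k) ∣ X (Vr.x 0) * p.1 :=
    ⟨-p.2, by
      rw [rx_apply, rx_apply] at hq
      rw [mul_neg]
      exact eq_neg_of_add_eq_zero_left hq⟩
  have hpr : Prime (X (Vr.x 1) : PA k) := MvPolynomial.X_prime
  have hnd : ¬ (X (Vr.x 1) : PA k) ∣ X (Vr.x 0) := by
    rw [X_dvd_X]
    simp
  obtain ⟨w, hw⟩ := (hpr.dvd_or_dvd hd).resolve_left hnd
  have hw2 : p.2 = -(X (Vr.x 0) * w) := by
    rw [rx_apply, rx_apply, hw] at hq
    have : (X (Vr.x 1) : PA k) * (p.2 + X (Vr.x 0) * w) = 0 := by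
      rw [mul_add]
      rw [← hq]
      ring
    have := (mul_eq_zero.1 this).resolve_left (X_ne_zero _)
    exact eq_neg_of_add_eq_zero_left this
  refine ⟨w, ?_, Prod.ext hw hw2⟩
  intro μ hμ
  have hμ' : μ + Finsupp.single (Vr.x 1) 1 ∈ p.1.support := by
    rw [hw, mem_support_iff, add_comm, coeff_X_mul]
    exact mem_support_iff.1 hμ
  obtain ⟨g1, g2, g3⟩ := h1 hμ'
  refine ⟨?_, ?_, ?_⟩
  · simp [ydeg] at *; omega
  · simp [xdeg, ddeg] at *; omega
  · simp [ddeg] at *; omega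

/-- decomposition of the filtration of `P_e` -/
theorem GP_dec {m e a b : ℤ} (he : 0 ≤ e) (p : PA k × PA k) (hp : p ∈ GP k m e a b) :
    ∃ p' : PA k × PA k, (p'.1 ∈ (G m a b : Submodule k (PA k)) ∧
      p'.2 ∈ (G m a b : Submodule k (PA k))) ∧
      ∃ w ∈ (G m (a - 1) (b + e) : Submodule k (PA k)), p = p' + wp w := by
  classical
  obtain ⟨⟨h1, h2⟩, h3⟩ := hp
  -- truncation
  have trunc : ∀ f ∈ (G m a (b + e) : Submodule k (PA k)), ∃ g h : PA k, f = g + h ∧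
      g ∈ (G m a b : Submodule k (PA k)) ∧
      h ∈ (G m a (b + e) : Submodule k (PA k)) ∧ ∀ μ ∈ h.support, b < (ddeg μ : ℤ) := by
    intro f hf
    have hsum : ∀ (P : (Vr →₀ ℕ) → Prop) [DecidablePred P] (μ : Vr →₀ ℕ),
        coeff μ (∑ ν ∈ f.support with P ν, monomial ν (coeff ν f)) =
          if P μ then coeff μ f else 0 := by
      intro P _ μ
      rw [coeff_sum]
      simp only [coeff_monomial]
      rw [Finset.sum_ite_eq' (f.support.filter P) μ (fun ν => coeff ν f)]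
      simp only [Finset.mem_filter, mem_support_iff]
      by_cases h : P μ
      · by_cases h' : coeff μ f = 0 <;> simp [h, h']
      · simp [h]
    refine ⟨∑ μ ∈ f.support with (ddeg μ : ℤ) ≤ b, monomial μ (coeff μ f),
      ∑ μ ∈ f.support with ¬ (ddeg μ : ℤ) ≤ b, monomial μ (coeff μ f), ?_, ?_, ?_, ?_⟩
    · rw [Finset.sum_filter_add_sum_filter_not]
      exact f.as_sum
    · rw [mem_G]
      intro μ hμ
      rw [mem_support_iff, hsum] at hμ
      have hP : (ddeg μ : ℤ) ≤ b := by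
        by_contra hc
        rw [if_neg hc] at hμ
        exact hμ rfl
      rw [if_pos hP] at hμ
      have := hf (mem_support_iff.2 hμ)
      exact ⟨this.1, this.2.1, hP⟩
    · rw [mem_G]
      intro μ hμ
      rw [mem_support_iff, hsum] at hμ
      have hP : ¬ (ddeg μ : ℤ) ≤ b := by
        by_contra hc
        rw [if_neg (not_not.2 hc)] at hμ
        exact hμ rfl
      rw [if_pos hP] at hμ
      exact hf (mem_support_iff.2 hμ)
    · intro μ hμ
      rw [mem_support_iff, hsum] at hμ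
      by_contra hc
      rw [if_neg (by omega)] at hμ
      exact hμ rfl
  obtain ⟨g1, r1, e1, hg1, hr1, hr1'⟩ := trunc _ h1
  obtain ⟨g2, r2, e2, hg2, hr2, hr2'⟩ := trunc _ h2
  have hsup : ∀ (i : Fin 2) (r : PA k), (∀ μ ∈ r.support, b < (ddeg μ : ℤ)) →
      ∀ μ ∈ (rx i r).support, b < (ddeg μ : ℤ) := by
    intro i r hr μ hμ
    rw [rx_apply, support_X_mul, Finset.mem_map] at hμ
    obtain ⟨ν, hν, rfl⟩ := hμ
    have := hr ν hν
    fin_cases i <;> simp [ddeg] at * <;> omega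
  have hz : rx 0 r1 + rx 1 r2 = 0 := by
    have hm : rx 0 r1 + rx 1 r2 ∈ (G m (a + 1) b : Submodule k (PA k)) := by
      have : rx 0 r1 + rx 1 r2 = (rx 0 p.1 + rx 1 p.2) - (rx 0 g1 + rx 1 g2) := by
        rw [e1, e2, map_add, map_add]
        ring
      rw [this]
      exact Submodule.sub_mem _ h3 (Submodule.add_mem _ (rx_mem 0 _ _ _ _ hg1)
        (rx_mem 1 _ _ _ _ hg2))
    rw [← MvPolynomial.support_eq_empty, Finset.eq_empty_iff_forall_notMem]
    intro μ hμ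
    have hle := (hm hμ).2.2
    rcases Finset.mem_union.1 (support_add hμ) with h | h
    · have := hsup 0 r1 hr1' μ h; omega
    · have := hsup 1 r2 hr2' μ h; omega
  obtain ⟨w, hw, hw'⟩ := exists_wp (m := m) (a := a) (b := b + e) (r1, r2) hr1 hr2 hz
  exact ⟨(g1, g2), ⟨hg1, hg2⟩, w, hw, by rw [← hw']; exact Prod.ext e1 e2⟩

theorem TP_exists (N : Bw k) (e : ℤ) (he : 0 ≤ e) (u1 u2 : N.V) (h1 : u1 ∈ N.F 0 0)
    (h2 : u2 ∈ N.F 0 0) (h12 : N.x 1 u1 - N.x 0 u2 ∈ N.F 1 (-e)) :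
    ∃ f ∈ HomW (TP k e) N, f (u0, 0) = u1 ∧ f (0, u0) = u2 := by
  set f1 : PA k →ₗ[k] N.V := lift N (fun _ _ => u1) with hf1
  set f2 : PA k →ₗ[k] N.V := lift N (fun _ _ => u2) with hf2
  set f3 : PA k →ₗ[k] N.V := lift N (fun _ _ => N.x 1 u1 - N.x 0 u2) with hf3
  -- `f1 (x₂ w) - f2 (x₁ w) = f3 w` for `w` without `y`
  have key : ∀ w : PA k, (∀ μ ∈ w.support, (ydeg μ : ℤ) = 0) →
      f1 (rx 1 w) - f2 (rx 0 w) = f3 w := by
    intro w hw
    refine PA_ext_mem (N := N) (f := f1 ∘ₗ rx 1 - f2 ∘ₗ rx 0) (g := f3) ?_ ?_ ?_ ?_ 0 ?_ w hw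
    · intro i v
      simp only [LinearMap.sub_apply, LinearMap.comp_apply, ← lx_rx, hf1, hf2, lift_lx, map_sub]
    · intro i v
      simp only [LinearMap.sub_apply, LinearMap.comp_apply, ← ld_rx, hf1, hf2, lift_ld, map_sub]
    · intro i v; rw [hf3, lift_lx]
    · intro i v; rw [hf3, lift_ld]
    · intro a b hab
      have ha : a = 0 := by omega
      have hb : b = 0 := by omega
      subst ha; subst hb
      have e1 : rx 1 (1 : PA k) = lx 1 1 := by simp [lx_apply, rx_apply]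
      have e0 : rx 0 (1 : PA k) = lx 0 1 := by simp [lx_apply, rx_apply]
      have l1 : f1 1 = u1 := by rw [← ym_zero, hf1, lift_ym]
      have l2 : f2 1 = u2 := by rw [← ym_zero, hf2, lift_ym]
      rw [LinearMap.sub_apply, LinearMap.comp_apply, LinearMap.comp_apply, hf3, lift_ym, ym_zero,
        e1, e0]
      conv_lhs => rw [hf1, hf2, lift_lx, lift_lx, ← hf1, ← hf2, l1, l2]
  refine ⟨f1.coprod f2 ∘ₗ inc2 k, ⟨fun i v => ?_, fun i v => ?_, fun a b v hv => ?_⟩, ?_, ?_⟩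
  · change f1 (lx i v.1) + f2 (lx i v.2) = N.x i (f1 v.1 + f2 v.2)
    rw [hf1, hf2, lift_lx, lift_lx, map_add]
  · change f1 (ld i v.1) + f2 (ld i v.2) = N.d i (f1 v.1 + f2 v.2)
    rw [hf1, hf2, lift_ld, lift_ld, map_add]
  · obtain ⟨p', ⟨hp1, hp2⟩, w, hw, hpw⟩ := GP_dec he (inc2 k v) hv
    have hwy : ∀ μ ∈ w.support, (ydeg μ : ℤ) = 0 := fun μ hμ => (hw hμ).1
    have e1 : f1.coprod f2 (inc2 k v) = (f1 p'.1 + f2 p'.2) + f3 w := by
      rw [hpw, ← key w hwy, LinearMap.coprod_apply]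
      simp only [Prod.fst_add, Prod.snd_add, wp_apply, map_add, map_neg]
      abel
    change f1.coprod f2 (inc2 k v) ∈ N.F a b
    rw [e1]
    have m1 := lift_mem N (fun _ _ => u1) 0 0 0 (fun _ _ _ => h1) _ _ _ hp1
    have m2 := lift_mem N (fun _ _ => u2) 0 0 0 (fun _ _ _ => h2) _ _ _ hp2
    have m3 := lift_mem N (fun _ _ => N.x 1 u1 - N.x 0 u2) 0 1 (-e) (fun _ _ _ => h12) _ _ _ hw
    rw [add_zero, add_zero] at m1 m2
    rw [show a - 1 + 1 = a by ring, show b + e + -e = b by ring] at m3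
    exact Submodule.add_mem _ (Submodule.add_mem _ m1 m2) m3
  · change f1 (1 : PA k) + f2 (0 : PA k) = u1
    rw [map_zero, add_zero, ← ym_zero, hf1, lift_ym]
  · change f1 (0 : PA k) + f2 (1 : PA k) = u2
    rw [map_zero, zero_add, ← ym_zero, hf2, lift_ym]

end Vale.Agent.P195.AR
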