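import Vale.Agent.Lib.P195.AR.Ex1

/-!
# P195 exactness facts, part 2: the commutative facts (a), (c), (d)
-/

namespace Vale.Agent.P195.AR

open MvPolynomial

variable {k : Type} [Field k]

/-- divisibility by a variable from the supports -/
theorem SP_dvd {p : (Vr →₀ ℕ) → Prop} (i : Vr) (h : ∀ s, p s → s i ≠ 0)
    {f : PA k} (hf : f ∈ SuP k p) : ∃ g, f = X i * g := by
  have h1 : (X i : PA k) ∣ f := by
    rw [X_dvd_iff_modMonomial_eq_zero]
    ext s
    rw [coeff_zero]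
    by_cases hs : Finsupp.single i 1 ≤ s
    · exact coeff_modMonomial_of_le _ hs
    · rw [coeff_modMonomial_of_not_le _ hs]
      by_contra hc
      apply hs
      rw [Finsupp.single_le_iff]
      exact Nat.one_le_iff_ne_zero.mpr (h s (hf s hc))
  exact h1

theorem X_cop {i j : Vr} (hij : i ≠ j) {f g : PA k}
    (h : X i * f = X j * g) : ∃ w, f = X j * w ∧ g = X i * w := by
  have h1 : (X j : PA k) ∣ X i * f := ⟨g, h⟩
  have h2 : (X j : PA k) ∣ f := by
    rcases (X_prime (i := j) (R := k)).dvd_or_dvd h1 with h3 | h3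
    · rw [X_dvd_X] at h3
      exact absurd h3.symm hij
    · exact h3
  obtain ⟨w, hw⟩ := h2
  refine ⟨w, hw, ?_⟩
  rw [hw] at h
  have h4 : X j * (X i * w) = X j * g := by rw [← h]; ring
  exact (mul_left_cancel₀ (X_ne_zero j) h4).symm

/-- two linear maps which agree on the monomials -/
theorem SP_ext {p : (Vr →₀ ℕ) → Prop} {M : Type} [AddCommGroup M] [Module k M]
    (S T : PA k →ₗ[k] M) (h : ∀ s c, p s → S (monomial s c) = T (monomial s c))
    {f : PA k} (hf : f ∈ SuP k p) : S f = T f := by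
  rw [f.as_sum, map_sum, map_sum]
  apply Finset.sum_congr rfl
  intro s hs
  exact h s _ (hf s (mem_support_iff.mp hs))

/-! ### (d) -/

/-- (d1) -/
theorem exd1 {a b m : ℤ} (ha : 0 ≤ a) {q : PA k} (hq : q ∈ FF k (a + 1) b m) :
    ∃ p1 ∈ FF k a b m, ∃ p2 ∈ FF k a b m, q = X (Vr.x 0) * p1 + X (Vr.x 1) * p2 := by
  obtain ⟨g, hg, h, hh, e⟩ := SP_split (fun s => s (Vr.x 0) = 0) hq
  obtain ⟨g', rfl⟩ := SP_dvd (Vr.x 1) (fun s hs => by
    obtain ⟨⟨h1, -, -⟩, h4⟩ := hs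
    intro h5
    rw [h4, h5] at h1
    push_cast at h1
    omega) hg
  obtain ⟨h', rfl⟩ := SP_dvd (Vr.x 0) (fun s hs => hs.2) hh
  refine ⟨h', FF_x0.mp (SP_mono (fun s hs => hs.1) hh), g',
    FF_x1.mp (SP_mono (fun s hs => hs.1) hg), ?_⟩
  rw [e, add_comm]

/-- (d1) for exact order -/
theorem exd1G {a b m : ℤ} (ha : 0 ≤ a + b) {q : PA k}
    (hq : q ∈ GG k (a + 1) b m) :
    ∃ p1 ∈ GG k a b m, ∃ p2 ∈ GG k a b m, q = X (Vr.x 0) * p1 + X (Vr.x 1) * p2 := by
  obtain ⟨g, hg, h, hh, e⟩ := SP_split (fun s => s (Vr.x 0) = 0) hq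
  obtain ⟨g', rfl⟩ := SP_dvd (Vr.x 1) (fun s hs => by
    obtain ⟨⟨h1, h2, -⟩, h4⟩ := hs
    intro h5
    rw [h4, h5] at h1
    push_cast at h1
    omega) hg
  obtain ⟨h', rfl⟩ := SP_dvd (Vr.x 0) (fun s hs => hs.2) hh
  refine ⟨h', GG_x0.mp (SP_mono (fun s hs => hs.1) hh), g',
    GG_x1.mp (SP_mono (fun s hs => hs.1) hg), ?_⟩
  rw [e, add_comm]

/-- (d2) -/
theorem exd2 {a b m : ℤ} {p1 p2 : PA k} (h1 : p1 ∈ FF k a b m)
    (h : X (Vr.x 0) * p1 + X (Vr.x 1) * p2 = 0) :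
    ∃ w ∈ FF k (a - 1) b m, p1 = X (Vr.x 1) * w ∧ p2 = - (X (Vr.x 0) * w) := by
  have h2 : X (Vr.x 0) * p1 = X (Vr.x 1) * (-p2) := by linear_combination h
  obtain ⟨w, hw1, hw2⟩ := X_cop (by decide) h2
  refine ⟨w, ?_, hw1, ?_⟩
  · rw [hw1] at h1
    apply FF_x1.mp
    rwa [sub_add_cancel]
  · rw [← hw2, neg_neg]

/-! ### (a) -/

/-- the specialisation y := x -/
noncomputable def sg : PA k →ₐ[k] PA k :=
  aeval (fun v => match v with | .x i => X (Vr.x i) | .d i => X (Vr.d i) | .y i => X (Vr.x i))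

theorem sg_X0 : sg (X (Vr.x 0) : PA k) = X (Vr.x 0) := by simp [sg]
theorem sg_X1 : sg (X (Vr.x 1) : PA k) = X (Vr.x 1) := by simp [sg]
theorem sg_X2 : sg (X (Vr.d 0) : PA k) = X (Vr.d 0) := by simp [sg]
theorem sg_X3 : sg (X (Vr.d 1) : PA k) = X (Vr.d 1) := by simp [sg]
theorem sg_X4 : sg (X (Vr.y 0) : PA k) = X (Vr.x 0) := by simp [sg]
theorem sg_X5 : sg (X (Vr.y 1) : PA k) = X (Vr.x 1) := by simp [sg]

/-- `x_1 y_2 - x_2 y_1` -/
noncomputable def om : PA k := X (Vr.x 0) * X (Vr.y 1) - X (Vr.x 1) * X (Vr.y 0)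

theorem sg_om : sg (om : PA k) = 0 := by
  simp only [om, map_sub, map_mul, sg_X0, sg_X1, sg_X4, sg_X5]
  ring

theorem sg_of_zero {a b : ℤ} {f : PA k} (hf : f ∈ FF k a b 0) : sg f = f := by
  have h := SP_ext (k := k) (sg : PA k →ₐ[k] PA k).toLinearMap
    LinearMap.id (p := FC a b 0) ?_ hf
  · exact h
  · intro s c hs
    obtain ⟨-, -, h3⟩ := hs
    have h4 : s (Vr.y 0) = 0 := by omega
    have h5 : s (Vr.y 1) = 0 := by omega
    change sg (monomial s c) = monomial s c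
    rw [sg, aeval_monomial, monomial_eq]
    congr 1
    apply Finsupp.prod_congr
    intro i hi
    rw [Finsupp.mem_support_iff] at hi
    fin_cases i
    · rfl
    · rfl
    · rfl
    · rfl
    · exact absurd h4 hi
    · exact absurd h5 hi

theorem exa_lead (n : ℕ) : ∀ {a b : ℤ} {g : PA k},
    g ∈ SuP k (fun s => FC a b n s ∧ s (Vr.y 1) = 0) → ∃ A ∈ FF k a b 0, g = A * X (Vr.y 0) ^ n := by
  induction n with
  | zero =>
    intro a b g hg
    exact ⟨g, SP_mono (fun s hs => by simpa using hs.1) hg, by simp⟩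
  | succ n ih =>
    intro a b g hg
    obtain ⟨g', rfl⟩ := SP_dvd (Vr.y 0) (fun s hs => by
      obtain ⟨⟨-, -, h3⟩, h4⟩ := hs
      intro h5
      rw [h4, h5] at h3
      push_cast at h3
      omega) hg
    have h1 : g' ∈ SuP k (fun s => FC a b n s ∧ s (Vr.y 1) = 0) := by
      refine SP_div (Vr.y 0) ?_ hg
      rintro s ⟨⟨h1, h2, h3⟩, h4⟩
      simp at h1 h2 h3 h4
      exact ⟨⟨by omega, by omega, by omega⟩, h4⟩
    obtain ⟨A, hA, e⟩ := ih h1
    refine ⟨A, hA, ?_⟩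
    rw [e, pow_succ]
    ring

theorem FF_mul_X4_pow {a b m : ℤ} {f : PA k} (hf : f ∈ FF k a b m) (n : ℕ) :
    f * X (Vr.y 0) ^ n ∈ FF k a b (m + n) := by
  induction n with
  | zero => simpa using hf
  | succ n ih =>
    have : f * X (Vr.y 0) ^ (n + 1) = X (Vr.y 0) * (f * X (Vr.y 0) ^ n) := by rw [pow_succ]; ring
    rw [this]
    push_cast
    rw [← add_assoc]
    exact FF_y4.mpr ih

/-- (a1), natural number version -/
theorem exa1_nat (n : ℕ) : ∀ {a b : ℤ} {f : PA k}, f ∈ FF k a b n → sg f = 0 →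
    ∃ f' ∈ FF k (a - 1) b ((n : ℤ) - 1), f = om * f' := by
  induction n with
  | zero =>
    intro a b f hf h
    have : sg f = f := sg_of_zero (by simpa using hf)
    refine ⟨0, Submodule.zero_mem _, ?_⟩
    rw [mul_zero, ← this, h]
  | succ n ih =>
    intro a b f hf h
    obtain ⟨g, hg, r, hr, e⟩ := SP_split (fun s => s (Vr.y 1) = 0) hf
    obtain ⟨A, hA, eA⟩ := exa_lead (n + 1) hg
    obtain ⟨r', rfl⟩ := SP_dvd (Vr.y 1) (fun s hs => hs.2) hr
    have hr' : r' ∈ FF k a b n := by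
      apply FF_y5.mp
      refine SP_mono (fun s hs => ?_) hr
      have := hs.1
      push_cast at this
      exact this
    rw [e, eA, map_add, map_mul, map_mul, map_pow, sg_X4, sg_X5, sg_of_zero hA] at h
    have hdvd : (X (Vr.x 1) : PA k) ∣ A * X (Vr.x 0) ^ (n + 1) :=
      ⟨- sg r', by linear_combination h⟩
    have hA1 : (X (Vr.x 1) : PA k) ∣ A := by
      rcases (X_prime (i := (Vr.x 1)) (R := k)).dvd_or_dvd hdvd with h3 | h3
      · exact h3
      · have h4 := (X_prime (i := (Vr.x 1)) (R := k)).dvd_of_dvd_pow h3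
        rw [X_dvd_X] at h4
        exact absurd h4 (by decide)
    obtain ⟨A', rfl⟩ := hA1
    have hA' : A' ∈ FF k (a - 1) b 0 := by
      apply FF_x1.mp
      rwa [sub_add_cancel]
    have h2 : r' + X (Vr.x 0) * (A' * X (Vr.y 0) ^ n) ∈ FF k a b n := by
      apply Submodule.add_mem _ hr'
      have h5 := FF_x0.mpr (FF_mul_X4_pow hA' n)
      rwa [sub_add_cancel, zero_add] at h5
    have h3 : sg (r' + X (Vr.x 0) * (A' * X (Vr.y 0) ^ n)) = 0 := by
      have h6 : X (Vr.x 1) * sg (r' + X (Vr.x 0) * (A' * X (Vr.y 0) ^ n)) = 0 := by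
        rw [map_add, map_mul, map_mul, map_pow, sg_X0, sg_X4, sg_of_zero hA']
        rw [pow_succ] at h
        linear_combination h
      exact (mul_eq_zero.mp h6).resolve_left (X_ne_zero (Vr.x 1))
    obtain ⟨f3, hf3, e3⟩ := ih h2 h3
    refine ⟨- (A' * X (Vr.y 0) ^ n) + X (Vr.y 1) * f3, ?_, ?_⟩
    · push_cast
      rw [add_sub_cancel_right]
      apply Submodule.add_mem
      · apply Submodule.neg_mem
        have h5 := FF_mul_X4_pow hA' n
        rwa [zero_add] at h5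
      · have h5 := FF_y5.mpr hf3
        rwa [sub_add_cancel] at h5
    · have e4 : r' = om * f3 - X (Vr.x 0) * (A' * X (Vr.y 0) ^ n) := by linear_combination e3
      rw [e, eA, e4, om, pow_succ]
      ring

/-- (a1) -/
theorem exa1 {a b m : ℤ} {f : PA k} (hf : f ∈ FF k a b m) (h : sg f = 0) :
    ∃ f' ∈ FF k (a - 1) b (m - 1), f = om * f' := by
  by_cases hm : m < 0
  · exact ⟨0, Submodule.zero_mem _, by rw [FF_zero_m hf hm, mul_zero]⟩
  · obtain ⟨n, rfl⟩ := Int.eq_ofNat_of_zero_le (not_lt.mp hm)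
    exact exa1_nat n hf h

/-- (a2) -/
theorem exa2_nat (n : ℕ) : ∀ {a b : ℤ} {w : PA k}, 0 ≤ a →
    w ∈ FF k (a + n) b 0 → ∃ f ∈ FF k a b n, sg f = w := by
  induction n with
  | zero =>
    intro a b w _ hw
    have hw' : w ∈ FF k a b 0 := by simpa using hw
    exact ⟨w, by simpa using hw', sg_of_zero hw'⟩
  | succ n ih =>
    intro a b w ha hw
    push_cast at hw
    rw [← add_assoc] at hw
    obtain ⟨w1, h1, w2, h2, e⟩ := exd1 (by positivity) hw
    obtain ⟨f1, hf1, e1⟩ := ih ha h1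
    obtain ⟨f2, hf2, e2⟩ := ih ha h2
    refine ⟨X (Vr.y 0) * f1 + X (Vr.y 1) * f2, ?_, ?_⟩
    · push_cast
      exact Submodule.add_mem _ (FF_y4.mpr hf1) (FF_y5.mpr hf2)
    · rw [map_add, map_mul, map_mul, sg_X4, sg_X5, e1, e2, e]

theorem exa2 {a b m : ℤ} (ha : 0 ≤ a) (hm : 0 ≤ m) {w : PA k}
    (hw : w ∈ FF k (a + m) b 0) : ∃ f ∈ FF k a b m, sg f = w := by
  obtain ⟨n, rfl⟩ := Int.eq_ofNat_of_zero_le hm
  exact exa2_nat n ha hw

/-! ### (c) -/

/-- Euler identity in y -/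
theorem euler_y {a b m : ℤ} {f : PA k} (hf : f ∈ FF k a b m) :
    X (Vr.y 0) * pderiv (Vr.y 0) f + X (Vr.y 1) * pderiv (Vr.y 1) f = (m : k) • f := by
  have h := SP_ext (k := k)
    (LinearMap.mulLeft k (X (Vr.y 0) : PA k) ∘ₗ (pderiv (Vr.y 0)).toLinearMap
      + LinearMap.mulLeft k (X (Vr.y 1) : PA k) ∘ₗ (pderiv (Vr.y 1)).toLinearMap)
    ((m : k) • LinearMap.id) (p := FC a b m) ?_ hf
  · exact h
  · intro s c hs
    obtain ⟨-, -, h3⟩ := hs
    change X (Vr.y 0) * pderiv (Vr.y 0) (monomial s c) + X (Vr.y 1) * pderiv (Vr.y 1) (monomial s c) = (m : k) • monomial s c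
    rw [X_mul_pderiv_monomial, X_mul_pderiv_monomial, ← h3, ← add_smul]
    push_cast
    rw [← Nat.cast_add, Nat.cast_smul_eq_nsmul]

variable [CharZero k]

/-- (c1) -/
theorem exc1 {a b m : ℤ} {q : PA k} (hq : q ∈ FF k a b m) :
    ∃ q1 ∈ FF k a b (m + 1), ∃ q2 ∈ FF k a b (m + 1), pderiv (Vr.y 0) q1 + pderiv (Vr.y 1) q2 = q := by
  by_cases hm : m < 0
  · refine ⟨0, Submodule.zero_mem _, 0, Submodule.zero_mem _, ?_⟩
    rw [FF_zero_m hq hm]
    simp
  · have hne : ((m : k) + 2) ≠ 0 := by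
      have : ((m + 2 : ℤ) : k) ≠ 0 := by
        rw [Int.cast_ne_zero]
        omega
      push_cast at this
      exact this
    refine ⟨((m : k) + 2)⁻¹ • (X (Vr.y 0) * q), Submodule.smul_mem _ _ (FF_y4.mpr hq),
      ((m : k) + 2)⁻¹ • (X (Vr.y 1) * q), Submodule.smul_mem _ _ (FF_y5.mpr hq), ?_⟩
    rw [Derivation.map_smul, Derivation.map_smul, pderiv_mul, pderiv_mul, pderiv_X_self,
      pderiv_X_self, ← smul_add]
    have e : (1 * q + X (Vr.y 0) * pderiv (Vr.y 0) q + (1 * q + X (Vr.y 1) * pderiv (Vr.y 1) q)) = ((m : k) + 2) • q := by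
      have := euler_y hq
      rw [add_smul, ← this, two_smul]
      ring
    rw [e, smul_smul, inv_mul_cancel₀ hne, one_smul]

/-- (c2) -/
theorem exc2 {a b m : ℤ} (hm : 0 ≤ m) {q1 q2 : PA k} (h1 : q1 ∈ FF k a b m)
    (h2 : q2 ∈ FF k a b m) (h : pderiv (Vr.y 0) q1 + pderiv (Vr.y 1) q2 = 0) :
    ∃ H ∈ FF k a b (m + 1), q1 = pderiv (Vr.y 1) H ∧ q2 = - pderiv (Vr.y 0) H := by
  have hne : ((m : k) + 1) ≠ 0 := by
    have : ((m + 1 : ℤ) : k) ≠ 0 := by
      rw [Int.cast_ne_zero]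
      omega
    push_cast at this
    exact this
  refine ⟨((m : k) + 1)⁻¹ • (X (Vr.y 1) * q1 - X (Vr.y 0) * q2), Submodule.smul_mem _ _
    (Submodule.sub_mem _ (FF_y5.mpr h1) (FF_y4.mpr h2)), ?_, ?_⟩
  · rw [Derivation.map_smul, map_sub, pderiv_mul, pderiv_mul, pderiv_X_self,
      pderiv_X_of_ne (by decide)]
    have e : (1 * q1 + X (Vr.y 1) * pderiv (Vr.y 1) q1 - (0 * q2 + X (Vr.y 0) * pderiv (Vr.y 1) q2)) = ((m : k) + 1) • q1 := by
      have := euler_y h1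
      rw [add_smul, ← this, one_smul]
      linear_combination (- X (Vr.y 0)) * h
    rw [e, smul_smul, inv_mul_cancel₀ hne, one_smul]
  · rw [Derivation.map_smul, map_sub, pderiv_mul, pderiv_mul, pderiv_X_self,
      pderiv_X_of_ne (by decide)]
    have e : (0 * q1 + X (Vr.y 1) * pderiv (Vr.y 0) q1 - (1 * q2 + X (Vr.y 0) * pderiv (Vr.y 0) q2))
        = - (((m : k) + 1) • q2) := by
      have := euler_y h2
      rw [add_smul, ← this, one_smul]
      linear_combination (X (Vr.y 1)) * h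
    rw [e, smul_neg, smul_smul, inv_mul_cancel₀ hne, one_smul, neg_neg]

end Vale.Agent.P195.AR
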