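import Vale.Agent.Lib.P195.AR.EvW
import Vale.Agent.Lib.P195.AR.Ex2

/-!
# P195: `W`-linear maps out of `P_e ⊗ S_m`: filtrations
-/

namespace Vale.Agent.P195.AR

open MvPolynomial

variable {k : Type} [Field k] {V : Type*} [AddCommGroup V] [Module k V]
  {X D : Fin 2 → V →ₗ[k] V} {F : ℤ → ℤ → Submodule k V}

/-- `P_e[a,c] ⊗ S_m = (W[a,c] ⊗ S_m)^2 + wp(W[a-1,c+e] ⊗ S_m)` for `a ≥ 0` -/
theorem pe_split {m a c c' : ℤ} (ha : 0 ≤ a) (hc : c ≤ c') {p0 p1 : PA k}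
    (h0 : p0 ∈ (G m a c' : Submodule k (PA k))) (_h1 : p1 ∈ (G m a c' : Submodule k (PA k)))
    (hq : rx 0 p0 + rx 1 p1 ∈ (G m (a + 1) c : Submodule k (PA k))) :
    ∃ r0 ∈ (G m a c : Submodule k (PA k)), ∃ r1 ∈ (G m a c : Submodule k (PA k)),
      ∃ w ∈ (G m (a - 1) c' : Submodule k (PA k)), p0 = r0 + rx 1 w ∧ p1 = r1 - rx 0 w := by
  rw [G_eq] at hq
  obtain ⟨r0, hr0, r1, hr1, e⟩ := exd1 ha hq
  have g0 : p0 - r0 ∈ FF k a c' m := by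
    rw [← G_eq]
    refine Submodule.sub_mem _ h0 (G_mono _ _ _ _ hc ?_)
    rw [G_eq]; exact hr0
  have hz : MvPolynomial.X (Vr.x 0) * (p0 - r0) + MvPolynomial.X (Vr.x 1) * (p1 - r1) = 0 := by
    have e' : rx 0 p0 + rx 1 p1 = MvPolynomial.X (Vr.x 0) * p0 + MvPolynomial.X (Vr.x 1) * p1 := rfl
    rw [e'] at e
    linear_combination e
  obtain ⟨w, hw, w0, w1⟩ := exd2 g0 hz
  refine ⟨r0, by rw [G_eq]; exact hr0, r1, by rw [G_eq]; exact hr1, w, by rw [G_eq]; exact hw, ?_, ?_⟩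
  · rw [rx_apply, ← w0]; ring
  · rw [rx_apply]
    linear_combination w1

/-- the map `(p_0, p_1) ↦ evW u_0 p_0 + evW u_1 p_1` respects the filtrations -/
theorem evW_pair_mem (h : Wey X D) (hF : WF X D F) {m a0 b0 a c c' : ℤ} (ha : 0 ≤ a) (hc : c ≤ c')
    {u0 u1 : PA k →ₗ[k] V}
    (hu0 : ∀ v ∈ (G m 0 0 : Submodule k (PA k)), u0 v ∈ F a0 b0)
    (hu1 : ∀ v ∈ (G m 0 0 : Submodule k (PA k)), u1 v ∈ F a0 b0)
    (hu : ∀ v ∈ (G m 0 0 : Submodule k (PA k)),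
      X 1 (u0 v) - X 0 (u1 v) ∈ F (a0 + 1) (b0 + c - c')) {p0 p1 : PA k}
    (h0 : p0 ∈ (G m a c' : Submodule k (PA k))) (h1 : p1 ∈ (G m a c' : Submodule k (PA k)))
    (hq : rx 0 p0 + rx 1 p1 ∈ (G m (a + 1) c : Submodule k (PA k))) :
    evW X D u0 p0 + evW X D u1 p1 ∈ F (a0 + a) (b0 + c) := by
  obtain ⟨r0, hr0, r1, hr1, w, hw, rfl, rfl⟩ := pe_split ha hc h0 h1 hq
  have e : evW X D u0 (r0 + rx 1 w) + evW X D u1 (r1 - rx 0 w) =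
      evW X D u0 r0 + evW X D u1 r1 + evW X D (X 1 ∘ₗ u0 - X 0 ∘ₗ u1) w := by
    have e1 : evW X D (X 1 ∘ₗ u0 - X 0 ∘ₗ u1) w =
        evW X D (X 1 ∘ₗ u0) w - evW X D (X 0 ∘ₗ u1) w := by
      have e2 : evW X D (X 1 ∘ₗ u0 - X 0 ∘ₗ u1) = evW X D (X 1 ∘ₗ u0) - evW X D (X 0 ∘ₗ u1) := by
        apply evPA_ext
        intro μ
        rw [LinearMap.sub_apply, evW_monomial, evW_monomial, evW_monomial, LinearMap.sub_apply,
          map_sub]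
      rw [e2, LinearMap.sub_apply]
    rw [e1, map_add, map_sub, evW_rx h, evW_rx h]
    abel
  rw [e]
  refine Submodule.add_mem _ (Submodule.add_mem _ (evW_mem hF hu0 hr0) (evW_mem hF hu1 hr1)) ?_
  have := evW_mem hF (φ := X 1 ∘ₗ u0 - X 0 ∘ₗ u1) (a0 := a0 + 1) (b0 := b0 + c - c') hu hw
  have e1 : a0 + 1 + (a - 1) = a0 + a := by ring
  have e2 : b0 + c - c' + c' = b0 + c := by ring
  rwa [e1, e2] at this

end Vale.Agent.P195.AR
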