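import Vale.Agent.Lib.P195.AR.Basic

/-!
# P195: extension of a linear map on the `y`-polynomials to a `W`-linear map

`V` is a space with operators `X i`, `D i` (`i : Fin 2`) satisfying the Weyl relations. For a linear
map `φ` on polynomials, `evW φ : PA k → V` is the map with `evW φ (d^β x^γ y^α) = D^β X^γ φ(y^α)`; it
is the unique linear map which commutes with the left operators and agrees with `φ` on the
polynomials in `y`.
-/

namespace Vale.Agent.P195.AR

open MvPolynomial

variable {k : Type} [Field k] {V : Type*} [AddCommGroup V] [Module k V]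

/-- Weyl relations -/
structure Wey (X D : Fin 2 → V →ₗ[k] V) : Prop where
  xx : ∀ i j v, X i (X j v) = X j (X i v)
  dd : ∀ i j v, D i (D j v) = D j (D i v)
  dx : ∀ i j v, D j (X i v) = X i (D j v) + if i = j then v else 0

theorem wey_left : Wey (k := k) (lx (k := k)) (ld (k := k)) where
  xx := lx_comm
  dd := ld_comm
  dx := ld_lx

/-- the `y`-part of an exponent -/
noncomputable def ypart (μ : Vr →₀ ℕ) : Vr →₀ ℕ :=
  Finsupp.single (Vr.y 0) (μ (Vr.y 0)) + Finsupp.single (Vr.y 1) (μ (Vr.y 1))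

/-- the operator `D^β X^γ` of an exponent -/
noncomputable def wop (X D : Fin 2 → V →ₗ[k] V) (μ : Vr →₀ ℕ) : V →ₗ[k] V :=
  (D 0 ^ μ (Vr.d 0)) ∘ₗ (D 1 ^ μ (Vr.d 1)) ∘ₗ (X 0 ^ μ (Vr.x 0)) ∘ₗ (X 1 ^ μ (Vr.x 1))

/-- the `W`-linear extension of `φ` -/
noncomputable def evW (X D : Fin 2 → V →ₗ[k] V) (φ : PA k →ₗ[k] V) : PA k →ₗ[k] V :=
  (basisMonomials Vr k).constr k fun μ => wop X D μ (φ (monomial (ypart μ) 1))

variable {X D : Fin 2 → V →ₗ[k] V} {φ : PA k →ₗ[k] V}

theorem evW_monomial (μ : Vr →₀ ℕ) :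
    evW X D φ (monomial μ 1) = wop X D μ (φ (monomial (ypart μ) 1)) := by
  have h := (basisMonomials Vr k).constr_basis k
    (fun μ => wop X D μ (φ (monomial (ypart μ) 1))) μ
  rw [coe_basisMonomials] at h
  exact h

/-- linear maps which agree on monomials are equal -/
theorem evPA_ext {M : Type*} [AddCommGroup M] [Module k M] {f g : PA k →ₗ[k] M}
    (h : ∀ μ, f (monomial μ 1) = g (monomial μ 1)) : f = g := by
  apply (basisMonomials Vr k).ext
  intro μ
  rw [coe_basisMonomials]
  exact h μ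

theorem ypart_add_d (μ : Vr →₀ ℕ) (i : Fin 2) :
    ypart (μ + Finsupp.single (Vr.d i) 1) = ypart μ := by
  simp [ypart]

theorem ypart_add_x (μ : Vr →₀ ℕ) (i : Fin 2) :
    ypart (μ + Finsupp.single (Vr.x i) 1) = ypart μ := by
  simp [ypart]

theorem ypart_sub_d (μ : Vr →₀ ℕ) (i : Fin 2) :
    ypart (μ - Finsupp.single (Vr.d i) 1) = ypart μ := by
  simp [ypart]

theorem ev_ld_monomial (i : Fin 2) (μ : Vr →₀ ℕ) :
    ld i (monomial μ (1 : k)) = monomial (μ + Finsupp.single (Vr.d i) 1) 1 := by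
  rw [ld_apply, MvPolynomial.X, monomial_mul, mul_one, add_comm]

theorem ev_rx_monomial (i : Fin 2) (μ : Vr →₀ ℕ) :
    rx i (monomial μ (1 : k)) = monomial (μ + Finsupp.single (Vr.x i) 1) 1 := by
  rw [rx_apply, MvPolynomial.X, monomial_mul, mul_one, add_comm]

theorem ev_lx_monomial (i : Fin 2) (μ : Vr →₀ ℕ) :
    lx i (monomial μ (1 : k)) = monomial (μ + Finsupp.single (Vr.x i) 1) 1 -
      (μ (Vr.d i) : k) • monomial (μ - Finsupp.single (Vr.d i) 1) 1 := by
  rw [lx_apply, MvPolynomial.X, monomial_mul, mul_one, add_comm, pderiv_monomial, one_mul,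
    smul_monomial, smul_eq_mul, mul_one]

theorem pow_comm_D (h : Wey X D) (a : ℕ) (v : V) :
    D 1 ((D 0 ^ a) v) = (D 0 ^ a) (D 1 v) := by
  induction a generalizing v with
  | zero => rfl
  | succ a ih => rw [pow_succ, Module.End.mul_apply, Module.End.mul_apply, ih, h.dd 1 0]

theorem X_pow_D_ne (h : Wey X D) {i j : Fin 2} (hij : i ≠ j) (a : ℕ) (v : V) :
    X i ((D j ^ a) v) = (D j ^ a) (X i v) := by
  induction a generalizing v with
  | zero => rfl
  | succ a ih =>
    rw [pow_succ, Module.End.mul_apply, Module.End.mul_apply, ih, h.dx i j, if_neg hij, add_zero]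

theorem X_pow_D (h : Wey X D) (i : Fin 2) (a : ℕ) (v : V) :
    X i ((D i ^ a) v) = (D i ^ a) (X i v) - (a : k) • (D i ^ (a - 1)) v := by
  induction a generalizing v with
  | zero => simp
  | succ a ih =>
    rw [pow_succ, Module.End.mul_apply, Module.End.mul_apply, ih, h.dx i i, if_pos rfl, map_add]
    rcases Nat.eq_zero_or_pos a with rfl | ha
    · simp
    · have e : (D i ^ (a - 1)) (D i v) = (D i ^ a) v := by
        rw [← Module.End.mul_apply, ← pow_succ, Nat.sub_add_cancel ha]
      rw [e, Nat.add_sub_cancel, Nat.cast_add, Nat.cast_one, add_smul, one_smul]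
      abel

theorem X_pow_X (h : Wey X D) (a : ℕ) (v : V) :
    X 1 ((X 0 ^ a) v) = (X 0 ^ a) (X 1 v) := by
  induction a generalizing v with
  | zero => rfl
  | succ a ih => rw [pow_succ, Module.End.mul_apply, Module.End.mul_apply, ih, h.xx 1 0]

theorem evW_ld (h : Wey X D) (i : Fin 2) (p : PA k) : evW X D φ (ld i p) = D i (evW X D φ p) := by
  have key : (evW X D φ) ∘ₗ (ld i) = (D i) ∘ₗ (evW X D φ) := by
    apply evPA_ext
    intro μ
    rw [LinearMap.comp_apply, LinearMap.comp_apply, ev_ld_monomial, evW_monomial, evW_monomial,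
      ypart_add_d]
    fin_cases i
    · simp only [wop, LinearMap.comp_apply, Finsupp.add_apply]
      simp only [Fin.zero_eta, Finsupp.single_eq_same, Finsupp.single_apply]
      simp only [Vr.d.injEq, reduceCtorEq, if_false, add_zero, zero_ne_one]
      rw [pow_succ', Module.End.mul_apply]
    · simp only [wop, LinearMap.comp_apply, Finsupp.add_apply]
      simp only [Fin.mk_one, Finsupp.single_eq_same, Finsupp.single_apply]
      simp only [Vr.d.injEq, reduceCtorEq, if_false, add_zero, one_ne_zero]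
      rw [pow_comm_D h, pow_succ', Module.End.mul_apply]
  exact LinearMap.congr_fun key p

theorem evW_lx (h : Wey X D) (i : Fin 2) (p : PA k) : evW X D φ (lx i p) = X i (evW X D φ p) := by
  have key : (evW X D φ) ∘ₗ (lx i) = (X i) ∘ₗ (evW X D φ) := by
    apply evPA_ext
    intro μ
    rw [LinearMap.comp_apply, LinearMap.comp_apply, ev_lx_monomial, map_sub, map_smul, evW_monomial,
      evW_monomial, evW_monomial, ypart_add_x, ypart_sub_d]
    fin_cases i
    · simp only [wop, LinearMap.comp_apply, Finsupp.add_apply, Finsupp.tsub_apply]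
      simp only [Fin.zero_eta, Finsupp.single_eq_same, Finsupp.single_apply]
      simp only [Vr.d.injEq, Vr.x.injEq, reduceCtorEq, if_false, add_zero, zero_ne_one, tsub_zero]
      rw [X_pow_D h 0, X_pow_D_ne h (by decide : (0 : Fin 2) ≠ 1), pow_succ',
        Module.End.mul_apply]
    · simp only [wop, LinearMap.comp_apply, Finsupp.add_apply, Finsupp.tsub_apply]
      simp only [Fin.mk_one, Finsupp.single_eq_same, Finsupp.single_apply]
      simp only [Vr.d.injEq, Vr.x.injEq, reduceCtorEq, if_false, add_zero, one_ne_zero, tsub_zero]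
      rw [X_pow_D_ne h (by decide : (1 : Fin 2) ≠ 0), X_pow_D h 1, map_sub, map_smul,
        X_pow_X h, pow_succ', Module.End.mul_apply]
  exact LinearMap.congr_fun key p

/-! ### uniqueness -/

/-- `evW φ` only depends on the values of `φ` on the monomials in `y` -/
theorem evW_congr {φ ψ : PA k →ₗ[k] V} (h : ∀ μ, xdeg μ = 0 → ddeg μ = 0 →
    φ (monomial μ 1) = ψ (monomial μ 1)) : evW X D φ = evW X D ψ := by
  apply evPA_ext
  intro μ
  rw [evW_monomial, evW_monomial, h (ypart μ)]
  · simp [xdeg, ypart]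
  · simp [ddeg, ypart]

theorem ypart_of_zero {μ : Vr →₀ ℕ} (hx : xdeg μ = 0) (hd : ddeg μ = 0) : ypart μ = μ := by
  unfold xdeg at hx
  unfold ddeg at hd
  ext v
  rcases v with i | i | i <;> fin_cases i <;> simp [ypart] <;> omega

/-- value of `evW φ` on the monomials in `y` -/
theorem evW_of_zero {μ : Vr →₀ ℕ} (hx : xdeg μ = 0) (hd : ddeg μ = 0) :
    evW X D φ (monomial μ 1) = φ (monomial μ 1) := by
  rw [evW_monomial, ypart_of_zero hx hd]
  unfold xdeg at hx
  unfold ddeg at hd
  have h1 : μ (Vr.x 0) = 0 := by omega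
  have h2 : μ (Vr.x 1) = 0 := by omega
  have h3 : μ (Vr.d 0) = 0 := by omega
  have h4 : μ (Vr.d 1) = 0 := by omega
  simp [wop, h1, h2, h3, h4]

/-- a linear map which commutes with the left operators is the extension of its restriction -/
theorem evW_unique {F : PA k →ₗ[k] V} (hx : ∀ i p, F (lx i p) = X i (F p))
    (hd : ∀ i p, F (ld i p) = D i (F p)) : F = evW X D F := by
  apply evPA_ext
  intro μ
  rw [evW_monomial]
  -- the `x` part
  have x1 : ∀ (c : ℕ) (ν : Vr →₀ ℕ), ν (Vr.d 1) = 0 →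
      F (monomial (ν + Finsupp.single (Vr.x 1) c) 1) = (X 1 ^ c) (F (monomial ν 1)) := by
    intro c
    induction c with
    | zero => intro ν _; simp
    | succ c ih =>
      intro ν hν
      rw [pow_succ', Module.End.mul_apply, ← ih ν hν, ← hx, ev_lx_monomial]
      have h1 : (ν + Finsupp.single (Vr.x 1) c) (Vr.d 1) = 0 := by simp [hν]
      rw [h1, Nat.cast_zero, zero_smul, sub_zero, add_assoc, ← Finsupp.single_add]
  have x0 : ∀ (c : ℕ) (ν : Vr →₀ ℕ), ν (Vr.d 0) = 0 →
      F (monomial (ν + Finsupp.single (Vr.x 0) c) 1) = (X 0 ^ c) (F (monomial ν 1)) := by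
    intro c
    induction c with
    | zero => intro ν _; simp
    | succ c ih =>
      intro ν hν
      rw [pow_succ', Module.End.mul_apply, ← ih ν hν, ← hx, ev_lx_monomial]
      have h1 : (ν + Finsupp.single (Vr.x 0) c) (Vr.d 0) = 0 := by simp [hν]
      rw [h1, Nat.cast_zero, zero_smul, sub_zero, add_assoc, ← Finsupp.single_add]
  have d1 : ∀ (c : ℕ) (ν : Vr →₀ ℕ) (i : Fin 2),
      F (monomial (ν + Finsupp.single (Vr.d i) c) 1) = (D i ^ c) (F (monomial ν 1)) := by
    intro c
    induction c with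
    | zero => intro ν i; simp
    | succ c ih =>
      intro ν i
      rw [pow_succ', Module.End.mul_apply, ← ih ν i, ← hd, ev_ld_monomial, add_assoc,
        ← Finsupp.single_add]
  have hμ : μ = ypart μ + Finsupp.single (Vr.x 1) (μ (Vr.x 1)) + Finsupp.single (Vr.x 0) (μ (Vr.x 0)) +
      Finsupp.single (Vr.d 1) (μ (Vr.d 1)) + Finsupp.single (Vr.d 0) (μ (Vr.d 0)) := by
    ext v
    rcases v with i | i | i <;> fin_cases i <;> simp [ypart]
  conv_lhs => rw [hμ]
  rw [d1, d1, x0, x1]
  · rfl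
  · simp [ypart]
  · simp [ypart]

/-! ### compatibility with the right operators and the operators in `y` -/

theorem evW_rx (h : Wey X D) (i : Fin 2) (p : PA k) :
    evW X D φ (rx i p) = evW X D (X i ∘ₗ φ) p := by
  have h1 := evW_unique (X := X) (D := D) (F := evW X D φ ∘ₗ rx i)
    (fun j p => by rw [LinearMap.comp_apply, ← lx_rx, evW_lx h, LinearMap.comp_apply])
    (fun j p => by rw [LinearMap.comp_apply, ← ld_rx, evW_ld h, LinearMap.comp_apply])
  have h2 : evW X D (evW X D φ ∘ₗ rx i) = evW X D (X i ∘ₗ φ) := by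
    apply evW_congr
    intro μ hμx hμd
    have e : rx i (monomial μ (1 : k)) = lx i (monomial μ 1) := by
      rw [ev_rx_monomial, ev_lx_monomial]
      have : μ (Vr.d i) = 0 := by
        unfold ddeg at hμd
        fin_cases i <;> simp <;> omega
      rw [this, Nat.cast_zero, zero_smul, sub_zero]
    rw [LinearMap.comp_apply, e, evW_lx h, evW_of_zero hμx hμd, LinearMap.comp_apply]
  exact LinearMap.congr_fun (h1.trans h2) p

theorem evW_rd (h : Wey X D) (i : Fin 2) (p : PA k) :
    evW X D φ (rd i p) = evW X D (D i ∘ₗ φ) p := by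
  have h1 := evW_unique (X := X) (D := D) (F := evW X D φ ∘ₗ rd i)
    (fun j p => by rw [LinearMap.comp_apply, ← lx_rd, evW_lx h, LinearMap.comp_apply])
    (fun j p => by rw [LinearMap.comp_apply, ← ld_rd, evW_ld h, LinearMap.comp_apply])
  have h2 : evW X D (evW X D φ ∘ₗ rd i) = evW X D (D i ∘ₗ φ) := by
    apply evW_congr
    intro μ hμx hμd
    have e : rd i (monomial μ (1 : k)) = ld i (monomial μ 1) := by
      rw [rd_apply, ld_apply, pderiv_monomial]
      have : μ (Vr.x i) = 0 := by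
        unfold xdeg at hμx
        fin_cases i <;> simp <;> omega
      rw [this, Nat.cast_zero, mul_zero, monomial_zero, sub_zero]
    rw [LinearMap.comp_apply, e, evW_ld h, evW_of_zero hμx hμd, LinearMap.comp_apply]
  exact LinearMap.congr_fun (h1.trans h2) p

theorem ev_my_monomial (i : Fin 2) (μ : Vr →₀ ℕ) :
    my i (monomial μ (1 : k)) = monomial (μ + Finsupp.single (Vr.y i) 1) 1 := by
  rw [my_apply, MvPolynomial.X, monomial_mul, mul_one, add_comm]

theorem ev_dy_monomial (i : Fin 2) (μ : Vr →₀ ℕ) :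
    dy i (monomial μ (1 : k)) = (μ (Vr.y i) : k) • monomial (μ - Finsupp.single (Vr.y i) 1) 1 := by
  rw [dy_apply, pderiv_monomial, one_mul, smul_monomial, smul_eq_mul, mul_one]

theorem evW_my (h : Wey X D) (i : Fin 2) (p : PA k) :
    evW X D φ (my i p) = evW X D (φ ∘ₗ my i) p := by
  have h1 := evW_unique (X := X) (D := D) (F := evW X D φ ∘ₗ my i)
    (fun j p => by rw [LinearMap.comp_apply, my_lx, evW_lx h, LinearMap.comp_apply])
    (fun j p => by rw [LinearMap.comp_apply, my_ld, evW_ld h, LinearMap.comp_apply])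
  have h2 : evW X D (evW X D φ ∘ₗ my i) = evW X D (φ ∘ₗ my i) := by
    apply evW_congr
    intro μ hμx hμd
    rw [LinearMap.comp_apply, ev_my_monomial, evW_of_zero, LinearMap.comp_apply, ev_my_monomial]
    · unfold xdeg at hμx ⊢
      simp
      omega
    · unfold ddeg at hμd ⊢
      simp
      omega
  exact LinearMap.congr_fun (h1.trans h2) p

theorem evW_dy (h : Wey X D) (i : Fin 2) (p : PA k) :
    evW X D φ (dy i p) = evW X D (φ ∘ₗ dy i) p := by
  have h1 := evW_unique (X := X) (D := D) (F := evW X D φ ∘ₗ dy i)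
    (fun j p => by rw [LinearMap.comp_apply, dy_lx, evW_lx h, LinearMap.comp_apply])
    (fun j p => by rw [LinearMap.comp_apply, dy_ld, evW_ld h, LinearMap.comp_apply])
  have h2 : evW X D (evW X D φ ∘ₗ dy i) = evW X D (φ ∘ₗ dy i) := by
    apply evW_congr
    intro μ hμx hμd
    rw [LinearMap.comp_apply, ev_dy_monomial, map_smul, evW_of_zero, LinearMap.comp_apply,
      ev_dy_monomial, map_smul]
    · unfold xdeg at hμx ⊢
      simp
      omega
    · unfold ddeg at hμd ⊢
      simp
      omega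
  exact LinearMap.congr_fun (h1.trans h2) p

/-! ### value on polynomials in `y` -/

theorem evW_y {m : ℤ} {p : PA k} (hp : p ∈ (G m 0 0 : Submodule k (PA k))) :
    evW X D φ p = φ p := by
  rw [p.as_sum, map_sum, map_sum]
  refine Finset.sum_congr rfl fun μ hμ => ?_
  obtain ⟨_, h2, h3⟩ := hp hμ
  have e : monomial μ (coeff μ p) = coeff μ p • monomial μ (1 : k) := by
    rw [smul_monomial, smul_eq_mul, mul_one]
  rw [e, map_smul, map_smul, evW_of_zero (by omega) (by omega)]

/-! ### filtrations -/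

/-- a bifiltration of `V` compatible with the operators -/
structure WF (X D : Fin 2 → V →ₗ[k] V) (F : ℤ → ℤ → Submodule k V) : Prop where
  x : ∀ i a b v, v ∈ F a b → X i v ∈ F (a + 1) b
  d : ∀ i a b v, v ∈ F a b → D i v ∈ F (a - 1) (b + 1)
  mono : ∀ a b v, v ∈ F a b → v ∈ F a (b + 1)

variable {F : ℤ → ℤ → Submodule k V}

theorem WF.mono' (hF : WF X D F) {a b c : ℤ} (h : b ≤ c) {v : V} (hv : v ∈ F a b) :
    v ∈ F a c := by
  obtain ⟨n, hn⟩ := Int.le.dest h
  subst hn
  induction n with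
  | zero => simpa using hv
  | succ n ih =>
    have := hF.mono a (b + n) v (ih (by omega))
    have e : b + n + 1 = b + ((n + 1 : ℕ) : ℤ) := by push_cast; ring
    rwa [e] at this

theorem WF.x_pow (hF : WF X D F) (i : Fin 2) (n : ℕ) {a b : ℤ} {v : V} (hv : v ∈ F a b) :
    (X i ^ n) v ∈ F (a + n) b := by
  induction n with
  | zero => simpa using hv
  | succ n ih =>
    rw [pow_succ', Module.End.mul_apply]
    have := hF.x i _ _ _ ih
    have e : a + n + 1 = a + ((n + 1 : ℕ) : ℤ) := by push_cast; ring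
    rwa [e] at this

theorem WF.d_pow (hF : WF X D F) (i : Fin 2) (n : ℕ) {a b : ℤ} {v : V} (hv : v ∈ F a b) :
    (D i ^ n) v ∈ F (a - n) (b + n) := by
  induction n with
  | zero => simpa using hv
  | succ n ih =>
    rw [pow_succ', Module.End.mul_apply]
    have := hF.d i _ _ _ ih
    have e : a - n - 1 = a - ((n + 1 : ℕ) : ℤ) := by push_cast; ring
    have e' : b + n + 1 = b + ((n + 1 : ℕ) : ℤ) := by push_cast; ring
    rwa [e, e'] at this

/-- `evW φ` and filtrations -/
theorem evW_mem (hF : WF X D F) {m a0 b0 a c : ℤ}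
    (hφ : ∀ v ∈ (G m 0 0 : Submodule k (PA k)), φ v ∈ F a0 b0) {p : PA k}
    (hp : p ∈ (G m a c : Submodule k (PA k))) : evW X D φ p ∈ F (a0 + a) (b0 + c) := by
  refine G_induction (evW X D φ) _ ?_ p hp
  intro μ hμ
  obtain ⟨h1, h2, h3⟩ := hμ
  rw [evW_monomial]
  have hy : (monomial (ypart μ) (1 : k)) ∈ (G m 0 0 : Submodule k (PA k)) := by
    apply monomial_mem_G
    refine ⟨?_, ?_, ?_⟩
    · rw [← h1]
      simp [ydeg, ypart]
    · simp [xdeg, ddeg, ypart]
    · simp [ddeg, ypart]
  have q0 := hφ _ hy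
  have q1 := hF.x_pow 1 (μ (Vr.x 1)) q0
  have q2 := hF.x_pow 0 (μ (Vr.x 0)) q1
  have q3 := hF.d_pow 1 (μ (Vr.d 1)) q2
  have q4 := hF.d_pow 0 (μ (Vr.d 0)) q3
  have e : a0 + (μ (Vr.x 1) : ℤ) + (μ (Vr.x 0) : ℤ) - (μ (Vr.d 1) : ℤ) - (μ (Vr.d 0) : ℤ) = a0 + a := by
    rw [← h2]
    simp only [xdeg, ddeg]
    push_cast
    ring
  rw [e] at q4
  refine hF.mono' ?_ q4
  have h3' : (μ (Vr.d 0) : ℤ) + (μ (Vr.d 1) : ℤ) ≤ c := by
    have := h3
    simp only [ddeg] at this
    push_cast at this
    exact this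
  omega

end Vale.Agent.P195.AR
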