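import Vale.Agent.Lib.P195.AR.Basic

/-!
# P195 exactness facts, part 1: the graded pieces and the commutative facts

Model of `Basic.lean`.
-/

namespace Vale.Agent.P195.AR

open MvPolynomial

variable {k : Type} [Field k]

/-- polynomials all of whose monomials have exponents satisfying `p` -/
def SuP (k : Type) [Field k] (p : (Vr →₀ ℕ) → Prop) : Submodule k (PA k) where
  carrier := {f | ∀ s, coeff s f ≠ 0 → p s}
  add_mem' := by
    intro f g hf hg s hs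
    by_cases h : coeff s f = 0
    · by_cases h' : coeff s g = 0
      · rw [coeff_add, h, h', add_zero] at hs
        exact absurd rfl hs
      · exact hg s h'
    · exact hf s h
  zero_mem' := by
    intro s hs
    simp at hs
  smul_mem' := by
    intro c f hf s hs
    rw [coeff_smul] at hs
    exact hf s (fun h => hs (by rw [h, smul_zero]))

theorem mem_SP {p : (Vr →₀ ℕ) → Prop} {f : PA k} :
    f ∈ SuP k p ↔ ∀ s, coeff s f ≠ 0 → p s := Iff.rfl

theorem SP_mono {p q : (Vr →₀ ℕ) → Prop} (h : ∀ s, p s → q s) {f : PA k}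
    (hf : f ∈ SuP k p) : f ∈ SuP k q := fun s hs => h s (hf s hs)

theorem SP_zero {p : (Vr →₀ ℕ) → Prop} (h : ∀ s, ¬ p s) {f : PA k}
    (hf : f ∈ SuP k p) : f = 0 := by
  ext s
  rw [coeff_zero]
  by_contra hs
  exact h s (hf s hs)

/-- multiplication by a variable -/
theorem SP_mul {p q : (Vr →₀ ℕ) → Prop} (i : Vr)
    (h : ∀ s, p s → q (s + Finsupp.single i 1)) {f : PA k}
    (hf : f ∈ SuP k p) : X i * f ∈ SuP k q := by
  intro s hs
  rw [coeff_X_mul'] at hs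
  split_ifs at hs with hi
  · have h1 := h _ (hf _ hs)
    have e : s - Finsupp.single i 1 + Finsupp.single i 1 = s := by
      apply tsub_add_cancel_of_le
      rw [Finsupp.single_le_iff]
      exact Nat.one_le_iff_ne_zero.mpr (Finsupp.mem_support_iff.mp hi)
    rwa [e] at h1
  · exact absurd rfl hs

/-- division by a variable -/
theorem SP_div {p q : (Vr →₀ ℕ) → Prop} (i : Vr)
    (h : ∀ s, q (s + Finsupp.single i 1) → p s) {f : PA k}
    (hf : X i * f ∈ SuP k q) : f ∈ SuP k p := by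
  intro s hs
  apply h
  apply hf
  rw [add_comm, coeff_X_mul]
  exact hs

/-- derivative -/
theorem SP_pderiv {p q : (Vr →₀ ℕ) → Prop} (i : Vr)
    (h : ∀ s, p (s + Finsupp.single i 1) → q s) {f : PA k}
    (hf : f ∈ SuP k p) : pderiv i f ∈ SuP k q := by
  intro s hs
  apply h
  apply hf
  rw [coeff_pderiv] at hs
  exact left_ne_zero_of_mul hs

/-- splitting -/
theorem SP_split {p : (Vr →₀ ℕ) → Prop} (q : (Vr →₀ ℕ) → Prop) {f : PA k}
    (hf : f ∈ SuP k p) : ∃ g ∈ SuP k (fun s => p s ∧ q s), ∃ h ∈ SuP k (fun s => p s ∧ ¬ q s),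
      f = g + h := by
  classical
  refine ⟨∑ s ∈ f.support.filter q, monomial s (coeff s f), ?_,
    ∑ s ∈ f.support.filter (fun s => ¬ q s), monomial s (coeff s f), ?_, ?_⟩
  · apply Submodule.sum_mem
    intro s hs t ht
    rw [coeff_monomial] at ht
    split_ifs at ht with hst
    · subst hst
      exact ⟨hf _ ht, (Finset.mem_filter.mp hs).2⟩
    · exact absurd rfl ht
  · apply Submodule.sum_mem
    intro s hs t ht
    rw [coeff_monomial] at ht
    split_ifs at ht with hst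
    · subst hst
      exact ⟨hf _ ht, (Finset.mem_filter.mp hs).2⟩
    · exact absurd rfl ht
  · rw [Finset.sum_filter_add_sum_filter_not]
    exact f.as_sum

/-- disjoint supports -/
theorem SP_disj {p q : (Vr →₀ ℕ) → Prop} (h : ∀ s, p s → q s → False)
    {f : PA k} (hf : f ∈ SuP k p) (hq : f ∈ SuP k q) : f = 0 := by
  ext s
  rw [coeff_zero]
  by_contra hs
  exact h s (hf s hs) (hq s hs)

/-- condition on the exponents: Euler degree `a`, order at most `b`, y-degree `m` -/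
def FC (a b m : ℤ) (s : Vr →₀ ℕ) : Prop :=
  ((s (Vr.x 0) : ℤ) + s (Vr.x 1) - (s (Vr.d 0) + s (Vr.d 1)) = a ∧ (s (Vr.d 0) : ℤ) + s (Vr.d 1) ≤ b ∧ (s (Vr.y 0) : ℤ) + s (Vr.y 1) = m)

/-- condition on the exponents: Euler degree `a`, order exactly `b`, y-degree `m` -/
def GC (a b m : ℤ) (s : Vr →₀ ℕ) : Prop :=
  ((s (Vr.x 0) : ℤ) + s (Vr.x 1) - (s (Vr.d 0) + s (Vr.d 1)) = a ∧ (s (Vr.d 0) : ℤ) + s (Vr.d 1) = b ∧ (s (Vr.y 0) : ℤ) + s (Vr.y 1) = m)

/-- the pieces of the big polynomial space -/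
abbrev FF (k : Type) [Field k] (a b m : ℤ) : Submodule k (PA k) := SuP k (FC a b m)

/-- the pieces of exact order -/
abbrev GG (k : Type) [Field k] (a b m : ℤ) : Submodule k (PA k) := SuP k (GC a b m)

theorem GG_le {a b m : ℤ} {f : PA k} (hf : f ∈ GG k a b m) : f ∈ FF k a b m :=
  SP_mono (fun _ h => ⟨h.1, h.2.1.le, h.2.2⟩) hf

theorem FF_mono {a b b' m : ℤ} (h : b ≤ b') {f : PA k} (hf : f ∈ FF k a b m) :
    f ∈ FF k a b' m :=
  SP_mono (fun _ hs => ⟨hs.1, hs.2.1.trans h, hs.2.2⟩) hf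

theorem FF_zero_b {a b m : ℤ} {f : PA k} (hf : f ∈ FF k a b m)
    (h : b < 0) : f = 0 := by
  apply SP_zero _ hf
  rintro s ⟨-, h2, -⟩
  omega

theorem FF_zero_m {a b m : ℤ} {f : PA k} (hf : f ∈ FF k a b m)
    (h : m < 0) : f = 0 := by
  apply SP_zero _ hf
  rintro s ⟨-, -, h3⟩
  omega

theorem FF_top {a b m : ℤ} {f : PA k} (hf : f ∈ FF k a b m) :
    ∃ t ∈ GG k a b m, ∃ l ∈ FF k a (b - 1) m, f = t + l := by
  obtain ⟨g, hg, l, hl, e⟩ := SP_split (fun s => (s (Vr.d 0) : ℤ) + s (Vr.d 1) = b) hf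
  refine ⟨g, SP_mono (fun s hs => ⟨hs.1.1, hs.2, hs.1.2.2⟩) hg, l, SP_mono (fun s hs => ?_) hl, e⟩
  obtain ⟨⟨h1, h2, h3⟩, h4⟩ := hs
  exact ⟨h1, by omega, h3⟩

theorem GG_disj {a b m : ℤ} {f : PA k} (hf : f ∈ GG k a b m)
    (h : f ∈ FF k a (b - 1) m) : f = 0 :=
  SP_disj (fun s hs hs' => by
    obtain ⟨-, h1, -⟩ := hs
    obtain ⟨-, h2, -⟩ := hs'
    omega) hf h

/-! ### shifts by variables -/

theorem FF_x0 {a b m : ℤ} {f : PA k} :
    X (Vr.x 0) * f ∈ FF k (a + 1) b m ↔ f ∈ FF k a b m := by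
  constructor
  · apply SP_div
    rintro s ⟨h1, h2, h3⟩
    simp at h1 h2 h3
    exact ⟨by omega, by omega, by omega⟩
  · apply SP_mul
    rintro s ⟨h1, h2, h3⟩
    refine ⟨?_, ?_, ?_⟩ <;> simp <;> omega

theorem FF_x1 {a b m : ℤ} {f : PA k} :
    X (Vr.x 1) * f ∈ FF k (a + 1) b m ↔ f ∈ FF k a b m := by
  constructor
  · apply SP_div
    rintro s ⟨h1, h2, h3⟩
    simp at h1 h2 h3
    exact ⟨by omega, by omega, by omega⟩
  · apply SP_mul
    rintro s ⟨h1, h2, h3⟩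
    refine ⟨?_, ?_, ?_⟩ <;> simp <;> omega

theorem GG_x0 {a b m : ℤ} {f : PA k} :
    X (Vr.x 0) * f ∈ GG k (a + 1) b m ↔ f ∈ GG k a b m := by
  constructor
  · apply SP_div
    rintro s ⟨h1, h2, h3⟩
    simp at h1 h2 h3
    exact ⟨by omega, by omega, by omega⟩
  · apply SP_mul
    rintro s ⟨h1, h2, h3⟩
    refine ⟨?_, ?_, ?_⟩ <;> simp <;> omega

theorem GG_x1 {a b m : ℤ} {f : PA k} :
    X (Vr.x 1) * f ∈ GG k (a + 1) b m ↔ f ∈ GG k a b m := by
  constructor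
  · apply SP_div
    rintro s ⟨h1, h2, h3⟩
    simp at h1 h2 h3
    exact ⟨by omega, by omega, by omega⟩
  · apply SP_mul
    rintro s ⟨h1, h2, h3⟩
    refine ⟨?_, ?_, ?_⟩ <;> simp <;> omega

theorem FF_d2 {a b m : ℤ} {f : PA k} :
    X (Vr.d 0) * f ∈ FF k a b m ↔ f ∈ FF k (a + 1) (b - 1) m := by
  constructor
  · apply SP_div
    rintro s ⟨h1, h2, h3⟩
    simp at h1 h2 h3
    exact ⟨by omega, by omega, by omega⟩
  · apply SP_mul
    rintro s ⟨h1, h2, h3⟩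
    refine ⟨?_, ?_, ?_⟩ <;> simp <;> omega

theorem FF_d3 {a b m : ℤ} {f : PA k} :
    X (Vr.d 1) * f ∈ FF k a b m ↔ f ∈ FF k (a + 1) (b - 1) m := by
  constructor
  · apply SP_div
    rintro s ⟨h1, h2, h3⟩
    simp at h1 h2 h3
    exact ⟨by omega, by omega, by omega⟩
  · apply SP_mul
    rintro s ⟨h1, h2, h3⟩
    refine ⟨?_, ?_, ?_⟩ <;> simp <;> omega

theorem GG_d2 {a b m : ℤ} {f : PA k} :
    X (Vr.d 0) * f ∈ GG k a b m ↔ f ∈ GG k (a + 1) (b - 1) m := by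
  constructor
  · apply SP_div
    rintro s ⟨h1, h2, h3⟩
    simp at h1 h2 h3
    exact ⟨by omega, by omega, by omega⟩
  · apply SP_mul
    rintro s ⟨h1, h2, h3⟩
    refine ⟨?_, ?_, ?_⟩ <;> simp <;> omega

theorem GG_d3 {a b m : ℤ} {f : PA k} :
    X (Vr.d 1) * f ∈ GG k a b m ↔ f ∈ GG k (a + 1) (b - 1) m := by
  constructor
  · apply SP_div
    rintro s ⟨h1, h2, h3⟩
    simp at h1 h2 h3
    exact ⟨by omega, by omega, by omega⟩
  · apply SP_mul
    rintro s ⟨h1, h2, h3⟩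
    refine ⟨?_, ?_, ?_⟩ <;> simp <;> omega

theorem FF_y4 {a b m : ℤ} {f : PA k} :
    X (Vr.y 0) * f ∈ FF k a b (m + 1) ↔ f ∈ FF k a b m := by
  constructor
  · apply SP_div
    rintro s ⟨h1, h2, h3⟩
    simp at h1 h2 h3
    exact ⟨by omega, by omega, by omega⟩
  · apply SP_mul
    rintro s ⟨h1, h2, h3⟩
    refine ⟨?_, ?_, ?_⟩ <;> simp <;> omega

theorem FF_y5 {a b m : ℤ} {f : PA k} :
    X (Vr.y 1) * f ∈ FF k a b (m + 1) ↔ f ∈ FF k a b m := by
  constructor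
  · apply SP_div
    rintro s ⟨h1, h2, h3⟩
    simp at h1 h2 h3
    exact ⟨by omega, by omega, by omega⟩
  · apply SP_mul
    rintro s ⟨h1, h2, h3⟩
    refine ⟨?_, ?_, ?_⟩ <;> simp <;> omega

theorem FF_px {a b m : ℤ} {i : Vr} (hi : i = Vr.x 0 ∨ i = Vr.x 1) {f : PA k}
    (hf : f ∈ FF k (a + 1) b m) : pderiv i f ∈ FF k a b m := by
  refine SP_pderiv i ?_ hf
  rcases hi with rfl | rfl <;>
  · rintro s ⟨h1, h2, h3⟩
    simp at h1 h2 h3
    exact ⟨by omega, by omega, by omega⟩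

theorem FF_pd {a b m : ℤ} {i : Vr} (hi : i = Vr.d 0 ∨ i = Vr.d 1) {f : PA k}
    (hf : f ∈ FF k a b m) : pderiv i f ∈ FF k (a + 1) (b - 1) m := by
  refine SP_pderiv i ?_ hf
  rcases hi with rfl | rfl <;>
  · rintro s ⟨h1, h2, h3⟩
    simp at h1 h2 h3
    exact ⟨by omega, by omega, by omega⟩

theorem FF_py {a b m : ℤ} {i : Vr} (hi : i = Vr.y 0 ∨ i = Vr.y 1) {f : PA k}
    (hf : f ∈ FF k a b (m + 1)) : pderiv i f ∈ FF k a b m := by
  refine SP_pderiv i ?_ hf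
  rcases hi with rfl | rfl <;>
  · rintro s ⟨h1, h2, h3⟩
    simp at h1 h2 h3
    exact ⟨by omega, by omega, by omega⟩

theorem G_eq (m a b : ℤ) : (G m a b : Submodule k (PA k)) = FF k a b m := by
  ext p
  rw [mem_G, mem_SP]
  constructor
  · intro h s hs
    obtain ⟨h1, h2, h3⟩ := h s (mem_support_iff.mpr hs)
    simp only [ydeg, xdeg, ddeg] at h1 h2 h3
    push_cast at h1 h2 h3
    exact ⟨h2, h3, h1⟩
  · intro h s hs
    obtain ⟨h1, h2, h3⟩ := h s (mem_support_iff.mp hs)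
    simp only [ydeg, xdeg, ddeg]
    push_cast
    exact ⟨h3, h1, h2⟩

end Vale.Agent.P195.AR
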