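import Vale.Agent.Lib.P195.AR.Ex2

/-!
# P195 exactness facts, part 3: the Weyl algebra facts (b), (e)

Induction on the order; in each step the top symbol is treated by the commutative facts.
-/

namespace Vale.Agent.P195.AR

open MvPolynomial

variable {k : Type} [Field k]

theorem rd_FF (i : Fin 2) {a b m : ℤ} {f : PA k} (hf : f ∈ FF k (a + 1) (b - 1) m) :
    rd i f ∈ FF k a b m := by
  rw [← G_eq] at hf ⊢
  have := rd_mem i _ _ _ f hf
  rwa [add_sub_cancel_right, sub_add_cancel] at this

/-- (b1) -/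
theorem exb1_nat (n : ℕ) : ∀ {c b m : ℤ} {a1 a2 : PA k}, b < n → a1 ∈ FF k c b m →
    a2 ∈ FF k c b m → rd 0 a1 + rd 1 a2 = 0 →
    ∃ v ∈ FF k (c + 1) (b - 1) m, a1 = rd 1 v ∧ a2 = - rd 0 v := by
  induction n with
  | zero =>
    intro c b m a1 a2 hb h1 h2 _
    have hb' : b < 0 := by simpa using hb
    refine ⟨0, Submodule.zero_mem _, ?_, ?_⟩
    · rw [FF_zero_b h1 hb', map_zero]
    · rw [FF_zero_b h2 hb', map_zero, neg_zero]
  | succ n ih =>
    intro c b m a1 a2 hb h1 h2 h
    obtain ⟨t1, ht1, l1, hl1, e1⟩ := FF_top h1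
    obtain ⟨t2, ht2, l2, hl2, e2⟩ := FF_top h2
    have hc : c - 1 + 1 = c := by ring
    -- the top symbols
    have htop : X (Vr.d 0) * t1 + X (Vr.d 1) * t2 = 0 := by
      apply GG_disj (a := c - 1) (b := b + 1) (m := m)
      · apply Submodule.add_mem
        · apply GG_d2.mpr
          rw [hc, add_sub_cancel_right]
          exact ht1
        · apply GG_d3.mpr
          rw [hc, add_sub_cancel_right]
          exact ht2
      · have e : X (Vr.d 0) * t1 + X (Vr.d 1) * t2
            = (pderiv (Vr.x 0) a1 + pderiv (Vr.x 1) a2)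
              - (X (Vr.d 0) * l1 + X (Vr.d 1) * l2) := by
          rw [rd_apply, rd_apply] at h
          rw [e1, e2] at h ⊢
          linear_combination h
        rw [e, add_sub_cancel_right]
        apply Submodule.sub_mem
        · apply Submodule.add_mem
          · apply FF_px (Or.inl rfl)
            rw [hc]; exact h1
          · apply FF_px (Or.inr rfl)
            rw [hc]; exact h2
        · apply Submodule.add_mem
          · apply FF_d2.mpr
            rw [hc]; exact hl1
          · apply FF_d3.mpr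
            rw [hc]; exact hl2
    obtain ⟨w, hw1, hw2⟩ := X_cop (i := Vr.d 0) (j := Vr.d 1) (f := t1) (g := - t2) (by decide)
      (by linear_combination htop)
    have hw : w ∈ GG k (c + 1) (b - 1) m := by
      apply GG_d3.mp
      rw [← hw1]
      exact ht1
    have hwF : w ∈ FF k (c + 1) (b - 1) m := GG_le hw
    have h1' : a1 - rd 1 w ∈ FF k c (b - 1) m := by
      have e : a1 - rd 1 w = l1 + pderiv (Vr.x 1) w := by
        rw [rd_apply, e1, hw1]; ring
      rw [e]
      exact Submodule.add_mem _ hl1 (FF_px (Or.inr rfl) hwF)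
    have h2' : a2 + rd 0 w ∈ FF k c (b - 1) m := by
      have e : a2 + rd 0 w = l2 - pderiv (Vr.x 0) w := by
        rw [rd_apply, e2]
        linear_combination (-1 : PA k) * hw2
      rw [e]
      exact Submodule.sub_mem _ hl2 (FF_px (Or.inl rfl) hwF)
    have h3 : rd 0 (a1 - rd 1 w) + rd 1 (a2 + rd 0 w) = 0 := by
      rw [map_sub, map_add, rd_comm 0 1 w]
      linear_combination h
    obtain ⟨v, hv, e3, e4⟩ := ih (by push_cast at hb; omega) h1' h2' h3
    refine ⟨w + v, Submodule.add_mem _ hwF (FF_mono (by omega) hv), ?_, ?_⟩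
    · rw [map_add, ← e3]; ring
    · rw [map_add]
      linear_combination e4

theorem exb1 {c b m : ℤ} {a1 a2 : PA k} (h1 : a1 ∈ FF k c b m)
    (h2 : a2 ∈ FF k c b m) (h : rd 0 a1 + rd 1 a2 = 0) :
    ∃ v ∈ FF k (c + 1) (b - 1) m, a1 = rd 1 v ∧ a2 = - rd 0 v :=
  exb1_nat (b.toNat + 1) (by omega) h1 h2 h

/-- (b3) -/
theorem exb3 (i : Fin 2) {v : PA k} (h : rd i v = 0) : v = 0 := by
  by_contra hv
  have hne : v.support.Nonempty := by
    rw [Finset.nonempty_iff_ne_empty, Ne, MvPolynomial.support_eq_empty]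
    exact hv
  obtain ⟨s, hs, hmax⟩ := v.support.exists_max_image (fun s => s (Vr.d i)) hne
  have h1 := congrArg (coeff (Finsupp.single (Vr.d i) 1 + s)) h
  rw [rd_apply, coeff_sub, coeff_X_mul, coeff_pderiv, coeff_zero] at h1
  have h2 : coeff (Finsupp.single (Vr.d i) 1 + s + Finsupp.single (Vr.x i) 1) v = 0 := by
    by_contra hc
    have h3 := hmax _ (mem_support_iff.mpr hc)
    simp at h3
  rw [h2, zero_mul, sub_zero] at h1
  exact (mem_support_iff.mp hs) h1

end Vale.Agent.P195.AR
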