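import Vale.Agent.Lib.P195.AR.Yo

/-!
# P195: `Fp` for the standard objects

`FpO m b`, `FpP m e`, `Fp.prod`: `SO k m 0 b` (`b = 0,1,2`), `SP k m 0 e` (`e = 1,2`) and products
are finite sums of copies of the `T t`.
-/

namespace Vale.Agent.P195.AR

open MvPolynomial

variable {k : Type} [Field k]

/-- multiplication by `y₁^a y₂^b` -/
noncomputable def ymul (a b : ℕ) : PA k →ₗ[k] PA k := LinearMap.mulLeft k (ym a b)

theorem ymul_apply (a b : ℕ) (p : PA k) : ymul a b p = ym a b * p := rfl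

theorem pderiv_ym_x (i : Fin 2) (a b : ℕ) : pderiv (Vr.x i) (ym a b : PA k) = 0 := by
  rw [ym_eq, pderiv_monomial]
  simp

theorem pderiv_ym_d (i : Fin 2) (a b : ℕ) : pderiv (Vr.d i) (ym a b : PA k) = 0 := by
  rw [ym_eq, pderiv_monomial]
  simp

theorem ymul_lx (a b : ℕ) (i : Fin 2) (p : PA k) : ymul a b (lx i p) = lx i (ymul a b p) := by
  simp only [ymul_apply, lx_apply, Derivation.leibniz, pderiv_ym_d, smul_eq_mul]
  ring

theorem ymul_ld (a b : ℕ) (i : Fin 2) (p : PA k) : ymul a b (ld i p) = ld i (ymul a b p) := by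
  simp only [ymul_apply, ld_apply]; ring

theorem ymul_rx (a b : ℕ) (i : Fin 2) (p : PA k) : ymul a b (rx i p) = rx i (ymul a b p) := by
  simp only [ymul_apply, rx_apply]; ring

theorem ymul_rd (a b : ℕ) (i : Fin 2) (p : PA k) : ymul a b (rd i p) = rd i (ymul a b p) := by
  simp only [ymul_apply, rd_apply, Derivation.leibniz, pderiv_ym_x, smul_eq_mul]
  ring

theorem ymul_mem (c0 c1 : ℕ) (m a b : ℤ) (p : PA k) (hp : p ∈ (G m a b : Submodule k (PA k))) :
    ymul c0 c1 p ∈ (G (m + c0 + c1) a b : Submodule k (PA k)) := by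
  refine G_induction (ymul c0 c1) _ ?_ p hp
  rintro μ ⟨h1, h2, h3⟩
  rw [ymul_apply, ym_eq, monomial_mul, one_mul]
  refine monomial_mem_G _ _ _ _ _ ⟨?_, ?_, ?_⟩
  · simp [ydeg] at *; omega
  · simp [xdeg, ddeg] at *; omega
  · simp [ddeg] at *; omega

/-- the coefficient of `y₁^c0 y₂^c1` -/
noncomputable def yco (c0 c1 : ℕ) : PA k →ₗ[k] Y0 k :=
  lift (TO k 0) (fun a b => if a = c0 ∧ b = c1 then u0 else 0)

theorem yco_lx (c0 c1 : ℕ) (i : Fin 2) (p : PA k) : yco c0 c1 (lx i p) = lx0 i (yco c0 c1 p) :=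
  lift_lx (TO k 0) _ i p

theorem yco_ld (c0 c1 : ℕ) (i : Fin 2) (p : PA k) : yco c0 c1 (ld i p) = ld0 i (yco c0 c1 p) :=
  lift_ld (TO k 0) _ i p

theorem yco_ym (c0 c1 a b : ℕ) :
    yco c0 c1 (ym a b : PA k) = if a = c0 ∧ b = c1 then u0 else 0 :=
  lift_ym (TO k 0) _ a b

theorem rx_ym (i : Fin 2) (a b : ℕ) : rx i (ym a b : PA k) = lx i (ym a b) := by
  rw [rx_apply, lx_apply, pderiv_ym_d, sub_zero]

theorem rd_ym (i : Fin 2) (a b : ℕ) : rd i (ym a b : PA k) = ld i (ym a b) := by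
  rw [rd_apply, ld_apply, pderiv_ym_x, sub_zero]

theorem lx0_u0 (i : Fin 2) : lx0 i (u0 : Y0 k) = rx0 i u0 := by
  apply Subtype.ext
  change lx i (1 : PA k) = rx i 1
  rw [← ym_zero, rx_ym]

theorem yco_rx (c0 c1 : ℕ) (i : Fin 2) (p : PA k) : yco c0 c1 (rx i p) = rx0 i (yco c0 c1 p) := by
  have := PA_ext (N := TO k 0) (f := yco c0 c1 ∘ₗ rx i) (g := rx0 i ∘ₗ yco c0 c1)
    (fun j v => by
      change yco c0 c1 (rx i (lx j v)) = lx0 j (yco c0 c1 (rx i v))
      rw [← lx_rx, yco_lx])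
    (fun j v => by
      change yco c0 c1 (rx i (ld j v)) = ld0 j (yco c0 c1 (rx i v))
      rw [← ld_rx, yco_ld])
    (fun j v => by
      change rx0 i (yco c0 c1 (lx j v)) = lx0 j (rx0 i (yco c0 c1 v))
      rw [yco_lx, lx0_rx0])
    (fun j v => by
      change rx0 i (yco c0 c1 (ld j v)) = ld0 j (rx0 i (yco c0 c1 v))
      rw [yco_ld, ld0_rx0])
    (fun a b => by
      change yco c0 c1 (rx i (ym a b)) = rx0 i (yco c0 c1 (ym a b))
      rw [rx_ym, yco_lx, yco_ym]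
      split_ifs
      · exact lx0_u0 i
      · rw [map_zero, map_zero])
  exact congrArg (fun f : PA k →ₗ[k] Y0 k => f p) this

theorem yco_mem (c0 c1 : ℕ) (m a b : ℤ) (p : PA k) (hp : p ∈ (G m a b : Submodule k (PA k))) :
    (yco c0 c1 p : PA k) ∈ (G 0 a b : Submodule k (PA k)) := by
  have := lift_mem (TO k 0) (fun a b => if a = c0 ∧ b = c1 then u0 else 0) m 0 0
    (fun a b _ => by
      split_ifs
      · exact u0_mem 0
      · exact Submodule.zero_mem _) a b p hp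
  have h2 : (yco c0 c1 p : PA k) ∈ (G 0 (a + 0) (b + 0 + 0) : Submodule k (PA k)) := this
  rwa [add_zero, add_zero, add_zero] at h2

/-- the sum over all monomials of degree `m` -/
noncomputable def ysum (m : ℤ) : PA k →ₗ[k] PA k :=
  ∑ i : Fin (m.toNat + 1), ymul i (m.toNat - i) ∘ₗ (Y0 k).subtype ∘ₗ yco i (m.toNat - i)

theorem ysum_apply (m : ℤ) (p : PA k) : ysum m p =
    ∑ i : Fin (m.toNat + 1), ymul i (m.toNat - i) (yco i (m.toNat - i) p : PA k) := by
  rw [ysum, LinearMap.sum_apply]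
  rfl

theorem ysum_lx (m : ℤ) (j : Fin 2) (v : PA k) : ysum m (lx j v) = lx j (ysum m v) := by
  rw [ysum_apply, ysum_apply, map_sum]
  refine Finset.sum_congr rfl fun i _ => ?_
  rw [yco_lx, lx0_coe, ymul_lx]

theorem ysum_ld (m : ℤ) (j : Fin 2) (v : PA k) : ysum m (ld j v) = ld j (ysum m v) := by
  rw [ysum_apply, ysum_apply, map_sum]
  refine Finset.sum_congr rfl fun i _ => ?_
  rw [yco_ld, ld0_coe, ymul_ld]

theorem ysum_ym (m : ℤ) (a b : ℕ) (hab : (a + b : ℤ) = m) :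
    ysum m (ym a b : PA k) = ym a b := by
  rw [ysum_apply]
  have ha : a < m.toNat + 1 := by omega
  rw [Finset.sum_eq_single (⟨a, ha⟩ : Fin (m.toNat + 1))]
  · have hb : b = m.toNat - a := by omega
    rw [yco_ym, if_pos ⟨rfl, hb⟩, u0_coe, ymul_apply, mul_one, ← hb]
  · intro i _ hi
    rw [yco_ym, if_neg, Submodule.coe_zero, map_zero]
    rintro ⟨h, _⟩
    exact hi (Fin.ext h.symm)
  · intro h; exact absurd (Finset.mem_univ _) h

theorem sum_ymul_yco (m : ℤ) (p : PA k) (hp : ∀ μ ∈ p.support, (ydeg μ : ℤ) = m) :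
    ∑ i : Fin (m.toNat + 1), ymul i (m.toNat - i) (yco i (m.toNat - i) p : PA k) = p := by
  rw [← ysum_apply]
  exact PA_ext_mem (N := SO k 0 0 0) (f := ysum m) (g := LinearMap.id)
    (fun j v => ysum_lx m j v) (fun j v => ysum_ld m j v) (fun j v => rfl) (fun j v => rfl) m
    (fun a b hab => ysum_ym m a b hab) p hp

theorem sum_sub (m : ℤ) (hm : 0 ≤ m) (F : Fin (m.toNat + 1) → PA k) :
    ∑ i : {i : Fin (m.toNat + 1) // 0 ≤ m}, F i.1 = ∑ i, F i :=
  Finset.sum_bij (fun i _ => i.1) (fun _ _ => Finset.mem_univ _)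
    (fun a _ b _ hab => Subtype.ext hab) (fun b _ => ⟨⟨b, hm⟩, Finset.mem_univ _, rfl⟩)
    (fun i _ => rfl)

/-- `SO k m 0 b` is a finite sum of copies of `T (o b)` -/
noncomputable def FpO (m : ℤ) (b : Fin 3) (b' : ℤ) (h : b' = (b : ℕ)) : Fp (SO k m 0 b') where
  ι := {i : Fin (m.toNat + 1) // 0 ≤ m}
  fin := inferInstance
  j := fun _ => .o b
  a := fun i => ymul i.1 (m.toNat - i.1) ∘ₗ (Y0 k).subtype
  c := fun i => yco i.1 (m.toNat - i.1)
  ha := by
    intro i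
    refine ⟨fun j v => ?_, fun j v => ?_, fun p q v hv => ?_⟩
    · change ymul _ _ ((lx0 j v : Y0 k) : PA k) = lx j (ymul _ _ (v : PA k))
      rw [lx0_coe, ymul_lx]
    · change ymul _ _ ((ld0 j v : Y0 k) : PA k) = ld j (ymul _ _ (v : PA k))
      rw [ld0_coe, ymul_ld]
    · have := ymul_mem i.1 (m.toNat - i.1) 0 p (q + (b : ℕ)) (v : PA k) hv
      change ymul _ _ (v : PA k) ∈ (G m (p + 0) (q + b') : Submodule k (PA k))
      have e : (0 : ℤ) + (i.1 : ℕ) + ((m.toNat - (i.1 : ℕ) : ℕ) : ℤ) = m := by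
        have := i.2
        have := i.1.2
        omega
      rw [e] at this
      rw [add_zero, h]
      exact this
  hc := by
    intro i
    refine ⟨fun j v => yco_lx _ _ j v, fun j v => yco_ld _ _ j v, fun p q v hv => ?_⟩
    have hv' : v ∈ (G m (p + 0) (q + b') : Submodule k (PA k)) := hv
    rw [add_zero] at hv'
    have := yco_mem i.1 (m.toNat - i.1) m p (q + b') v hv'
    rw [h] at this
    exact this
  sum_eq := by
    intro p q v hv
    have hv' : v ∈ (G m (p + 0) (q + b') : Submodule k (PA k)) := hv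
    by_cases hm : 0 ≤ m
    · exact (sum_sub m hm (fun i => ymul i (m.toNat - i) (yco i (m.toNat - i) v : PA k))).trans
        (sum_ymul_yco m v (fun μ hμ => (hv' hμ).1))
    · rw [G_neg _ _ _ (Or.inl (by omega)), Submodule.mem_bot] at hv'
      rw [hv']
      exact Finset.sum_eq_zero fun i _ => absurd i.2 hm

/-- `SP k m 0 e` is a finite sum of copies of `T (p e)` -/
noncomputable def FpP (m : ℤ) (e : Fin 2) (e' : ℤ) (h : e' = (e : ℕ) + 1) :
    Fp (SP k m 0 e') where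
  ι := {i : Fin (m.toNat + 1) // 0 ≤ m}
  fin := inferInstance
  j := fun _ => .p e
  a := fun i => (ymul i.1 (m.toNat - i.1) ∘ₗ (Y0 k).subtype).prodMap
    (ymul i.1 (m.toNat - i.1) ∘ₗ (Y0 k).subtype)
  c := fun i => (yco i.1 (m.toNat - i.1)).prodMap (yco i.1 (m.toNat - i.1))
  ha := by
    intro i
    have e1 : ∀ (j : Fin 2) (v : Y0 k), ymul i.1 (m.toNat - i.1) ((lx0 j v : Y0 k) : PA k) =
        lx j (ymul i.1 (m.toNat - i.1) (v : PA k)) := by
      intro j v; rw [lx0_coe, ymul_lx]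
    have e2 : ∀ (j : Fin 2) (v : Y0 k), ymul i.1 (m.toNat - i.1) ((ld0 j v : Y0 k) : PA k) =
        ld j (ymul i.1 (m.toNat - i.1) (v : PA k)) := by
      intro j v; rw [ld0_coe, ymul_ld]
    refine ⟨fun j v => Prod.ext (e1 j v.1) (e1 j v.2), fun j v => Prod.ext (e2 j v.1) (e2 j v.2),
      fun p q v hv => ?_⟩
    obtain ⟨⟨h1, h2⟩, h3⟩ := hv
    have e0 : (0 : ℤ) + (i.1 : ℕ) + ((m.toNat - (i.1 : ℕ) : ℕ) : ℤ) = m := by
      have := i.2
      have := i.1.2
      omega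
    have m1 := ymul_mem i.1 (m.toNat - i.1) 0 _ _ _ h1
    have m2 := ymul_mem i.1 (m.toNat - i.1) 0 _ _ _ h2
    have m3 := ymul_mem i.1 (m.toNat - i.1) 0 _ _ _ h3
    rw [e0] at m1 m2 m3
    change _ ∈ GP k m e' (p + 0) q
    rw [mem_GP, add_zero, h]
    refine ⟨⟨m1, m2⟩, ?_⟩
    have e3 : ymul i.1 (m.toNat - i.1) (qq (inc2 k v)) =
        rx 0 (ymul i.1 (m.toNat - i.1) (v.1 : PA k)) +
          rx 1 (ymul i.1 (m.toNat - i.1) (v.2 : PA k)) := by
      rw [← ymul_rx, ← ymul_rx, ← map_add]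
      rfl
    have m3' : ymul i.1 (m.toNat - i.1) (qq (inc2 k v)) ∈
        (G m (p + 1) q : Submodule k (PA k)) := m3
    rw [e3] at m3'
    exact m3'
  hc := by
    intro i
    refine ⟨fun j v => Prod.ext (yco_lx _ _ j v.1) (yco_lx _ _ j v.2),
      fun j v => Prod.ext (yco_ld _ _ j v.1) (yco_ld _ _ j v.2), fun p q v hv => ?_⟩
    have hv' : v ∈ GP k m e' (p + 0) q := hv
    rw [mem_GP, add_zero, h] at hv'
    obtain ⟨⟨h1, h2⟩, h3⟩ := hv'
    refine ⟨⟨yco_mem _ _ m _ _ _ h1, yco_mem _ _ m _ _ _ h2⟩, ?_⟩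
    have m3 := yco_mem i.1 (m.toNat - i.1) m _ _ _ h3
    rw [map_add, yco_rx, yco_rx] at m3
    exact m3
  sum_eq := by
    intro p q v hv
    have hv' : v ∈ GP k m e' (p + 0) q := hv
    rw [mem_GP] at hv'
    by_cases hm : 0 ≤ m
    · have h1 := sum_ymul_yco m v.1 (fun μ hμ => (hv'.1.1 hμ).1)
      have h2 := sum_ymul_yco m v.2 (fun μ hμ => (hv'.1.2 hμ).1)
      refine Prod.ext ?_ ?_
      · rw [Prod.fst_sum]
        exact (sum_sub m hm (fun i => ymul i (m.toNat - i) (yco i (m.toNat - i) v.1 : PA k))).trans h1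
      · rw [Prod.snd_sum]
        exact (sum_sub m hm (fun i => ymul i (m.toNat - i) (yco i (m.toNat - i) v.2 : PA k))).trans h2
    · have h1 := hv'.1.1
      have h2 := hv'.1.2
      rw [G_neg _ _ _ (Or.inl (by omega)), Submodule.mem_bot] at h1 h2
      rw [Finset.sum_eq_zero fun i _ => absurd i.2 hm]
      exact (Prod.ext h1 h2).symm

/-- products -/
noncomputable def Fp.prod {Q Q' : Bw k} (D : Fp Q) (D' : Fp Q') : Fp (Q.prod Q') where
  ι := D.ι ⊕ D'.ι
  fin := inferInstance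
  j := Sum.elim D.j D'.j
  a := fun i => match i with
    | .inl i => LinearMap.inl k Q.V Q'.V ∘ₗ D.a i
    | .inr i => LinearMap.inr k Q.V Q'.V ∘ₗ D'.a i
  c := fun i => match i with
    | .inl i => D.c i ∘ₗ LinearMap.fst k Q.V Q'.V
    | .inr i => D'.c i ∘ₗ LinearMap.snd k Q.V Q'.V
  ha := by
    rintro (i | i)
    · have h := D.ha i
      exact ⟨fun j v => Prod.ext (h.1 j v) (map_zero (Q'.x j)).symm,
        fun j v => Prod.ext (h.2.1 j v) (map_zero (Q'.d j)).symm,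
        fun p q v hv => ⟨h.2.2 p q v hv, Submodule.zero_mem _⟩⟩
    · have h := D'.ha i
      exact ⟨fun j v => Prod.ext (map_zero (Q.x j)).symm (h.1 j v),
        fun j v => Prod.ext (map_zero (Q.d j)).symm (h.2.1 j v),
        fun p q v hv => ⟨Submodule.zero_mem _, h.2.2 p q v hv⟩⟩
  hc := by
    rintro (i | i)
    · have h := D.hc i
      exact ⟨fun j v => h.1 j v.1, fun j v => h.2.1 j v.1, fun p q v hv => h.2.2 p q v.1 hv.1⟩
    · have h := D'.hc i
      exact ⟨fun j v => h.1 j v.2, fun j v => h.2.1 j v.2, fun p q v hv => h.2.2 p q v.2 hv.2⟩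
  sum_eq := by
    rintro p q ⟨v, w⟩ ⟨hv, hw⟩
    rw [Fintype.sum_sum_type]
    have h1 : ∑ i, LinearMap.inl k Q.V Q'.V (D.a i (D.c i v)) = (v, 0) := by
      rw [← map_sum, D.sum_eq p q v hv]; rfl
    have h2 : ∑ i, LinearMap.inr k Q.V Q'.V (D'.a i (D'.c i w)) = (0, w) := by
      rw [← map_sum, D'.sum_eq p q w hw]; rfl
    refine (congrArg₂ (· + ·) h1 h2).trans ?_
    exact Prod.ext (add_zero v) (zero_add w)

end Vale.Agent.P195.AR
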