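import Vale.Agent.Lib.P195.AR.HTower
import Vale.Agent.Lib.P195.AR.Fp

/-! # P195, part H1: the tower -/

namespace Vale.Agent.P195.AR.H1

open MvPolynomial

variable {k : Type} [Field k]

variable (k) in
/-- dual bases -/
noncomputable def D3 (n : ℕ) : Fp (B3 k n) := FpO n 0 0 rfl

variable (k) in
/-- dual bases -/
noncomputable def D2 (n : ℕ) : Fp (B2 k n) := Fp.prod (FpP n 0 1 rfl) (FpP n 0 1 rfl)

variable (k) in
/-- dual bases -/
noncomputable def D1 (n : ℕ) : Fp (B1 k n) :=
  Fp.prod (Fp.prod (FpO (n + 1) 1 1 rfl) (FpO (n + 1) 1 1 rfl)) (FpP (n - 1) 1 2 rfl)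

variable (k) in
/-- dual bases -/
noncomputable def D0 (n : ℕ) : Fp (B0 k n) := FpO n 2 2 rfl

variable [CharZero k]

variable (k) in
/-- the tower -/
noncomputable def tow : F.LTower.{0} (R k) where
  Y := YY k
  I := GG k
  Q3 := Q3 k
  Q2 := Q2 k
  Q1 := Q1 k
  Q0 := Q0 k
  ι := ii
  π := pp
  ι_inj := ii_inj
  exact := ip_exact
  π_surj := pp_surj
  Q := QQ k
  proj3 := fun n => (D3 k n).projective
  proj2 := fun n => (D2 k n).projective
  proj1 := fun n => (D1 k n).projective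
  proj0 := fun n => (D0 k n).projective
  φ3 := f3
  φ := ph k

end Vale.Agent.P195.AR.H1
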