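import Vale.Agent.Lib.P195.AR.RJ
import Vale.Agent.Lib.P195.AR.HTw
import Vale.Agent.Lib.P195.AR.Eta2
import Vale.Agent.Lib.P195.Formal.Rel

/-!
# P195: `Good` and `J0Inj` for `R` from the same for the windows of `O(0,b)` and `P_e`
-/

namespace Vale.Agent.P195.AR.S5

open MvPolynomial

variable {k : Type} [Field k]

/-- the inclusion of `Wn (WE N.L)` into `Wn N` -/
noncomputable def incE (N : Wd k) : Wn (WE N.L) →ₗ[R k] Wn N :=
  Wn.mapE (L := N.L) (N := N) LinearMap.id (Hom.id N.L)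

theorem incE_f (N : Wd k) (x : Wn (WE N.L)) : (incE N x).f = x.f := rfl

theorem incE_inj (N : Wd k) : Function.Injective (incE N) := by
  intro x y h
  apply Wn.ext
  rw [← incE_f N x, ← incE_f N y, h]

/-- maps out of `Wn (WE (hat Q))` have values in the image of `incE` -/
theorem range_incE {Q : Bw k} (D : Fp Q) {N : Wd k} (f : Wn (WE (hat Q)) →ₗ[R k] Wn N)
    (x : Wn (WE (hat Q))) : f x ∈ LinearMap.range (incE N) := by
  obtain ⟨θ, hθ, rfl⟩ := D.exists_th f
  exact ⟨Wn.mapE (L := hat Q) (N := WE N.L) (ex θ) (ex_mem hθ) x, rfl⟩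

variable [CharZero k]

theorem relAc_incE (N : Wd k) : (H1.tow k).RelAc (incE N) where
  inj := incE_inj N
  r0 := fun n f _ x => range_incE (H1.D0 k n) f x
  r1 := fun n f _ => ⟨0, fun x => by
    rw [LinearMap.zero_apply, sub_zero]; exact range_incE (H1.D1 k n) f x⟩
  r2 := fun n f _ => ⟨0, fun x => by
    rw [LinearMap.zero_apply, sub_zero]; exact range_incE (H1.D2 k n) f x⟩
  r3 := fun n f => ⟨0, fun x => by
    rw [LinearMap.zero_apply, sub_zero]; exact range_incE (H1.D3 k n) f x⟩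

/-! ### products of two -/

omit [CharZero k] in
theorem fst_mem (M N : Bw k) : LinearMap.fst k M.V N.V ∈ HomW (M.prod N) M :=
  ⟨fun _ _ => rfl, fun _ _ => rfl, fun _ _ _ hv => hv.1⟩

omit [CharZero k] in
theorem snd_mem (M N : Bw k) : LinearMap.snd k M.V N.V ∈ HomW (M.prod N) N :=
  ⟨fun _ _ => rfl, fun _ _ => rfl, fun _ _ _ hv => hv.2⟩

omit [CharZero k] in
theorem inl_mem (M N : Bw k) : LinearMap.inl k M.V N.V ∈ HomW M (M.prod N) :=
  ⟨fun i _ => Prod.ext rfl (map_zero (N.x i)).symm, fun i _ => Prod.ext rfl (map_zero (N.d i)).symm,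
    fun _ _ _ hv => ⟨hv, Submodule.zero_mem _⟩⟩

omit [CharZero k] in
theorem inr_mem (M N : Bw k) : LinearMap.inr k M.V N.V ∈ HomW N (M.prod N) :=
  ⟨fun i _ => Prod.ext (map_zero (M.x i)).symm rfl, fun i _ => Prod.ext (map_zero (M.d i)).symm rfl,
    fun _ _ _ hv => ⟨Submodule.zero_mem _, hv⟩⟩

/-- first projection on windows -/
noncomputable def pfst (M N : Bw k) : Wn (WE (hat (M.prod N))) →ₗ[R k] Wn (WE (hat M)) :=
  Wn.mapE (L := hat (M.prod N)) (N := WE (hat M)) (hm (M := M.prod N) (N := M) (LinearMap.fst k M.V N.V))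
    (hm_mem (fst_mem M N))

/-- second projection on windows -/
noncomputable def psnd (M N : Bw k) : Wn (WE (hat (M.prod N))) →ₗ[R k] Wn (WE (hat N)) :=
  Wn.mapE (L := hat (M.prod N)) (N := WE (hat N)) (hm (M := M.prod N) (N := N) (LinearMap.snd k M.V N.V))
    (hm_mem (snd_mem M N))

/-- first inclusion on windows -/
noncomputable def pinl (M N : Bw k) : Wn (WE (hat M)) →ₗ[R k] Wn (WE (hat (M.prod N))) :=
  Wn.mapE (L := hat M) (N := WE (hat (M.prod N))) (hm (M := M) (N := M.prod N) (LinearMap.inl k M.V N.V))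
    (hm_mem (inl_mem M N))

/-- second inclusion on windows -/
noncomputable def pinr (M N : Bw k) : Wn (WE (hat N)) →ₗ[R k] Wn (WE (hat (M.prod N))) :=
  Wn.mapE (L := hat N) (N := WE (hat (M.prod N))) (hm (M := N) (N := M.prod N) (LinearMap.inr k M.V N.V))
    (hm_mem (inr_mem M N))

omit [CharZero k] in
theorem prod_sum (M N : Bw k) (x : Wn (WE (hat (M.prod N)))) :
    pinl M N (pfst M N x) + pinr M N (psnd M N x) = x := by
  apply Wn.ext
  apply LinearMap.ext
  intro u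
  refine Prod.ext ?_ ?_
  · refine Prod.ext ?_ ?_
    · exact add_zero _
    · exact zero_add _
  · refine Prod.ext ?_ ?_
    · exact add_zero _
    · exact zero_add _

theorem good_prod {M : Bw k} (hM : (H1.tow k).Good (Wn (WE (hat M)))) :
    (H1.tow k).Good (Wn (WE (hat (M.prod M)))) :=
  F.LTower.Good.of_decomp (ι := Bool) (K := fun _ => Wn (WE (hat M)))
    (fun b => cond b (pfst M M) (psnd M M)) (fun b => cond b (pinl M M) (pinr M M))
    (fun x => by rw [Fintype.sum_bool]; exact prod_sum M M x) (fun _ => hM)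

theorem j0inj_prod {M : Bw k} (hM : (H1.tow k).J0Inj (Wn (WE (hat M)))) :
    (H1.tow k).J0Inj (Wn (WE (hat (M.prod M)))) :=
  F.LTower.J0Inj.of_decomp (ι := Bool) (K := fun _ => Wn (WE (hat M)))
    (fun b => cond b (pfst M M) (psnd M M)) (fun b => cond b (pinl M M) (pinr M M))
    (fun x => by rw [Fintype.sum_bool]; exact prod_sum M M x) (fun _ => hM)

/-! ### the windows of `TO`, `TP` -/

theorem good_TO {b : ℤ} (h : (H1.tow k).Good (Wn (WE (hat (SO k 0 0 b))))) :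
    (H1.tow k).Good (Wn (WE (hat (TO k b)))) :=
  F.LTower.Good.of_retract (isoO b).toLinearMap (isoO b).symm.toLinearMap
    (fun x => (isoO b).symm_apply_apply x) h

theorem good_TP {e : ℤ} (h : (H1.tow k).Good (Wn (WE (hat (SP k 0 0 e))))) :
    (H1.tow k).Good (Wn (WE (hat (TP k e)))) :=
  F.LTower.Good.of_retract (isoP e).toLinearMap (isoP e).symm.toLinearMap
    (fun x => (isoP e).symm_apply_apply x) h

theorem j0inj_TO {b : ℤ} (h : (H1.tow k).J0Inj (Wn (WE (hat (SO k 0 0 b))))) :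
    (H1.tow k).J0Inj (Wn (WE (hat (TO k b)))) :=
  F.LTower.J0Inj.of_retract (isoO b).toLinearMap (isoO b).symm.toLinearMap
    (fun x => (isoO b).symm_apply_apply x) h

theorem j0inj_TP {e : ℤ} (h : (H1.tow k).J0Inj (Wn (WE (hat (SP k 0 0 e))))) :
    (H1.tow k).J0Inj (Wn (WE (hat (TP k e)))) :=
  F.LTower.J0Inj.of_retract (isoP e).toLinearMap (isoP e).symm.toLinearMap
    (fun x => (isoP e).symm_apply_apply x) h

/-! ### the seven windows, and `R` -/

theorem good_T7 (hO : ∀ b : Fin 3, (H1.tow k).Good (Wn (WE (hat (SO k 0 0 (b : ℕ))))))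
    (hP : ∀ e : Fin 2, (H1.tow k).Good (Wn (WE (hat (SP k 0 0 ((e : ℕ) + 1)))))) (v : Vx) :
    (H1.tow k).Good (Wn (WE (hat (T7 k v)))) := by
  rcases v with t | _ | _
  · rcases t with b | e
    · exact good_TO (hO b)
    · exact good_TP (hP e)
  · exact good_TP (hP 1)
  · exact good_prod (good_TO (hO 1))

theorem j0inj_T7 (hO : ∀ b : Fin 3, (H1.tow k).J0Inj (Wn (WE (hat (SO k 0 0 (b : ℕ))))))
    (hP : ∀ e : Fin 2, (H1.tow k).J0Inj (Wn (WE (hat (SP k 0 0 ((e : ℕ) + 1)))))) (v : Vx) :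
    (H1.tow k).J0Inj (Wn (WE (hat (T7 k v)))) := by
  rcases v with t | _ | _
  · rcases t with b | e
    · exact j0inj_TO (hO b)
    · exact j0inj_TP (hP e)
  · exact j0inj_TP (hP 1)
  · exact j0inj_prod (j0inj_TO (hO 1))

theorem good_J (hO : ∀ b : Fin 3, (H1.tow k).Good (Wn (WE (hat (SO k 0 0 (b : ℕ))))))
    (hP : ∀ e : Fin 2, (H1.tow k).Good (Wn (WE (hat (SP k 0 0 ((e : ℕ) + 1)))))) (v : Vx) :
    (H1.tow k).Good (Wn (WJ k v)) :=
  (relAc_incE (WJ k v)).good_of_sub (good_T7 hO hP v)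

theorem j0inj_J (hO : ∀ b : Fin 3, (H1.tow k).J0Inj (Wn (WE (hat (SO k 0 0 (b : ℕ))))))
    (hP : ∀ e : Fin 2, (H1.tow k).J0Inj (Wn (WE (hat (SP k 0 0 ((e : ℕ) + 1)))))) (v : Vx) :
    (H1.tow k).J0Inj (Wn (WJ k v)) :=
  (relAc_incE (WJ k v)).j0inj_of_sub (j0inj_T7 hO hP v)

/-- `Good` for the ring -/
theorem good_R (hO : ∀ b : Fin 3, (H1.tow k).Good (Wn (WE (hat (SO k 0 0 (b : ℕ))))))
    (hP : ∀ e : Fin 2, (H1.tow k).Good (Wn (WE (hat (SP k 0 0 ((e : ℕ) + 1)))))) :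
    (H1.tow k).Good (R k) :=
  F.LTower.Good.of_decomp (R := R k) (T := H1.tow k) (N := R k) (K := fun v : Vx => Wn (WJ k v))
    (fun v => jP v) (fun v => jI v) (fun x => sum_jI_jP x) (good_J hO hP)

/-- `J0Inj` for the ring -/
theorem j0inj_R (hO : ∀ b : Fin 3, (H1.tow k).J0Inj (Wn (WE (hat (SO k 0 0 (b : ℕ))))))
    (hP : ∀ e : Fin 2, (H1.tow k).J0Inj (Wn (WE (hat (SP k 0 0 ((e : ℕ) + 1)))))) :
    (H1.tow k).J0Inj (R k) :=
  F.LTower.J0Inj.of_decomp (R := R k) (T := H1.tow k) (N := R k) (K := fun v : Vx => Wn (WJ k v))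
    (fun v => jP v) (fun v => jI v) (fun x => sum_jI_jP x) (j0inj_J hO hP)

end Vale.Agent.P195.AR.S5
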