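import Vale.Agent.Lib.P195.AR.GoodO0

/-!
# P195: `Good` and `J0Inj` for the windows of `O_b` and `P_e`
-/

namespace Vale.Agent.P195.AR.S5

open MvPolynomial

variable {k : Type} [Field k] [CharZero k]

theorem relAc_jO1 {a r r' : ℤ} (ha : 0 ≤ a) (hr : 1 ≤ r) (h : r' ≤ r) (e : r' = r - 1) :
    (H1.tow k).RelAc (jO (k := k) (a := a) h) := by
  subst e
  exact relAc_jO ha hr h

omit [CharZero k] in
theorem jO_trans {a r r' r'' : ℤ} (h1 : r'' ≤ r') (h2 : r' ≤ r) (h : r'' ≤ r) :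
    jO (k := k) (a := a) h2 ∘ₗ jO h1 = jO h := by
  refine LinearMap.ext fun x => ?_
  have e1 := H1.mapE_comp (L := hat (SO k 0 a r'')) (L' := hat (SO k 0 a r'))
    (N := hat (SO k 0 a r)) (hm_mem (idO_hom (k := k) (a := a) h1)) (hm_mem (idO_hom h2)) x
  refine e1.trans ?_
  exact H1.mapE_ext (L := hat (SO k 0 a r'')) (N := WE (hat (SO k 0 a r))) _ _
    (fun v _ => rfl) x

/-- `O(a,0) ⊂ O(a,r)` for `r = 0, 1, 2` -/
theorem relAc_jO2 {a : ℤ} (ha : 0 ≤ a) (h : (0 : ℤ) ≤ 2) :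
    (H1.tow k).RelAc (jO (k := k) (a := a) h) := by
  have h1 := relAc_jO1 (k := k) (a := a) (r := 1) (r' := 0) ha le_rfl (by norm_num) (by norm_num)
  have h2 := relAc_jO1 (k := k) (a := a) (r := 2) (r' := 1) ha (by norm_num) (by norm_num)
    (by norm_num)
  have h3 := F.LTower.RelAc.trans h1 h2
  rw [jO_trans] at h3
  exact h3

theorem relAc_jO3 {a : ℤ} (ha : 0 ≤ a) (h : (0 : ℤ) ≤ 1) :
    (H1.tow k).RelAc (jO (k := k) (a := a) h) :=
  relAc_jO1 ha le_rfl h (by norm_num)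

theorem goodO1 : (H1.tow k).Good (Wn (WE (hat (SO k 0 0 1)))) :=
  (relAc_jO3 (k := k) (a := 0) le_rfl (by norm_num)).good_of_sub goodO0

theorem goodO2 : (H1.tow k).Good (Wn (WE (hat (SO k 0 0 2)))) :=
  (relAc_jO2 (k := k) (a := 0) le_rfl (by norm_num)).good_of_sub goodO0

theorem j0injO1 : (H1.tow k).J0Inj (Wn (WE (hat (SO k 0 0 1)))) :=
  (relAc_jO3 (k := k) (a := 0) le_rfl (by norm_num)).j0inj_of_sub j0injO0

theorem j0injO2 : (H1.tow k).J0Inj (Wn (WE (hat (SO k 0 0 2)))) :=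
  (relAc_jO2 (k := k) (a := 0) le_rfl (by norm_num)).j0inj_of_sub j0injO0

/-! ### `O(0,e)²` -/

omit [CharZero k] in
theorem fst_hom (M N : Bw k) : LinearMap.fst k M.V N.V ∈ HomW (M.prod N) M :=
  ⟨fun _ _ => rfl, fun _ _ => rfl, fun _ _ _ hv => hv.1⟩

omit [CharZero k] in
theorem snd_hom (M N : Bw k) : LinearMap.snd k M.V N.V ∈ HomW (M.prod N) N :=
  ⟨fun _ _ => rfl, fun _ _ => rfl, fun _ _ _ hv => hv.2⟩

omit [CharZero k] in
theorem inl_hom (M N : Bw k) : LinearMap.inl k M.V N.V ∈ HomW M (M.prod N) :=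
  ⟨fun i _ => Prod.ext rfl (map_zero (N.x i)).symm, fun i _ => Prod.ext rfl (map_zero (N.d i)).symm,
    fun _ _ _ hv => ⟨hv, Submodule.zero_mem _⟩⟩

omit [CharZero k] in
theorem inr_hom (M N : Bw k) : LinearMap.inr k M.V N.V ∈ HomW N (M.prod N) :=
  ⟨fun i _ => Prod.ext (map_zero (M.x i)).symm rfl, fun i _ => Prod.ext (map_zero (M.d i)).symm rfl,
    fun _ _ _ hv => ⟨Submodule.zero_mem _, hv⟩⟩

/-- the projections of the window of a square -/
noncomputable def sqP (M : Bw k) : Bool → (Wn (WE (hat (M.prod M))) →ₗ[R k] Wn (WE (hat M)))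
  | true => Wn.mapE (L := hat (M.prod M)) (N := WE (hat M)) (hm (LinearMap.fst k M.V M.V))
      (hm_mem (fst_hom M M))
  | false => Wn.mapE (L := hat (M.prod M)) (N := WE (hat M)) (hm (LinearMap.snd k M.V M.V))
      (hm_mem (snd_hom M M))

/-- the inclusions into the window of a square -/
noncomputable def sqI (M : Bw k) : Bool → (Wn (WE (hat M)) →ₗ[R k] Wn (WE (hat (M.prod M))))
  | true => Wn.mapE (L := hat M) (N := WE (hat (M.prod M))) (hm (LinearMap.inl k M.V M.V))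
      (hm_mem (inl_hom M M))
  | false => Wn.mapE (L := hat M) (N := WE (hat (M.prod M))) (hm (LinearMap.inr k M.V M.V))
      (hm_mem (inr_hom M M))

omit [CharZero k] in
theorem sq_sum (M : Bw k) (x : Wn (WE (hat (M.prod M)))) : ∑ j, sqI M j (sqP M j x) = x := by
  rw [Fintype.sum_bool]
  apply Wn.ext
  rw [Wn.add_f]
  apply LinearMap.ext
  intro u
  change ((((x.f u).1.1, 0), ((x.f u).2.1, 0)) : (M.V × M.V) × (M.V × M.V)) +
    ((0, (x.f u).1.2), (0, (x.f u).2.2)) = x.f u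
  refine Prod.ext (Prod.ext ?_ ?_) (Prod.ext ?_ ?_)
  · exact add_zero _
  · exact zero_add _
  · exact add_zero _
  · exact zero_add _

theorem good_sq (M : Bw k) (h : (H1.tow k).Good (Wn (WE (hat M)))) :
    (H1.tow k).Good (Wn (WE (hat (M.prod M)))) := by
  refine F.LTower.Good.of_decomp (R := R k) (ι := Bool) (N := Wn (WE (hat (M.prod M))))
    (K := fun _ => Wn (WE (hat M))) (sqP M) (sqI M) ?_ ?_
  · exact sq_sum M
  · intro _; exact h

theorem j0inj_sq (M : Bw k) (h : (H1.tow k).J0Inj (Wn (WE (hat M)))) :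
    (H1.tow k).J0Inj (Wn (WE (hat (M.prod M)))) := by
  refine F.LTower.J0Inj.of_decomp (R := R k) (ι := Bool) (N := Wn (WE (hat (M.prod M))))
    (K := fun _ => Wn (WE (hat M))) (sqP M) (sqI M) ?_ ?_
  · exact sq_sum M
  · intro _; exact h

/-! ### `P_e` -/

theorem relAc_pe {e : ℤ} (he : 0 ≤ e) (h : (H1.tow k).RelAc (jO (k := k) (a := 1) he)) :
    (H1.tow k).RelAc (jPe (k := k) he) :=
  F.LTower.RelAc.pull h (qPe e) (jPe_inj he) (pe_hr he) (pe_hs he)

theorem goodP1 : (H1.tow k).Good (Wn (WE (hat (SP k 0 0 1)))) :=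
  (relAc_pe (k := k) (e := 1) (by norm_num) (relAc_jO3 (by norm_num) _)).good_sub
    (good_sq _ goodO1)

theorem goodP2 : (H1.tow k).Good (Wn (WE (hat (SP k 0 0 2)))) :=
  (relAc_pe (k := k) (e := 2) (by norm_num) (relAc_jO2 (by norm_num) _)).good_sub
    (good_sq _ goodO2)

theorem j0injP1 : (H1.tow k).J0Inj (Wn (WE (hat (SP k 0 0 1)))) :=
  (relAc_pe (k := k) (e := 1) (by norm_num) (relAc_jO3 (by norm_num) _)).j0inj_sub
    (j0inj_sq _ j0injO1)

theorem j0injP2 : (H1.tow k).J0Inj (Wn (WE (hat (SP k 0 0 2)))) :=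
  (relAc_pe (k := k) (e := 2) (by norm_num) (relAc_jO2 (by norm_num) _)).j0inj_sub
    (j0inj_sq _ j0injO2)

/-- the hypotheses of `good_J` -/
theorem good_hO (b : Fin 3) : (H1.tow k).Good (Wn (WE (hat (SO k 0 0 ((b : ℕ) : ℤ))))) := by
  fin_cases b
  · exact goodO0
  · exact goodO1
  · exact goodO2

theorem good_hP (e : Fin 2) : (H1.tow k).Good (Wn (WE (hat (SP k 0 0 (((e : ℕ) : ℤ) + 1))))) := by
  fin_cases e
  · exact goodP1
  · exact goodP2

theorem j0inj_hO (b : Fin 3) : (H1.tow k).J0Inj (Wn (WE (hat (SO k 0 0 ((b : ℕ) : ℤ))))) := by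
  fin_cases b
  · exact j0injO0
  · exact j0injO1
  · exact j0injO2

theorem j0inj_hP (e : Fin 2) :
    (H1.tow k).J0Inj (Wn (WE (hat (SP k 0 0 (((e : ℕ) : ℤ) + 1))))) := by
  fin_cases e
  · exact j0injP1
  · exact j0injP2

end Vale.Agent.P195.AR.S5
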