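import Vale.Agent.Lib.P195.AR.Main
import Vale.Agent.Lib.P195.AR.GoodJ
import Vale.Agent.Lib.P195.AR.RelPe

/-!
# P195: the counterexample to the Auslander-Reiten conjecture
-/

namespace Vale.Agent.P195.AR

open CategoryTheory CategoryTheory.Abelian

variable (k : Type) [Field k] [CharZero k]

theorem good_ring : (H1.tow k).Good (R k) := S5.good_R S5.good_hO S5.good_hP

theorem j0inj_ring : (H1.tow k).J0Inj (R k) := S5.j0inj_R S5.j0inj_hO S5.j0inj_hP

/-- over every field of characteristic zero: a finite-dimensional algebra and a finitely generated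
module `M` with `Ext^i(M,M) = 0 = Ext^i(M,A)` for all `i ≥ 1`, not projective -/
theorem main_ex :
    ∃ (A : Type) (_ : Ring A) (_ : Algebra k A) (_ : Module.Finite k A)
      (M : Type) (_ : AddCommGroup M) (_ : Module A M) (_ : Module.Finite A M),
      (∀ i : ℕ, 1 ≤ i → Subsingleton (Ext (ModuleCat.of A M) (ModuleCat.of A M) i)) ∧
      (∀ i : ℕ, 1 ≤ i → Subsingleton (Ext (ModuleCat.of A M) (ModuleCat.of A A) i)) ∧
      ¬ Module.Projective A M :=
  main_ex_of k (good_ring k) (j0inj_ring k)

end Vale.Agent.P195.AR
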