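import Vale.Agent.Lib.P195.AR.Hg

/-!
# P195: exactness of the symbol complex (section 5.1 of PROOF.md)
-/

namespace Vale.Agent.P195.AR.S5

open MvPolynomial

variable {k : Type} [Field k]

theorem pd_mul (v w : Vr) (f : PA k) :
    pderiv v (X w * f) = X w * pderiv v f + if v = w then f else 0 := by
  rw [Derivation.leibniz, pderiv_X, smul_eq_mul, smul_eq_mul]
  by_cases h : v = w
  · subst h; rw [Pi.single_eq_same, if_pos rfl, mul_one]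
  · rw [if_neg h, Pi.single_eq_of_ne (fun h' => h h'.symm), mul_zero]

/-- `Q = x·y` -/
noncomputable def Qp : PA k := X (Vr.x 0) * X (Vr.y 0) + X (Vr.x 1) * X (Vr.y 1)
/-- `L = x_1 ∂_{y_0} - x_0 ∂_{y_1}` -/
noncomputable def Lc (f : PA k) : PA k := X (Vr.x 1) * pderiv (Vr.y 0) f - X (Vr.x 0) * pderiv (Vr.y 1) f
/-- `L' = y_0 ∂_{x_1} - y_1 ∂_{x_0}` -/
noncomputable def Lp (f : PA k) : PA k := X (Vr.y 0) * pderiv (Vr.x 1) f - X (Vr.y 1) * pderiv (Vr.x 0) f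
/-- `Δ = ∂_{x_0} ∂_{y_0} + ∂_{x_1} ∂_{y_1}` -/
noncomputable def Dl (f : PA k) : PA k :=
  pderiv (Vr.x 0) (pderiv (Vr.y 0) f) + pderiv (Vr.x 1) (pderiv (Vr.y 1) f)

theorem Lc_add (f g : PA k) : Lc (f + g) = Lc f + Lc g := by
  simp only [Lc, map_add]; ring
theorem Lc_sub (f g : PA k) : Lc (f - g) = Lc f - Lc g := by
  simp only [Lc, map_sub]; ring
theorem Lc_smul (c : k) (f : PA k) : Lc (c • f) = c • Lc f := by
  simp only [Lc, Derivation.map_smul, mul_smul_comm, smul_sub]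
theorem Lc_d (i : Fin 2) (f : PA k) : Lc (X (Vr.d i) * f) = X (Vr.d i) * Lc f := by
  simp only [Lc, pd_mul, if_neg (show ¬ (Vr.y 0 = Vr.d i) by simp),
    if_neg (show ¬ (Vr.y 1 = Vr.d i) by simp)]
  ring
theorem Lc_Q (f : PA k) : Lc (Qp * f) = Qp * Lc f := by
  have h : (Qp : PA k) * f = X (Vr.x 0) * (X (Vr.y 0) * f) + X (Vr.x 1) * (X (Vr.y 1) * f) := by
    rw [Qp]; ring
  rw [h]
  simp only [Lc, Qp, map_add, pd_mul, if_neg (show ¬ (Vr.y 0 = Vr.x 0) by simp),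
    if_neg (show ¬ (Vr.y 1 = Vr.x 0) by simp), if_neg (show ¬ (Vr.y 0 = Vr.x 1) by simp),
    if_neg (show ¬ (Vr.y 1 = Vr.x 1) by simp), if_neg (show ¬ (Vr.y 1 = Vr.y 0) by simp),
    if_neg (show ¬ (Vr.y 0 = Vr.y 1) by simp), if_true]
  ring
theorem Lp_smul (c : k) (f : PA k) : Lp (c • f) = c • Lp f := by
  simp only [Lp, Derivation.map_smul, mul_smul_comm, smul_sub]
theorem Lp_add (f g : PA k) : Lp (f + g) = Lp f + Lp g := by
  simp only [Lp, map_add]; ring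
theorem Lp_Q (f : PA k) : Lp (Qp * f) = Qp * Lp f := by
  have h : (Qp : PA k) * f = X (Vr.x 0) * (X (Vr.y 0) * f) + X (Vr.x 1) * (X (Vr.y 1) * f) := by
    rw [Qp]; ring
  rw [h]
  simp only [Lp, Qp, map_add, pd_mul, if_neg (show ¬ (Vr.x 0 = Vr.y 0) by simp),
    if_neg (show ¬ (Vr.x 1 = Vr.y 0) by simp), if_neg (show ¬ (Vr.x 0 = Vr.y 1) by simp),
    if_neg (show ¬ (Vr.x 1 = Vr.y 1) by simp), if_neg (show ¬ (Vr.x 1 = Vr.x 0) by simp),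
    if_neg (show ¬ (Vr.x 0 = Vr.x 1) by simp), if_true]
  ring

theorem Qp_ne_zero : (Qp : PA k) ≠ 0 := by
  intro h
  have h1 := congrArg (pderiv (R := k) (Vr.x 0)) h
  have h2 := congrArg (pderiv (R := k) (Vr.y 0)) h1
  simp only [Qp, map_add, pd_mul, map_zero, pderiv_X, if_true,
    if_neg (show ¬ (Vr.x 0 = Vr.x 1) by simp), add_zero] at h2
  rw [Pi.single_eq_of_ne (show (Vr.y 0) ≠ Vr.x 0 by simp),
    Pi.single_eq_of_ne (show (Vr.y 1) ≠ Vr.x 0 by simp)] at h2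
  simp at h2

theorem Lc_mem {m p q : ℤ} {f : PA k} (hf : f ∈ (H m p q : Submodule k (PA k))) :
    Lc f ∈ (H (m - 1) (p + 1) q : Submodule k (PA k)) :=
  Submodule.sub_mem _ (x_mem_H _ _ _ _ _ (dy_mem_H _ _ _ _ _ hf))
    (x_mem_H _ _ _ _ _ (dy_mem_H _ _ _ _ _ hf))
theorem Lp_mem {m p q : ℤ} {f : PA k} (hf : f ∈ (H m p q : Submodule k (PA k))) :
    Lp f ∈ (H (m + 1) (p - 1) q : Submodule k (PA k)) :=
  Submodule.sub_mem _ (y_mem_H _ _ _ _ _ (dx_mem_H _ _ _ _ _ hf))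
    (y_mem_H _ _ _ _ _ (dx_mem_H _ _ _ _ _ hf))
theorem Dl_mem {m p q : ℤ} {f : PA k} (hf : f ∈ (H m p q : Submodule k (PA k))) :
    Dl f ∈ (H (m - 1) (p - 1) q : Submodule k (PA k)) :=
  Submodule.add_mem _ (dx_mem_H _ _ _ _ _ (dy_mem_H _ _ _ _ _ hf))
    (dx_mem_H _ _ _ _ _ (dy_mem_H _ _ _ _ _ hf))
theorem Qp_mem {m p q : ℤ} {f : PA k} (hf : f ∈ (H m p q : Submodule k (PA k))) :
    Qp * f ∈ (H (m + 1) (p + 1) q : Submodule k (PA k)) := by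
  have h : (Qp : PA k) * f = X (Vr.x 0) * (X (Vr.y 0) * f) + X (Vr.x 1) * (X (Vr.y 1) * f) := by
    rw [Qp]; ring
  rw [h]
  exact Submodule.add_mem _ (x_mem_H _ _ _ _ _ (y_mem_H _ _ _ _ _ hf))
    (x_mem_H _ _ _ _ _ (y_mem_H _ _ _ _ _ hf))

/-- `L L' + Q Δ = (x·∂_x)(1 + y·∂_y)` -/
theorem Lc_Lp {m p q : ℤ} {f : PA k} (hf : f ∈ (H m p q : Submodule k (PA k))) :
    Lc (Lp f) + Qp * Dl f = ((p : k) * (m + 1)) • f := by
  have e1 := euler_x hf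
  have e2 := euler_x (dy_mem_H 0 _ _ _ _ hf)
  have e3 := euler_x (dy_mem_H 1 _ _ _ _ hf)
  have e4 := euler_y hf
  rw [MvPolynomial.smul_eq_C_mul] at e1 e2 e3 e4 ⊢
  simp only [Lc, Lp, Dl, Qp, map_sub, pd_mul, if_neg (show ¬ (Vr.y 0 = Vr.x 0) by simp),
    if_neg (show ¬ (Vr.y 1 = Vr.x 0) by simp), if_neg (show ¬ (Vr.y 0 = Vr.x 1) by simp),
    if_neg (show ¬ (Vr.y 1 = Vr.x 1) by simp), if_neg (show ¬ (Vr.y 1 = Vr.y 0) by simp),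
    if_neg (show ¬ (Vr.y 0 = Vr.y 1) by simp), if_true, C_mul, C_add, C_1]
  rw [pderiv_comm (Vr.y 0) (Vr.x 0), pderiv_comm (Vr.y 0) (Vr.x 1), pderiv_comm (Vr.y 1) (Vr.x 0),
    pderiv_comm (Vr.y 1) (Vr.x 1)]
  linear_combination e1 + X (Vr.y 0) * e2 + X (Vr.y 1) * e3 + C (p : k) * e4

/-- `L' L + Q Δ = (y·∂_y)(1 + x·∂_x)` -/
theorem Lp_Lc {m p q : ℤ} {f : PA k} (hf : f ∈ (H m p q : Submodule k (PA k))) :
    Lp (Lc f) + Qp * Dl f = ((m : k) * (p + 1)) • f := by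
  have e2 := euler_x (dy_mem_H 0 _ _ _ _ hf)
  have e3 := euler_x (dy_mem_H 1 _ _ _ _ hf)
  have e4 := euler_y hf
  rw [MvPolynomial.smul_eq_C_mul] at e2 e3 e4 ⊢
  simp only [Lc, Lp, Dl, Qp, map_sub, pd_mul, if_neg (show ¬ (Vr.x 0 = Vr.x 1) by simp),
    if_neg (show ¬ (Vr.x 1 = Vr.x 0) by simp), if_true, C_mul, C_add, C_1]
  linear_combination X (Vr.y 0) * e2 + X (Vr.y 1) * e3 + (C (p : k) + 1) * e4

variable [CharZero k]

theorem ga3 {m p r : ℤ} (hr : 1 ≤ r) {f : PA k} (hf : f ∈ (H m p r : Submodule k (PA k))) :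
    ∃ c0 ∈ (H m p (r - 1) : Submodule k (PA k)), ∃ c1 ∈ (H m p (r - 1) : Submodule k (PA k)),
      f = X (Vr.d 1) * c0 - X (Vr.d 0) * c1 := split_d hr hf

theorem cast_succ_ne (n : ℕ) : ((n : k) + 1) ≠ 0 := Nat.cast_add_one_ne_zero n

omit [CharZero k] in
theorem ga0 {i : Fin 2} {Φ : PA k} (h : X (Vr.d i) * (Qp * Φ) = 0) : Φ = 0 := by
  rcases mul_eq_zero.1 h with h1 | h1
  · exact absurd h1 (X_ne_zero _)
  · exact (mul_eq_zero.1 h1).resolve_left Qp_ne_zero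

end Vale.Agent.P195.AR.S5
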