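import Vale.Agent.Lib.P195.AR.GA

/-!
# P195: exactness of the symbol complex (section 5.1 of PROOF.md), place `C^1`

Proof. Put `K = d_0 G1 - d_1 G0` (`∈ H (n+1) (p-1) r`). `∂_{y_0}(h2) + ∂_{y_1}(h3)` gives
`-(n+1) ((y·∂_y) g + 2 g) = -(n+1)^2 g = 0` (`pd_mul`, `euler_y`), so `g = 0`. Then `∂_{y_1} K = 0 = ∂_{y_0} K`,
so `K = 0` (`eq_zero_of_dy`, y-degree `n+1 ≥ 1`). `koszul_d` (with `u = G0, v = G1`): `G_i = d_i γ`,
`γ ∈ H (n+1) (p-1) (r-2)`. By `Lc_d`, `h0` is `d_0 ((n+1) L γ + Q e) = 0`, so `(n+1) L γ + Q e = 0`.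
Apply `Lp` (`Lp_Q`): `(n+1) L'Lγ + Q L'e = 0`; `Lp_Lc`: `L'Lγ = (n+1) p γ - Q Δγ`. So
`(n+1)^2 p γ = Q ((n+1) Δγ - L'e)`; put `Φ = ((n+1) Δγ - L'e) / ((n+1)^2 p)`; `γ = Q Φ`. Finally
`Q ((n+1) L Φ + e) = 0` (`Lc_Q`) and `Qp_ne_zero`.
-/

namespace Vale.Agent.P195.AR.S5

open MvPolynomial

variable {k : Type} [Field k] [CharZero k]

theorem ncast_mul (n : ℕ) (f : PA k) : ((n : PA k) + 1) * f = ((n : k) + 1) • f := by
  rw [MvPolynomial.smul_eq_C_mul, C_add, C_1, map_natCast]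

theorem ga1_g {n : ℕ} {p r : ℤ} {K g : PA k}
    (hg : g ∈ (H (n - 1) (p - 1) r : Submodule k (PA k)))
    (h2 : pderiv (Vr.y 1) K - ((n : k) + 1) • (X (Vr.y 0) * g) = 0)
    (h3 : -pderiv (Vr.y 0) K - ((n : k) + 1) • (X (Vr.y 1) * g) = 0) : g = 0 := by
  have e := euler_y hg
  have hn : ((n : k) + 1) ≠ 0 := Nat.cast_add_one_ne_zero n
  have a2 := congrArg (pderiv (R := k) (Vr.y 0)) h2
  have a3 := congrArg (pderiv (R := k) (Vr.y 1)) h3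
  rw [map_sub, Derivation.map_smul, pd_mul, if_pos rfl, map_zero] at a2
  rw [map_sub, map_neg, Derivation.map_smul, pd_mul, if_pos rfl, map_zero,
    pderiv_comm (Vr.y 1) (Vr.y 0)] at a3
  have a4 : ((n : k) + 1) • (X (Vr.y 0) * pderiv (Vr.y 0) g + g + (X (Vr.y 1) * pderiv (Vr.y 1) g + g)) =
      0 := by
    rw [smul_add]
    linear_combination (-1 : PA k) * a2 - a3
  have a5 : X (Vr.y 0) * pderiv (Vr.y 0) g + g + (X (Vr.y 1) * pderiv (Vr.y 1) g + g) =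
      ((n : k) + 1) • g := by
    have a6 : X (Vr.y 0) * pderiv (Vr.y 0) g + g + (X (Vr.y 1) * pderiv (Vr.y 1) g + g) =
      (X (Vr.y 0) * pderiv (Vr.y 0) g + X (Vr.y 1) * pderiv (Vr.y 1) g) + (g + g) := by ring
    rw [a6, e, ← two_smul k g, ← add_smul]
    congr 1
    push_cast
    ring
  rw [a5, smul_smul] at a4
  exact (smul_eq_zero.1 a4).resolve_left (mul_ne_zero hn hn)

/-- exactness of the symbol complex in the place `C^1` -/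
theorem ga1 {n : ℕ} {p r : ℤ} (hp : 1 ≤ p) {G0 G1 g e : PA k}
    (hG0 : G0 ∈ (H (n + 1) (p - 1) (r - 1) : Submodule k (PA k)))
    (hG1 : G1 ∈ (H (n + 1) (p - 1) (r - 1) : Submodule k (PA k)))
    (hg : g ∈ (H (n - 1) (p - 1) r : Submodule k (PA k)))
    (he : e ∈ (H (n - 1) (p - 1) (r - 2) : Submodule k (PA k)))
    (h0 : ((n : PA k) + 1) * Lc G0 + Qp * (X (Vr.d 0) * e) = 0)
    (h1 : ((n : PA k) + 1) * Lc G1 + Qp * (X (Vr.d 1) * e) = 0)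
    (h2 : pderiv (Vr.y 1) (X (Vr.d 0) * G1 - X (Vr.d 1) * G0) - ((n : PA k) + 1) * (X (Vr.y 0) * g) = 0)
    (h3 : -pderiv (Vr.y 0) (X (Vr.d 0) * G1 - X (Vr.d 1) * G0) - ((n : PA k) + 1) * (X (Vr.y 1) * g) = 0) :
    ∃ Φ ∈ (H n (p - 2) (r - 2) : Submodule k (PA k)),
      G0 = X (Vr.d 0) * (Qp * Φ) ∧ G1 = X (Vr.d 1) * (Qp * Φ) ∧ e = -((n : PA k) + 1) * Lc Φ ∧
      g = 0 := by
  have hn : ((n : k) + 1) ≠ 0 := Nat.cast_add_one_ne_zero n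
  have hp0 : (p : k) ≠ 0 := by rw [Int.cast_ne_zero]; omega
  rw [ncast_mul] at h0 h1 h2 h3
  have g0 : g = 0 := ga1_g hg h2 h3
  subst g0
  rw [mul_zero, smul_zero, sub_zero] at h2 h3
  have hK : X (Vr.d 0) * G1 - X (Vr.d 1) * G0 ∈ (H (n + 1) (p - 1) r : Submodule k (PA k)) := by
    have b0 := d_mem_H 1 _ _ _ _ hG0
    have b1 := d_mem_H 0 _ _ _ _ hG1
    rw [sub_add_cancel] at b0 b1
    exact Submodule.sub_mem _ b1 b0
  have K0 := eq_zero_of_dy (by omega) hK (neg_eq_zero.1 h3) h2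
  obtain ⟨γ, hγ, rfl, rfl⟩ := koszul_d hG0 (sub_eq_zero.1 K0).symm
  rw [show r - 1 - 1 = r - 2 by ring] at hγ
  have h4 : ((n : k) + 1) • Lc γ + Qp * e = 0 := by
    have h5 : X (Vr.d 0) * (((n : k) + 1) • Lc γ + Qp * e) = 0 := by
      rw [← h0, Lc_d, mul_add, mul_smul_comm]; ring
    exact (mul_eq_zero.1 h5).resolve_left (X_ne_zero _)
  have h6 : Lp (((n : k) + 1) • Lc γ + Qp * e) = 0 := by
    rw [h4]; simp [Lp]
  rw [Lp_add, Lp_smul, Lp_Q] at h6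
  have h7 := Lp_Lc hγ
  have h8 : ((n : k) + 1) • ((((n : ℤ) + 1 : ℤ) : k) * ((p - 1 : ℤ) + 1)) • γ =
      Qp * (((n : k) + 1) • Dl γ - Lp e) := by
    rw [← h7, smul_add, mul_sub, mul_smul_comm]
    linear_combination h6
  set c : k := ((n : k) + 1) * ((n : k) + 1) * p with hc
  have hc0 : c ≠ 0 := mul_ne_zero (mul_ne_zero hn hn) hp0
  have h9 : c • γ = Qp * (((n : k) + 1) • Dl γ - Lp e) := by
    rw [← h8, smul_smul]
    congr 1
    rw [hc]; push_cast; ring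
  have hΦ : ((n : k) + 1) • Dl γ - Lp e ∈ (H n (p - 2) (r - 2) : Submodule k (PA k)) := by
    have b0 := Dl_mem hγ
    have b1 := Lp_mem he
    rw [show ((n : ℤ) + 1 - 1) = n by ring, show p - 1 - 1 = p - 2 by ring] at b0
    rw [show ((n : ℤ) - 1 + 1) = n by ring, show p - 1 - 1 = p - 2 by ring] at b1
    exact Submodule.sub_mem _ (Submodule.smul_mem _ _ b0) b1
  have h10 : γ = Qp * (c⁻¹ • (((n : k) + 1) • Dl γ - Lp e)) := by
    rw [mul_smul_comm, ← h9, smul_smul, inv_mul_cancel₀ hc0, one_smul]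
  have hΦ2 := Submodule.smul_mem _ c⁻¹ hΦ
  generalize c⁻¹ • (((n : k) + 1) • Dl γ - Lp e) = Φ at h10 hΦ2
  refine ⟨Φ, hΦ2, ?_, ?_, ?_, rfl⟩
  · rw [← h10]
  · rw [← h10]
  · rw [h10, Lc_Q] at h4
    have h11 : Qp * (((n : k) + 1) • Lc Φ + e) = 0 := by
      rw [mul_add, mul_smul_comm]; exact h4
    have h12 := (mul_eq_zero.1 h11).resolve_left Qp_ne_zero
    rw [neg_mul, ncast_mul]
    exact eq_neg_of_add_eq_zero_right h12

end Vale.Agent.P195.AR.S5
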