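import Vale.Agent.Lib.P195.AR.GA

/-!
# P195: exactness of the symbol complex (section 5.1 of PROOF.md), place `C^2`

Proof. `D = ∂_{y_0} g0 + ∂_{y_1} g1 ∈ H (n-1) (p-1) r`, `g = -D/(n+1)^2`, `g_i' = g_i + (n+1) y_i g`. Then
`∂_{y_0} g0' + ∂_{y_1} g1' = D + (n+1)(2 g + (n-1) g) = 0` (`pd_mul`, `euler_y`), so by `deRham_y`
`g0' = ∂_{y_1} u`, `g1' = -∂_{y_0} u`, `u ∈ H (n+1) (p-1) r`. `h` becomes (the `Q g` terms cancel)
`(n+1) L u + d_1 c0 - d_0 c1 = 0` (as `x_0 g0' + x_1 g1' = - L u`). `split_d` (`r ≥ 1`, roles exchanged):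
`u = d_0 Γ1 - d_1 Γ0`, `Γ_i ∈ H (n+1) (p-1) (r-1)`. With `Lc_sub`, `Lc_d`:
`d_1 (c0 - (n+1) L Γ0) = d_0 (c1 - (n+1) L Γ1)`, so by `koszul_d` `c_i - (n+1) L Γ_i = d_i c`,
`c ∈ H n p (r-2)`. `Lc_Lp`: `p (n+1) c = L (L' c) + Q Δ c`. Put `e = Δc/(p(n+1))`, `γ = L'c/(p (n+1)^2)`,
`G_i = Γ_i + d_i γ` (then `d_0 G1 - d_1 G0 = u` still). For `n = 0` nothing special happens.
-/

namespace Vale.Agent.P195.AR.S5

open MvPolynomial

variable {k : Type} [Field k]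

theorem nC (n : ℕ) : ((n : PA k) + 1) = C ((n : k) + 1) := by
  rw [C_add, C_1, map_natCast]

theorem pd_C_mul (v : Vr) (c : k) (f : PA k) : pderiv v (C c * f) = C c * pderiv v f := by
  rw [← MvPolynomial.smul_eq_C_mul, ← MvPolynomial.smul_eq_C_mul, Derivation.map_smul]

theorem Lc_C_mul (c : k) (f : PA k) : Lc (C c * f) = C c * Lc f := by
  rw [← MvPolynomial.smul_eq_C_mul, ← MvPolynomial.smul_eq_C_mul, Lc_smul]

theorem C_mul_mem_H (c : k) {m p q : ℤ} {f : PA k} (hf : f ∈ (H m p q : Submodule k (PA k))) :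
    C c * f ∈ (H m p q : Submodule k (PA k)) := by
  rw [← MvPolynomial.smul_eq_C_mul]; exact Submodule.smul_mem _ _ hf

theorem ga2_div {n : ℕ} {p r : ℤ} {N : k} (hN : N = (n : k) + 1) {g0 g1 g : PA k}
    (hg : g ∈ (H (n - 1) (p - 1) r : Submodule k (PA k)))
    (hgN : C N * (C N * g) = -(pderiv (Vr.y 0) g0 + pderiv (Vr.y 1) g1)) :
    pderiv (Vr.y 0) (g0 + C N * (X (Vr.y 0) * g)) + pderiv (Vr.y 1) (g1 + C N * (X (Vr.y 1) * g)) = 0 := by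
  have e := euler_y hg
  rw [map_add, map_add, pd_C_mul, pd_C_mul, pd_mul, pd_mul, if_pos rfl, if_pos rfl]
  have e2 : X (Vr.y 0) * pderiv (Vr.y 0) g + X (Vr.y 1) * pderiv (Vr.y 1) g = (C N - 2) * g := by
    rw [e, MvPolynomial.smul_eq_C_mul, hN]
    congr 1
    rw [Int.cast_sub, Int.cast_one, Int.cast_natCast, C_sub, C_add, C_1]
    ring
  linear_combination C N * e2 + hgN

variable [CharZero k]

/-- first half: removing the divergence of `(g_0, g_1)` -/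
theorem ga2_u {n : ℕ} {p r : ℤ} {N M : k} (hN : N = (n : k) + 1) (hM : M * N = 1) {g0 g1 : PA k}
    (hg0 : g0 ∈ (H n (p - 1) r : Submodule k (PA k)))
    (hg1 : g1 ∈ (H n (p - 1) r : Submodule k (PA k))) :
    ∃ g ∈ (H (n - 1) (p - 1) r : Submodule k (PA k)), ∃ u ∈ (H (n + 1) (p - 1) r : Submodule k (PA k)),
      C N * (C N * g) = -(pderiv (Vr.y 0) g0 + pderiv (Vr.y 1) g1) ∧
      g0 = pderiv (Vr.y 1) u - C N * (X (Vr.y 0) * g) ∧ g1 = -pderiv (Vr.y 0) u - C N * (X (Vr.y 1) * g) := by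
  have hD : pderiv (Vr.y 0) g0 + pderiv (Vr.y 1) g1 ∈ (H (n - 1) (p - 1) r : Submodule k (PA k)) :=
    Submodule.add_mem _ (dy_mem_H 0 _ _ _ _ hg0) (dy_mem_H 1 _ _ _ _ hg1)
  have hg := C_mul_mem_H (-(M * M)) hD
  have hgN : C N * (C N * (C (-(M * M)) * (pderiv (Vr.y 0) g0 + pderiv (Vr.y 1) g1))) =
      -(pderiv (Vr.y 0) g0 + pderiv (Vr.y 1) g1) := by
    rw [← mul_assoc, ← mul_assoc, ← C_mul, ← C_mul,
      show N * N * -(M * M) = -1 by linear_combination (-(M * N) - 1) * hM, C_neg, C_1, neg_one_mul]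
  generalize C (-(M * M)) * (pderiv (Vr.y 0) g0 + pderiv (Vr.y 1) g1) = g at hg hgN
  have h0 : g0 + C N * (X (Vr.y 0) * g) ∈ (H n (p - 1) r : Submodule k (PA k)) := by
    have b := y_mem_H 0 _ _ _ _ hg
    rw [sub_add_cancel] at b
    exact Submodule.add_mem _ hg0 (C_mul_mem_H N b)
  have h1 : g1 + C N * (X (Vr.y 1) * g) ∈ (H n (p - 1) r : Submodule k (PA k)) := by
    have b := y_mem_H 1 _ _ _ _ hg
    rw [sub_add_cancel] at b
    exact Submodule.add_mem _ hg1 (C_mul_mem_H N b)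
  obtain ⟨u, hu, e0, e1⟩ := deRham_y (by omega) h0 h1 (ga2_div hN hg hgN)
  exact ⟨g, hg, u, hu, hgN, by rw [← e0, add_sub_cancel_right], by rw [← e1, add_sub_cancel_right]⟩

omit [CharZero k] in
theorem Lc_neg (f : PA k) : Lc (-f) = -Lc f := by
  simp only [Lc, map_neg]; ring

omit [CharZero k] in
/-- `L L' + Q Δ` is invertible -/
theorem ga2_LLp {n : ℕ} {p r : ℤ} {N M P : k} (hN : N = (n : k) + 1) (hM : M * N = 1)
    (hP : P * p = 1) {c : PA k} (hc : c ∈ (H n p (r - 2) : Submodule k (PA k))) :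
    ∃ γ ∈ (H (n + 1) (p - 1) (r - 2) : Submodule k (PA k)),
    ∃ e ∈ (H (n - 1) (p - 1) (r - 2) : Submodule k (PA k)), C N * Lc γ + Qp * e = c := by
  refine ⟨C (M * M * P) * Lp c, C_mul_mem_H _ (Lp_mem hc), C (M * P) * Dl c,
    C_mul_mem_H _ (Dl_mem hc), ?_⟩
  have hE := Lc_Lp hc
  rw [Lc_C_mul, ← mul_assoc, ← C_mul,
    show N * (M * M * P) = M * P by linear_combination (M * P) * hM,
    mul_left_comm Qp (C (M * P)) (Dl c), ← mul_add, hE, MvPolynomial.smul_eq_C_mul, ← mul_assoc,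
    ← C_mul, show M * P * ((p : k) * (((n : ℤ) : k) + 1)) = 1 by
        rw [Int.cast_natCast, ← hN]; linear_combination (P * (p : k)) * hM + hP, C_1, one_mul]

theorem alg_a {R : Type*} [CommRing R] {N La Lb c0 c1 d0 d1 : R}
    (h : N * (d1 * La - d0 * Lb) + d1 * c0 - d0 * c1 = 0) :
    d1 * (c0 + N * La) = d0 * (c1 + N * Lb) := by
  linear_combination h

theorem alg_b {R : Type*} [CommRing R] {N La Lg Q d c0 c e : R}
    (h : c0 + N * La = d * c) (hE : N * Lg + Q * e = c) :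
    c0 = N * (-La + d * Lg) + Q * (d * e) := by
  linear_combination h - d * hE

theorem alg_c {R : Type*} [CommRing R] {A B d0 d1 g : R} :
    d0 * (-B + d1 * g) - d1 * (-A + d0 * g) = d1 * A - d0 * B := by
  ring

omit [CharZero k] in
theorem ga2_c1 {n : ℕ} {p r : ℤ} {N : k} {A B c0 c1 : PA k}
    (hA : A ∈ (H (n + 1) (p - 1) (r - 1) : Submodule k (PA k)))
    (hc0 : c0 ∈ (H n p (r - 1) : Submodule k (PA k)))
    (h : X (Vr.d 1) * (c0 + C N * Lc A) = X (Vr.d 0) * (c1 + C N * Lc B)) :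
    ∃ c ∈ (H n p (r - 2) : Submodule k (PA k)), c0 + C N * Lc A = X (Vr.d 0) * c ∧
      c1 + C N * Lc B = X (Vr.d 1) * c := by
  have hLA := C_mul_mem_H N (Lc_mem hA)
  rw [add_sub_cancel_right, sub_add_cancel] at hLA
  obtain ⟨c, hc, e0, e1⟩ := koszul_d (Submodule.add_mem _ hc0 hLA) h
  rw [show r - 1 - 1 = r - 2 by ring] at hc
  exact ⟨c, hc, e0, e1⟩

/-- the second half -/
theorem ga2_c {n : ℕ} {p r : ℤ} {N M P : k} (hN : N = (n : k) + 1) (hM : M * N = 1)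
    (hP : P * p = 1) {A B c0 c1 : PA k}
    (hA : A ∈ (H (n + 1) (p - 1) (r - 1) : Submodule k (PA k)))
    (hB : B ∈ (H (n + 1) (p - 1) (r - 1) : Submodule k (PA k)))
    (hc0 : c0 ∈ (H n p (r - 1) : Submodule k (PA k)))
    (h : C N * (X (Vr.d 1) * Lc A - X (Vr.d 0) * Lc B) + X (Vr.d 1) * c0 - X (Vr.d 0) * c1 = 0) :
    ∃ G0 ∈ (H (n + 1) (p - 1) (r - 1) : Submodule k (PA k)),
    ∃ G1 ∈ (H (n + 1) (p - 1) (r - 1) : Submodule k (PA k)),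
    ∃ e ∈ (H (n - 1) (p - 1) (r - 2) : Submodule k (PA k)),
      c0 = C N * Lc G0 + Qp * (X (Vr.d 0) * e) ∧ c1 = C N * Lc G1 + Qp * (X (Vr.d 1) * e) ∧
      X (Vr.d 0) * G1 - X (Vr.d 1) * G0 = X (Vr.d 1) * A - X (Vr.d 0) * B := by
  obtain ⟨c, hc, e0, e1⟩ := ga2_c1 hA hc0 (alg_a h)
  obtain ⟨γ, hγ, e, he, hE⟩ := ga2_LLp hN hM hP hc
  have hdγ0 := d_mem_H 0 _ _ _ _ hγ
  have hdγ1 := d_mem_H 1 _ _ _ _ hγ
  rw [show r - 2 + 1 = r - 1 by ring] at hdγ0 hdγ1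
  refine ⟨-A + X (Vr.d 0) * γ, Submodule.add_mem _ (Submodule.neg_mem _ hA) hdγ0,
    -B + X (Vr.d 1) * γ, Submodule.add_mem _ (Submodule.neg_mem _ hB) hdγ1, e, he, ?_, ?_, alg_c⟩
  · rw [Lc_add, Lc_d, Lc_neg]
    exact alg_b e0 hE
  · rw [Lc_add, Lc_d, Lc_neg]
    exact alg_b e1 hE

/-- exactness of the symbol complex in the place `C^2` -/
theorem ga2 {n : ℕ} {p r : ℤ} (hp : 1 ≤ p) (hr : 1 ≤ r) {g0 g1 c0 c1 : PA k}
    (hg0 : g0 ∈ (H n (p - 1) r : Submodule k (PA k)))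
    (hg1 : g1 ∈ (H n (p - 1) r : Submodule k (PA k)))
    (hc0 : c0 ∈ (H n p (r - 1) : Submodule k (PA k)))
    (hc1 : c1 ∈ (H n p (r - 1) : Submodule k (PA k)))
    (h : -((n : PA k) + 1) * (X (Vr.x 0) * g0 + X (Vr.x 1) * g1) +
      Qp * (pderiv (Vr.y 0) g0 + pderiv (Vr.y 1) g1) + X (Vr.d 1) * c0 - X (Vr.d 0) * c1 = 0) :
    ∃ G0 ∈ (H (n + 1) (p - 1) (r - 1) : Submodule k (PA k)),
    ∃ G1 ∈ (H (n + 1) (p - 1) (r - 1) : Submodule k (PA k)),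
    ∃ g ∈ (H (n - 1) (p - 1) r : Submodule k (PA k)),
    ∃ e ∈ (H (n - 1) (p - 1) (r - 2) : Submodule k (PA k)),
      c0 = ((n : PA k) + 1) * Lc G0 + Qp * (X (Vr.d 0) * e) ∧
      c1 = ((n : PA k) + 1) * Lc G1 + Qp * (X (Vr.d 1) * e) ∧
      g0 = pderiv (Vr.y 1) (X (Vr.d 0) * G1 - X (Vr.d 1) * G0) - ((n : PA k) + 1) * (X (Vr.y 0) * g) ∧
      g1 = -pderiv (Vr.y 0) (X (Vr.d 0) * G1 - X (Vr.d 1) * G0) - ((n : PA k) + 1) * (X (Vr.y 1) * g) := by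
  have hn : ((n : k) + 1) ≠ 0 := Nat.cast_add_one_ne_zero n
  have hp0 : (p : k) ≠ 0 := by rw [Int.cast_ne_zero]; omega
  rw [nC] at h ⊢
  obtain ⟨N, hN⟩ : ∃ N : k, N = (n : k) + 1 := ⟨_, rfl⟩
  rw [← hN] at h hn ⊢
  obtain ⟨g, hg, u, hu, hD, e0, e1⟩ := ga2_u hN (inv_mul_cancel₀ hn) hg0 hg1
  have h1 : C N * Lc u + X (Vr.d 1) * c0 - X (Vr.d 0) * c1 = 0 := by
    have h2 : X (Vr.x 0) * g0 + X (Vr.x 1) * g1 = -Lc u - C N * (Qp * g) := by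
      rw [e0, e1, Lc, Qp]; ring
    rw [h2] at h
    linear_combination h - Qp * hD
  obtain ⟨A, hA, B, hB, hAB⟩ := split_d hr hu
  rw [hAB, Lc_sub, Lc_d, Lc_d] at h1
  obtain ⟨G0, hG0, G1, hG1, e, he, f0, f1, f2⟩ :=
    ga2_c hN (inv_mul_cancel₀ hn) (inv_mul_cancel₀ hp0) hA hB hc0 h1
  rw [← hAB] at f2
  refine ⟨G0, hG0, G1, hG1, g, hg, e, he, f0, f1, ?_, ?_⟩
  · rw [f2]; exact e0
  · rw [f2]; exact e1

end Vale.Agent.P195.AR.S5
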