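import Vale.Agent.Lib.P195.AR.Yo

/-!
# P195: statements on `Hom_R(Wn (WE (hat Q)), Wn N)` from statements on `HomW Q N.L`
-/

namespace Vale.Agent.P195.AR

open MvPolynomial

variable {k : Type} [Field k]

/-- composition of `mapE (ex θ)` and `mapE (hm g)` -/
theorem mapE_ex_hm {P Q : Bw k} {N : Wd k} {g : P.V →ₗ[k] Q.V} (hg : g ∈ HomW P Q)
    {θ : Q.V →ₗ[k] N.L.V} (hθ : θ ∈ HomW Q N.L.toBw) (x : Wn (WE (hat P))) :
    Wn.mapE (L := hat Q) (N := N) (ex θ) (ex_mem hθ)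
      (Wn.mapE (L := hat P) (N := WE (hat Q)) (hm g) (hm_mem hg) x) =
    Wn.mapE (L := hat P) (N := N) (ex (θ ∘ₗ g)) (ex_mem (HomW.comp hθ hg)) x := rfl

/-- vanishing on `F 0 0` -/
theorem zero_F00 {Q : Bw k} {N : Wd k} {θ : Q.V →ₗ[k] N.L.V} (hθ : θ ∈ HomW Q N.L.toBw)
    (h : ∀ φ, Wn.mapE (L := hat Q) (N := N) (ex θ) (ex_mem hθ) φ = 0) (v : Q.V)
    (hv : v ∈ Q.F 0 0) : θ v = 0 :=
  mapE_zero_o hθ h 0 v (by simpa using hv)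

theorem mapE_ex_zero {Q : Bw k} {N : Wd k} {θ : Q.V →ₗ[k] N.L.V} (hθ : θ ∈ HomW Q N.L.toBw)
    (h : ∀ a b, ∀ v ∈ Q.F a b, θ v = 0) :
    Wn.mapE (L := hat Q) (N := N) (ex θ) (ex_mem hθ) = 0 := by
  rw [mapE_ex_congr (Q := Q) (N := N) hθ (Submodule.zero_mem _)
    (fun v hv => h _ _ v hv) (fun v hv => h _ _ v hv)]
  apply LinearMap.ext
  intro φ
  apply Wn.ext
  rw [Wn.mapE_f]
  apply LinearMap.ext
  intro u
  rw [LinearMap.comp_apply, ex_apply, LinearMap.zero_apply, LinearMap.zero_apply, map_zero,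
    add_zero]
  rfl

/-- vanishing, general form -/
theorem gen_zero {P Q : Bw k} {N : Wd k} (D : Fp Q) {g : P.V →ₗ[k] Q.V} (hg : g ∈ HomW P Q)
    (key : ∀ θ ∈ HomW Q N.L.toBw, (∀ u ∈ P.F 0 0, θ (g u) = 0) →
      ∀ a b, ∀ u ∈ Q.F a b, θ u = 0)
    (f : Wn (WE (hat Q)) →ₗ[R k] Wn N)
    (h : ∀ x, f (Wn.mapE (L := hat P) (N := WE (hat Q)) (hm g) (hm_mem hg) x) = 0) : f = 0 := by
  obtain ⟨θ, hθ, rfl⟩ := D.exists_th f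
  exact mapE_ex_zero hθ (key θ hθ fun u hu =>
    zero_F00 (Q := P) (N := N) (θ := θ ∘ₗ g) (HomW.comp hθ hg) h u hu)

/-- exactness, general form -/
theorem gen_ex {P Q S : Bw k} {N : Wd k} (D : Fp Q) {g : P.V →ₗ[k] Q.V} (hg : g ∈ HomW P Q)
    {g' : Q.V →ₗ[k] S.V} (hg' : g' ∈ HomW Q S)
    (key : ∀ θ ∈ HomW Q N.L.toBw, (∀ u ∈ P.F 0 0, θ (g u) = 0) →
      ∃ θ' ∈ HomW S N.L.toBw, ∀ a b, ∀ u ∈ Q.F a b, θ u = θ' (g' u))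
    (f : Wn (WE (hat Q)) →ₗ[R k] Wn N)
    (h : ∀ x, f (Wn.mapE (L := hat P) (N := WE (hat Q)) (hm g) (hm_mem hg) x) = 0) :
    ∃ f' : Wn (WE (hat S)) →ₗ[R k] Wn N, ∀ x, f x =
      f' (Wn.mapE (L := hat Q) (N := WE (hat S)) (hm g') (hm_mem hg') x) := by
  obtain ⟨θ, hθ, rfl⟩ := D.exists_th f
  obtain ⟨θ', hθ', e⟩ := key θ hθ fun u hu =>
    zero_F00 (Q := P) (N := N) (θ := θ ∘ₗ g) (HomW.comp hθ hg) h u hu
  refine ⟨Wn.mapE (L := hat S) (N := N) (ex θ') (ex_mem hθ'), fun x => ?_⟩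
  rw [mapE_ex_hm (N := N) hg' hθ']
  exact LinearMap.congr_fun (mapE_ex_congr (Q := Q) (N := N) hθ
    (HomW.comp hθ' hg') (fun v hv => e _ _ v hv) (fun v hv => e _ _ v hv)) x

/-- surjectivity, general form -/
theorem gen_surj {Q S : Bw k} {N : Wd k} (D : Fp Q)
    {g' : Q.V →ₗ[k] S.V} (hg' : g' ∈ HomW Q S)
    (key : ∀ θ ∈ HomW Q N.L.toBw,
      ∃ θ' ∈ HomW S N.L.toBw, ∀ a b, ∀ u ∈ Q.F a b, θ u = θ' (g' u))
    (f : Wn (WE (hat Q)) →ₗ[R k] Wn N) :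
    ∃ f' : Wn (WE (hat S)) →ₗ[R k] Wn N, ∀ x, f x =
      f' (Wn.mapE (L := hat Q) (N := WE (hat S)) (hm g') (hm_mem hg') x) := by
  obtain ⟨θ, hθ, rfl⟩ := D.exists_th f
  obtain ⟨θ', hθ', e⟩ := key θ hθ
  refine ⟨Wn.mapE (L := hat S) (N := N) (ex θ') (ex_mem hθ'), fun x => ?_⟩
  rw [mapE_ex_hm (N := N) hg' hθ']
  exact LinearMap.congr_fun (mapE_ex_congr (Q := Q) (N := N) hθ
    (HomW.comp hθ' hg') (fun v hv => e _ _ v hv) (fun v hv => e _ _ v hv)) x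

/-- `s ∘ θ ∘ g` for `g : P → Q(1,0)` -/
theorem s_comp_mem {P Q : Bw k} {L : Bf k} {g : P.V →ₗ[k] Q.V} (hg : g ∈ HomW P (Q.shift 1 0))
    {θ : Q.V →ₗ[k] L.V} (hθ : θ ∈ HomW Q L.toBw) : L.s ∘ₗ θ ∘ₗ g ∈ HomW P L.toBw := by
  refine ⟨fun i v => ?_, fun i v => ?_, fun a b v hv => ?_⟩
  · rw [LinearMap.comp_apply, LinearMap.comp_apply, LinearMap.comp_apply, LinearMap.comp_apply,
      hg.1, ← L.sx]
    exact congrArg L.s (hθ.1 i (g v))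
  · rw [LinearMap.comp_apply, LinearMap.comp_apply, LinearMap.comp_apply, LinearMap.comp_apply,
      hg.2.1, ← L.sd]
    exact congrArg L.s (hθ.2.1 i (g v))
  · have h1 : g v ∈ Q.F (a + 1) (b + 0) := hg.2.2 a b v hv
    rw [add_zero] at h1
    have h2 := L.Fs _ _ _ (hθ.2.2 _ _ _ h1)
    rwa [add_sub_cancel_right] at h2

/-- composition of `mapE (ex θ)` and `mapE (sm g)` -/
theorem mapE_ex_sm {P Q : Bw k} {N : Wd k} {g : P.V →ₗ[k] Q.V} (hg : g ∈ HomW P (Q.shift 1 0))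
    {θ : Q.V →ₗ[k] N.L.V} (hθ : θ ∈ HomW Q N.L.toBw) (x : Wn (WE (hat P))) :
    Wn.mapE (L := hat Q) (N := N) (ex θ) (ex_mem hθ)
      (Wn.mapE (L := hat P) (N := WE (hat Q)) (sm g) (sm_mem hg) x) =
    Wn.mapE (L := hat P) (N := N) (ex (N.L.s ∘ₗ θ ∘ₗ g)) (ex_mem (s_comp_mem hg hθ)) x := by
  apply Wn.ext
  rw [Wn.mapE_f, Wn.mapE_f, Wn.mapE_f, ← LinearMap.comp_assoc]
  congr 1
  apply LinearMap.ext
  intro v
  rw [LinearMap.comp_apply, sm_apply, ex_apply, ex_apply, map_zero, zero_add,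
    LinearMap.comp_apply, LinearMap.comp_apply, LinearMap.comp_apply, LinearMap.comp_apply, N.L.ss,
    add_zero]

/-- equality of two maps on `F 0 0` from equality of the maps of windows -/
theorem eq_F00 {Q : Bw k} {N : Wd k} {θ θ' : Q.V →ₗ[k] N.L.V} (hθ : θ ∈ HomW Q N.L.toBw)
    (hθ' : θ' ∈ HomW Q N.L.toBw)
    (h : ∀ φ, Wn.mapE (L := hat Q) (N := N) (ex θ) (ex_mem hθ) φ =
      Wn.mapE (L := hat Q) (N := N) (ex θ') (ex_mem hθ') φ) (v : Q.V)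
    (hv : v ∈ Q.F 0 0) : θ v = θ' v := by
  have h1 : (θ - θ') v = 0 := by
    refine zero_F00 (Q := Q) (N := N) (θ := θ - θ') (Submodule.sub_mem _ hθ hθ') (fun φ => ?_) v hv
    apply Wn.ext
    have h2 := congrArg Wn.f (h φ)
    rw [Wn.mapE_f, Wn.mapE_f] at h2
    rw [Wn.mapE_f]
    apply LinearMap.ext
    intro u
    have h3 := LinearMap.congr_fun h2 u
    rw [LinearMap.comp_apply, LinearMap.comp_apply, ex_apply, ex_apply] at h3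
    rw [LinearMap.comp_apply, ex_apply, LinearMap.sub_apply, LinearMap.sub_apply, map_sub]
    rw [sub_add_sub_comm, h3, sub_self]
    rfl
  exact sub_eq_zero.1 h1

/-- the `hJ` condition, general form: `g2 : P → Q`, `F2 : P → P'(1,0)`, ... -/
theorem gen_J {P Q S : Bw k} {N : Wd k} (D : Fp Q) (DS : Fp S)
    {F1 : P.V →ₗ[k] Q.V} (hF1 : F1 ∈ HomW P (Q.shift 1 0))
    {C2 : P.V →ₗ[k] S.V} (hC2 : C2 ∈ HomW P S)
    {P0 S1 : Bw k} {F0 : Q.V →ₗ[k] P0.V} (hF0 : F0 ∈ HomW Q (P0.shift 1 0))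
    {C1 : Q.V →ₗ[k] S1.V} (hC1 : C1 ∈ HomW Q S1)
    (key : ∀ θ ∈ HomW Q N.L.toBw, ∀ η ∈ HomW S N.L.toBw,
      (∀ u ∈ P.F 0 0, N.L.s (θ (F1 u)) = η (C2 u)) →
      ∃ θ' ∈ HomW P0 N.L.toBw, ∃ η' ∈ HomW S1 N.L.toBw,
        ∀ a b, ∀ u ∈ Q.F a b, θ u = N.L.s (θ' (F0 u)) + η' (C1 u))
    (f : Wn (WE (hat Q)) →ₗ[R k] Wn N) (g : Wn (WE (hat S)) →ₗ[R k] Wn N)
    (h : ∀ x, f (Wn.mapE (L := hat P) (N := WE (hat Q)) (sm F1) (sm_mem hF1) x) =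
      g (Wn.mapE (L := hat P) (N := WE (hat S)) (hm C2) (hm_mem hC2) x)) :
    ∃ (f' : Wn (WE (hat P0)) →ₗ[R k] Wn N) (g' : Wn (WE (hat S1)) →ₗ[R k] Wn N),
      ∀ x, f x = f' (Wn.mapE (L := hat Q) (N := WE (hat P0)) (sm F0) (sm_mem hF0) x) +
        g' (Wn.mapE (L := hat Q) (N := WE (hat S1)) (hm C1) (hm_mem hC1) x) := by
  obtain ⟨θ, hθ, rfl⟩ := D.exists_th f
  obtain ⟨η, hη, rfl⟩ := DS.exists_th g
  obtain ⟨θ', hθ', η', hη', e⟩ := key θ hθ η hη fun u hu => by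
    refine eq_F00 (Q := P) (N := N) (θ := N.L.s ∘ₗ θ ∘ₗ F1) (θ' := η ∘ₗ C2)
      (s_comp_mem hF1 hθ) (HomW.comp hη hC2) (fun φ => ?_) u hu
    rw [← mapE_ex_sm (N := N) hF1 hθ, h φ]
    rfl
  refine ⟨Wn.mapE (L := hat P0) (N := N) (ex θ') (ex_mem hθ'),
    Wn.mapE (L := hat S1) (N := N) (ex η') (ex_mem hη'), fun x => ?_⟩
  rw [mapE_ex_sm (N := N) hF0 hθ', mapE_ex_hm (N := N) hC1 hη']
  have h1 := mapE_ex_congr (Q := Q) (N := N) (θ := θ) (θ' := N.L.s ∘ₗ θ' ∘ₗ F0 + η' ∘ₗ C1) hθ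
    (Submodule.add_mem _ (s_comp_mem hF0 hθ') (HomW.comp hη' hC1)) (fun v hv => e _ _ v hv)
    (fun v hv => e _ _ v hv)
  rw [h1]
  apply Wn.ext
  rw [Wn.add_f, Wn.mapE_f, Wn.mapE_f, Wn.mapE_f, ex_add, LinearMap.add_comp]

end Vale.Agent.P195.AR
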