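import Vale.Agent.Lib.P195.AR.RelO
import Vale.Agent.Lib.P195.AR.Base
import Vale.Agent.Lib.P195.AR.BaseJ

/-!
# P195: `Good` and `J0Inj` for `R e_{O_b}`
-/

namespace Vale.Agent.P195.AR.S5

open MvPolynomial

variable {k : Type} [Field k] [CharZero k]

/-- equality of maps from equality of cochains -/
theorem rep_eq {Q : Bw k} {C : Type} [AddCommGroup C] {D : Dic Q C} {a r : ℤ}
    {f g : Wn (WE (hat Q)) →ₗ[R k] Wn (WE (hat (SO k 0 a r)))} {c0 c1 c0' c1' : C}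
    (h : D.Rep f c0 c1) (h' : D.Rep g c0' c1') (e0 : c0 = c0') (e1 : c1 = c1')
    (x : Wn (WE (hat Q))) : f x = g x := by
  have h2 := Dic.Rep.sub' h h'
  rw [e0, e1, sub_self, sub_self] at h2
  exact sub_eq_zero.1 (Dic.Rep.eq_zero h2 x)

/-- equality of cochains from equality of maps -/
theorem rep_inj {Q : Bw k} {C : Type} [AddCommGroup C] {D : Dic Q C} {a r : ℤ}
    {f g : Wn (WE (hat Q)) →ₗ[R k] Wn (WE (hat (SO k 0 a r)))} {c0 c1 c0' c1' : C}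
    (h : D.Rep f c0 c1) (h' : D.Rep g c0' c1') (e : ∀ x, f x = g x) : c0 = c0' ∧ c1 = c1' := by
  obtain ⟨e0, e1⟩ := Dic.Rep.uniq_zero (Dic.Rep.sub' h h') (fun x => sub_eq_zero.2 (e x))
  exact ⟨sub_eq_zero.1 e0, sub_eq_zero.1 e1⟩

theorem rep_add {Q : Bw k} {C : Type} [AddCommGroup C] {D : Dic Q C} {a r : ℤ}
    {f g : Wn (WE (hat Q)) →ₗ[R k] Wn (WE (hat (SO k 0 a r)))} {c0 c1 c0' c1' : C}
    (h : D.Rep f c0 c1) (h' : D.Rep g c0' c1') : D.Rep (f + g) (c0 + c0') (c1 + c1') := by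
  obtain ⟨z, hz⟩ := Dic.Rep.of (D := D) (a := a) (r := r) (D.zero a r) (D.zero (a + 1) r)
  have h2 := Dic.Rep.sub' h (Dic.Rep.sub' hz h')
  have e1 : c0 - (0 - c0') = c0 + c0' := by rw [zero_sub, sub_neg_eq_add]
  have e2 : c1 - (0 - c1') = c1 + c1' := by rw [zero_sub, sub_neg_eq_add]
  have e3 : f - (z - g) = f + g := by
    have : z = 0 := LinearMap.ext fun x => Dic.Rep.eq_zero hz x
    rw [this, zero_sub, sub_neg_eq_add]
  rw [e1, e2, e3] at h2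
  exact h2

theorem W1_zero' {n : ℕ} {c : (Fin 2 → PA k) × (Fin 2 → PA k)} (h : W1 0 0 n c.1 c.2) : c = 0 :=
  Prod.ext (base_W1 h).1 (base_W1 h).2

theorem goodO0 : (H1.tow k).Good (Wn (WE (hat (SO k 0 0 0)))) where
  h0 := by
    intro n f _
    obtain ⟨c0, c1, hc⟩ := Dic.Rep.exists (D := DB0 n) (H1.D0 k n) f
    have e0 : c0 = 0 := G_neg_eq hc.1 (by omega)
    have e1 : c1 = 0 := G_neg_eq hc.2.1 (by omega)
    rw [e0, e1] at hc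
    exact LinearMap.ext fun x => Dic.Rep.eq_zero hc x
  h1 := by
    intro n f hf
    obtain ⟨c0, c1, hc⟩ := Dic.Rep.exists (D := DB1 n) (H1.D1 k n) f
    have e0 : c0 = 0 := W1_zero' hc.1
    obtain ⟨_, e2⟩ := Dic.Rep.uniq_zero (rep_d1 hc) hf
    have e3 := base1 (n := n) (Γ := c1.1) (Λ := c1.2) hc.2.1 (fun c i => by rw [e2]; rfl)
    have e1 : c1 = 0 := Prod.ext e3.1 e3.2
    rw [e0, e1] at hc
    refine ⟨0, fun x => ?_⟩
    have e4 := Dic.Rep.eq_zero hc x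
    exact e4
  h2 := by
    intro n f hf
    obtain ⟨c0, c1, hc⟩ := Dic.Rep.exists (D := DB2 n) (H1.D2 k n) f
    have e0 : c0 = 0 := base_W2 hc.1
    obtain ⟨_, e2⟩ := Dic.Rep.uniq_zero (rep_d2 hc) hf
    obtain ⟨Γ, Λ, h3, h4⟩ := base2 hc.2.1 e2
    obtain ⟨g, hg⟩ := Dic.Rep.of (D := DB1 n) (a := 0) (r := 0) (c0 := 0) (c1 := (Γ, Λ))
      ((DB1 n).zero 0 0) h3
    refine ⟨g, rep_eq hc (rep_d1 hg) ?_ ?_⟩
    · rw [e0]
      have h5 := (rep_d1 hg).1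
      exact (base_W2 h5).symm
    · exact funext fun c => funext fun i => (h4 c i).symm
  hJ := by
    intro n f g hfg
    obtain ⟨c0, c1, hc⟩ := Dic.Rep.exists (D := DB3 (n + 1)) (H1.D3 k (n + 1)) f
    obtain ⟨P0, P1, hP⟩ := Dic.Rep.exists (D := DB2 (n + 2)) (H1.D2 k (n + 2)) g
    have h1 := (rep_inj (rep_f3 hc) (rep_d2 hP) hfg).2
    have e0 : c0 = 0 := baseJ1 (n := n + 1) (c := ((n + 1 : ℕ) : k) + 2) (nk_ne2 (n + 1)) hc.1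
      hP.2.1 h1
    obtain ⟨Ψ, h2, P, h3, h4⟩ := baseJ2 (n := n) (c := (n : k) + 2) (nk_ne2 n) hc.2.1
    obtain ⟨u, hu⟩ := Dic.Rep.of (D := DB3 n) (a := 0) (r := 0) (c0 := Ψ) (c1 := 0) h2
      ((DB3 n).zero _ _)
    obtain ⟨w, hw⟩ := Dic.Rep.of (D := DB2 (n + 1)) (a := 0) (r := 0) (c0 := 0) (c1 := P)
      ((DB2 (n + 1)).zero _ _) h3
    refine ⟨u, w, rep_eq hc (rep_add (rep_f3 hu) (rep_d2 hw)) ?_ h4⟩
    have h5 : d2S (n + 1) (0 : Fin 2 → Fin 2 → PA k) = 0 := by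
      simp [d2S, ell]
    rw [e0, h5, add_zero]

theorem j0injO0 : (H1.tow k).J0Inj (Wn (WE (hat (SO k 0 0 0)))) := by
  intro f g hfg
  obtain ⟨c0, c1, hc⟩ := Dic.Rep.exists (D := DB3 0) (H1.D3 k 0) f
  obtain ⟨P0, P1, hP⟩ := Dic.Rep.exists (D := DB2 1) (H1.D2 k 1) g
  have h1 := (rep_inj (rep_f3 hc) (rep_d2 hP) hfg).2
  have e0 : c0 = 0 := baseJ1 (n := 0) (c := ((0 : ℕ) : k) + 2) (nk_ne2 0) hc.1 hP.2.1 h1
  obtain ⟨P, h3, h4⟩ := baseJ3 hc.2.1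
  obtain ⟨w, hw⟩ := Dic.Rep.of (D := DB2 0) (a := 0) (r := 0) (c0 := 0) (c1 := P)
    ((DB2 0).zero _ _) h3
  refine ⟨w, rep_eq hc (rep_d2 hw) ?_ h4⟩
  have h5 : d2S 0 (0 : Fin 2 → Fin 2 → PA k) = 0 := by
    simp [d2S, ell]
  rw [e0, h5]

end Vale.Agent.P195.AR.S5
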