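import Vale.Agent.Lib.P195.AR.HFacts

/-! # P195, part H1: exactness of the resolution at every `[a,b]`, `a ≥ 0` -/

namespace Vale.Agent.P195.AR.H1

open MvPolynomial

variable {k : Type} [Field k] [CharZero k]

theorem n1_ne (n : ℕ) : ((n : PA k) + 1) ≠ 0 := by
  have : ((n + 1 : ℕ) : PA k) ≠ 0 := Nat.cast_ne_zero.2 (by omega)
  rwa [Nat.cast_add, Nat.cast_one] at this

theorem om_ne : (om : PA k) ≠ 0 := by
  intro h
  have h1 := congrArg (eval (fun v : Vr => match v with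
    | .x 0 => (1 : k)
    | .y 1 => 1
    | _ => 0)) h
  simp [om] at h1

theorem om_mul_eq {f : PA k} (h : om * f = 0) : f = 0 := by
  rcases mul_eq_zero.1 h with h | h
  · exact absurd h om_ne
  · exact h

theorem Eul_om {n : ℕ} {h : PA k} (h1 : Eul n h) : Eul (n + 1) (om * h) := by
  simp only [Eul] at *
  simp only [om, map_sub, Derivation.leibniz, smul_eq_mul, pderiv_X, Pi.single_apply]
  simp
  linear_combination (X (Vr.x 0) * X (Vr.y 1) - X (Vr.x 1) * X (Vr.y 0)) * h1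

/-- exactness at `Q3` -/
theorem fC_inj {n : ℕ} {h : PA k} (h1 : Eul n h) (h0 : fC n h = 0) : h = 0 := by
  have e1 := qq_C1 n h h1
  have e2 := qq_C2 n h h1
  have z1 : qq (fC n h).1 = 0 := by rw [h0]; simp [qq]
  have z2 : qq (fC n h).2 = 0 := by rw [h0]; simp [qq]
  rw [z1] at e1
  rw [z2] at e2
  have e3 := Eul_om h1
  simp only [Eul] at e3
  rw [← e2, show pderiv (Vr.y 1) (om * h) = 0 from by linear_combination e1] at e3
  rw [mul_zero, mul_zero, add_zero] at e3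
  push_cast at e3
  rcases mul_eq_zero.1 e3.symm with h4 | h4
  · exact absurd h4 (n1_ne n)
  · exact om_mul_eq h4

/-- `g_1` of `B` on `wp`-elements -/
theorem fB_wp (n : ℕ) (w1 w2 : PA k) :
    (fB n (wp w1, wp w2)).1 = (-(((n : PA k) + 1) * (om * w1)), -(((n : PA k) + 1) * (om * w2))) := by
  refine Prod.ext ?_ ?_ <;>
  · simp only [fB, kap, qq, wp, om, rd1, rd2]
    have e : X (Vr.y 0) * (X (Vr.x 0) * (X (Vr.x 1) * w2) + X (Vr.x 1) * -(X (Vr.x 0) * w2)) -
        X (Vr.y 1) * (X (Vr.x 0) * (X (Vr.x 1) * w1) + X (Vr.x 1) * -(X (Vr.x 0) * w1))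
        = (0 : PA k) := by ring
    rw [e]
    simp only [map_zero, mul_zero, sub_zero, add_zero]
    ring

theorem qq_wp (w : PA k) : qq (wp w) = 0 := by simp only [qq, wp]; ring

theorem Dq_wp (w1 w2 : PA k) : Dq (wp w1, wp w2) = 0 := by simp [Dq, qq_wp]

theorem fA_wp (n : ℕ) (w : PA k) : fA n ((0, 0), wp w) = ((n : PA k) + 1) * (om * w) := by
  simp only [fA, EE, rd1, rd2, qq_wp, map_zero, mul_zero, sub_zero, add_zero, zero_add]
  simp only [wp, om]
  ring

theorem wp_sub (v w : PA k) : wp (v - w) = wp v - wp w := by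
  refine Prod.ext ?_ ?_ <;> simp [wp] <;> ring

/-- the diagonal of a right multiplication by `d` -/
theorem dg_rd1 (f : PA k) : dg (rd1 f) = rd1 (dg f) + dg (pderiv (Vr.y 0) f) := by
  simp only [rd1, map_sub, map_mul, dg_pdx]
  rw [show dg (X (Vr.d 0) : PA k) = X (Vr.d 0) from by simp [dg, sg]]
  ring

theorem dg_rd2 (f : PA k) : dg (rd2 f) = rd2 (dg f) + dg (pderiv (Vr.y 1) f) := by
  simp only [rd2, map_sub, map_mul, dg_pdx]
  rw [show dg (X (Vr.d 1) : PA k) = X (Vr.d 1) from by simp [dg, sg]]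
  ring

theorem dg_x1 (f : PA k) : dg (X (Vr.x 0) * f) = X (Vr.x 0) * dg f := by simp [dg, sg]
theorem dg_x2 (f : PA k) : dg (X (Vr.x 1) * f) = X (Vr.x 1) * dg f := by simp [dg, sg]
theorem dg_y1 (f : PA k) : dg (X (Vr.y 0) * f) = X (Vr.x 0) * dg f := by simp [dg, sg]
theorem dg_y2 (f : PA k) : dg (X (Vr.y 1) * f) = X (Vr.x 1) * dg f := by simp [dg, sg]
theorem dg_n (n : ℕ) : dg (n : PA k) = n := map_natCast dg n

theorem dg_EE {n : ℕ} {g : PA k} (h : Eul n g) : dg (EE g) = (n : PA k) * dg g := by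
  have := congrArg dg h
  simp only [map_add, dg_y1, dg_y2, map_mul (dg : PA k →ₐ[k] PA k) (n : PA k), dg_n] at this
  simp only [EE, map_add, dg_x1, dg_x2]
  exact this

/-- exactness at `Q2` -/
theorem ex_Q2 {n : ℕ} {a b : ℤ} {z : (PA k × PA k) × (PA k × PA k)} (hz : M2 n a b z)
    (h0 : fB n z = 0) : ∃ h ∈ (G n a b : Submodule k (PA k)), fC n h = z := by
  have hD : Dq z = 0 := by
    have e := qq_B2 n z
    rw [h0] at e
    have e' : (qq ((0 : (PA k × PA k) × (PA k × PA k)).2)) = 0 := by simp [qq]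
    rw [e'] at e
    rcases mul_eq_zero.1 (neg_eq_zero.1 e.symm) with h | h
    · exact absurd h (n1_ne n)
    · exact h
  obtain ⟨H, hH, hq1, hq2⟩ := factC2 (n := n) hz.1.2.2 hz.2.2.2 hD
  have hHE : Eul (n + 1) H := Eul_of_mem (G_cast hH (by push_cast; ring) rfl rfl)
  have hk : kap z = -(((n : PA k) + 1) * H) := by
    simp only [Eul] at hHE
    push_cast at hHE
    simp only [kap, hq1, hq2]
    linear_combination -hHE
  -- the first component
  have g1 : X (Vr.y 0) * z.1.1 + X (Vr.y 1) * z.1.2 = rd2 H := by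
    have e : (fB n z).1.1 = 0 := by rw [h0]; rfl
    simp only [fB, hk] at e
    have e2 : rd2 (-(((n : PA k) + 1) * H)) = -(((n : PA k) + 1) * rd2 H) := by
      simp only [rd2, map_neg, Derivation.leibniz, smul_eq_mul, map_add, pdn,
        Derivation.map_one_eq_zero]
      ring
    rw [e2] at e
    have e3 : ((n : PA k) + 1) * (X (Vr.y 0) * z.1.1 + X (Vr.y 1) * z.1.2 - rd2 H) = 0 := by
      linear_combination e
    rcases mul_eq_zero.1 e3 with h | h
    · exact absurd h (n1_ne n)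
    · exact sub_eq_zero.1 h
  have g2 : X (Vr.y 0) * z.2.1 + X (Vr.y 1) * z.2.2 = -rd1 H := by
    have e : (fB n z).1.2 = 0 := by rw [h0]; rfl
    simp only [fB, hk] at e
    have e2 : rd1 (-(((n : PA k) + 1) * H)) = -(((n : PA k) + 1) * rd1 H) := by
      simp only [rd1, map_neg, Derivation.leibniz, smul_eq_mul, map_add, pdn,
        Derivation.map_one_eq_zero]
      ring
    rw [e2] at e
    have e3 : ((n : PA k) + 1) * (X (Vr.y 0) * z.2.1 + X (Vr.y 1) * z.2.2 + rd1 H) = 0 := by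
      linear_combination e
    rcases mul_eq_zero.1 e3 with h | h
    · exact absurd h (n1_ne n)
    · linear_combination h
  have hdg : dg H = 0 := by
    have e := congrArg dg g1
    rw [dg_rd2, map_add, dg_y1, dg_y2, ← dg_x1, ← dg_x2, ← map_add] at e
    have e2 : X (Vr.x 0) * z.1.1 + X (Vr.x 1) * z.1.2 = pderiv (Vr.y 1) H := hq1
    rw [e2] at e
    exact factB3 1 (show rd 1 (dg H) = 0 from by
      have : rd2 (dg H) = 0 := by linear_combination -e
      exact this)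
  obtain ⟨h', hh', hHh⟩ := factA1 hH hdg
  have hh1 : h' ∈ (G n a b : Submodule k (PA k)) := G_cast hh' (by ring) (by ring) rfl
  have hE' : Eul n h' := Eul_of_mem hh1
  -- subtract
  have hC := fC_mem hh1 hE'
  have hBC := BC_zero n h' hE'
  set z' := z + fC n h' with hz'
  have q1 : qq z'.1 = 0 := by
    have : qq z'.1 = qq z.1 + qq (fC n h').1 := by
      simp only [hz', qq, Prod.fst_add, Prod.snd_add]; ring
    rw [this, qq_C1 n h' hE', hq1, hHh]; ring
  have q2 : qq z'.2 = 0 := by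
    have : qq z'.2 = qq z.2 + qq (fC n h').2 := by
      simp only [hz', qq, Prod.fst_add, Prod.snd_add]; ring
    rw [this, qq_C2 n h' hE', hq2, hHh]; ring
  obtain ⟨w1, hw1, e1⟩ := factD2 (p := z'.1) (Submodule.add_mem _ hz.1.1 hC.1.1) q1
  obtain ⟨w2, hw2, e2⟩ := factD2 (p := z'.2) (Submodule.add_mem _ hz.2.1 hC.2.1) q2
  have hB' : fB n z' = 0 := by
    have := (mB (k := k) n).map_add z (fC n h')
    simp only [mB_apply] at this
    rw [hz', this, h0, hBC, add_zero]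
  have hzw : z' = (wp w1, wp w2) := Prod.ext e1 e2
  have hB1 := fB_wp n w1 w2
  rw [← hzw, hB'] at hB1
  have k1 : om * w1 = 0 := by
    have := congrArg Prod.fst hB1
    change (0 : PA k) = _ at this
    rcases mul_eq_zero.1 (neg_eq_zero.1 this.symm) with h | h
    · exact absurd h (n1_ne n)
    · exact h
  have k2 : om * w2 = 0 := by
    have := congrArg Prod.snd hB1
    change (0 : PA k) = _ at this
    rcases mul_eq_zero.1 (neg_eq_zero.1 this.symm) with h | h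
    · exact absurd h (n1_ne n)
    · exact h
  rw [om_mul_eq k1, om_mul_eq k2] at hzw
  have hz0 : z' = 0 := by
    rw [hzw]
    refine Prod.ext (Prod.ext ?_ ?_) (Prod.ext ?_ ?_) <;> simp [wp]
  refine ⟨-h', Submodule.neg_mem _ hh1, ?_⟩
  have := (mC (k := k) n).map_neg h'
  simp only [mC_apply] at this
  rw [this]
  rw [hz'] at hz0
  exact (eq_neg_of_add_eq_zero_left hz0).symm

/-- `A` on the diagonal, when the `q`-part vanishes -/
theorem dg_fA {n : ℕ} {z : (PA k × PA k) × (PA k × PA k)} (h1 : Eul (n + 1) z.1.1) (h2 : Eul (n + 1) z.1.2)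
    (hq : qq z.2 = 0) :
    dg (fA n z) = ((n : PA k) + 1) * (rd1 (dg z.1.1) + rd2 (dg z.1.2)) := by
  have a1 := dg_EE h1
  have a2 := dg_EE h2
  have b1 := dg_EE h1.pd4
  have b2 := dg_EE h2.pd5
  have hy : dg (X (Vr.y 0) * z.2.1 + X (Vr.y 1) * z.2.2) = 0 := by
    rw [map_add, dg_y1, dg_y2, ← dg_x1, ← dg_x2, ← map_add]
    have : X (Vr.x 0) * z.2.1 + X (Vr.x 1) * z.2.2 = 0 := hq
    rw [this, map_zero]
  have r0 : rd1 (0 : PA k) = 0 := by simp [rd1]
  have r0' : rd2 (0 : PA k) = 0 := by simp [rd2]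
  have m1 : ∀ f : PA k, rd1 (((n : PA k) + 1) * f) = ((n : PA k) + 1) * rd1 f := by
    intro f
    simp only [rd1, Derivation.leibniz, smul_eq_mul, map_add, pdn, Derivation.map_one_eq_zero]
    ring
  have m2 : ∀ f : PA k, rd2 (((n : PA k) + 1) * f) = ((n : PA k) + 1) * rd2 f := by
    intro f
    simp only [rd2, Derivation.leibniz, smul_eq_mul, map_add, pdn, Derivation.map_one_eq_zero]
    ring
  push_cast at a1 a2
  simp only [fA, hq, r0, r0', mul_zero, add_zero, map_sub, map_add, map_mul, dg_n, map_one,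
    dg_rd1, dg_rd2, a1, a2, ← EE_pd4, ← EE_pd5, b1, b2, m1, m2]
  rw [← map_mul, ← map_mul, ← map_add, hy]
  ring

theorem EulZ_of_mem {m a b : ℤ} {f : PA k} (h : f ∈ (G m a b : Submodule k (PA k))) :
    X (Vr.y 0) * pderiv (Vr.y 0) f + X (Vr.y 1) * pderiv (Vr.y 1) f = (m : PA k) * f := by
  rcases lt_or_ge m 0 with hm | hm
  · rw [G_neg m a b (Or.inl hm), Submodule.mem_bot] at h
    rw [h]; simp
  · obtain ⟨n, rfl⟩ := Int.eq_ofNat_of_zero_le hm
    have := Eul_of_mem h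
    simp only [Eul] at this
    rw [this, Int.cast_natCast]

theorem M1_sub {n : ℕ} {a b : ℤ} {y z : (PA k × PA k) × (PA k × PA k)} (hy : M1 n a b y) (hz : M1 n a b z) :
    M1 n a b (y - z) := by
  refine ⟨⟨Submodule.sub_mem _ hy.1.1 hz.1.1, Submodule.sub_mem _ hy.1.2 hz.1.2⟩,
    Submodule.sub_mem _ hy.2.1 hz.2.1, Submodule.sub_mem _ hy.2.2.1 hz.2.2.1, ?_⟩
  have : qq (y - z).2 = qq y.2 - qq z.2 := by
    simp only [qq, Prod.fst_sub, Prod.snd_sub]; ring
  rw [this]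
  exact Submodule.sub_mem _ hy.2.2.2 hz.2.2.2

theorem M2_add {n : ℕ} {a b : ℤ} {y z : (PA k × PA k) × (PA k × PA k)} (hy : M2 n a b y) (hz : M2 n a b z) :
    M2 n a b (y + z) := by
  have e1 : qq (y + z).1 = qq y.1 + qq z.1 := by
    simp only [qq, Prod.fst_add, Prod.snd_add]; ring
  have e2 : qq (y + z).2 = qq y.2 + qq z.2 := by
    simp only [qq, Prod.fst_add, Prod.snd_add]; ring
  refine ⟨⟨Submodule.add_mem _ hy.1.1 hz.1.1, Submodule.add_mem _ hy.1.2.1 hz.1.2.1, ?_⟩,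
    Submodule.add_mem _ hy.2.1 hz.2.1, Submodule.add_mem _ hy.2.2.1 hz.2.2.1, ?_⟩
  · rw [e1]; exact Submodule.add_mem _ hy.1.2.2 hz.1.2.2
  · rw [e2]; exact Submodule.add_mem _ hy.2.2.2 hz.2.2.2

/-- lifting a pair `(q^1, q^2)` to `Q2` -/
theorem lift_q {n : ℕ} {a b : ℤ} (ha : 0 ≤ a) {q1 q2 : PA k}
    (h1 : q1 ∈ (G n (a + 1) b : Submodule k (PA k))) (h2 : q2 ∈ (G n (a + 1) b : Submodule k (PA k))) :
    ∃ z : (PA k × PA k) × (PA k × PA k), M2 n a b z ∧ qq z.1 = q1 ∧ qq z.2 = q2 := by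
  obtain ⟨p1, hp1, p2, hp2, e1⟩ := factD1 ha h1
  obtain ⟨p3, hp3, p4, hp4, e2⟩ := factD1 ha h2
  refine ⟨((p1, p2), (p3, p4)), ⟨⟨?_, ?_, ?_⟩, ?_, ?_, ?_⟩, e1.symm, e2.symm⟩
  · exact G_mono _ _ _ _ (by omega) hp1
  · exact G_mono _ _ _ _ (by omega) hp2
  · change qq (p1, p2) ∈ _; rw [← e1]; exact h1
  · exact G_mono _ _ _ _ (by omega) hp3
  · exact G_mono _ _ _ _ (by omega) hp4
  · change qq (p3, p4) ∈ _; rw [← e2]; exact h2

/-- the last step: `g = 0`, `q = 0` -/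
theorem step4 {n : ℕ} {a b : ℤ} {z : (PA k × PA k) × (PA k × PA k)} (hz : M1 n a b z)
    (h0 : fA n z = 0) (hq : qq z.2 = 0) (hg : z.1 = 0) : z = 0 := by
  obtain ⟨w, hw, e⟩ := factD2 hz.2.1 hq
  have hz' : z = ((0, 0), wp w) := Prod.ext hg e
  rw [hz', fA_wp] at h0
  rcases mul_eq_zero.1 h0 with h | h
  · exact absurd h (n1_ne n)
  · rw [hz', om_mul_eq h]
    refine Prod.ext (Prod.ext ?_ ?_) (Prod.ext ?_ ?_) <;> simp [wp]

/-- the third step: `dg g = 0`, `q = 0` -/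
theorem step3 {n : ℕ} {a b : ℤ} {z : (PA k × PA k) × (PA k × PA k)} (hz : M1 n a b z)
    (h0 : fA n z = 0) (hq : qq z.2 = 0) (hg1 : dg z.1.1 = 0) (hg2 : dg z.1.2 = 0) :
    ∃ y, M2 n a b y ∧ fB n y = z := by
  obtain ⟨g1, hg1', e1⟩ := factA1 hz.1.1 hg1
  obtain ⟨g2, hg2', e2⟩ := factA1 hz.1.2 hg2
  have hc : ((n : k) + 1) ≠ 0 := by
    have : ((n + 1 : ℕ) : k) ≠ 0 := Nat.cast_ne_zero.2 (by omega)
    rwa [Nat.cast_add, Nat.cast_one] at this
  set c : k := -((n : k) + 1)⁻¹ with hcdef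
  have hcc : ∀ f : PA k, -(((n : PA k) + 1) * (om * (c • f))) = om * f := by
    intro f
    have e : ((n : PA k) + 1) = C ((n : k) + 1) := by simp
    rw [smul_eq_C_mul, e]
    have : C ((n : k) + 1) * C c = (-1 : PA k) := by
      rw [← C_mul, hcdef, mul_neg, mul_inv_cancel₀ hc]; simp
    linear_combination (-(om * f)) * this
  have k1 : c • g1 ∈ (G n (a - 1) (b + 1) : Submodule k (PA k)) :=
    Submodule.smul_mem _ _ (G_cast hg1' (by ring) rfl rfl)
  have k2 : c • g2 ∈ (G n (a - 1) (b + 1) : Submodule k (PA k)) :=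
    Submodule.smul_mem _ _ (G_cast hg2' (by ring) rfl rfl)
  have hy : M2 n a b (wp (c • g1), wp (c • g2)) := by
    refine ⟨⟨?_, ?_, ?_⟩, ?_, ?_, ?_⟩
    · exact G_cast (x2_mem k1) rfl (by ring) rfl
    · exact Submodule.neg_mem _ (G_cast (x1_mem k1) rfl (by ring) rfl)
    · change qq (wp _) ∈ _; rw [qq_wp]; exact Submodule.zero_mem _
    · exact G_cast (x2_mem k2) rfl (by ring) rfl
    · exact Submodule.neg_mem _ (G_cast (x1_mem k2) rfl (by ring) rfl)
    · change qq (wp _) ∈ _; rw [qq_wp]; exact Submodule.zero_mem _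
  have hB1 := fB_wp n (c • g1) (c • g2)
  rw [hcc, hcc, ← e1, ← e2] at hB1
  refine ⟨(wp (c • g1), wp (c • g2)), hy, ?_⟩
  have hAB := AB_zero n (wp (c • g1), wp (c • g2)) (Eul_of_mem hy.1.1) (Eul_of_mem hy.2.2.1)
  have hd : M1 n a b (z - fB n (wp (c • g1), wp (c • g2))) := M1_sub hz (fB_mem hy)
  have h4 := step4 hd ?_ ?_ ?_
  · exact (sub_eq_zero.1 h4).symm
  · have := (mA (k := k) n).map_sub z (fB n (wp (c • g1), wp (c • g2)))
    simp only [mA_apply] at this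
    rw [this, h0, hAB, sub_zero]
  · have : qq (z - fB n (wp (c • g1), wp (c • g2))).2
        = qq z.2 - qq (fB n (wp (c • g1), wp (c • g2))).2 := by
      simp only [qq, Prod.fst_sub, Prod.snd_sub]; ring
    rw [this, hq, qq_B2, Dq_wp]; ring
  · rw [Prod.fst_sub, hB1]
    exact sub_self _

theorem sub_fB {n : ℕ} {a b : ℤ} {y z : (PA k × PA k) × (PA k × PA k)} (hz : M1 n a b z)
    (h0 : fA n z = 0) (hy : M2 n a b y) : M1 n a b (z - fB n y) ∧ fA n (z - fB n y) = 0 := by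
  refine ⟨M1_sub hz (fB_mem hy), ?_⟩
  have := (mA (k := k) n).map_sub z (fB n y)
  simp only [mA_apply] at this
  rw [this, h0, AB_zero n y (Eul_of_mem hy.1.1) (Eul_of_mem hy.2.2.1), sub_zero]

theorem qq_sub (y z : PA k × PA k) : qq (y - z) = qq y - qq z := by
  simp only [qq, Prod.fst_sub, Prod.snd_sub]; ring

theorem add_fB {n : ℕ} {a b : ℤ} {y z : (PA k × PA k) × (PA k × PA k)} (hy : M2 n a b y)
    (h : ∃ x, M2 n a b x ∧ fB n x = z - fB n y) : ∃ x, M2 n a b x ∧ fB n x = z := by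
  obtain ⟨x, hx, e⟩ := h
  refine ⟨x + y, M2_add hx hy, ?_⟩
  have := (mB (k := k) n).map_add x y
  simp only [mB_apply] at this
  rw [this, e, sub_add_cancel]

/-- scalars `1/(n+1)` -/
theorem inv_spec (n : ℕ) (f : PA k) : ((n : PA k) + 1) * ((((n : k) + 1)⁻¹) • f) = f := by
  have hc : ((n : k) + 1) ≠ 0 := by
    have : ((n + 1 : ℕ) : k) ≠ 0 := Nat.cast_ne_zero.2 (by omega)
    rwa [Nat.cast_add, Nat.cast_one] at this
  have e : ((n : PA k) + 1) = C ((n : k) + 1) := by simp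
  rw [smul_eq_C_mul, e, ← mul_assoc, ← C_mul, mul_inv_cancel₀ hc]
  simp

/-- the second step: `q = 0` -/
theorem step2 {n : ℕ} {a b : ℤ} (ha : 0 ≤ a) {z : (PA k × PA k) × (PA k × PA k)} (hz : M1 n a b z)
    (h0 : fA n z = 0) (hq : qq z.2 = 0) : ∃ y, M2 n a b y ∧ fB n y = z := by
  have hd := dg_fA (Eul_of_mem (G_cast hz.1.1 (by push_cast; ring) rfl rfl))
    (Eul_of_mem (G_cast hz.1.2 (by push_cast; ring) rfl rfl)) hq
  rw [h0, map_zero] at hd
  have hd2 : rd 0 (dg z.1.1) + rd 1 (dg z.1.2) = 0 := by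
    rcases mul_eq_zero.1 hd.symm with h | h
    · exact absurd h (n1_ne n)
    · exact h
  obtain ⟨v, hv, e1, e2⟩ := factB1 (dg_mem hz.1.1) (dg_mem hz.1.2) hd2
  obtain ⟨H', hH', eH'⟩ := factA2 (m := n + 1) (a := a + 1) (b := b) (by omega) (by omega)
    (G_cast (Submodule.neg_mem _ (Submodule.smul_mem _ (((n : k) + 1)⁻¹) hv)) rfl (by ring)
      (by ring))
  have hE : Eul (n + 1) H' := Eul_of_mem (G_cast hH' (by push_cast; ring) rfl rfl)
  have hq1 : pderiv (Vr.y 1) H' ∈ (G n (a + 1) b : Submodule k (PA k)) :=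
    G_cast (p2_mem hH') (by ring) rfl rfl
  have hq2 : -pderiv (Vr.y 0) H' ∈ (G n (a + 1) b : Submodule k (PA k)) :=
    Submodule.neg_mem _ (G_cast (p1_mem hH') (by ring) rfl rfl)
  obtain ⟨y, hy, y1, y2⟩ := lift_q ha hq1 hq2
  refine add_fB hy ?_
  obtain ⟨k1, k2⟩ := sub_fB hz h0 hy
  have hDq : Dq y = 0 := by
    simp only [Dq, y1, y2, map_neg]
    rw [pd_comm (Vr.y 0) (Vr.y 1)]
    ring
  have hkap : kap y = -(((n : PA k) + 1) * H') := by
    simp only [Eul] at hE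
    push_cast at hE
    simp only [kap, y1, y2]
    linear_combination -hE
  have m1 : ∀ f : PA k, rd1 (-(((n : PA k) + 1) * f)) = -(((n : PA k) + 1) * rd1 f) := by
    intro f
    simp only [rd1, Derivation.leibniz, smul_eq_mul, map_add, map_neg, pdn,
      Derivation.map_one_eq_zero]
    ring
  have m2 : ∀ f : PA k, rd2 (-(((n : PA k) + 1) * f)) = -(((n : PA k) + 1) * rd2 f) := by
    intro f
    simp only [rd2, Derivation.leibniz, smul_eq_mul, map_add, map_neg, pdn,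
      Derivation.map_one_eq_zero]
    ring
  have hdn : dg ((n : PA k) + 1) = (n : PA k) + 1 := by rw [map_add, dg_n, map_one]
  have f1 : dg (fB n y).1.1 = rd2 v := by
    have e : dg (X (Vr.y 0) * y.1.1 + X (Vr.y 1) * y.1.2) = dg (pderiv (Vr.y 1) H') := by
      rw [map_add, dg_y1, dg_y2, ← dg_x1, ← dg_x2, ← map_add, ← y1]
      rfl
    simp only [fB, hkap, map_add, m2, map_neg]
    rw [map_mul, map_mul, dg_rd2, e, eH', hdn]
    have e3 : rd2 (-((((n : k) + 1)⁻¹) • v)) = -((((n : k) + 1)⁻¹) • rd2 v) :=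
      ((rd (k := k) 1).map_neg _).trans (congrArg Neg.neg ((rd (k := k) 1).map_smul _ _))
    rw [e3]
    linear_combination inv_spec n (rd2 v)
  have f2 : dg (fB n y).1.2 = -rd1 v := by
    have e : dg (X (Vr.y 0) * y.2.1 + X (Vr.y 1) * y.2.2) = -dg (pderiv (Vr.y 0) H') := by
      rw [map_add, dg_y1, dg_y2, ← dg_x1, ← dg_x2, ← map_add, ← map_neg, ← y2]
      rfl
    simp only [fB, hkap, map_add, map_sub, m1, map_neg]
    rw [map_mul, map_mul, dg_rd1, e, eH', hdn]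
    have e3 : rd1 (-((((n : k) + 1)⁻¹) • v)) = -((((n : k) + 1)⁻¹) • rd1 v) :=
      ((rd (k := k) 0).map_neg _).trans (congrArg Neg.neg ((rd (k := k) 0).map_smul _ _))
    rw [e3]
    linear_combination -inv_spec n (rd1 v)
  refine step3 k1 k2 ?_ ?_ ?_
  · rw [Prod.snd_sub, qq_sub, hq, qq_B2, hDq]; ring
  · rw [Prod.fst_sub, Prod.fst_sub, map_sub, f1]
    have : dg z.1.1 = rd2 v := e1
    rw [this, sub_self]
  · rw [Prod.fst_sub, Prod.snd_sub, map_sub, f2]
    have : dg z.1.2 = -rd1 v := e2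
    rw [this, sub_self]

/-- exactness at `Q1` -/
theorem ex_Q1 {n : ℕ} {a b : ℤ} (ha : 0 ≤ a) {z : (PA k × PA k) × (PA k × PA k)} (hz : M1 n a b z)
    (h0 : fA n z = 0) : ∃ y, M2 n a b y ∧ fB n y = z := by
  set q := qq z.2 with hqdef
  have hq : q ∈ (G (n - 1) (a + 1) b : Submodule k (PA k)) := hz.2.2.2
  set c : k := -(((n : k) + 1)⁻¹ * ((n : k) + 1)⁻¹) with hc
  have hq1 : c • (X (Vr.y 0) * q) ∈ (G n (a + 1) b : Submodule k (PA k)) :=
    Submodule.smul_mem _ _ (G_cast (y1_mem hq) (by ring) rfl rfl)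
  have hq2 : c • (X (Vr.y 1) * q) ∈ (G n (a + 1) b : Submodule k (PA k)) :=
    Submodule.smul_mem _ _ (G_cast (y2_mem hq) (by ring) rfl rfl)
  obtain ⟨y, hy, y1, y2⟩ := lift_q ha hq1 hq2
  have hE := EulZ_of_mem hq
  push_cast at hE
  have hDq : Dq y = -((((n : k) + 1)⁻¹) • q) := by
    have e1 : Dq y = c • (((n : PA k) + 1) * q) := by
      rw [Dq, y1, y2, Derivation.map_smul, Derivation.map_smul, ← smul_add]
      simp only [Derivation.leibniz, smul_eq_mul, pderiv_X_self]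
      congr 1
      linear_combination hE
    have e2 := inv_spec n q
    rw [e1, hc, neg_smul, mul_smul]
    congr 1
    congr 1
    rw [mul_smul_comm] at e2
    exact e2
  refine add_fB hy ?_
  obtain ⟨k1, k2⟩ := sub_fB hz h0 hy
  refine step2 ha k1 k2 ?_
  rw [Prod.snd_sub, qq_sub, qq_B2, hDq]
  have := inv_spec n q
  linear_combination -this

/-- exactness at `Q0` -/
theorem ex_Q0 {n : ℕ} {a b : ℤ} (ha : 0 ≤ a) {f : PA k} (hf : f ∈ (G n a (b + 2) : Submodule k (PA k)))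
    (h0 : ap (dg f) = 0) : ∃ z, M1 n a b z ∧ fA n z = f := by
  obtain ⟨a1, ha1, a2, ha2, e⟩ := factB2 (dg_mem hf) h0
  obtain ⟨g1, hg1, e1⟩ := factA2 (m := n + 1) (a := a) (b := b + 1) ha (by omega)
    (G_cast (Submodule.smul_mem _ (((n : k) + 1)⁻¹) ha1) rfl (by ring) (by ring))
  obtain ⟨g2, hg2, e2⟩ := factA2 (m := n + 1) (a := a) (b := b + 1) ha (by omega)
    (G_cast (Submodule.smul_mem _ (((n : k) + 1)⁻¹) ha2) rfl (by ring) (by ring))
  have hz1 : M1 n a b ((g1, g2), (0, 0)) := by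
    refine ⟨⟨hg1, hg2⟩, Submodule.zero_mem _, Submodule.zero_mem _, ?_⟩
    have : qq ((0, 0) : PA k × PA k) = 0 := by simp [qq]
    rw [this]; exact Submodule.zero_mem _
  have hd := dg_fA (z := ((g1, g2), (0, 0))) (Eul_of_mem (G_cast hg1 (by push_cast; ring) rfl rfl))
    (Eul_of_mem (G_cast hg2 (by push_cast; ring) rfl rfl)) (by simp [qq])
  have hd2 : dg (fA n ((g1, g2), (0, 0))) = dg f := by
    rw [hd]
    simp only [e1, e2]
    have e3 : rd1 ((((n : k) + 1)⁻¹) • a1) = (((n : k) + 1)⁻¹) • rd1 a1 :=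
      (rd (k := k) 0).map_smul _ _
    have e4 : rd2 ((((n : k) + 1)⁻¹) • a2) = (((n : k) + 1)⁻¹) • rd2 a2 :=
      (rd (k := k) 1).map_smul _ _
    rw [e3, e4, ← smul_add, inv_spec]
    exact e.symm
  have hsub : f - fA n ((g1, g2), (0, 0)) ∈ (G n a (b + 2) : Submodule k (PA k)) :=
    Submodule.sub_mem _ hf (fA_mem hz1)
  obtain ⟨w, hw, ew⟩ := factA1 hsub (by rw [map_sub, hd2, sub_self])
  have hw' := Submodule.smul_mem _ (((n : k) + 1)⁻¹) hw
  have hz2 : M1 n a b ((0, 0), wp ((((n : k) + 1)⁻¹) • w)) := by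
    refine ⟨⟨Submodule.zero_mem _, Submodule.zero_mem _⟩, ?_, ?_, ?_⟩
    · exact G_cast (x2_mem hw') rfl (by ring) rfl
    · exact Submodule.neg_mem _ (G_cast (x1_mem hw') rfl (by ring) rfl)
    · rw [qq_wp]; exact Submodule.zero_mem _
  refine ⟨((g1, g2), (0, 0)) + ((0, 0), wp ((((n : k) + 1)⁻¹) • w)), ?_, ?_⟩
  · refine ⟨⟨Submodule.add_mem _ hz1.1.1 hz2.1.1, Submodule.add_mem _ hz1.1.2 hz2.1.2⟩,
      Submodule.add_mem _ hz1.2.1 hz2.2.1, Submodule.add_mem _ hz1.2.2.1 hz2.2.2.1, ?_⟩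
    have : ∀ u v : PA k × PA k, qq (u + v) = qq u + qq v := by
      intro u v
      simp only [qq, Prod.fst_add, Prod.snd_add]; ring
    rw [Prod.snd_add, this]
    exact Submodule.add_mem _ hz1.2.2.2 hz2.2.2.2
  · have := (mA (k := k) n).map_add ((g1, g2), (0, 0)) ((0, 0), wp ((((n : k) + 1)⁻¹) • w))
    simp only [mA_apply] at this
    rw [this, fA_wp]
    have e5 : ((n : PA k) + 1) * (om * ((((n : k) + 1)⁻¹) • w)) = om * w := by
      have := inv_spec n w
      linear_combination om * this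
    rw [e5, ← ew]
    ring

end Vale.Agent.P195.AR.H1
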