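import Vale.Agent.Lib.P195.AR.SeqW

/-!
# P195: exactness of the hat sequence at the pieces and at the `P_e` evaluation windows
-/

namespace Vale.Agent.P195.AR.SeqM

open MvPolynomial

variable {k : Type} [Field k]

/-- exactness of hats at a piece -/
theorem hat_ex {M N P : Bw k} (f : M.V →ₗ[k] N.V) (g : N.V →ₗ[k] P.V) {a c : ℤ}
    (h0 : ∀ z ∈ N.F a c, g z = 0 → ∃ y ∈ M.F a c, f y = z)
    (h1 : ∀ z ∈ N.F (a + 1) c, g z = 0 → ∃ y ∈ M.F (a + 1) c, f y = z)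
    (z : (hat N).V) (hz : z ∈ (hat N).F a c) (hgz : hm (M := N) (N := P) g z = 0) :
    ∃ y ∈ (hat M).F a c, hm (M := M) (N := N) f y = z := by
  obtain ⟨y0, hy0, e0⟩ := h0 z.1 hz.1 (congrArg Prod.fst hgz)
  obtain ⟨y1, hy1, e1⟩ := h1 z.2 hz.2 (congrArg Prod.snd hgz)
  exact ⟨(y0, y1), ⟨hy0, hy1⟩, Prod.ext e0 e1⟩

/-- surjectivity of hats at a piece -/
theorem hat_surj {M N : Bw k} (f : M.V →ₗ[k] N.V) {a c : ℤ}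
    (h0 : ∀ z ∈ N.F a c, ∃ y ∈ M.F a c, f y = z)
    (h1 : ∀ z ∈ N.F (a + 1) c, ∃ y ∈ M.F (a + 1) c, f y = z)
    (z : (hat N).V) (hz : z ∈ (hat N).F a c) :
    ∃ y ∈ (hat M).F a c, hm (M := M) (N := N) f y = z := by
  obtain ⟨y0, hy0, e0⟩ := h0 z.1 hz.1
  obtain ⟨y1, hy1, e1⟩ := h1 z.2 hz.2
  exact ⟨(y0, y1), ⟨hy0, hy1⟩, Prod.ext e0 e1⟩

/-- (Surj) for hats -/
theorem hat_Surj {N : Bw k} {a c c' : ℤ}
    (h0 : ∀ f ∈ N.F (a + 1) c, ∃ v1 ∈ N.F a c, ∃ v2 ∈ N.F a c, ∃ v' ∈ N.F (a + 1) c',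
      f = N.x 1 v1 - N.x 0 v2 + v')
    (h1 : ∀ f ∈ N.F (a + 1 + 1) c, ∃ v1 ∈ N.F (a + 1) c, ∃ v2 ∈ N.F (a + 1) c,
      ∃ v' ∈ N.F (a + 1 + 1) c', f = N.x 1 v1 - N.x 0 v2 + v')
    (f : (hat N).V) (hf : f ∈ (hat N).F (a + 1) c) :
    ∃ v1 ∈ (hat N).F a c, ∃ v2 ∈ (hat N).F a c, ∃ v' ∈ (hat N).F (a + 1) c',
      f = (hat N).x 1 v1 - (hat N).x 0 v2 + v' := by
  obtain ⟨v1, a1, v2, a2, v', a3, e0⟩ := h0 f.1 hf.1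
  obtain ⟨w1, b1, w2, b2, w', b3, e1⟩ := h1 f.2 hf.2
  exact ⟨(v1, w1), ⟨a1, b1⟩, (v2, w2), ⟨a2, b2⟩, (v', w'), ⟨a3, b3⟩, Prod.ext e0 e1⟩

theorem hwp_inj {z : (hat (LL k)).V} (h : hm (M := LL k) (N := Tal k) wp0 z = 0) : z = 0 :=
  Prod.ext (wp0_inj (congrArg Prod.fst h)) (wp0_inj (congrArg Prod.snd h))

theorem h2 {a c : ℤ} (z : (hat (Tal k)).V) (hz : z ∈ (hat (Tal k)).F a c)
    (h : hm (M := Tal k) (N := Tbe k) Psi z = 0) :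
    ∃ y ∈ (hat (LL k)).F a c, hm (M := LL k) (N := Tal k) wp0 y = z :=
  hat_ex (M := LL k) (N := Tal k) (P := Tbe k) wp0 Psi (fun _ hz h => x2 hz h)
    (fun _ hz h => x2 hz h) z hz h

theorem h3 {a c : ℤ} (ha : 0 ≤ a) (z : (hat (Tbe k)).V) (hz : z ∈ (hat (Tbe k)).F a c)
    (h : hm (M := Tbe k) (N := LL k) pi0 z = 0) :
    ∃ y ∈ (hat (Tal k)).F a c, hm (M := Tal k) (N := Tbe k) Psi y = z :=
  hat_ex (M := Tal k) (N := Tbe k) (P := LL k) Psi pi0 (fun _ hz h => x3 ha hz h)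
    (fun _ hz h => x3 (by omega) hz h) z hz h

theorem h4 {a c : ℤ} (z : (hat (LL k)).V) (hz : z ∈ (hat (LL k)).F a c)
    (h : hm (M := LL k) (N := XX k (-1)) ap0 z = 0) :
    ∃ y ∈ (hat (Tbe k)).F a c, hm (M := Tbe k) (N := LL k) pi0 y = z :=
  hat_ex (M := Tbe k) (N := LL k) (P := XX k (-1)) pi0 ap0 (fun _ hz h => x4 hz h)
    (fun _ hz h => x4 hz h) z hz h

theorem h5 {a c : ℤ} (hc : -2 ≤ c) (z : (hat (XX k (-1))).V) (hz : z ∈ (hat (XX k (-1))).F a c) :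
    ∃ y ∈ (hat (LL k)).F a c, hm (M := LL k) (N := XX k (-1)) ap0 y = z :=
  hat_surj (M := LL k) (N := XX k (-1)) ap0 (fun _ hz => x5 hc hz) (fun _ hz => x5 hc hz) z hz

theorem hsL {c c' : ℤ} (h : 0 ≤ c' + 2) (f : (hat (LL k)).V) (hf : f ∈ (hat (LL k)).F 1 c) :
    ∃ v1 ∈ (hat (LL k)).F 0 c, ∃ v2 ∈ (hat (LL k)).F 0 c, ∃ v' ∈ (hat (LL k)).F 1 c',
      f = (hat (LL k)).x 1 v1 - (hat (LL k)).x 0 v2 + v' :=
  hat_Surj (N := LL k) (a := 0) (fun _ hf => surjL (by omega) hf)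
    (fun _ hf => surjL (by omega) hf) f hf

theorem hsal {c c' : ℤ} (h : 0 ≤ c' + 2) (f : (hat (Tal k)).V) (hf : f ∈ (hat (Tal k)).F 1 c) :
    ∃ v1 ∈ (hat (Tal k)).F 0 c, ∃ v2 ∈ (hat (Tal k)).F 0 c, ∃ v' ∈ (hat (Tal k)).F 1 c',
      f = (hat (Tal k)).x 1 v1 - (hat (Tal k)).x 0 v2 + v' :=
  hat_Surj (N := Tal k) (a := 0) (fun _ hf => surjTal (by omega) (by omega) hf)
    (fun _ hf => surjTal (by omega) (by omega) hf) f hf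

theorem hsbe {c c' : ℤ} (f : (hat (Tbe k)).V) (hf : f ∈ (hat (Tbe k)).F 1 c) :
    ∃ v1 ∈ (hat (Tbe k)).F 0 c, ∃ v2 ∈ (hat (Tbe k)).F 0 c, ∃ v' ∈ (hat (Tbe k)).F 1 c',
      f = (hat (Tbe k)).x 1 v1 - (hat (Tbe k)).x 0 v2 + v' :=
  hat_Surj (N := Tbe k) (a := 0) (fun _ hf => surjTbe c' (by omega) hf)
    (fun _ hf => surjTbe c' (by omega) hf) f hf

/-- the evaluation window at `P_e` -/
abbrev EP (N : Bf k) (e : ℤ) : Submodule k (N.V × N.V) :=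
  PEx.PW (N.x 0) (N.x 1) (N.F 0 0) (N.F 1 (-e))

theorem F_x {N : Bf k} (i : Fin 2) {v : N.V} (hv : v ∈ N.F 0 0) : N.x i v ∈ N.F 1 0 := by
  have := N.Fx i 0 0 v hv
  rwa [zero_add] at this

/-- kernels are stable under the operators -/
theorem ker_x {M N : Bf k} {f : M.V →ₗ[k] N.V} (hf : f ∈ Hom M N) (i : Fin 2) (v : M.V)
    (hv : v ∈ LinearMap.ker f) : M.x i v ∈ LinearMap.ker f := by
  rw [LinearMap.mem_ker] at hv ⊢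
  rw [hf.1.1, hv, map_zero]

/-- exactness at the window `P_e`, general form -/
theorem ep_exact {M0 M1 M2 M3 : Bf k} {d : M0.V →ₗ[k] M1.V} {f : M1.V →ₗ[k] M2.V}
    {g : M2.V →ₗ[k] M3.V} (hd : d ∈ Hom M0 M1) (hf : f ∈ Hom M1 M2) (hg : g ∈ Hom M2 M3)
    (hfd : ∀ v, f (d v) = 0) {e : ℤ} (he : 0 ≤ e)
    (e1 : ∀ z ∈ M2.F 0 0, g z = 0 → ∃ y ∈ M1.F 0 0, f y = z)
    (e2 : ∀ z ∈ M2.F 1 (-e), g z = 0 → ∃ y ∈ M1.F 1 (-e), f y = z)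
    (e3 : ∀ y ∈ M1.F 1 0, f y = 0 → ∃ y' ∈ M0.F 1 0, d y' = y)
    (surj : ∀ y' ∈ M0.F 1 0, ∃ v1 ∈ M0.F 0 0, ∃ v2 ∈ M0.F 0 0, ∃ v' ∈ M0.F 1 (-e),
      y' = M0.x 1 v1 - M0.x 0 v2 + v')
    (z : M2.V × M2.V) (hz : z ∈ EP M2 e) (h1 : g z.1 = 0) (h2 : g z.2 = 0) :
    ∃ y ∈ EP M1 e, (f y.1, f y.2) = z :=
  PEx.exact d f (M0.x 0) (M0.x 1) (M1.x 0) (M1.x 1) (M2.x 0) (M2.x 1)
    (fun v => hd.1.1 0 v) (fun v => hd.1.1 1 v) (fun v => hf.1.1 0 v) (fun v => hf.1.1 1 v)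
    (M0.F 0 0) (M0.F 1 0) (M0.F 1 (-e)) (M1.F 0 0) (M1.F 1 0) (M1.F 1 (-e)) (M2.F 0 0)
    (M2.F 1 (-e)) (LinearMap.ker g) (fun v hv => hd.1.2.2 _ _ v hv)
    (fun v hv => hd.1.2.2 _ _ v hv) (M1.mono _ _ _ (by omega)) (fun _ hv => F_x 0 hv)
    (fun _ hv => F_x 1 hv) (fun v _ => hfd v) (fun v hv => ker_x hg 0 v hv)
    (fun v hv => ker_x hg 1 v hv) (fun z hz h => e1 z hz h) (fun z hz h => e2 z hz h) e3 surj
    z hz h1 h2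

/-- exactness at the window `P_e`, when `f` is injective on `F 1 0` -/
theorem ep_exact_inj {M1 M2 M3 : Bf k} {f : M1.V →ₗ[k] M2.V}
    {g : M2.V →ₗ[k] M3.V} (hf : f ∈ Hom M1 M2) (hg : g ∈ Hom M2 M3) {e : ℤ} (he : 0 ≤ e)
    (e1 : ∀ z ∈ M2.F 0 0, g z = 0 → ∃ y ∈ M1.F 0 0, f y = z)
    (e2 : ∀ z ∈ M2.F 1 (-e), g z = 0 → ∃ y ∈ M1.F 1 (-e), f y = z)
    (e3 : ∀ y ∈ M1.F 1 0, f y = 0 → y = 0)
    (z : M2.V × M2.V) (hz : z ∈ EP M2 e) (h1 : g z.1 = 0) (h2 : g z.2 = 0) :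
    ∃ y ∈ EP M1 e, (f y.1, f y.2) = z :=
  PEx.exact_of_inj f (M1.x 0) (M1.x 1) (M2.x 0) (M2.x 1)
    (fun v => hf.1.1 0 v) (fun v => hf.1.1 1 v)
    (M1.F 0 0) (M1.F 1 0) (M1.F 1 (-e)) (M2.F 0 0)
    (M2.F 1 (-e)) (LinearMap.ker g) (M1.mono _ _ _ (by omega)) (fun _ hv => F_x 0 hv)
    (fun _ hv => F_x 1 hv) (fun v hv => ker_x hg 0 v hv)
    (fun v hv => ker_x hg 1 v hv) (fun z hz h => e1 z hz h) (fun z hz h => e2 z hz h) e3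
    z hz h1 h2

/-- surjectivity at the window `P_e` -/
theorem ep_surj {M0 M1 M2 : Bf k} {d : M0.V →ₗ[k] M1.V} {f : M1.V →ₗ[k] M2.V}
    (hd : d ∈ Hom M0 M1) (hf : f ∈ Hom M1 M2)
    (hfd : ∀ v, f (d v) = 0) {e : ℤ} (he : 0 ≤ e)
    (e1 : ∀ z ∈ M2.F 0 0, ∃ y ∈ M1.F 0 0, f y = z)
    (e2 : ∀ z ∈ M2.F 1 (-e), ∃ y ∈ M1.F 1 (-e), f y = z)
    (e3 : ∀ y ∈ M1.F 1 0, f y = 0 → ∃ y' ∈ M0.F 1 0, d y' = y)
    (surj : ∀ y' ∈ M0.F 1 0, ∃ v1 ∈ M0.F 0 0, ∃ v2 ∈ M0.F 0 0, ∃ v' ∈ M0.F 1 (-e),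
      y' = M0.x 1 v1 - M0.x 0 v2 + v')
    (z : M2.V × M2.V) (hz : z ∈ EP M2 e) :
    ∃ y ∈ EP M1 e, (f y.1, f y.2) = z :=
  PEx.exact d f (M0.x 0) (M0.x 1) (M1.x 0) (M1.x 1) (M2.x 0) (M2.x 1)
    (fun v => hd.1.1 0 v) (fun v => hd.1.1 1 v) (fun v => hf.1.1 0 v) (fun v => hf.1.1 1 v)
    (M0.F 0 0) (M0.F 1 0) (M0.F 1 (-e)) (M1.F 0 0) (M1.F 1 0) (M1.F 1 (-e)) (M2.F 0 0)
    (M2.F 1 (-e)) ⊤ (fun v hv => hd.1.2.2 _ _ v hv)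
    (fun v hv => hd.1.2.2 _ _ v hv) (M1.mono _ _ _ (by omega)) (fun _ hv => F_x 0 hv)
    (fun _ hv => F_x 1 hv) (fun v _ => hfd v) (fun _ _ => trivial)
    (fun _ _ => trivial) (fun z hz _ => e1 z hz) (fun z hz _ => e2 z hz) e3 surj
    z hz trivial trivial

/-! ### the `P_e` windows of the sequence -/

theorem hPsi_wp (v : (hat (LL k)).V) :
    hm (M := Tal k) (N := Tbe k) Psi (hm (M := LL k) (N := Tal k) wp0 v) = 0 :=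
  Prod.ext (LinearMap.congr_fun Psi_wp0 v.1) (LinearMap.congr_fun Psi_wp0 v.2)

theorem hpi_Psi (v : (hat (Tal k)).V) :
    hm (M := Tbe k) (N := LL k) pi0 (hm (M := Tal k) (N := Tbe k) Psi v) = 0 :=
  Prod.ext (LinearMap.congr_fun pi0_Psi v.1) (LinearMap.congr_fun pi0_Psi v.2)

theorem hap_pi (v : (hat (Tbe k)).V) :
    hm (M := LL k) (N := XX k (-1)) ap0 (hm (M := Tbe k) (N := LL k) pi0 v) = 0 :=
  Prod.ext (LinearMap.congr_fun ap0_pi0 v.1) (LinearMap.congr_fun ap0_pi0 v.2)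

variable {e : ℤ}

theorem p2 (he : 0 ≤ e) (z : (hat (Tal k)).V × (hat (Tal k)).V)
    (hz : z ∈ EP (hat (Tal k)) e) (h1 : hm (M := Tal k) (N := Tbe k) Psi z.1 = 0)
    (h2' : hm (M := Tal k) (N := Tbe k) Psi z.2 = 0) :
    ∃ y ∈ EP (hat (LL k)) e, (hm (M := LL k) (N := Tal k) wp0 y.1,
      hm (M := LL k) (N := Tal k) wp0 y.2) = z :=
  ep_exact_inj (M1 := hat (LL k)) (M2 := hat (Tal k)) (M3 := hat (Tbe k))
    (f := hm (M := LL k) (N := Tal k) wp0) (g := hm (M := Tal k) (N := Tbe k) Psi)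
    (hm_mem wp0_mem) (hm_mem Psi_mem) he (fun z hz h => h2 z hz h)
    (fun z hz h => h2 z hz h) (fun _ _ h => hwp_inj h) z hz h1 h2'

theorem p3 (he : 0 ≤ e) (he2 : e ≤ 2) (z : (hat (Tbe k)).V × (hat (Tbe k)).V)
    (hz : z ∈ EP (hat (Tbe k)) e) (h1 : hm (M := Tbe k) (N := LL k) pi0 z.1 = 0)
    (h2' : hm (M := Tbe k) (N := LL k) pi0 z.2 = 0) :
    ∃ y ∈ EP (hat (Tal k)) e, (hm (M := Tal k) (N := Tbe k) Psi y.1,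
      hm (M := Tal k) (N := Tbe k) Psi y.2) = z :=
  ep_exact (M0 := hat (LL k)) (M1 := hat (Tal k)) (M2 := hat (Tbe k)) (M3 := hat (LL k))
    (d := hm (M := LL k) (N := Tal k) wp0) (f := hm (M := Tal k) (N := Tbe k) Psi)
    (g := hm (M := Tbe k) (N := LL k) pi0)
    (hm_mem wp0_mem) (hm_mem Psi_mem) (hm_mem pi0_mem) hPsi_wp he
    (fun z hz h => h3 le_rfl z hz h) (fun z hz h => h3 (by norm_num) z hz h)
    (fun z hz h => h2 z hz h) (fun f hf => hsL (by omega) f hf) z hz h1 h2'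

theorem p4 (he : 0 ≤ e) (he2 : e ≤ 2) (z : (hat (LL k)).V × (hat (LL k)).V)
    (hz : z ∈ EP (hat (LL k)) e) (h1 : hm (M := LL k) (N := XX k (-1)) ap0 z.1 = 0)
    (h2' : hm (M := LL k) (N := XX k (-1)) ap0 z.2 = 0) :
    ∃ y ∈ EP (hat (Tbe k)) e, (hm (M := Tbe k) (N := LL k) pi0 y.1,
      hm (M := Tbe k) (N := LL k) pi0 y.2) = z :=
  ep_exact (M0 := hat (Tal k)) (M1 := hat (Tbe k)) (M2 := hat (LL k)) (M3 := hat (XX k (-1)))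
    (d := hm (M := Tal k) (N := Tbe k) Psi) (f := hm (M := Tbe k) (N := LL k) pi0)
    (g := hm (M := LL k) (N := XX k (-1)) ap0)
    (hm_mem Psi_mem) (hm_mem pi0_mem) (hm_mem ap0_mem) hpi_Psi he
    (fun z hz h => h4 z hz h) (fun z hz h => h4 z hz h)
    (fun z hz h => h3 (by norm_num) z hz h) (fun f hf => hsal (by omega) f hf) z hz h1 h2'

theorem p5 (he : 0 ≤ e) (he2 : e ≤ 2) (z : (hat (XX k (-1))).V × (hat (XX k (-1))).V)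
    (hz : z ∈ EP (hat (XX k (-1))) e) :
    ∃ y ∈ EP (hat (LL k)) e, (hm (M := LL k) (N := XX k (-1)) ap0 y.1,
      hm (M := LL k) (N := XX k (-1)) ap0 y.2) = z :=
  ep_surj (M0 := hat (Tbe k)) (M1 := hat (LL k)) (M2 := hat (XX k (-1)))
    (d := hm (M := Tbe k) (N := LL k) pi0) (f := hm (M := LL k) (N := XX k (-1)) ap0)
    (hm_mem pi0_mem) (hm_mem ap0_mem) hap_pi he
    (fun z hz => h5 (by norm_num) z hz) (fun z hz => h5 (by omega) z hz)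
    (fun z hz h => h4 z hz h) (fun f hf => hsbe f hf) z hz

end Vale.Agent.P195.AR.SeqM
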