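import Vale.Agent.Lib.P195.AR.Ex3

/-!
# P195: `N[a+1,b] = X_2 N[a,b] + X_1 N[a,b] + N[a+1,b']` for `N = O` and `N = P_e`
-/

namespace Vale.Agent.P195.AR

open MvPolynomial

variable {k : Type} [Field k]

theorem surjW_nat (n : ℕ) : ∀ {a b b' m : ℤ} {f : PA k}, b - b' < n + 1 → -1 - a ≤ b' →
    f ∈ FF k (a + 1) b m → ∃ v1 ∈ FF k a b m, ∃ v2 ∈ FF k a b m, ∃ v' ∈ FF k (a + 1) b' m,
      f = lx 1 v1 - lx 0 v2 + v' := by
  induction n with
  | zero =>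
    intro a b b' m f h1 _ hf
    refine ⟨0, Submodule.zero_mem _, 0, Submodule.zero_mem _, f, FF_mono ?_ hf, ?_⟩
    · push_cast at h1
      omega
    · rw [map_zero, map_zero, sub_zero, zero_add]
  | succ n ih =>
    intro a b b' m f h1 h2 hf
    by_cases hbb : b ≤ b'
    · refine ⟨0, Submodule.zero_mem _, 0, Submodule.zero_mem _, f, FF_mono hbb hf, ?_⟩
      rw [map_zero, map_zero, sub_zero, zero_add]
    · obtain ⟨t, ht, l, hl, e⟩ := FF_top hf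
      obtain ⟨p1, hp1, p2, hp2, e2⟩ := exd1G (a := a) (b := b) (m := m) (by omega) ht
      have hl' : l + pderiv (Vr.d 0) p1 + pderiv (Vr.d 1) p2 ∈ FF k (a + 1) (b - 1) m := by
        refine Submodule.add_mem _ (Submodule.add_mem _ hl ?_) ?_
        · exact FF_pd (Or.inl rfl) (GG_le hp1)
        · exact FF_pd (Or.inr rfl) (GG_le hp2)
      obtain ⟨v1, hv1, v2, hv2, v', hv', e3⟩ := ih (b' := b') (by push_cast at h1; omega) h2 hl'
      refine ⟨p2 + v1, Submodule.add_mem _ (GG_le hp2) (FF_mono (by omega) hv1),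
        v2 - p1, Submodule.sub_mem _ (FF_mono (by omega) hv2) (GG_le hp1), v', hv', ?_⟩
      rw [map_add, map_sub]
      have e4 : l = lx 1 v1 - lx 0 v2 + v' - pderiv (Vr.d 0) p1 - pderiv (Vr.d 1) p2 := by
        rw [← e3]; ring
      rw [e, e2, e4]
      simp only [lx_apply]
      ring

/-- (Surj) for `O`: valid as soon as `b' ≥ -1 - a` -/
theorem surjW {a b b' m : ℤ} {f : PA k} (h : -1 - a ≤ b')
    (hf : f ∈ (G m (a + 1) b : Submodule k (PA k))) :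
    ∃ v1 ∈ (G m a b : Submodule k (PA k)), ∃ v2 ∈ (G m a b : Submodule k (PA k)),
      ∃ v' ∈ (G m (a + 1) b' : Submodule k (PA k)), f = lx 1 v1 - lx 0 v2 + v' := by
  simp only [G_eq] at hf ⊢
  exact surjW_nat (b - b').toNat (by omega) h hf

/-- (Surj) for `O`, `a ≥ 0`: any `b'` -/
theorem surjW0 {a b : ℤ} (b' : ℤ) {m : ℤ} {f : PA k} (h : 0 ≤ a)
    (hf : f ∈ (G m (a + 1) b : Submodule k (PA k))) :
    ∃ v1 ∈ (G m a b : Submodule k (PA k)), ∃ v2 ∈ (G m a b : Submodule k (PA k)),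
      ∃ v' ∈ (G m (a + 1) b' : Submodule k (PA k)), f = lx 1 v1 - lx 0 v2 + v' := by
  by_cases hb : -1 - a ≤ b'
  · exact surjW hb hf
  · obtain ⟨v1, h1, v2, h2, v', h3, e⟩ := surjW (b' := -1 - a) le_rfl hf
    have h4 : v' = 0 := by
      rw [G_neg _ _ _ (Or.inr (Or.inl (by omega)))] at h3
      exact (Submodule.mem_bot k).1 h3
    exact ⟨v1, h1, v2, h2, 0, Submodule.zero_mem _, by rw [e, h4]⟩

/-- `P_e[a,c]_m = wp(W[a-1,c+e]_m) + (W[a,c]_m)^2` for `a ≥ 0` -/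
theorem pe_decomp {m a c e : ℤ} (ha : 0 ≤ a) (he : 0 ≤ e) {p1 p2 : PA k}
    (h1 : p1 ∈ (G m a (c + e) : Submodule k (PA k)))
    (hq : rx 0 p1 + rx 1 p2 ∈ (G m (a + 1) c : Submodule k (PA k))) :
    ∃ w ∈ (G m (a - 1) (c + e) : Submodule k (PA k)), ∃ u1 ∈ (G m a c : Submodule k (PA k)),
      ∃ u2 ∈ (G m a c : Submodule k (PA k)), p1 = rx 1 w + u1 ∧ p2 = - rx 0 w + u2 ∧
        rx 0 p1 + rx 1 p2 = rx 0 u1 + rx 1 u2 := by
  simp only [G_eq] at *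
  obtain ⟨u1, hu1, u2, hu2, e1⟩ := exd1 ha hq
  rw [← rx_apply, ← rx_apply] at e1
  have e2 : X (Vr.x 0) * (p1 - u1) + X (Vr.x 1) * (p2 - u2) = 0 := by
    rw [← rx_apply, ← rx_apply, map_sub, map_sub]
    linear_combination e1
  obtain ⟨w, hw, e3, e4⟩ := exd2 (b := c + e) (a := a) (m := m)
    (Submodule.sub_mem _ h1 (FF_mono (by omega) hu1)) e2
  refine ⟨w, hw, u1, hu1, u2, hu2, ?_, ?_, e1⟩
  · rw [rx_apply, ← e3]; ring
  · rw [rx_apply, ← e4]; ring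

/-- `wp` and the filtration -/
theorem wp_mem {m a c e : ℤ} {w : PA k} (hw : w ∈ (G m (a - 1) (c + e) : Submodule k (PA k))) :
    rx 1 w ∈ (G m a (c + e) : Submodule k (PA k)) ∧
      - rx 0 w ∈ (G m a (c + e) : Submodule k (PA k)) := by
  have h1 := rx_mem 1 _ _ _ w hw
  have h0 := rx_mem 0 _ _ _ w hw
  rw [sub_add_cancel] at h1 h0
  exact ⟨h1, Submodule.neg_mem _ h0⟩

/-- (Surj) for `P_e`, `a ≥ 0` -/
theorem surjP {m a c e : ℤ} (c' : ℤ) (ha : 0 ≤ a) (he : 0 ≤ e) (hc : -a ≤ c' + e) {p1 p2 : PA k}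
    (h1 : p1 ∈ (G m (a + 1) (c + e) : Submodule k (PA k)))
    (hq : rx 0 p1 + rx 1 p2 ∈ (G m (a + 2) c : Submodule k (PA k))) :
    ∃ v1 v2 u1 u2 w1 w2 : PA k,
      (v1 ∈ (G m a (c + e) : Submodule k (PA k)) ∧ v2 ∈ (G m a (c + e) : Submodule k (PA k)) ∧
        rx 0 v1 + rx 1 v2 ∈ (G m (a + 1) c : Submodule k (PA k))) ∧
      (u1 ∈ (G m a (c + e) : Submodule k (PA k)) ∧ u2 ∈ (G m a (c + e) : Submodule k (PA k)) ∧
        rx 0 u1 + rx 1 u2 ∈ (G m (a + 1) c : Submodule k (PA k))) ∧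
      (w1 ∈ (G m (a + 1) (c' + e) : Submodule k (PA k)) ∧
        w2 ∈ (G m (a + 1) (c' + e) : Submodule k (PA k)) ∧
        rx 0 w1 + rx 1 w2 ∈ (G m (a + 2) c' : Submodule k (PA k))) ∧
      p1 = lx 1 v1 - lx 0 u1 + w1 ∧ p2 = lx 1 v2 - lx 0 u2 + w2 := by
  have ea : a + 1 + 1 = a + 2 := by ring
  obtain ⟨w, hw, f1, hf1, f2, hf2, e1, e2, -⟩ :=
    pe_decomp (m := m) (a := a + 1) (c := c) (e := e) (by omega) he h1 (by rw [ea]; exact hq)
  have hw' : w ∈ (G m ((a - 1) + 1) (c + e) : Submodule k (PA k)) := by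
    have : a - 1 + 1 = a + 1 - 1 := by ring
    rw [this]; exact hw
  obtain ⟨r1, hr1, r2, hr2, r', hr', e3⟩ := surjW (a := a - 1) (b' := c' + e) (by omega) hw'
  obtain ⟨s1, hs1, s2, hs2, s', hs', e4⟩ := surjW0 c' ha hf1
  obtain ⟨t1, ht1, t2, ht2, t', ht', e5⟩ := surjW0 c' ha hf2
  have hr'' : r' ∈ (G m (a + 1 - 1) (c' + e) : Submodule k (PA k)) := by
    have : a + 1 - 1 = a - 1 + 1 := by ring
    rw [this]; exact hr'
  refine ⟨rx 1 r1 + s1, - rx 0 r1 + t1, rx 1 r2 + s2, - rx 0 r2 + t2, rx 1 r' + s',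
    - rx 0 r' + t', ⟨?_, ?_, ?_⟩, ⟨?_, ?_, ?_⟩, ⟨?_, ?_, ?_⟩, ?_, ?_⟩
  · exact Submodule.add_mem _ (wp_mem hr1).1 (G_mono _ _ _ _ (by omega) hs1)
  · exact Submodule.add_mem _ (wp_mem hr1).2 (G_mono _ _ _ _ (by omega) ht1)
  · have e6 : rx 0 (rx 1 r1 + s1) + rx 1 (- rx 0 r1 + t1) = rx 0 s1 + rx 1 t1 := by
      simp only [rx_apply]; ring
    rw [e6]
    exact Submodule.add_mem _ (rx_mem _ _ _ _ _ hs1) (rx_mem _ _ _ _ _ ht1)
  · exact Submodule.add_mem _ (wp_mem hr2).1 (G_mono _ _ _ _ (by omega) hs2)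
  · exact Submodule.add_mem _ (wp_mem hr2).2 (G_mono _ _ _ _ (by omega) ht2)
  · have e6 : rx 0 (rx 1 r2 + s2) + rx 1 (- rx 0 r2 + t2) = rx 0 s2 + rx 1 t2 := by
      simp only [rx_apply]; ring
    rw [e6]
    exact Submodule.add_mem _ (rx_mem _ _ _ _ _ hs2) (rx_mem _ _ _ _ _ ht2)
  · exact Submodule.add_mem _ (wp_mem hr'').1 (G_mono _ _ _ _ (by omega) hs')
  · exact Submodule.add_mem _ (wp_mem hr'').2 (G_mono _ _ _ _ (by omega) ht')
  · have e6 : rx 0 (rx 1 r' + s') + rx 1 (- rx 0 r' + t') = rx 0 s' + rx 1 t' := by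
      simp only [rx_apply]; ring
    rw [e6]
    have h3 := rx_mem 0 _ _ _ _ hs'
    have h4 := rx_mem 1 _ _ _ _ ht'
    rw [ea] at h3 h4
    exact Submodule.add_mem _ h3 h4
  · rw [e1, e3, e4]
    simp only [map_add, map_sub, lx_rx]
    ring
  · rw [e2, e3, e5]
    simp only [map_add, map_sub, map_neg, lx_rx]
    ring

end Vale.Agent.P195.AR
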