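import Vale.Agent.Lib.P195.AR.HHom
import Vale.Agent.Lib.P195.AR.Surj
import Vale.Agent.Lib.P195.AR.SeqH

/-! # P195, part H1: exactness at the evaluation windows `F a (-b)` and `P_e` -/

namespace Vale.Agent.P195.AR.H1

open MvPolynomial

variable {k : Type} [Field k]

/-- `N[a+1,c] = X_2 N[a,c] - X_1 N[a,c]` -/
def Sj (N : Bw k) (a c : ℤ) : Prop :=
  ∀ y ∈ N.F (a + 1) c, ∃ v1 ∈ N.F a c, ∃ v2 ∈ N.F a c, y = N.x 1 v1 - N.x 0 v2

theorem Sj.prod {M N : Bw k} {a c : ℤ} (hM : Sj M a c) (hN : Sj N a c) : Sj (M.prod N) a c := by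
  rintro ⟨y, z⟩ ⟨hy, hz⟩
  obtain ⟨v1, h1, v2, h2, e1⟩ := hM y hy
  obtain ⟨w1, g1, w2, g2, e2⟩ := hN z hz
  exact ⟨(v1, w1), ⟨h1, g1⟩, (v2, w2), ⟨h2, g2⟩, Prod.ext e1 e2⟩

theorem Sj_SO {m b0 a c : ℤ} (ha : 0 ≤ a) : Sj (SO k m 0 b0) a c := by
  intro y hy
  change y ∈ (G m (a + 1 + 0) (c + b0) : Submodule k (PA k)) at hy
  rw [add_zero, G_eq] at hy
  obtain ⟨f1, h1, f2, h2, e⟩ := exe ha hy
  rw [← G_eq] at h1 h2
  refine ⟨f2, ?_, -f1, ?_, ?_⟩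
  · change f2 ∈ (G m (a + 0) (c + b0) : Submodule k (PA k))
    rw [add_zero]; exact h2
  · change -f1 ∈ (G m (a + 0) (c + b0) : Submodule k (PA k))
    rw [add_zero]; exact Submodule.neg_mem _ h1
  · rw [e]
    change _ = lx 1 f2 - lx 0 (-f1)
    rw [map_neg, sub_neg_eq_add, add_comm]

theorem lx_zero {m a : ℤ} (i : Fin 2) {v : PA k} (hv : v ∈ (G m a 0 : Submodule k (PA k))) :
    lx i v = rx i v := by
  have h1 : pderiv (Vr.d i) v ∈ (G m (a + 1) (-1) : Submodule k (PA k)) := by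
    refine pderiv_mem _ ?_ v hv
    rintro μ ⟨h1, h2, h3⟩ h0
    fin_cases i <;> simp [Gs, ydeg, xdeg, ddeg] at * <;> omega
  rw [G_neg _ _ _ (Or.inr (Or.inl (by omega))), Submodule.mem_bot] at h1
  rw [lx_apply, rx_apply, h1, sub_zero]

theorem lx_wp (i : Fin 2) (w : PA k) : (lx i (wp w).1, lx i (wp w).2) = wp (lx i w) := by
  refine Prod.ext ?_ ?_
  · change lx i (rx 1 w) = rx 1 (lx i w)
    exact lx_rx _ _ _
  · change lx i (-(rx 0 w)) = -(rx 0 (lx i w))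
    rw [map_neg, lx_rx]

theorem rx1_eq (w : PA k) : X (Vr.x 1) * w = rx 1 w := rfl
theorem rx0_eq (w : PA k) : X (Vr.x 0) * w = rx 0 w := rfl

theorem sj_alg (v1 v2 v' r1 r2 s1 s2 : PA k) (l1 : lx 1 v' = rx 1 v') (l0 : lx 0 v' = rx 0 v') :
    wp (lx 1 v1 - lx 0 v2 + v') + (lx 0 r1, lx 0 r2) + (lx 1 s1, lx 1 s2) =
      (lx 1 (s1 + rx 1 v1 + v'), lx 1 (s2 + -(rx 0 v1) + 0)) -
      (lx 0 (rx 1 v2 - r1 + 0), lx 0 (-(rx 0 v2) - r2 + v')) := by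
  simp only [wp, rx1_eq, rx0_eq, Prod.mk_add_mk, Prod.mk_sub_mk]
  refine Prod.ext ?_ ?_
  · simp only [map_add, map_sub, add_zero, l1, lx_rx]
    abel
  · simp only [map_add, map_sub, map_neg, add_zero, l0, lx_rx]
    abel

variable [CharZero k]

theorem MP_wp {e m a b : ℤ} {w : PA k} (hw : w ∈ (G m (a - 1) (b + e) : Submodule k (PA k))) :
    MP e m a b (wp w) := by
  refine ⟨G_cast (x2_mem hw) rfl (by ring) rfl,
    Submodule.neg_mem _ (G_cast (x1_mem hw) rfl (by ring) rfl), ?_⟩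
  rw [qq_wp]
  exact Submodule.zero_mem _

theorem MP_sub {e m a b : ℤ} {p q : PA k × PA k} (hp : MP e m a b p) (hq : MP e m a b q) :
    MP e m a b (p - q) := by
  refine ⟨Submodule.sub_mem _ hp.1 hq.1, Submodule.sub_mem _ hp.2.1 hq.2.1, ?_⟩
  rw [qq_sub]
  exact Submodule.sub_mem _ hp.2.2 hq.2.2

theorem MP_add {e m a b : ℤ} {p q : PA k × PA k} (hp : MP e m a b p) (hq : MP e m a b q) :
    MP e m a b (p + q) := by
  refine ⟨Submodule.add_mem _ hp.1 hq.1, Submodule.add_mem _ hp.2.1 hq.2.1, ?_⟩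
  have : qq (p + q) = qq p + qq q := by
    simp only [qq, Prod.fst_add, Prod.snd_add]; ring
  rw [this]
  exact Submodule.add_mem _ hp.2.2 hq.2.2

theorem MP_neg {e m a b : ℤ} {p : PA k × PA k} (hp : MP e m a b p) : MP e m a b (-p) := by
  refine ⟨Submodule.neg_mem _ hp.1, Submodule.neg_mem _ hp.2.1, ?_⟩
  have : qq (-p) = -qq p := by
    simp only [qq, Prod.fst_neg, Prod.snd_neg]; ring
  rw [this]
  exact Submodule.neg_mem _ hp.2.2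

/-- surjectivity for `P_e` in `F (a+1) c`, `c ≥ 0` -/
theorem Sj_SP {m e a c : ℤ} (ha : 0 ≤ a) (he : 0 ≤ e) (hc : 0 ≤ c) : Sj (SP k m 0 e) a c := by
  intro p hp
  rw [mem_SP] at hp
  obtain ⟨hp1, hp2, hp3⟩ := hp
  rw [G_eq] at hp3
  obtain ⟨q0, hq0, q1, hq1, eq⟩ := exe (by omega) hp3
  rw [← G_eq] at hq0 hq1 hp3
  obtain ⟨r1, hr1, r2, hr2, e0⟩ := factD1 ha hq0
  obtain ⟨s1, hs1, s2, hs2, e1⟩ := factD1 ha hq1
  have hr : MP e m a c (r1, r2) :=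
    ⟨G_mono _ _ _ _ (by omega) hr1, G_mono _ _ _ _ (by omega) hr2, by rw [← e0]; exact hq0⟩
  have hs : MP e m a c (s1, s2) :=
    ⟨G_mono _ _ _ _ (by omega) hs1, G_mono _ _ _ _ (by omega) hs2, by rw [← e1]; exact hq1⟩
  have key : ∀ (i : Fin 2) (u v : PA k), qq (lx i u, lx i v) = lx i (qq (u, v)) := by
    intro i u v
    change rx 0 (lx i u) + rx 1 (lx i v) = lx i (rx 0 u + rx 1 v)
    rw [map_add, lx_rx, lx_rx]
  have hx0 : ∀ {f : PA k}, f ∈ (G m a (c + e) : Submodule k (PA k)) → ∀ i,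
      lx i f ∈ (G m (a + 1) (c + e) : Submodule k (PA k)) := fun hf i => lx_mem i _ _ _ _ hf
  obtain ⟨w, hw, ew⟩ := factD2 (p := p - (lx 0 r1, lx 0 r2) - (lx 1 s1, lx 1 s2))
    (m := m) (a := a + 1) (b := c + e)
    (Submodule.sub_mem _ (Submodule.sub_mem _ hp1 (hx0 hr.1 0)) (hx0 hs.1 1)) (by
      rw [qq_sub, qq_sub, key, key, ← e0, ← e1, eq]
      ring)
  have hw' : w ∈ (G m (a - 1 + 1) (c + e) : Submodule k (PA k)) := G_cast hw rfl (by ring) rfl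
  obtain ⟨v1, hv1, v2, hv2, v', hv', ev⟩ := surjW (b' := 0) (by omega) hw'
  have hv'' : v' ∈ (G m a 0 : Submodule k (PA k)) := G_cast hv' rfl (by ring) rfl
  have hvc : v' ∈ (G m a (c + e) : Submodule k (PA k)) := G_mono _ _ _ _ (by omega) hv''
  have hx1 : MP e m a c (v', 0) := by
    refine ⟨hvc, Submodule.zero_mem _, ?_⟩
    have : qq (v', 0) = X (Vr.x 0) * v' := by simp [qq]
    rw [this]
    exact x1_mem (G_mono _ _ _ _ (by omega) hv'')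
  have hx2 : MP e m a c (0, v') := by
    refine ⟨Submodule.zero_mem _, hvc, ?_⟩
    have : qq ((0, v') : PA k × PA k) = X (Vr.x 1) * v' := by simp [qq]
    rw [this]
    exact x2_mem (G_mono _ _ _ _ (by omega) hv'')
  refine ⟨(s1, s2) + wp v1 + (v', 0), ?_, wp v2 - (r1, r2) + (0, v'), ?_, ?_⟩
  · rw [mem_SP]
    exact MP_add (MP_add hs (MP_wp hv1)) hx1
  · rw [mem_SP]
    exact MP_add (MP_sub (MP_wp hv2) hr) hx2
  · have e2 : p = wp w + (lx 0 r1, lx 0 r2) + (lx 1 s1, lx 1 s2) := by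
      rw [← ew]; abel
    rw [e2, ev]
    exact sj_alg v1 v2 v' r1 r2 s1 s2 (lx_zero 1 hv'') (lx_zero 0 hv'')

/-! ### exactness at the windows `F a b`, `a ≥ 0`, `-2 ≤ b` -/

theorem exF_X (n : ℕ) {a b : ℤ} (ha : 0 ≤ a) (hb : -2 ≤ b) :
    ∀ z ∈ (XX k n).F a b, ∃ y ∈ (B0 k n).F a b, evX y = z := by
  intro z hz
  obtain ⟨f, hf, e⟩ := evX_surj (b := b + 2) ha (by omega) hz
  exact ⟨f, mem_B0.2 hf, e⟩

theorem exF_0 (n : ℕ) {a b : ℤ} (ha : 0 ≤ a) :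
    ∀ z ∈ (B0 k n).F a b, evX z = 0 → ∃ y ∈ (B1 k n).F a b, mA n y = z := by
  intro z hz h
  rw [mem_B0] at hz
  obtain ⟨y, hy, e⟩ := ex_Q0 ha hz (evX_zero hz h)
  exact ⟨y, mem_B1.2 hy, e⟩

theorem exF_1 (n : ℕ) {a b : ℤ} (ha : 0 ≤ a) :
    ∀ z ∈ (B1 k n).F a b, mA n z = 0 → ∃ y ∈ (B2 k n).F a b, mB n y = z := by
  intro z hz h
  rw [mem_B1] at hz
  obtain ⟨y, hy, e⟩ := ex_Q1 ha hz h
  exact ⟨y, mem_B2.2 hy, e⟩

theorem exF_2 (n : ℕ) {a b : ℤ} :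
    ∀ z ∈ (B2 k n).F a b, mB n z = 0 → ∃ y ∈ (B3 k n).F a b, mC n y = z := by
  intro z hz h
  rw [mem_B2] at hz
  obtain ⟨y, hy, e⟩ := ex_Q2 hz h
  exact ⟨y, mem_B3.2 hy, e⟩

theorem exF_3 (n : ℕ) {a b : ℤ} : ∀ z ∈ (B3 k n).F a b, mC n z = 0 → z = 0 := by
  intro z hz h
  rw [mem_B3] at hz
  exact fC_inj (Eul_of_mem hz) h

theorem ev_E {m a b : ℤ} {f : PA k} (h : f ∈ (G m a b : Submodule k (PA k))) :
    ev (rx 0 (dy 0 f)) + ev (rx 1 (dy 1 f)) = (m : k) • ev f := by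
  have h1 := EulZ_of_mem h
  have h2 : my 0 (dy 0 f) + my 1 (dy 1 f) = (m : k) • f := by
    rw [smul_eq_C_mul, map_intCast]
    exact h1
  have h3 := congrArg (ev (k := k)) h2
  rw [map_add, ev_my, ev_my, map_smul] at h3
  exact h3

/-- `ev ∘ A = 0` -/
theorem evA_zero (n : ℕ) {a b : ℤ} {z : (PA k × PA k) × (PA k × PA k)} (hz : M1 n a b z) :
    evX (mA n z) = 0 := by
  have h : ev (fA n z) = 0 := by
    have e1 := ev_E (p1_mem hz.1.1)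
    have e2 := ev_E (p2_mem hz.1.2)
    have e3 := ev_E hz.2.2.2
    have d1 : pderiv (Vr.y 0) z.1.1 = dy 0 z.1.1 := rfl
    have d2 : pderiv (Vr.y 1) z.1.2 = dy 1 z.1.2 := rfl
    have d3 : qq z.2 = rx 0 z.2.1 + rx 1 z.2.2 := rfl
    rw [d1] at e1
    rw [d2] at e2
    rw [d3] at e3
    have c1 : dy 1 (dy 0 z.1.1) = dy 0 (dy 1 z.1.1) := dy_comm _ _ _
    have c2 : dy 0 (dy 1 z.1.2) = dy 1 (dy 0 z.1.2) := dy_comm _ _ _
    rw [c1] at e1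
    rw [c2] at e2
    rw [fA_op]
    generalize hq : rx 0 z.2.1 + rx 1 z.2.2 = q at e3 ⊢
    have r0 : ev (my 0 (rd 0 q)) = ev (rx 0 (dy 0 q)) + ev q := by
      rw [ev_my, rx_rd, map_add, ev_rd, dy_rx]
      simp
    have r1 : ev (my 1 (rd 1 q)) = ev (rx 1 (dy 1 q)) + ev q := by
      rw [ev_my, rx_rd, map_add, ev_rd, dy_rx]
      simp
    have r2 : ev (my 0 z.2.1) + ev (my 1 z.2.2) = ev q := by
      rw [ev_my, ev_my, ← map_add, hq]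
    simp only [map_add, map_sub, map_smul, r0, r1, r2, ev_rd, dy_rx]
    push_cast at e1 e2 e3
    have s1 : ev (rx 0 (dy 0 (dy 0 z.1.1))) + ev (rx 1 (dy 0 (dy 1 z.1.1)))
        = (n : k) • ev (dy 0 z.1.1) := by rw [e1]; congr 1; ring
    have s2 : ev (rx 0 (dy 1 (dy 0 z.1.2))) + ev (rx 1 (dy 1 (dy 1 z.1.2)))
        = (n : k) • ev (dy 1 z.1.2) := by rw [e2]; congr 1; ring
    rw [s1, s2, sub_self, sub_self]
    have s3 : ev (rx 0 (dy 0 q)) + ev q + (ev (rx 1 (dy 1 q)) + ev q) =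
        (ev (rx 0 (dy 0 q)) + ev (rx 1 (dy 1 q))) + (ev q + ev q) := by abel
    rw [s3, e3, sub_smul, add_smul, one_smul]
    abel
  rw [evX_apply]
  change resx (ev (fA n z)) = 0
  rw [h, map_zero]

/-! ### zero compositions on the graded pieces -/

theorem mA_mB {n : ℕ} {a b : ℤ} {z : (PA k × PA k) × (PA k × PA k)}
    (hz : z ∈ (B2 k n).F a b) : mA n (mB n z) = 0 := by
  rw [mem_B2] at hz
  exact AB_zero n z (Eul_of_mem hz.1.1) (Eul_of_mem hz.2.2.1)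

theorem mB_mC {n : ℕ} {a b : ℤ} {z : PA k} (hz : z ∈ (B3 k n).F a b) : mB n (mC n z) = 0 := by
  rw [mem_B3] at hz
  exact BC_zero n z (Eul_of_mem hz)

theorem evX_mA {n : ℕ} {a b : ℤ} {z : (PA k × PA k) × (PA k × PA k)}
    (hz : z ∈ (B1 k n).F a b) : evX (mA n z) = 0 := by
  rw [mem_B1] at hz
  exact evA_zero n hz

end Vale.Agent.P195.AR.H1
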