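import Vale.Agent.Lib.P195.AR.HMaps
import Vale.Agent.Lib.P195.AR.Ap

/-! # P195, part H1: the facts used in the exactness chase, from Ex1, Ex2, Ex3, Ap -/

namespace Vale.Agent.P195.AR.H1

open MvPolynomial

variable {k : Type} [Field k]

/-- restriction to the diagonal `y := x` -/
noncomputable def dg : PA k →ₐ[k] PA k := sg

theorem Eul_of_mem {n : ℕ} {a b : ℤ} {f : PA k} (h : f ∈ (G (n : ℤ) a b : Submodule k (PA k))) :
    Eul n f := by
  have h1 := G_induction (m := (n : ℤ)) (a := a) (b := b)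
    (my 0 ∘ₗ dy 0 + my 1 ∘ₗ dy 1 - (n : k) • LinearMap.id : PA k →ₗ[k] PA k) ⊥ ?_ f h
  · rw [Submodule.mem_bot] at h1
    simp only [LinearMap.sub_apply, LinearMap.add_apply, LinearMap.comp_apply,
      LinearMap.smul_apply, LinearMap.id_apply, my_apply, dy_apply, smul_eq_C_mul,
      map_natCast] at h1
    exact sub_eq_zero.1 h1
  · intro μ hμ
    rw [Submodule.mem_bot]
    simp only [LinearMap.sub_apply, LinearMap.add_apply, LinearMap.comp_apply,
      LinearMap.smul_apply, LinearMap.id_apply, my_apply, dy_apply]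
    rw [X_mul_pderiv_monomial, X_mul_pderiv_monomial]
    have h2 : μ (Vr.y 0) + μ (Vr.y 1) = n := by
      have := hμ.1
      simp only [ydeg] at this
      exact_mod_cast this
    rw [← add_smul, h2, Nat.cast_smul_eq_nsmul, sub_self]

theorem univ_Vr : (Finset.univ : Finset Vr) = {.x 0, .x 1, .d 0, .d 1, .y 0, .y 1} := by decide

theorem dg_monomial (μ : Vr →₀ ℕ) :
    (dg (monomial μ 1) : PA k) = monomial (Finsupp.single (Vr.x 0) (μ (Vr.x 0) + μ (Vr.y 0))
      + Finsupp.single (Vr.x 1) (μ (Vr.x 1) + μ (Vr.y 1)) + Finsupp.single (Vr.d 0) (μ (Vr.d 0))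
      + Finsupp.single (Vr.d 1) (μ (Vr.d 1))) 1 := by
  have e1 : (monomial μ (1 : k) : PA k) = X (Vr.x 0) ^ μ (Vr.x 0) * (X (Vr.x 1) ^ μ (Vr.x 1) *
      (X (Vr.d 0) ^ μ (Vr.d 0) * (X (Vr.d 1) ^ μ (Vr.d 1) *
      (X (Vr.y 0) ^ μ (Vr.y 0) * X (Vr.y 1) ^ μ (Vr.y 1))))) := by
    rw [monomial_eq, C_1, one_mul, Finsupp.prod_fintype _ _ (fun i => pow_zero _), univ_Vr]
    rw [Finset.prod_insert (by decide), Finset.prod_insert (by decide),
      Finset.prod_insert (by decide), Finset.prod_insert (by decide),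
      Finset.prod_insert (by decide), Finset.prod_singleton]
  rw [e1]
  simp only [map_mul, map_pow]
  rw [show dg (X (Vr.x 0) : PA k) = X (Vr.x 0) from sg_X0,
    show dg (X (Vr.x 1) : PA k) = X (Vr.x 1) from sg_X1,
    show dg (X (Vr.d 0) : PA k) = X (Vr.d 0) from sg_X2,
    show dg (X (Vr.d 1) : PA k) = X (Vr.d 1) from sg_X3,
    show dg (X (Vr.y 0) : PA k) = X (Vr.x 0) from sg_X4,
    show dg (X (Vr.y 1) : PA k) = X (Vr.x 1) from sg_X5]
  simp only [X_pow_eq_monomial, monomial_mul, mul_one]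
  refine congrArg (fun s => monomial s (1 : k)) ?_
  ext v
  simp only [Finsupp.add_apply, Finsupp.single_apply]
  split_ifs <;> simp_all
  all_goals omega

theorem dg_mem {m a b : ℤ} {f : PA k} (h : f ∈ (G m a b : Submodule k (PA k))) :
    dg f ∈ (G 0 (a + m) b : Submodule k (PA k)) := by
  refine G_induction (dg : PA k →ₐ[k] PA k).toLinearMap _ ?_ f h
  intro μ hμ
  obtain ⟨h1, h2, h3⟩ := hμ
  change dg (monomial μ 1) ∈ _
  rw [dg_monomial]
  apply monomial_mem_G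
  refine ⟨?_, ?_, ?_⟩
  · simp [ydeg]
  · simp [ydeg, xdeg, ddeg] at *
    omega
  · simp [ydeg, xdeg, ddeg] at *
    omega

theorem dg_om : dg (om : PA k) = 0 := by
  simp [dg, sg, om]
  ring

theorem dg_pdx (i : Fin 2) (f : PA k) :
    pderiv (Vr.x i) (dg f) = dg (pderiv (Vr.x i) f) + dg (pderiv (Vr.y i) f) := by
  induction f using MvPolynomial.induction_on with
  | C a => simp [dg, sg]
  | add p q hp hq => simp only [map_add, hp, hq]; ring
  | mul_X p v hp =>
    simp only [map_mul, Derivation.leibniz, smul_eq_mul, hp, map_add]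
    cases v with
    | x j => fin_cases i <;> fin_cases j <;> simp [dg, sg, pderiv_X] <;> ring
    | d j => fin_cases i <;> fin_cases j <;> simp [dg, sg, pderiv_X] <;> ring
    | y j => fin_cases i <;> fin_cases j <;> simp [dg, sg, pderiv_X] <;> ring

variable [CharZero k]

theorem factA1 {m a b : ℤ} {f : PA k} (h : f ∈ (G m a b : Submodule k (PA k)))
    (h0 : dg f = 0) : ∃ f' ∈ (G (m - 1) (a - 1) b : Submodule k (PA k)), f = om * f' := by
  simp only [G_eq] at *
  exact exa1 h h0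

theorem factA2 {m a b : ℤ} (ha : 0 ≤ a) (hm : 0 ≤ m) {w : PA k}
    (h : w ∈ (G 0 (a + m) b : Submodule k (PA k))) :
    ∃ f ∈ (G m a b : Submodule k (PA k)), dg f = w := by
  simp only [G_eq] at *
  exact exa2 ha hm h

theorem factB1 {c b : ℤ} {a1 a2 : PA k} (h1 : a1 ∈ (G 0 c b : Submodule k (PA k)))
    (h2 : a2 ∈ (G 0 c b : Submodule k (PA k))) (h : rd 0 a1 + rd 1 a2 = 0) :
    ∃ v ∈ (G 0 (c + 1) (b - 1) : Submodule k (PA k)), a1 = rd 1 v ∧ a2 = -rd 0 v := by
  simp only [G_eq] at *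
  exact exb1 h1 h2 h

theorem factB2 {c b : ℤ} {f : PA k} (h : f ∈ (G 0 c b : Submodule k (PA k))) (h0 : ap f = 0) :
    ∃ a1 ∈ (G 0 (c + 1) (b - 1) : Submodule k (PA k)),
      ∃ a2 ∈ (G 0 (c + 1) (b - 1) : Submodule k (PA k)), f = rd 0 a1 + rd 1 a2 := by
  simp only [G_eq] at *
  exact exb2 h h0

theorem factB3 (i : Fin 2) {v : PA k} (h : rd i v = 0) : v = 0 := exb3 i h

theorem factC2 {n : ℕ} {a b : ℤ} {q1 q2 : PA k} (h1 : q1 ∈ (G n a b : Submodule k (PA k)))
    (h2 : q2 ∈ (G n a b : Submodule k (PA k)))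
    (h : pderiv (Vr.y 0) q1 + pderiv (Vr.y 1) q2 = 0) :
    ∃ H ∈ (G (n + 1) a b : Submodule k (PA k)),
      q1 = pderiv (Vr.y 1) H ∧ q2 = -pderiv (Vr.y 0) H := by
  simp only [G_eq] at *
  exact exc2 (by omega) h1 h2 h

theorem factD1 {m a b : ℤ} (ha : 0 ≤ a) {q : PA k}
    (h : q ∈ (G m (a + 1) b : Submodule k (PA k))) :
    ∃ p1 ∈ (G m a b : Submodule k (PA k)), ∃ p2 ∈ (G m a b : Submodule k (PA k)),
      q = qq (p1, p2) := by
  simp only [G_eq] at *
  exact exd1 ha h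

theorem factD2 {m a b : ℤ} {p : PA k × PA k} (h1 : p.1 ∈ (G m a b : Submodule k (PA k)))
    (h : qq p = 0) :
    ∃ w ∈ (G m (a - 1) b : Submodule k (PA k)), p = wp w := by
  simp only [G_eq] at *
  obtain ⟨w, hw, e1, e2⟩ := exd2 h1 h
  exact ⟨w, hw, Prod.ext e1 e2⟩

end Vale.Agent.P195.AR.H1
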