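import Vale.Agent.Lib.P195.AR.Basic

/-!
# P195, part H1: the maps of the resolution and of the chain map on the big polynomial space, and
the identities between them
-/

namespace Vale.Agent.P195.AR.H1

open MvPolynomial

variable {k : Type} [Field k]

theorem pd_comm (i j : Vr) (f : PA k) : pderiv i (pderiv j f) = pderiv j (pderiv i f) :=
  pderiv_comm i j f

/-- right multiplication by `d_1` -/
noncomputable def rd1 (f : PA k) : PA k := X (Vr.d 0) * f - pderiv (Vr.x 0) f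
/-- right multiplication by `d_2` -/
noncomputable def rd2 (f : PA k) : PA k := X (Vr.d 1) * f - pderiv (Vr.x 1) f
/-- `E = rx_1 del_1 + rx_2 del_2` -/
noncomputable def EE (f : PA k) : PA k := X (Vr.x 0) * pderiv (Vr.y 0) f + X (Vr.x 1) * pderiv (Vr.y 1) f
/-- `q(p) = rx_1 p_1 + rx_2 p_2` -/
noncomputable def qq (p : PA k × PA k) : PA k := X (Vr.x 0) * p.1 + X (Vr.x 1) * p.2
/-- `wp(w) = (rx_2 w, - rx_1 w)` -/
noncomputable def wp (w : PA k) : PA k × PA k := (X (Vr.x 1) * w, -(X (Vr.x 0) * w))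
/-- `om = x_1 y_2 - x_2 y_1` -/
noncomputable def om : PA k := X (Vr.x 0) * X (Vr.y 1) - X (Vr.x 1) * X (Vr.y 0)

/-- the map `A` of the resolution -/
noncomputable def fA (n : ℕ) (z : (PA k × PA k) × (PA k × PA k)) : PA k :=
  (rd1 (EE z.1.1) - (n : PA k) * pderiv (Vr.y 0) z.1.1) + (rd2 (EE z.1.2) - (n : PA k) * pderiv (Vr.y 1) z.1.2)
  - ((n : PA k) + 1) * (X (Vr.y 0) * z.2.1 + X (Vr.y 1) * z.2.2)
  + (X (Vr.y 0) * rd1 (qq z.2) + X (Vr.y 1) * rd2 (qq z.2))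

/-- `kap = y_1 q^2 - y_2 q^1` -/
noncomputable def kap (z : (PA k × PA k) × (PA k × PA k)) : PA k := X (Vr.y 0) * qq z.2 - X (Vr.y 1) * qq z.1

/-- the function `w` in the map `B` -/
noncomputable def bw (z : (PA k × PA k) × (PA k × PA k)) : PA k :=
  rd1 (pderiv (Vr.y 1) z.1.1 - pderiv (Vr.y 0) z.1.2) + rd2 (pderiv (Vr.y 1) z.2.1 - pderiv (Vr.y 0) z.2.2)

/-- the map `B` of the resolution -/
noncomputable def fB (n : ℕ) (z : (PA k × PA k) × (PA k × PA k)) : (PA k × PA k) × (PA k × PA k) :=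
  ((((n : PA k) + 1) * (X (Vr.y 0) * z.1.1 + X (Vr.y 1) * z.1.2) + rd2 (kap z),
    ((n : PA k) + 1) * (X (Vr.y 0) * z.2.1 + X (Vr.y 1) * z.2.2) - rd1 (kap z)),
   (-(((n : PA k) + 1) * (pderiv (Vr.y 0) z.1.1 + pderiv (Vr.y 1) z.2.1)) + X (Vr.x 1) * bw z,
    -(((n : PA k) + 1) * (pderiv (Vr.y 0) z.1.2 + pderiv (Vr.y 1) z.2.2)) - X (Vr.x 0) * bw z))

/-- the map `C` of the resolution -/
noncomputable def fC (n : ℕ) (h : PA k) : (PA k × PA k) × (PA k × PA k) :=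
  ((-(((n : PA k) + 1) * h) + X (Vr.y 0) * pderiv (Vr.y 0) h + X (Vr.x 1) * rd2 h, X (Vr.y 0) * pderiv (Vr.y 1) h - X (Vr.x 0) * rd2 h),
   (X (Vr.y 1) * pderiv (Vr.y 0) h - X (Vr.x 1) * rd1 h, -(((n : PA k) + 1) * h) + X (Vr.y 1) * pderiv (Vr.y 1) h + X (Vr.x 0) * rd1 h))

/-- `f` is homogeneous of degree `n` in `y` (Euler) -/
def Eul (n : ℕ) (f : PA k) : Prop := X (Vr.y 0) * pderiv (Vr.y 0) f + X (Vr.y 1) * pderiv (Vr.y 1) f = (n : PA k) * f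

theorem pdn (i : Vr) (n : ℕ) : pderiv i ((n : PA k)) = 0 :=
  Derivation.map_natCast (pderiv i : Derivation k (PA k) (PA k)) n

theorem pd2 (i : Vr) : pderiv i (2 : PA k) = 0 := by
  have h := pdn (k := k) i 2
  simpa using h

theorem AB_zero (n : ℕ) (z : (PA k × PA k) × (PA k × PA k)) (h1 : Eul n z.1.1) (h2 : Eul n z.2.2) :
    fA n (fB n z) = 0 := by
  obtain ⟨⟨a1, a2⟩, b1, b2⟩ := z
  simp only [Eul] at h1 h2
  simp only [fA, fB, bw, kap, qq, rd1, rd2, EE, map_add, map_sub, map_neg,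
    Derivation.map_one_eq_zero, Derivation.leibniz, smul_eq_mul, pdn, pderiv_X, Pi.single_apply]
  simp [pd_comm (Vr.y 0) (Vr.x 0), pd_comm (Vr.y 0) (Vr.x 1), pd_comm (Vr.y 1) (Vr.x 0), pd_comm (Vr.y 1) (Vr.x 1), pd_comm (Vr.x 1) (Vr.x 0)]
  linear_combination ((n : PA k) + 1) * (h1 + h2)

theorem Eul.pd4 {n : ℕ} {f : PA k} (h : Eul (n + 1) f) : Eul n (pderiv (Vr.y 0) f) := by
  have h1 := congrArg (pderiv (Vr.y 0)) h
  simp only [map_add, Derivation.leibniz, smul_eq_mul, pdn, pderiv_X, Pi.single_apply] at h1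
  simp [pd_comm (Vr.y 1) (Vr.y 0)] at h1
  simp only [Eul, pd_comm (Vr.y 1) (Vr.y 0)]
  linear_combination h1

theorem Eul.pd5 {n : ℕ} {f : PA k} (h : Eul (n + 1) f) : Eul n (pderiv (Vr.y 1) f) := by
  have h1 := congrArg (pderiv (Vr.y 1)) h
  simp only [map_add, Derivation.leibniz, smul_eq_mul, pdn, pderiv_X, Pi.single_apply] at h1
  simp [pd_comm (Vr.y 1) (Vr.y 0)] at h1
  simp only [Eul, pd_comm (Vr.y 0) (Vr.y 1)]
  rw [pd_comm (Vr.y 1) (Vr.y 0)] at *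
  linear_combination h1

theorem Eul.pdx {n : ℕ} {f : PA k} (h : Eul n f) (i : Vr) (hi : i ≠ Vr.y 0) (hi' : i ≠ Vr.y 1) :
    Eul n (pderiv i f) := by
  have h1 := congrArg (pderiv i) h
  simp only [map_add, Derivation.leibniz, smul_eq_mul, pdn, pderiv_X_of_ne hi.symm,
    pderiv_X_of_ne hi'.symm, mul_zero, add_zero] at h1
  simp only [Eul, pd_comm (Vr.y 0) i, pd_comm (Vr.y 1) i]
  exact h1

theorem BC_zero (n : ℕ) (h : PA k) (h1 : Eul n h) : fB n (fC n h) = 0 := by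
  have h4 := congrArg (pderiv (Vr.y 0)) h1
  have h5 := congrArg (pderiv (Vr.y 1)) h1
  simp only [map_add, Derivation.leibniz, smul_eq_mul, pdn, pderiv_X, Pi.single_apply] at h4 h5
  simp [pd_comm (Vr.y 1) (Vr.y 0)] at h4 h5
  simp only [Eul] at h1
  refine Prod.ext (Prod.ext ?_ ?_) (Prod.ext ?_ ?_) <;>
  simp only [fC, fB, bw, kap, qq, rd1, rd2, map_add, map_sub, map_neg,
    Derivation.map_one_eq_zero, Derivation.leibniz, smul_eq_mul, pdn, pderiv_X,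
    Pi.single_apply] <;>
  simp [pd_comm (Vr.y 0) (Vr.x 0), pd_comm (Vr.y 0) (Vr.x 1), pd_comm (Vr.y 1) (Vr.x 0), pd_comm (Vr.y 1) (Vr.x 1), pd_comm (Vr.x 1) (Vr.x 0), pd_comm (Vr.y 1) (Vr.y 0)]
  · linear_combination ((n : PA k) + 1) * X (Vr.y 0) * h1
  · linear_combination ((n : PA k) + 1) * X (Vr.y 1) * h1
  · linear_combination -((n : PA k) + 1) * h4
  · linear_combination -((n : PA k) + 1) * h5

/-! ### the chain map, level `n + 1` to level `n` -/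

noncomputable def fF0 (n : ℕ) (f : PA k) : PA k := ((n : PA k) + 1) * EE f

noncomputable def fF1 (n : ℕ) (z : (PA k × PA k) × (PA k × PA k)) : (PA k × PA k) × (PA k × PA k) :=
  ((((n : PA k) + 1) * (EE z.1.1 + X (Vr.y 0) * qq z.2), ((n : PA k) + 1) * (EE z.1.2 + X (Vr.y 1) * qq z.2)),
   (X (Vr.x 1) * (((n : PA k) + 2) * (pderiv (Vr.y 1) z.2.1 - pderiv (Vr.y 0) z.2.2)),
    -(X (Vr.x 0) * (((n : PA k) + 2) * (pderiv (Vr.y 1) z.2.1 - pderiv (Vr.y 0) z.2.2)))))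

/-- `Dq = del_1 q^1 + del_2 q^2` -/
noncomputable def Dq (z : (PA k × PA k) × (PA k × PA k)) : PA k := pderiv (Vr.y 0) (qq z.1) + pderiv (Vr.y 1) (qq z.2)

noncomputable def fF2 (n : ℕ) (z : (PA k × PA k) × (PA k × PA k)) : (PA k × PA k) × (PA k × PA k) :=
  ((((n : PA k) + 2) * (EE z.1.1 - Dq z) + X (Vr.x 1) * rd2 (Dq z),
    ((n : PA k) + 2) * EE z.1.2 - X (Vr.x 0) * rd2 (Dq z)),
   (((n : PA k) + 2) * EE z.2.1 - X (Vr.x 1) * rd1 (Dq z),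
    ((n : PA k) + 2) * (EE z.2.2 - Dq z) + X (Vr.x 0) * rd1 (Dq z)))

noncomputable def fF3 (n : ℕ) (h : PA k) : PA k := ((n : PA k) + 2) * EE h

theorem F0A (n : ℕ) (z : (PA k × PA k) × (PA k × PA k)) (h1 : Eul n z.2.1) (h2 : Eul n z.2.2) :
    fF0 n (fA (n + 1) z) = fA n (fF1 n z) := by
  obtain ⟨⟨a1, a2⟩, b1, b2⟩ := z
  simp only [Eul] at h1 h2
  simp only [fA, fF0, fF1, qq, rd1, rd2, EE, map_add, map_sub, map_neg, Nat.cast_add, Nat.cast_one,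
    Derivation.map_one_eq_zero, Derivation.leibniz, smul_eq_mul, pdn, pd2, pderiv_X, Pi.single_apply]
  simp [pd_comm (Vr.y 0) (Vr.x 0), pd_comm (Vr.y 0) (Vr.x 1), pd_comm (Vr.y 1) (Vr.x 0), pd_comm (Vr.y 1) (Vr.x 1), pd_comm (Vr.x 1) (Vr.x 0), pd_comm (Vr.y 1) (Vr.y 0)]
  linear_combination -((n : PA k) + 1) * (X (Vr.x 0) * h1 + X (Vr.x 1) * h2)

theorem EE_add (f g : PA k) : EE (f + g) = EE f + EE g := by
  simp only [EE, map_add]; ring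
theorem EE_sub (f g : PA k) : EE (f - g) = EE f - EE g := by
  simp only [EE, map_sub]; ring
theorem EE_neg (f : PA k) : EE (-f) = -EE f := by
  simp only [EE, map_neg]; ring
theorem EE_n (n : ℕ) (f : PA k) : EE ((n : PA k) * f) = (n : PA k) * EE f := by
  simp only [EE, Derivation.leibniz, smul_eq_mul, pdn]; ring
theorem EE_y1 (f : PA k) : EE (X (Vr.y 0) * f) = X (Vr.y 0) * EE f + X (Vr.x 0) * f := by
  simp only [EE, Derivation.leibniz, smul_eq_mul, pderiv_X, Pi.single_apply]; simp; ring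
theorem EE_y2 (f : PA k) : EE (X (Vr.y 1) * f) = X (Vr.y 1) * EE f + X (Vr.x 1) * f := by
  simp only [EE, Derivation.leibniz, smul_eq_mul, pderiv_X, Pi.single_apply]; simp; ring
theorem EE_x1 (f : PA k) : EE (X (Vr.x 0) * f) = X (Vr.x 0) * EE f := by
  simp only [EE, Derivation.leibniz, smul_eq_mul, pderiv_X, Pi.single_apply]; simp; ring
theorem EE_x2 (f : PA k) : EE (X (Vr.x 1) * f) = X (Vr.x 1) * EE f := by
  simp only [EE, Derivation.leibniz, smul_eq_mul, pderiv_X, Pi.single_apply]; simp; ring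
theorem EE_rd1 (f : PA k) : EE (rd1 f) = rd1 (EE f) + pderiv (Vr.y 0) f := by
  simp only [EE, rd1, map_add, map_sub, Derivation.leibniz, smul_eq_mul, pderiv_X,
    Pi.single_apply]
  simp [pd_comm (Vr.y 0) (Vr.x 0), pd_comm (Vr.y 1) (Vr.x 0)]; ring
theorem EE_rd2 (f : PA k) : EE (rd2 f) = rd2 (EE f) + pderiv (Vr.y 1) f := by
  simp only [EE, rd2, map_add, map_sub, Derivation.leibniz, smul_eq_mul, pderiv_X,
    Pi.single_apply]
  simp [pd_comm (Vr.y 0) (Vr.x 1), pd_comm (Vr.y 1) (Vr.x 1)]; ring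
theorem EE_pd4 (f : PA k) : EE (pderiv (Vr.y 0) f) = pderiv (Vr.y 0) (EE f) := by
  simp only [EE, map_add, Derivation.leibniz, smul_eq_mul, pderiv_X, Pi.single_apply]
  simp [pd_comm (Vr.y 0) (Vr.y 1)]
theorem EE_pd5 (f : PA k) : EE (pderiv (Vr.y 1) f) = pderiv (Vr.y 1) (EE f) := by
  simp only [EE, map_add, Derivation.leibniz, smul_eq_mul, pderiv_X, Pi.single_apply]
  simp [pd_comm (Vr.y 1) (Vr.y 0)]

theorem Eul.add {n : ℕ} {f g : PA k} (hf : Eul n f) (hg : Eul n g) : Eul n (f + g) := by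
  simp only [Eul, map_add] at *
  linear_combination hf + hg
theorem Eul.x1 {n : ℕ} {f : PA k} (hf : Eul n f) : Eul n (X (Vr.x 0) * f) := by
  simp only [Eul, Derivation.leibniz, smul_eq_mul, pderiv_X, Pi.single_apply] at *
  simp
  linear_combination X (Vr.x 0) * hf
theorem Eul.x2 {n : ℕ} {f : PA k} (hf : Eul n f) : Eul n (X (Vr.x 1) * f) := by
  simp only [Eul, Derivation.leibniz, smul_eq_mul, pderiv_X, Pi.single_apply] at *
  simp
  linear_combination X (Vr.x 1) * hf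
theorem Eul.qq {n : ℕ} {p : PA k × PA k} (h1 : Eul n p.1) (h2 : Eul n p.2) : Eul n (qq p) :=
  h1.x1.add h2.x2

theorem qq_B2 (n : ℕ) (z : (PA k × PA k) × (PA k × PA k)) : qq (fB n z).2 = -(((n : PA k) + 1) * Dq z) := by
  obtain ⟨⟨a1, a2⟩, b1, b2⟩ := z
  simp only [fB, Dq, qq, map_add, Derivation.leibniz, smul_eq_mul, pderiv_X, Pi.single_apply]
  simp
  ring

theorem qq_F2_1 (n : ℕ) (z : (PA k × PA k) × (PA k × PA k)) :
    qq (fF2 n z).1 = ((n : PA k) + 2) * (EE (qq z.1) - X (Vr.x 0) * Dq z) := by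
  obtain ⟨⟨a1, a2⟩, b1, b2⟩ := z
  simp only [fF2, qq, EE_add, EE_x1, EE_x2]
  ring

theorem qq_F2_2 (n : ℕ) (z : (PA k × PA k) × (PA k × PA k)) :
    qq (fF2 n z).2 = ((n : PA k) + 2) * (EE (qq z.2) - X (Vr.x 1) * Dq z) := by
  obtain ⟨⟨a1, a2⟩, b1, b2⟩ := z
  simp only [fF2, qq, EE_add, EE_x1, EE_x2]
  ring

theorem F1B_aux1 (n : ℕ) (Q1 Q2 : PA k) (h1 : Eul (n + 1) Q1) (h2 : Eul (n + 1) Q2) :
    ((n : PA k) + 1) * (((n : PA k) + 2) * Q1 + rd2 (EE (X (Vr.y 0) * Q2 - X (Vr.y 1) * Q1))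
        + pderiv (Vr.y 1) (X (Vr.y 0) * Q2 - X (Vr.y 1) * Q1))
      + ((n : PA k) + 1) * (X (Vr.x 0) * X (Vr.y 1) - X (Vr.x 1) * X (Vr.y 0)) * rd2 (pderiv (Vr.y 0) Q1 + pderiv (Vr.y 1) Q2)
    = rd2 (X (Vr.y 0) * (((n : PA k) + 2) * (EE Q2 - X (Vr.x 1) * (pderiv (Vr.y 0) Q1 + pderiv (Vr.y 1) Q2)))
        - X (Vr.y 1) * (((n : PA k) + 2) * (EE Q1 - X (Vr.x 0) * (pderiv (Vr.y 0) Q1 + pderiv (Vr.y 1) Q2)))) := by
  have d1 := h1.pdx (Vr.x 1) (by decide) (by decide)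
  have d2 := h2.pdx (Vr.x 1) (by decide) (by decide)
  simp only [Eul] at h1 h2 d1 d2
  simp only [pd_comm (Vr.y 0) (Vr.x 1), pd_comm (Vr.y 1) (Vr.x 1), Nat.cast_add, Nat.cast_one] at h1 h2 d1 d2
  simp only [EE, rd2, map_add, map_sub, map_neg,
    Derivation.map_one_eq_zero, Derivation.leibniz, smul_eq_mul, pdn, pd2, pderiv_X,
    Pi.single_apply]
  simp [pd_comm (Vr.y 0) (Vr.x 1), pd_comm (Vr.y 1) (Vr.x 1), pd_comm (Vr.y 1) (Vr.y 0)]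
  linear_combination -((n : PA k) + 1) * h1
    - (X (Vr.d 1) * (X (Vr.x 0) * h2 - X (Vr.x 1) * h1) - (X (Vr.x 0) * d2 - h1 - X (Vr.x 1) * d1))

theorem F1B_aux2 (n : ℕ) (Q1 Q2 : PA k) (h1 : Eul (n + 1) Q1) (h2 : Eul (n + 1) Q2) :
    ((n : PA k) + 1) * (((n : PA k) + 2) * Q2 - rd1 (EE (X (Vr.y 0) * Q2 - X (Vr.y 1) * Q1))
        - pderiv (Vr.y 0) (X (Vr.y 0) * Q2 - X (Vr.y 1) * Q1))
      - ((n : PA k) + 1) * (X (Vr.x 0) * X (Vr.y 1) - X (Vr.x 1) * X (Vr.y 0)) * rd1 (pderiv (Vr.y 0) Q1 + pderiv (Vr.y 1) Q2)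
    = -rd1 (X (Vr.y 0) * (((n : PA k) + 2) * (EE Q2 - X (Vr.x 1) * (pderiv (Vr.y 0) Q1 + pderiv (Vr.y 1) Q2)))
        - X (Vr.y 1) * (((n : PA k) + 2) * (EE Q1 - X (Vr.x 0) * (pderiv (Vr.y 0) Q1 + pderiv (Vr.y 1) Q2)))) := by
  have d1 := h1.pdx (Vr.x 0) (by decide) (by decide)
  have d2 := h2.pdx (Vr.x 0) (by decide) (by decide)
  simp only [Eul] at h1 h2 d1 d2
  simp only [pd_comm (Vr.y 0) (Vr.x 0), pd_comm (Vr.y 1) (Vr.x 0), Nat.cast_add, Nat.cast_one] at h1 h2 d1 d2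
  simp only [EE, rd1, map_add, map_sub, map_neg,
    Derivation.map_one_eq_zero, Derivation.leibniz, smul_eq_mul, pdn, pd2, pderiv_X,
    Pi.single_apply]
  simp [pd_comm (Vr.y 0) (Vr.x 0), pd_comm (Vr.y 1) (Vr.x 0), pd_comm (Vr.y 1) (Vr.y 0)]
  linear_combination -((n : PA k) + 1) * h2
    + (X (Vr.d 0) * (X (Vr.x 0) * h2 - X (Vr.x 1) * h1) - (X (Vr.x 0) * d2 + h2 - X (Vr.x 1) * d1))

theorem F1B_aux3 (n : ℕ) (a1 a2 b1 b2 : PA k) :
    (fF1 n (fB (n + 1) ((a1, a2), b1, b2))).2.1 = (fB n (fF2 n ((a1, a2), b1, b2))).2.1 := by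
  simp only [fF1, fB, fF2, bw, Dq, EE, qq, rd1, rd2, map_add, map_sub, map_neg, Nat.cast_add,
    Nat.cast_one, Derivation.map_one_eq_zero, Derivation.leibniz, smul_eq_mul, pdn, pd2, pderiv_X,
    Pi.single_apply]
  simp [pd_comm (Vr.y 0) (Vr.x 0), pd_comm (Vr.y 0) (Vr.x 1), pd_comm (Vr.y 1) (Vr.x 0),
    pd_comm (Vr.y 1) (Vr.x 1), pd_comm (Vr.x 1) (Vr.x 0), pd_comm (Vr.y 1) (Vr.y 0)]
  ring

theorem F1B_aux4 (n : ℕ) (a1 a2 b1 b2 : PA k) :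
    (fF1 n (fB (n + 1) ((a1, a2), b1, b2))).2.2 = (fB n (fF2 n ((a1, a2), b1, b2))).2.2 := by
  simp only [fF1, fB, fF2, bw, Dq, EE, qq, rd1, rd2, map_add, map_sub, map_neg, Nat.cast_add,
    Nat.cast_one, Derivation.map_one_eq_zero, Derivation.leibniz, smul_eq_mul, pdn, pd2, pderiv_X,
    Pi.single_apply]
  simp [pd_comm (Vr.y 0) (Vr.x 0), pd_comm (Vr.y 0) (Vr.x 1), pd_comm (Vr.y 1) (Vr.x 0),
    pd_comm (Vr.y 1) (Vr.x 1), pd_comm (Vr.x 1) (Vr.x 0), pd_comm (Vr.y 1) (Vr.y 0)]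
  ring

theorem F1B (n : ℕ) (z : (PA k × PA k) × (PA k × PA k)) (h1 : Eul (n + 1) z.1.1) (h2 : Eul (n + 1) z.1.2)
    (h3 : Eul (n + 1) z.2.1) (h4 : Eul (n + 1) z.2.2) :
    fF1 n (fB (n + 1) z) = fB n (fF2 n z) := by
  have k1 := F1B_aux1 n _ _ (Eul.qq h1 h2) (Eul.qq h3 h4)
  have k2 := F1B_aux2 n _ _ (Eul.qq h1 h2) (Eul.qq h3 h4)
  have eN : ∀ f, EE ((((n + 1 : ℕ) : PA k) + 1) * f) = ((n : PA k) + 2) * EE f := by
    intro f
    have := EE_n (n + 2) f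
    push_cast at this ⊢
    rw [show (n : PA k) + 1 + 1 = n + 2 by ring]
    exact this
  obtain ⟨⟨a1, a2⟩, b1, b2⟩ := z
  refine Prod.ext (Prod.ext ?_ ?_) (Prod.ext ?_ ?_)
  · simp only [fF1, qq_B2]
    simp only [fB, kap, qq_F2_1, qq_F2_2, EE_add, eN, EE_rd2, EE_y1, EE_y2]
    simp only [fF2, Nat.cast_add, Nat.cast_one, Dq]
    simp only [qq] at k1 ⊢
    linear_combination k1
  · simp only [fF1, qq_B2]
    simp only [fB, kap, qq_F2_1, qq_F2_2, EE_add, EE_sub, eN, EE_rd1, EE_y1, EE_y2]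
    simp only [fF2, Nat.cast_add, Nat.cast_one, Dq]
    simp only [qq, EE_sub, EE_y1, EE_y2] at k2 ⊢
    linear_combination k2
  · exact F1B_aux3 n a1 a2 b1 b2
  · exact F1B_aux4 n a1 a2 b1 b2

theorem Dq_fC (n : ℕ) (h : PA k) (h1 : Eul (n + 1) h) : Dq (fC (n + 1) h) = 0 := by
  have h4 := h1.pd4
  have h5 := h1.pd5
  simp only [Eul] at h1 h4 h5
  simp only [pd_comm (Vr.y 1) (Vr.y 0)] at h4 h5
  simp only [fC, Dq, qq, rd1, rd2, map_add, map_sub, map_neg, Nat.cast_add, Nat.cast_one,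
    Derivation.map_one_eq_zero, Derivation.leibniz, smul_eq_mul, pdn, pd2, pderiv_X, Pi.single_apply]
  simp [pd_comm (Vr.y 0) (Vr.x 0), pd_comm (Vr.y 0) (Vr.x 1), pd_comm (Vr.y 1) (Vr.x 0), pd_comm (Vr.y 1) (Vr.x 1), pd_comm (Vr.x 1) (Vr.x 0), pd_comm (Vr.y 1) (Vr.y 0)]
  linear_combination X (Vr.x 0) * h4 + X (Vr.x 1) * h5

theorem F2C (n : ℕ) (h : PA k) (h1 : Eul (n + 1) h) : fF2 n (fC (n + 1) h) = fC n (fF3 n h) := by
  have h0 := Dq_fC n h h1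
  simp only [fF2, h0]
  refine Prod.ext (Prod.ext ?_ ?_) (Prod.ext ?_ ?_) <;>
  simp only [fC, fF3, rd1, rd2, EE, map_add, map_sub, map_neg, map_zero, Nat.cast_add, Nat.cast_one,
    Derivation.map_one_eq_zero, Derivation.leibniz, smul_eq_mul, pdn, pd2, pderiv_X, Pi.single_apply] <;>
  simp [pd_comm (Vr.y 0) (Vr.x 0), pd_comm (Vr.y 0) (Vr.x 1), pd_comm (Vr.y 1) (Vr.x 0), pd_comm (Vr.y 1) (Vr.x 1), pd_comm (Vr.x 1) (Vr.x 0), pd_comm (Vr.y 1) (Vr.y 0)] <;>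
  ring

end Vale.Agent.P195.AR.H1
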