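import Vale.Agent.Lib.P195.AR.HId

/-! # P195, part H1: the maps of the resolution as linear maps, and the filtrations -/

namespace Vale.Agent.P195.AR.H1

open MvPolynomial

variable {k : Type} [Field k]

/-- `A` as a linear map -/
noncomputable def mA (n : ℕ) : (PA k × PA k) × (PA k × PA k) →ₗ[k] PA k where
  toFun := fA n
  map_add' y z := by
    simp only [fA, rd1, rd2, EE, qq, Prod.fst_add, Prod.snd_add, map_add, Derivation.leibniz,
      smul_eq_mul]
    ring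
  map_smul' c z := by
    simp only [fA, rd1, rd2, EE, qq, Prod.smul_fst, Prod.smul_snd, smul_eq_C_mul, map_add,
        map_sub, Derivation.leibniz, smul_eq_mul, pderiv_C, map_zero, mul_zero,
        add_zero, RingHom.id_apply]
    ring

/-- `B` as a linear map -/
noncomputable def mB (n : ℕ) :
    (PA k × PA k) × (PA k × PA k) →ₗ[k] (PA k × PA k) × (PA k × PA k) where
  toFun := fB n
  map_add' y z := by
    refine Prod.ext (Prod.ext ?_ ?_) (Prod.ext ?_ ?_) <;>
    · simp only [fB, kap, bw, rd1, rd2, qq, Prod.fst_add, Prod.snd_add, map_add, map_sub,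
        Derivation.leibniz, smul_eq_mul]
      ring
  map_smul' c z := by
    refine Prod.ext (Prod.ext ?_ ?_) (Prod.ext ?_ ?_) <;>
    · simp only [fB, kap, bw, rd1, rd2, qq, Prod.smul_fst, Prod.smul_snd, smul_eq_C_mul,
        map_add, map_sub, Derivation.leibniz, smul_eq_mul, pderiv_C, map_zero,
        mul_zero, add_zero, RingHom.id_apply]
      ring

/-- `C` as a linear map -/
noncomputable def mC (n : ℕ) : PA k →ₗ[k] (PA k × PA k) × (PA k × PA k) where
  toFun := fC n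
  map_add' y z := by
    refine Prod.ext (Prod.ext ?_ ?_) (Prod.ext ?_ ?_) <;>
    · simp only [fC, rd1, rd2, Prod.fst_add, Prod.snd_add, map_add]
      ring
  map_smul' c z := by
    refine Prod.ext (Prod.ext ?_ ?_) (Prod.ext ?_ ?_) <;>
    · simp only [fC, rd1, rd2, Prod.smul_fst, Prod.smul_snd, smul_eq_C_mul, map_add, map_sub,
        Derivation.leibniz, smul_eq_mul, pderiv_C, map_zero, mul_zero, add_zero,
        RingHom.id_apply]
      ring

/-- `F0` as a linear map -/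
noncomputable def mF0 (n : ℕ) : PA k →ₗ[k] PA k where
  toFun := fF0 n
  map_add' y z := by
    simp only [fF0, EE, map_add]
    ring
  map_smul' c z := by
    simp only [fF0, EE, smul_eq_C_mul, map_add, map_sub, Derivation.leibniz, smul_eq_mul,
        pderiv_C, map_zero, mul_zero, add_zero, RingHom.id_apply]
    ring

/-- `F1` as a linear map -/
noncomputable def mF1 (n : ℕ) :
    (PA k × PA k) × (PA k × PA k) →ₗ[k] (PA k × PA k) × (PA k × PA k) where
  toFun := fF1 n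
  map_add' y z := by
    refine Prod.ext (Prod.ext ?_ ?_) (Prod.ext ?_ ?_) <;>
    · simp only [fF1, EE, qq, Prod.fst_add, Prod.snd_add, map_add]
      ring
  map_smul' c z := by
    refine Prod.ext (Prod.ext ?_ ?_) (Prod.ext ?_ ?_) <;>
    · simp only [fF1, EE, qq, Prod.smul_fst, Prod.smul_snd, smul_eq_C_mul, map_add, map_sub,
        Derivation.leibniz, smul_eq_mul, pderiv_C, map_zero, mul_zero, add_zero,
        RingHom.id_apply]
      ring

/-- `F2` as a linear map -/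
noncomputable def mF2 (n : ℕ) :
    (PA k × PA k) × (PA k × PA k) →ₗ[k] (PA k × PA k) × (PA k × PA k) where
  toFun := fF2 n
  map_add' y z := by
    refine Prod.ext (Prod.ext ?_ ?_) (Prod.ext ?_ ?_) <;>
    · simp only [fF2, EE, qq, Dq, rd1, rd2, Prod.fst_add, Prod.snd_add, map_add,
        Derivation.leibniz, smul_eq_mul]
      ring
  map_smul' c z := by
    refine Prod.ext (Prod.ext ?_ ?_) (Prod.ext ?_ ?_) <;>
    · simp only [fF2, EE, qq, Dq, rd1, rd2, Prod.smul_fst, Prod.smul_snd, smul_eq_C_mul,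
        map_add, map_sub, Derivation.leibniz, smul_eq_mul, pderiv_C, map_zero,
        mul_zero, add_zero, RingHom.id_apply]
      ring

/-- `F3` as a linear map -/
noncomputable def mF3 (n : ℕ) : PA k →ₗ[k] PA k where
  toFun := fF3 n
  map_add' y z := by
    simp only [fF3, EE, map_add]
    ring
  map_smul' c z := by
    simp only [fF3, EE, smul_eq_C_mul, map_add, map_sub, Derivation.leibniz, smul_eq_mul,
        pderiv_C, map_zero, mul_zero, add_zero, RingHom.id_apply]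
    ring

@[simp] theorem mA_apply (n : ℕ) (z : (PA k × PA k) × (PA k × PA k)) : mA n z = fA n z := rfl
@[simp] theorem mB_apply (n : ℕ) (z : (PA k × PA k) × (PA k × PA k)) : mB n z = fB n z := rfl
@[simp] theorem mC_apply (n : ℕ) (z : PA k) : mC n z = fC n z := rfl
@[simp] theorem mF0_apply (n : ℕ) (z : PA k) : mF0 n z = fF0 n z := rfl
@[simp] theorem mF1_apply (n : ℕ) (z : (PA k × PA k) × (PA k × PA k)) : mF1 n z = fF1 n z := rfl
@[simp] theorem mF2_apply (n : ℕ) (z : (PA k × PA k) × (PA k × PA k)) : mF2 n z = fF2 n z := rfl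
@[simp] theorem mF3_apply (n : ℕ) (z : PA k) : mF3 n z = fF3 n z := rfl

/-! ### filtrations -/

theorem G_cast {m m' a a' b b' : ℤ} {f : PA k} (h : f ∈ (G m a b : Submodule k (PA k))) (hm : m = m')
    (ha : a = a') (hb : b = b') : f ∈ (G m' a' b' : Submodule k (PA k)) := by
  subst hm; subst ha; subst hb; exact h

theorem nmul_mem {m a b : ℤ} {f : PA k} (n : ℕ) (h : f ∈ (G m a b : Submodule k (PA k))) :
    (n : PA k) * f ∈ (G m a b : Submodule k (PA k)) := by
  have : (n : PA k) * f = (n : k) • f := by rw [smul_eq_C_mul, map_natCast]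
  rw [this]
  exact Submodule.smul_mem _ _ h

theorem n1mul_mem {m a b : ℤ} {f : PA k} (n : ℕ) (h : f ∈ (G m a b : Submodule k (PA k))) :
    ((n : PA k) + 1) * f ∈ (G m a b : Submodule k (PA k)) := by
  have := nmul_mem (n + 1) h
  rwa [Nat.cast_add, Nat.cast_one] at this

theorem n2mul_mem {m a b : ℤ} {f : PA k} (n : ℕ) (h : f ∈ (G m a b : Submodule k (PA k))) :
    ((n : PA k) + 2) * f ∈ (G m a b : Submodule k (PA k)) := by
  have := nmul_mem (n + 2) h
  rwa [Nat.cast_add, Nat.cast_two] at this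

theorem EE_mem {m a b : ℤ} {f : PA k} (h : f ∈ (G m a b : Submodule k (PA k))) :
    EE f ∈ (G (m - 1) (a + 1) b : Submodule k (PA k)) :=
  Submodule.add_mem _ (rx_mem 0 _ _ _ _ (dy_mem 0 _ _ _ _ h)) (rx_mem 1 _ _ _ _ (dy_mem 1 _ _ _ _ h))

theorem rd1_mem {m a b : ℤ} {f : PA k} (h : f ∈ (G m a b : Submodule k (PA k))) :
    rd1 f ∈ (G m (a - 1) (b + 1) : Submodule k (PA k)) := rd_mem 0 _ _ _ _ h
theorem rd2_mem {m a b : ℤ} {f : PA k} (h : f ∈ (G m a b : Submodule k (PA k))) :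
    rd2 f ∈ (G m (a - 1) (b + 1) : Submodule k (PA k)) := rd_mem 1 _ _ _ _ h
theorem x1_mem {m a b : ℤ} {f : PA k} (h : f ∈ (G m a b : Submodule k (PA k))) :
    X (Vr.x 0) * f ∈ (G m (a + 1) b : Submodule k (PA k)) := rx_mem 0 _ _ _ _ h
theorem x2_mem {m a b : ℤ} {f : PA k} (h : f ∈ (G m a b : Submodule k (PA k))) :
    X (Vr.x 1) * f ∈ (G m (a + 1) b : Submodule k (PA k)) := rx_mem 1 _ _ _ _ h
theorem y1_mem {m a b : ℤ} {f : PA k} (h : f ∈ (G m a b : Submodule k (PA k))) :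
    X (Vr.y 0) * f ∈ (G (m + 1) a b : Submodule k (PA k)) := my_mem 0 _ _ _ _ h
theorem y2_mem {m a b : ℤ} {f : PA k} (h : f ∈ (G m a b : Submodule k (PA k))) :
    X (Vr.y 1) * f ∈ (G (m + 1) a b : Submodule k (PA k)) := my_mem 1 _ _ _ _ h
theorem p1_mem {m a b : ℤ} {f : PA k} (h : f ∈ (G m a b : Submodule k (PA k))) :
    pderiv (Vr.y 0) f ∈ (G (m - 1) a b : Submodule k (PA k)) := dy_mem 0 _ _ _ _ h
theorem p2_mem {m a b : ℤ} {f : PA k} (h : f ∈ (G m a b : Submodule k (PA k))) :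
    pderiv (Vr.y 1) f ∈ (G (m - 1) a b : Submodule k (PA k)) := dy_mem 1 _ _ _ _ h

/-- membership in `P_e ⊗ S_m` at `[a,b]` -/
def MP (e m a b : ℤ) (p : PA k × PA k) : Prop :=
  p.1 ∈ (G m a (b + e) : Submodule k (PA k)) ∧ p.2 ∈ (G m a (b + e) : Submodule k (PA k)) ∧
    qq p ∈ (G m (a + 1) b : Submodule k (PA k))

/-- membership in `Q1` at `[a,b]` -/
def M1 (n : ℕ) (a b : ℤ) (z : (PA k × PA k) × (PA k × PA k)) : Prop :=
  (z.1.1 ∈ (G (n + 1) a (b + 1) : Submodule k (PA k)) ∧ z.1.2 ∈ (G (n + 1) a (b + 1) : Submodule k (PA k))) ∧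
    MP 2 (n - 1) a b z.2

/-- membership in `Q2` at `[a,b]` -/
def M2 (n : ℕ) (a b : ℤ) (z : (PA k × PA k) × (PA k × PA k)) : Prop := MP 1 n a b z.1 ∧ MP 1 n a b z.2

theorem fA_mem {n : ℕ} {a b : ℤ} {z : (PA k × PA k) × (PA k × PA k)} (h : M1 n a b z) :
    fA n z ∈ (G n a (b + 2) : Submodule k (PA k)) := by
  obtain ⟨⟨h1, h2⟩, h3, h4, h5⟩ := h
  refine Submodule.add_mem _ (Submodule.sub_mem _ (Submodule.add_mem _ (Submodule.sub_mem _ ?_ ?_)
    (Submodule.sub_mem _ ?_ ?_)) ?_) (Submodule.add_mem _ ?_ ?_)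
  · exact G_cast (rd1_mem (EE_mem h1)) (by ring) (by ring) (by ring)
  · exact G_mono _ _ _ _ (by omega) (G_cast (nmul_mem n (p1_mem h1)) (by ring) rfl rfl)
  · exact G_cast (rd2_mem (EE_mem h2)) (by ring) (by ring) (by ring)
  · exact G_mono _ _ _ _ (by omega) (G_cast (nmul_mem n (p2_mem h2)) (by ring) rfl rfl)
  · exact n1mul_mem n (Submodule.add_mem _ (G_cast (y1_mem h3) (by ring) rfl rfl)
      (G_cast (y2_mem h4) (by ring) rfl rfl))
  · exact G_mono _ _ _ _ (by omega) (G_cast (y1_mem (rd1_mem h5)) (by ring) (by ring) rfl)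
  · exact G_mono _ _ _ _ (by omega) (G_cast (y2_mem (rd2_mem h5)) (by ring) (by ring) rfl)

theorem kap_mem {n : ℕ} {a b : ℤ} {z : (PA k × PA k) × (PA k × PA k)} (h : M2 n a b z) :
    kap z ∈ (G (n + 1) (a + 1) b : Submodule k (PA k)) :=
  Submodule.sub_mem _ (y1_mem h.2.2.2) (y2_mem h.1.2.2)

theorem bw_mem {n : ℕ} {a b : ℤ} {z : (PA k × PA k) × (PA k × PA k)} (h : M2 n a b z) :
    bw z ∈ (G (n - 1) (a - 1) (b + 2) : Submodule k (PA k)) := by
  obtain ⟨⟨h1, h2, h3⟩, h4, h5, h6⟩ := h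
  refine G_cast (Submodule.add_mem _ (rd1_mem (Submodule.sub_mem _ (p2_mem h1) (p1_mem h2)))
    (rd2_mem (Submodule.sub_mem _ (p2_mem h4) (p1_mem h5)))) rfl rfl (by ring)

theorem Dq_mem {n : ℕ} {a b : ℤ} {z : (PA k × PA k) × (PA k × PA k)} (h : M2 n a b z) :
    Dq z ∈ (G (n - 1) (a + 1) b : Submodule k (PA k)) :=
  Submodule.add_mem _ (p1_mem h.1.2.2) (p2_mem h.2.2.2)

theorem fB_mem {n : ℕ} {a b : ℤ} {z : (PA k × PA k) × (PA k × PA k)} (h : M2 n a b z) :
    M1 n a b (fB n z) := by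
  have hk := kap_mem h
  have hw := bw_mem h
  have hD := Dq_mem h
  obtain ⟨⟨h1, h2, h3⟩, h4, h5, h6⟩ := h
  refine ⟨⟨?_, ?_⟩, ?_, ?_, ?_⟩
  · exact Submodule.add_mem _ (n1mul_mem n (Submodule.add_mem _ (y1_mem h1) (y2_mem h2)))
      (G_cast (rd2_mem hk) rfl (by ring) rfl)
  · exact Submodule.sub_mem _ (n1mul_mem n (Submodule.add_mem _ (y1_mem h4) (y2_mem h5)))
      (G_cast (rd1_mem hk) rfl (by ring) rfl)
  · exact Submodule.add_mem _ (Submodule.neg_mem _ (n1mul_mem n (Submodule.add_mem _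
      (G_mono _ _ _ _ (by omega) (p1_mem h1)) (G_mono _ _ _ _ (by omega) (p2_mem h4)))))
      (G_cast (x2_mem hw) rfl (by ring) rfl)
  · exact Submodule.sub_mem _ (Submodule.neg_mem _ (n1mul_mem n (Submodule.add_mem _
      (G_mono _ _ _ _ (by omega) (p1_mem h2)) (G_mono _ _ _ _ (by omega) (p2_mem h5)))))
      (G_cast (x1_mem hw) rfl (by ring) rfl)
  · rw [qq_B2]
    exact Submodule.neg_mem _ (n1mul_mem n hD)

theorem qq_C1 (n : ℕ) (h : PA k) (h1 : Eul n h) :
    qq (fC n h).1 = -pderiv (Vr.y 1) (om * h) := by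
  simp only [Eul] at h1
  simp only [fC, qq, om, map_sub, Derivation.leibniz, smul_eq_mul, pderiv_X, Pi.single_apply]
  simp
  linear_combination X (Vr.x 0) * h1

theorem qq_C2 (n : ℕ) (h : PA k) (h1 : Eul n h) :
    qq (fC n h).2 = pderiv (Vr.y 0) (om * h) := by
  simp only [Eul] at h1
  simp only [fC, qq, om, map_sub, Derivation.leibniz, smul_eq_mul, pderiv_X, Pi.single_apply]
  simp
  linear_combination X (Vr.x 1) * h1

theorem om_mem {m a b : ℤ} {f : PA k} (h : f ∈ (G m a b : Submodule k (PA k))) :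
    om * f ∈ (G (m + 1) (a + 1) b : Submodule k (PA k)) := by
  have : om * f = X (Vr.x 0) * (X (Vr.y 1) * f) - X (Vr.x 1) * (X (Vr.y 0) * f) := by
    rw [om]; ring
  rw [this]
  exact Submodule.sub_mem _ (x1_mem (y2_mem h)) (x2_mem (y1_mem h))

theorem fC_mem {n : ℕ} {a b : ℤ} {h : PA k} (hh : h ∈ (G n a b : Submodule k (PA k))) (he : Eul n h) :
    M2 n a b (fC n h) := by
  have hn := n1mul_mem n hh
  have hm : ∀ {f : PA k}, f ∈ (G n a b : Submodule k (PA k)) → f ∈ (G n a (b + 1) : Submodule k (PA k)) :=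
    fun hf => G_mono _ _ _ _ (by omega) hf
  refine ⟨⟨?_, ?_, ?_⟩, ?_, ?_, ?_⟩
  · exact Submodule.add_mem _ (Submodule.add_mem _ (Submodule.neg_mem _ (hm hn))
      (hm (G_cast (y1_mem (p1_mem hh)) (by ring) rfl rfl)))
      (G_cast (x2_mem (rd2_mem hh)) rfl (by ring) rfl)
  · exact Submodule.sub_mem _ (hm (G_cast (y1_mem (p2_mem hh)) (by ring) rfl rfl))
      (G_cast (x1_mem (rd2_mem hh)) rfl (by ring) rfl)
  · rw [qq_C1 n h he]
    exact Submodule.neg_mem _ (G_cast (p2_mem (om_mem hh)) (by ring) rfl rfl)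
  · exact Submodule.sub_mem _ (hm (G_cast (y2_mem (p1_mem hh)) (by ring) rfl rfl))
      (G_cast (x2_mem (rd1_mem hh)) rfl (by ring) rfl)
  · exact Submodule.add_mem _ (Submodule.add_mem _ (Submodule.neg_mem _ (hm hn))
      (hm (G_cast (y2_mem (p2_mem hh)) (by ring) rfl rfl)))
      (G_cast (x1_mem (rd1_mem hh)) rfl (by ring) rfl)
  · rw [qq_C2 n h he]
    exact G_cast (p1_mem (om_mem hh)) (by ring) rfl rfl

theorem fF0_mem {n : ℕ} {a b : ℤ} {f : PA k} (h : f ∈ (G (n + 1) a b : Submodule k (PA k))) :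
    fF0 n f ∈ (G n (a + 1) b : Submodule k (PA k)) :=
  n1mul_mem n (G_cast (EE_mem h) (by ring) rfl rfl)

theorem fF3_mem {n : ℕ} {a b : ℤ} {f : PA k} (h : f ∈ (G (n + 1) a b : Submodule k (PA k))) :
    fF3 n f ∈ (G n (a + 1) b : Submodule k (PA k)) :=
  n2mul_mem n (G_cast (EE_mem h) (by ring) rfl rfl)

theorem qq_F1_2 (n : ℕ) (z : (PA k × PA k) × (PA k × PA k)) : qq (fF1 n z).2 = 0 := by
  simp only [fF1, qq]; ring

theorem fF1_mem {n : ℕ} {a b : ℤ} {z : (PA k × PA k) × (PA k × PA k)} (h : M1 (n + 1) a b z) :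
    M1 n (a + 1) b (fF1 n z) := by
  obtain ⟨⟨h1, h2⟩, h3, h4, h5⟩ := h
  push_cast at h1 h2 h3 h4 h5
  refine ⟨⟨?_, ?_⟩, ?_, ?_, ?_⟩
  · exact n1mul_mem n (Submodule.add_mem _ (G_cast (EE_mem h1) (by ring) rfl rfl)
      (G_mono _ _ _ _ (by omega) (G_cast (y1_mem h5) (by ring) rfl rfl)))
  · exact n1mul_mem n (Submodule.add_mem _ (G_cast (EE_mem h2) (by ring) rfl rfl)
      (G_mono _ _ _ _ (by omega) (G_cast (y2_mem h5) (by ring) rfl rfl)))
  · exact x2_mem (n2mul_mem n (Submodule.sub_mem _ (G_cast (p2_mem h3) (by ring) rfl rfl)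
      (G_cast (p1_mem h4) (by ring) rfl rfl)))
  · exact Submodule.neg_mem _ (x1_mem (n2mul_mem n (Submodule.sub_mem _
      (G_cast (p2_mem h3) (by ring) rfl rfl) (G_cast (p1_mem h4) (by ring) rfl rfl))))
  · rw [qq_F1_2]
    exact Submodule.zero_mem _

theorem fF2_mem {n : ℕ} {a b : ℤ} {z : (PA k × PA k) × (PA k × PA k)} (h : M2 (n + 1) a b z) :
    M2 n (a + 1) b (fF2 n z) := by
  have hD := Dq_mem h
  obtain ⟨⟨h1, h2, h3⟩, h4, h5, h6⟩ := h
  push_cast at h1 h2 h3 h4 h5 h6 hD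
  have hD' : Dq z ∈ (G n (a + 1) b : Submodule k (PA k)) := G_cast hD (by ring) rfl rfl
  have hD1 : Dq z ∈ (G n (a + 1) (b + 1) : Submodule k (PA k)) := G_mono _ _ _ _ (by omega) hD'
  refine ⟨⟨?_, ?_, ?_⟩, ?_, ?_, ?_⟩
  · exact Submodule.add_mem _ (n2mul_mem n (Submodule.sub_mem _
      (G_cast (EE_mem h1) (by ring) rfl rfl) hD1)) (G_cast (x2_mem (rd2_mem hD')) rfl (by ring) rfl)
  · exact Submodule.sub_mem _ (n2mul_mem n (G_cast (EE_mem h2) (by ring) rfl rfl))
      (G_cast (x1_mem (rd2_mem hD')) rfl (by ring) rfl)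
  · rw [qq_F2_1]
    exact n2mul_mem n (Submodule.sub_mem _ (G_cast (EE_mem h3) (by ring) rfl rfl) (x1_mem hD'))
  · exact Submodule.sub_mem _ (n2mul_mem n (G_cast (EE_mem h4) (by ring) rfl rfl))
      (G_cast (x2_mem (rd1_mem hD')) rfl (by ring) rfl)
  · exact Submodule.add_mem _ (n2mul_mem n (Submodule.sub_mem _
      (G_cast (EE_mem h5) (by ring) rfl rfl) hD1)) (G_cast (x1_mem (rd1_mem hD')) rfl (by ring) rfl)
  · rw [qq_F2_2]
    exact n2mul_mem n (Submodule.sub_mem _ (G_cast (EE_mem h6) (by ring) rfl rfl) (x2_mem hD'))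

end Vale.Agent.P195.AR.H1
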