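import Vale.Agent.Lib.P195.AR.HEval
import Vale.Agent.Lib.P195.AR.Win
import Vale.Agent.Lib.P195.Formal.Lin2

/-! # P195, part H1: the resolution `Q n` of `G_n`, the chain maps `φ n`, the sequences of the tower -/

namespace Vale.Agent.P195.AR.H1

open MvPolynomial

variable {k : Type} [Field k]

/-- two maps of windows `(L,0,0) → N` agree if the underlying maps agree on `L.F 0 0` -/
theorem mapE_ext {L : Bf k} {N : Wd k} {θ η : L.V →ₗ[k] N.L.V} (hθ : θ ∈ Hom L N.L)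
    (hη : η ∈ Hom L N.L) (h : ∀ v ∈ L.F 0 0, θ v = η v) (φ : Wn (WE L)) :
    Wn.mapE θ hθ φ = Wn.mapE η hη φ := by
  apply Wn.ext
  rw [Wn.mapE_f, Wn.mapE_f]
  have h1 : θ - η ∈ Hom L N.L := Submodule.sub_mem _ hθ hη
  have h2 : (θ - η) ∘ₗ φ.f = 0 := by
    refine ext_cmp (Hom.comp h1 φ.mem.1) (Submodule.zero_mem _) ?_ ?_ ?_
    · refine cmp_eq_zero (Hom.comp h1 φ.mem.1) ?_ ?_
      · intro b
        exact sub_eq_zero.2 (h _ (L.mono _ _ _ (by simp) (gen_o_mem φ.mem.1 b)))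
      · intro e
        exact ⟨sub_eq_zero.2 (h _ (gen_p_mem φ.mem.1 e).1),
          sub_eq_zero.2 (h _ (gen_p_mem φ.mem.1 e).2.1)⟩
    · rw [LinearMap.comp_assoc, WE_A φ.mem.2.1, LinearMap.comp_zero]; rfl
    · rw [LinearMap.comp_assoc, WE_B φ.mem.2.2, LinearMap.comp_zero]; rfl
  rw [LinearMap.sub_comp] at h2
  exact sub_eq_zero.1 h2

theorem mapE_comp {L L' : Bf k} {N : Bf k} {θ : L.V →ₗ[k] L'.V} {η : L'.V →ₗ[k] N.V}
    (hθ : θ ∈ Hom L L') (hη : η ∈ Hom L' N) (x : Wn (WE L)) :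
    Wn.mapE (N := WE N) η hη (Wn.mapE (N := WE L') θ hθ x) =
      Wn.mapE (N := WE N) (η ∘ₗ θ) (Hom.comp hη hθ) x := by
  apply Wn.ext
  rw [Wn.mapE_f, Wn.mapE_f, Wn.mapE_f, LinearMap.comp_assoc]

/-- commutative squares -/
theorem mapE_sq {L L1 L2 N : Bf k} {θ : L.V →ₗ[k] L1.V} {η : L1.V →ₗ[k] N.V}
    {θ' : L.V →ₗ[k] L2.V} {η' : L2.V →ₗ[k] N.V} (hθ : θ ∈ Hom L L1) (hη : η ∈ Hom L1 N)
    (hθ' : θ' ∈ Hom L L2) (hη' : η' ∈ Hom L2 N) (h : ∀ v ∈ L.F 0 0, η (θ v) = η' (θ' v))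
    (x : Wn (WE L)) :
    Wn.mapE (N := WE N) η hη (Wn.mapE (N := WE L1) θ hθ x) =
      Wn.mapE (N := WE N) η' hη' (Wn.mapE (N := WE L2) θ' hθ' x) := by
  rw [mapE_comp, mapE_comp]
  exact mapE_ext _ _ h x

/-- injectivity -/
theorem mapE_inj {L L' : Bf k} {θ : L.V →ₗ[k] L'.V} (hθ : θ ∈ Hom L L')
    (h0 : ∀ v ∈ L.F 0 0, θ v = 0 → v = 0) :
    Function.Injective (Wn.mapE (N := WE L') θ hθ) := by
  apply Wn.inj (N := WE L) (N' := WE L')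
  · exact h0
  · intro g hg _; exact WE_A hg
  · intro g hg _; exact WE_B hg

/-- surjectivity -/
theorem mapE_surj {L L' : Bf k} {θ : L.V →ₗ[k] L'.V} (hθ : θ ∈ Hom L L')
    (hO : ∀ b : Fin 3, ∀ v ∈ L'.F 0 (-(b : ℕ)), ∃ w ∈ L.F 0 (-(b : ℕ)), θ w = v)
    (hP : ∀ e : Fin 2, ∀ v1 ∈ L'.F 0 0, ∀ v2 ∈ L'.F 0 0,
      L'.x 1 v1 - L'.x 0 v2 ∈ L'.F 1 (-((e : ℕ) + 1)) →
      ∃ w1 ∈ L.F 0 0, ∃ w2 ∈ L.F 0 0,
        L.x 1 w1 - L.x 0 w2 ∈ L.F 1 (-((e : ℕ) + 1)) ∧ θ w1 = v1 ∧ θ w2 = v2) :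
    Function.Surjective (Wn.mapE (N := WE L') θ hθ) := by
  apply Wn.surj (N1 := WE L) (N2 := WE L')
  · exact hO
  · exact hP
  · intro g hg
    exact ⟨0, Submodule.zero_mem _, by rw [WE_A hg, LinearMap.comp_zero]⟩
  · intro g hg
    exact ⟨0, Submodule.zero_mem _, by rw [WE_B hg, LinearMap.comp_zero]⟩

/-- exactness -/
theorem mapE_exact {L L' L'' : Bf k} {θ : L.V →ₗ[k] L'.V} {η : L'.V →ₗ[k] L''.V}
    (hθ : θ ∈ Hom L L') (hη : η ∈ Hom L' L'') (h0 : ∀ v ∈ L.F 0 0, η (θ v) = 0)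
    (hO : ∀ b : Fin 3, ∀ v ∈ L'.F 0 (-(b : ℕ)), η v = 0 → ∃ w ∈ L.F 0 (-(b : ℕ)), θ w = v)
    (hP : ∀ e : Fin 2, ∀ v1 ∈ L'.F 0 0, ∀ v2 ∈ L'.F 0 0,
      L'.x 1 v1 - L'.x 0 v2 ∈ L'.F 1 (-((e : ℕ) + 1)) → η v1 = 0 → η v2 = 0 →
      ∃ w1 ∈ L.F 0 0, ∃ w2 ∈ L.F 0 0,
        L.x 1 w1 - L.x 0 w2 ∈ L.F 1 (-((e : ℕ) + 1)) ∧ θ w1 = v1 ∧ θ w2 = v2) :
    Function.Exact (Wn.mapE (N := WE L') θ hθ) (Wn.mapE (N := WE L'') η hη) := by
  apply Wn.exact (N1 := WE L) (N2 := WE L') (N3 := WE L'')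
  · exact h0
  · intro g hg
    rw [WE_A hg, LinearMap.comp_zero, LinearMap.comp_zero]
  · intro g hg
    rw [WE_B hg, LinearMap.comp_zero, LinearMap.comp_zero]
  · exact hO
  · exact hP
  · intro g hg _
    exact ⟨0, Submodule.zero_mem _, by rw [WE_A hg, LinearMap.comp_zero]⟩
  · intro g hg _
    exact ⟨0, Submodule.zero_mem _, by rw [WE_B hg, LinearMap.comp_zero]⟩

theorem SurP_of {M : Bw k} (h : ∀ a : ℤ, 0 ≤ a → Sj M a 0) : SurP M := by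
  intro a ha e _ v hv
  obtain ⟨v1, h1, v2, h2, e1⟩ := h a ha v hv
  exact ⟨v1, h1, v2, h2, 0, Submodule.zero_mem _, by rw [add_zero]; exact e1⟩

variable (k) in
/-- the modules of the resolution -/
noncomputable abbrev Q3 (n : ℕ) : ModuleCat.{0} (R k) :=
  ModuleCat.of (R k) (Wn (WE (hat (B3 k n))))

variable (k) in
/-- the modules of the resolution -/
noncomputable abbrev Q2 (n : ℕ) : ModuleCat.{0} (R k) :=
  ModuleCat.of (R k) (Wn (WE (hat (B2 k n))))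

variable (k) in
/-- the modules of the resolution -/
noncomputable abbrev Q1 (n : ℕ) : ModuleCat.{0} (R k) :=
  ModuleCat.of (R k) (Wn (WE (hat (B1 k n))))

variable (k) in
/-- the modules of the resolution -/
noncomputable abbrev Q0 (n : ℕ) : ModuleCat.{0} (R k) :=
  ModuleCat.of (R k) (Wn (WE (hat (B0 k n))))

variable (k) in
/-- the module `G_n` -/
noncomputable abbrev GG (n : ℕ) : ModuleCat.{0} (R k) :=
  ModuleCat.of (R k) (Wn (WE (hat (XX k n))))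

variable (k) in
/-- the module `Y_n` -/
noncomputable abbrev YY (n : ℕ) : ModuleCat.{0} (R k) :=
  ModuleCat.of (R k) (Wn (WE (triv (XX k n))))

/-- `Q3 → Q2` -/
noncomputable def mc (n : ℕ) : Wn (WE (hat (B3 k n))) →ₗ[R k] Wn (WE (hat (B2 k n))) :=
  Wn.mapE (L := hat (B3 k n)) (N := WE (hat (B2 k n))) (hm (mC n)) (hm_mem (mC_hom n))

/-- `Q2 → Q1` -/
noncomputable def mb (n : ℕ) : Wn (WE (hat (B2 k n))) →ₗ[R k] Wn (WE (hat (B1 k n))) :=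
  Wn.mapE (L := hat (B2 k n)) (N := WE (hat (B1 k n))) (hm (mB n)) (hm_mem (mB_hom n))

/-- `Q1 → Q0` -/
noncomputable def ma (n : ℕ) : Wn (WE (hat (B1 k n))) →ₗ[R k] Wn (WE (hat (B0 k n))) :=
  Wn.mapE (L := hat (B1 k n)) (N := WE (hat (B0 k n))) (hm (mA n)) (hm_mem (mA_hom n))

/-- `Q0 → G` -/
noncomputable def me (n : ℕ) : Wn (WE (hat (B0 k n))) →ₗ[R k] Wn (WE (hat (XX k n))) :=
  Wn.mapE (L := hat (B0 k n)) (N := WE (hat (XX k n))) (hm evX) (hm_mem (evX_hom n))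

section

variable [CharZero k]

theorem mc_inj (n : ℕ) : Function.Injective (mc (k := k) n) :=
  inj_hm (mC_hom n) (fun _ _ v hv h => exF_3 n v hv h)

theorem ex3 (n : ℕ) : Function.Exact (mc (k := k) n) (mb n) :=
  exact_hm (M0 := B3 k n) (M1 := B3 k n) (M2 := B2 k n) (M3 := B1 k n) (f0 := 0)
    (Submodule.zero_mem _) (mC_hom n) (mB_hom n)
    (fun _ _ _ _ => map_zero (mC n)) (fun _ _ _ hv => mB_mC hv)
    (fun _ _ _ _ _ v hv h => exF_2 n v hv h)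
    (fun _ _ v hv h => ⟨0, Submodule.zero_mem _, (exF_3 n v hv h).symm⟩)
    (SurP_of fun _ ha => Sj_SO ha)

theorem surP3 (n : ℕ) : SurP (B3 k n) := SurP_of fun _ ha => Sj_SO ha

theorem surP2 (n : ℕ) : SurP (B2 k n) :=
  SurP_of fun _ ha => Sj.prod (Sj_SP ha (by norm_num) le_rfl) (Sj_SP ha (by norm_num) le_rfl)

theorem surP1 (n : ℕ) : SurP (B1 k n) :=
  SurP_of fun _ ha => Sj.prod (Sj.prod (Sj_SO ha) (Sj_SO ha)) (Sj_SP ha (by norm_num) le_rfl)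

theorem ex2 (n : ℕ) : Function.Exact (mb (k := k) n) (ma n) := by
  have h := exact_hm (M0 := B3 k n) (M1 := B2 k n) (M2 := B1 k n) (M3 := B0 k n)
    (mC_hom n) (mB_hom n) (mA_hom n)
  refine h ?_ ?_ ?_ ?_ (surP3 n)
  · intro a _ v hv
    exact mB_mC hv
  · intro a _ v hv
    exact mA_mB hv
  · intro a b ha _ _ v hv h
    exact exF_1 n ha v hv h
  · intro a _ v hv h
    exact exF_2 n v hv h

theorem ex1 (n : ℕ) : Function.Exact (ma (k := k) n) (me n) := by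
  have h := exact_hm (M0 := B2 k n) (M1 := B1 k n) (M2 := B0 k n) (M3 := XX k n)
    (mB_hom n) (mA_hom n) (evX_hom n)
  refine h ?_ ?_ ?_ ?_ (surP2 n)
  · intro a _ v hv
    exact mA_mB hv
  · intro a _ v hv
    exact evX_mA hv
  · intro a b ha _ _ v hv h
    exact exF_0 n ha v hv h
  · intro a ha v hv h
    exact exF_1 n ha v hv h

theorem me_surj (n : ℕ) : Function.Surjective (me (k := k) n) := by
  have h := surj_hm (M0 := B1 k n) (M1 := B0 k n) (M2 := XX k n) (mA_hom n) (evX_hom n)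
  refine h ?_ ?_ ?_ (surP1 n)
  · intro a _ v hv
    exact evX_mA hv
  · intro a b ha hb _ v hv
    exact exF_X n ha hb v hv
  · intro a ha v hv h
    exact exF_0 n ha v hv h

variable (k) in
/-- the resolution of `G_n` -/
noncomputable def QQ (n : ℕ) : F.LEx4 (Q3 k n) (Q2 k n) (Q1 k n) (Q0 k n) (GG k n) where
  i := mc n
  d2 := mb n
  d1 := ma n
  p := me n
  inj := mc_inj n
  ex3 := ex3 n
  ex2 := ex2 n
  ex1 := ex1 n
  surj := me_surj n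

/-! ### the chain map -/

/-- `φ3` -/
noncomputable def f3 (n : ℕ) : Wn (WE (hat (B3 k (n + 1)))) →ₗ[R k] Wn (WE (hat (B3 k n))) :=
  Wn.mapE (L := hat (B3 k (n + 1))) (N := WE (hat (B3 k n))) (sm (mF3 n)) (sm_mem (mF3_hom n))

/-- `φ2` -/
noncomputable def f2 (n : ℕ) : Wn (WE (hat (B2 k (n + 1)))) →ₗ[R k] Wn (WE (hat (B2 k n))) :=
  Wn.mapE (L := hat (B2 k (n + 1))) (N := WE (hat (B2 k n))) (sm (mF2 n)) (sm_mem (mF2_hom n))

/-- `φ1` -/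
noncomputable def f1 (n : ℕ) : Wn (WE (hat (B1 k (n + 1)))) →ₗ[R k] Wn (WE (hat (B1 k n))) :=
  Wn.mapE (L := hat (B1 k (n + 1))) (N := WE (hat (B1 k n))) (sm (mF1 n)) (sm_mem (mF1_hom n))

/-- `φ0` -/
noncomputable def f0 (n : ℕ) : Wn (WE (hat (B0 k (n + 1)))) →ₗ[R k] Wn (WE (hat (B0 k n))) :=
  Wn.mapE (L := hat (B0 k (n + 1))) (N := WE (hat (B0 k n))) (sm (mF0 n)) (sm_mem (mF0_hom n))

omit [CharZero k] in
theorem c32 {n : ℕ} {a b : ℤ} {z : PA k} (hz : z ∈ (B3 k (n + 1)).F a b) :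
    mF2 n (mC (n + 1) z) = mC n (mF3 n z) := by
  rw [mem_B3] at hz
  exact F2C n z (Eul_of_mem hz)

omit [CharZero k] in
theorem c21 {n : ℕ} {a b : ℤ} {z : (PA k × PA k) × (PA k × PA k)}
    (hz : z ∈ (B2 k (n + 1)).F a b) : mF1 n (mB (n + 1) z) = mB n (mF2 n z) := by
  rw [mem_B2] at hz
  exact F1B n z (Eul_of_mem hz.1.1) (Eul_of_mem hz.1.2.1) (Eul_of_mem hz.2.1)
    (Eul_of_mem hz.2.2.1)

omit [CharZero k] in
theorem c10 {n : ℕ} {a b : ℤ} {z : (PA k × PA k) × (PA k × PA k)}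
    (hz : z ∈ (B1 k (n + 1)).F a b) : mF0 n (mA (n + 1) z) = mA n (mF1 n z) := by
  rw [mem_B1] at hz
  have h1 : z.2.1 ∈ (G n a (b + 2) : Submodule k (PA k)) :=
    G_cast hz.2.1 (by push_cast; ring) rfl rfl
  have h2 : z.2.2 ∈ (G n a (b + 2) : Submodule k (PA k)) :=
    G_cast hz.2.2.1 (by push_cast; ring) rfl rfl
  exact F0A n z (Eul_of_mem h1) (Eul_of_mem h2)

theorem c0X {n : ℕ} {a b : ℤ} {z : PA k} (hz : z ∈ (B0 k (n + 1)).F a b) :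
    evX (mF0 n z) = (((n : k) + 1) * ((n : k) + 1)) • evX z := by
  rw [mem_B0] at hz
  have e1 := ev_E hz
  have e2 : ev (fF0 n z) = (((n : k) + 1) * ((n : k) + 1)) • ev z := by
    rw [fF0_op, map_smul, map_add, e1, smul_smul]
    congr 2
    push_cast
    ring
  rw [evX_apply, evX_apply]
  change resx (ev (fF0 n z)) = _
  rw [e2, map_smul]

/-- the scaled inclusion `XX (n+1) → XX n (1,0)` -/
noncomputable def io (n : ℕ) : MvPolynomial (Fin 2) k →ₗ[k] MvPolynomial (Fin 2) k :=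
  (((n : k) + 1) * ((n : k) + 1)) • LinearMap.id

omit [CharZero k] in
theorem io_apply (n : ℕ) (v : MvPolynomial (Fin 2) k) :
    io n v = (((n : k) + 1) * ((n : k) + 1)) • v := rfl

omit [CharZero k] in
theorem io_hom (n : ℕ) : io n ∈ HomW (XX k (n + 1)) ((XX k n).shift 1 0) := by
  refine ⟨fun i z => ?_, fun i z => ?_, fun a b z hz => ?_⟩
  · rw [io_apply, io_apply]
    exact (map_smul ((XX k n).x i) _ _).symm
  · rw [io_apply, io_apply]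
    exact (map_smul ((XX k n).d i) _ _).symm
  · rw [io_apply]
    refine Submodule.smul_mem _ _ ?_
    change z ∈ Hx k (n + (a + 1))
    have h : z ∈ Hx k ((n + 1 : ℤ) + a) := hz
    rwa [show (n + 1 : ℤ) + a = n + (a + 1) by ring] at h

/-- `ι : Y (n+1) → G n` -/
noncomputable def ii (n : ℕ) : Wn (WE (triv (XX k ((n + 1 : ℕ) : ℤ)))) →ₗ[R k]
    Wn (WE (hat (XX k n))) :=
  Wn.mapE (L := triv (XX k ((n + 1 : ℕ) : ℤ))) (N := WE (hat (XX k n))) (um (io n))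
    (um_mem (io_hom n))

/-- `π : G n → Y n` -/
noncomputable def pp (n : ℕ) : Wn (WE (hat (XX k n))) →ₗ[R k] Wn (WE (triv (XX k n))) :=
  Wn.mapE (L := hat (XX k n)) (N := WE (triv (XX k n))) (tm LinearMap.id)
    (tm_mem (HomW.id _))

/-! ### `0 → Y (n+1) → G n → Y n → 0` -/

theorem c_ne (n : ℕ) : (((n : k) + 1) * ((n : k) + 1)) ≠ 0 := by
  have h : (n : k) + 1 ≠ 0 := by exact_mod_cast Nat.succ_ne_zero n
  exact mul_ne_zero h h

theorem ii_inj (n : ℕ) : Function.Injective (ii (k := k) n) := by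
  refine mapE_inj (L := triv (XX k ((n + 1 : ℕ) : ℤ))) (L' := hat (XX k n)) (um_mem (io_hom n))
    (fun v _ h => ?_)
  have h1 : io n v = 0 := congrArg Prod.snd h
  rw [io_apply] at h1
  exact (smul_eq_zero.1 h1).resolve_left (c_ne n)

theorem pp_surj (n : ℕ) : Function.Surjective (pp (k := k) n) := by
  refine mapE_surj (L := hat (XX k n)) (L' := triv (XX k n)) (tm_mem (HomW.id _))
    (fun b v hv => ?_) (fun e v1 hv1 v2 hv2 h => ?_)
  · exact ⟨(v, 0), ⟨hv, Submodule.zero_mem _⟩, rfl⟩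
  · refine ⟨(v1, 0), ⟨hv1, Submodule.zero_mem _⟩, (v2, 0), ⟨hv2, Submodule.zero_mem _⟩,
      ⟨h, ?_⟩, rfl, rfl⟩
    change (XX k n).x 1 0 - (XX k n).x 0 0 ∈ _
    rw [map_zero, map_zero, sub_zero]
    exact Submodule.zero_mem _

theorem io_inv (n : ℕ) (v : MvPolynomial (Fin 2) k) :
    io n ((((n : k) + 1) * ((n : k) + 1))⁻¹ • v) = v := by
  rw [io_apply, smul_smul, mul_inv_cancel₀ (c_ne n), one_smul]

theorem ip_key (n : ℕ) {a b : ℤ} {v : (hat (XX k n)).V} (hv : v ∈ (hat (XX k n)).F a b)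
    (h : v.1 = 0) :
    ((((n : k) + 1) * ((n : k) + 1))⁻¹ • v.2) ∈ (triv (XX k ((n + 1 : ℕ) : ℤ))).F a b ∧
      um (M := XX k ((n + 1 : ℕ) : ℤ)) (N := XX k n) (io n)
        ((((n : k) + 1) * ((n : k) + 1))⁻¹ • v.2) = v := by
  refine ⟨Submodule.smul_mem _ _ ?_, Prod.ext h.symm (io_inv n v.2)⟩
  have h2 : v.2 ∈ Hx k (n + (a + 1)) := hv.2
  change v.2 ∈ Hx k (((n + 1 : ℕ) : ℤ) + a)
  rwa [show ((n + 1 : ℕ) : ℤ) + a = n + (a + 1) by push_cast; ring]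

theorem ip_exact (n : ℕ) : Function.Exact (ii (k := k) n) (pp n) := by
  refine mapE_exact (L := triv (XX k ((n + 1 : ℕ) : ℤ))) (L' := hat (XX k n))
    (L'' := triv (XX k n)) (um_mem (io_hom n)) (tm_mem (HomW.id _)) (fun v _ => rfl)
    (fun b v hv h => ?_) (fun e v1 hv1 v2 hv2 h h1 h2 => ?_)
  · obtain ⟨h1, h2⟩ := ip_key n hv h
    exact ⟨_, h1, h2⟩
  · obtain ⟨w1, e1⟩ := ip_key n hv1 h1
    obtain ⟨w2, e2⟩ := ip_key n hv2 h2
    refine ⟨_, w1, _, w2, ?_, e1, e2⟩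
    have h3 : ((hat (XX k n)).x 1 v1 - (hat (XX k n)).x 0 v2).1 = 0 := by
      change (XX k n).x 1 v1.1 - (XX k n).x 0 v2.1 = 0
      have h1' : v1.1 = 0 := h1
      have h2' : v2.1 = 0 := h2
      rw [h1', h2', map_zero, map_zero, sub_zero]
    obtain ⟨w3, _⟩ := ip_key n h h3
    have e3 : ((hat (XX k n)).x 1 v1 - (hat (XX k n)).x 0 v2).2 =
      (XX k n).x 1 v1.2 - (XX k n).x 0 v2.2 := rfl
    rw [e3, smul_sub] at w3
    have e4 : ∀ (i : Fin 2) (c : k) (v : MvPolynomial (Fin 2) k),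
      c • (XX k n).x i v = (triv (XX k ((n + 1 : ℕ) : ℤ))).x i (c • v) := fun i c v =>
        (map_smul ((XX k n).x i) c v).symm
    rw [e4, e4] at w3
    exact w3

/-! ### commutation -/

theorem cc3 (n : ℕ) (x : Wn (WE (hat (B3 k (n + 1))))) :
    f2 n (mc (n + 1) x) = mc n (f3 n x) :=
  mapE_sq (L := hat (B3 k (n + 1))) (L1 := hat (B2 k (n + 1))) (L2 := hat (B3 k n))
    (N := hat (B2 k n)) (hm_mem (mC_hom (n + 1))) (sm_mem (mF2_hom n)) (sm_mem (mF3_hom n))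
    (hm_mem (mC_hom n)) (fun v hv => Prod.ext (map_zero (mC n)).symm (c32 hv.1)) x

theorem cc2 (n : ℕ) (x : Wn (WE (hat (B2 k (n + 1))))) :
    f1 n (mb (n + 1) x) = mb n (f2 n x) :=
  mapE_sq (L := hat (B2 k (n + 1))) (L1 := hat (B1 k (n + 1))) (L2 := hat (B2 k n))
    (N := hat (B1 k n)) (hm_mem (mB_hom (n + 1))) (sm_mem (mF1_hom n)) (sm_mem (mF2_hom n))
    (hm_mem (mB_hom n)) (fun v hv => Prod.ext (map_zero (mB n)).symm (c21 hv.1)) x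

theorem cc1 (n : ℕ) (x : Wn (WE (hat (B1 k (n + 1))))) :
    f0 n (ma (n + 1) x) = ma n (f1 n x) :=
  mapE_sq (L := hat (B1 k (n + 1))) (L1 := hat (B0 k (n + 1))) (L2 := hat (B1 k n))
    (N := hat (B0 k n)) (hm_mem (mA_hom (n + 1))) (sm_mem (mF0_hom n)) (sm_mem (mF1_hom n))
    (hm_mem (mA_hom n)) (fun _ hv => Prod.ext (map_zero (mA n)).symm (c10 hv.1)) x

theorem ipc (n : ℕ) (x : Wn (WE (hat (XX k ((n + 1 : ℕ) : ℤ))))) :
    ii n (pp (n + 1) x) = Wn.mapE (L := hat (XX k ((n + 1 : ℕ) : ℤ))) (N := WE (hat (XX k n)))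
      (sm (io n)) (sm_mem (io_hom n)) x :=
  mapE_comp (L := hat (XX k ((n + 1 : ℕ) : ℤ))) (L' := triv (XX k ((n + 1 : ℕ) : ℤ)))
    (N := hat (XX k n)) (tm_mem (HomW.id _)) (um_mem (io_hom n)) x

theorem cc0 (n : ℕ) (x : Wn (WE (hat (B0 k (n + 1))))) :
    ii n (pp (n + 1) (me (n + 1) x)) = me n (f0 n x) := by
  rw [ipc]
  exact mapE_sq (L := hat (B0 k (n + 1))) (L1 := hat (XX k ((n + 1 : ℕ) : ℤ)))
    (L2 := hat (B0 k n)) (N := hat (XX k n)) (hm_mem (evX_hom (n + 1))) (sm_mem (io_hom n))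
    (sm_mem (mF0_hom n)) (hm_mem (evX_hom n))
    (fun _ hv => Prod.ext (map_zero (evX (k := k))).symm (c0X hv.1).symm) x

variable (k) in
/-- the chain map -/
noncomputable def ph (n : ℕ) : F.LHom4 (QQ k (n + 1)) (QQ k n) (f3 n) (ii n ∘ₗ pp (n + 1)) where
  x2 := f2 n
  x1 := f1 n
  x0 := f0 n
  ci := cc3 n
  c2 := cc2 n
  c1 := cc1 n
  cp := cc0 n

end

end Vale.Agent.P195.AR.H1
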