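import Vale.Agent.Lib.P195.AR.HEval

/-! # P195, part H1: exactness of the hats of the resolution at the five evaluation windows -/

namespace Vale.Agent.P195.AR.H1

open MvPolynomial SeqM

variable {k : Type} [Field k]

/-- exactness at the window `P_e`, the composition being zero on `F 0 0` -/
theorem ep_ex {M0 M1 M2 M3 : Bf k} {d : M0.V →ₗ[k] M1.V} {f : M1.V →ₗ[k] M2.V}
    {g : M2.V →ₗ[k] M3.V} (hd : d ∈ Hom M0 M1) (hf : f ∈ Hom M1 M2) (hg : g ∈ Hom M2 M3)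
    (hfd : ∀ v ∈ M0.F 0 0, f (d v) = 0) {e : ℤ} (he : 0 ≤ e)
    (e1 : ∀ z ∈ M2.F 0 0, g z = 0 → ∃ y ∈ M1.F 0 0, f y = z)
    (e2 : ∀ z ∈ M2.F 1 (-e), g z = 0 → ∃ y ∈ M1.F 1 (-e), f y = z)
    (e3 : ∀ y ∈ M1.F 1 0, f y = 0 → ∃ y' ∈ M0.F 1 0, d y' = y)
    (surj : ∀ y' ∈ M0.F 1 0, ∃ v1 ∈ M0.F 0 0, ∃ v2 ∈ M0.F 0 0, ∃ v' ∈ M0.F 1 (-e),
      y' = M0.x 1 v1 - M0.x 0 v2 + v')
    (z : M2.V × M2.V) (hz : z ∈ EP M2 e) (h1 : g z.1 = 0) (h2 : g z.2 = 0) :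
    ∃ y ∈ EP M1 e, (f y.1, f y.2) = z :=
  PEx.exact d f (M0.x 0) (M0.x 1) (M1.x 0) (M1.x 1) (M2.x 0) (M2.x 1)
    (fun v => hd.1.1 0 v) (fun v => hd.1.1 1 v) (fun v => hf.1.1 0 v) (fun v => hf.1.1 1 v)
    (M0.F 0 0) (M0.F 1 0) (M0.F 1 (-e)) (M1.F 0 0) (M1.F 1 0) (M1.F 1 (-e)) (M2.F 0 0)
    (M2.F 1 (-e)) (LinearMap.ker g) (fun v hv => hd.1.2.2 _ _ v hv)
    (fun v hv => hd.1.2.2 _ _ v hv) (M1.mono _ _ _ (by omega)) (fun _ hv => F_x 0 hv)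
    (fun _ hv => F_x 1 hv) (fun v hv => hfd v hv) (fun v hv => ker_x hg 0 v hv)
    (fun v hv => ker_x hg 1 v hv) (fun z hz h => e1 z hz h) (fun z hz h => e2 z hz h) e3 surj
    z hz h1 h2

/-- surjectivity at the window `P_e`, the composition being zero on `F 0 0` -/
theorem ep_su {M0 M1 M2 : Bf k} {d : M0.V →ₗ[k] M1.V} {f : M1.V →ₗ[k] M2.V}
    (hd : d ∈ Hom M0 M1) (hf : f ∈ Hom M1 M2)
    (hfd : ∀ v ∈ M0.F 0 0, f (d v) = 0) {e : ℤ} (he : 0 ≤ e)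
    (e1 : ∀ z ∈ M2.F 0 0, ∃ y ∈ M1.F 0 0, f y = z)
    (e2 : ∀ z ∈ M2.F 1 (-e), ∃ y ∈ M1.F 1 (-e), f y = z)
    (e3 : ∀ y ∈ M1.F 1 0, f y = 0 → ∃ y' ∈ M0.F 1 0, d y' = y)
    (surj : ∀ y' ∈ M0.F 1 0, ∃ v1 ∈ M0.F 0 0, ∃ v2 ∈ M0.F 0 0, ∃ v' ∈ M0.F 1 (-e),
      y' = M0.x 1 v1 - M0.x 0 v2 + v')
    (z : M2.V × M2.V) (hz : z ∈ EP M2 e) :
    ∃ y ∈ EP M1 e, (f y.1, f y.2) = z :=
  PEx.exact d f (M0.x 0) (M0.x 1) (M1.x 0) (M1.x 1) (M2.x 0) (M2.x 1)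
    (fun v => hd.1.1 0 v) (fun v => hd.1.1 1 v) (fun v => hf.1.1 0 v) (fun v => hf.1.1 1 v)
    (M0.F 0 0) (M0.F 1 0) (M0.F 1 (-e)) (M1.F 0 0) (M1.F 1 0) (M1.F 1 (-e)) (M2.F 0 0)
    (M2.F 1 (-e)) ⊤ (fun v hv => hd.1.2.2 _ _ v hv)
    (fun v hv => hd.1.2.2 _ _ v hv) (M1.mono _ _ _ (by omega)) (fun _ hv => F_x 0 hv)
    (fun _ hv => F_x 1 hv) (fun v hv => hfd v hv) (fun _ _ => trivial)
    (fun _ _ => trivial) (fun z hz _ => e1 z hz) (fun z hz _ => e2 z hz) e3 surj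
    z hz trivial trivial

variable [CharZero k]

/-! ### the pieces -/

theorem qX (n : ℕ) {a c : ℤ} (ha : 0 ≤ a) (hc : -2 ≤ c) (z : (hat (XX k n)).V)
    (hz : z ∈ (hat (XX k n)).F a c) :
    ∃ y ∈ (hat (B0 k n)).F a c, hm (M := B0 k n) (N := XX k n) evX y = z :=
  hat_surj (M := B0 k n) (N := XX k n) evX (exF_X n ha hc) (exF_X n (by omega) hc) z hz

theorem q0 (n : ℕ) {a c : ℤ} (ha : 0 ≤ a) (z : (hat (B0 k n)).V)
    (hz : z ∈ (hat (B0 k n)).F a c) (h : hm (M := B0 k n) (N := XX k n) evX z = 0) :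
    ∃ y ∈ (hat (B1 k n)).F a c, hm (M := B1 k n) (N := B0 k n) (mA n) y = z :=
  hat_ex (M := B1 k n) (N := B0 k n) (P := XX k n) (mA n) evX (exF_0 n ha) (exF_0 n (by omega))
    z hz h

theorem q1 (n : ℕ) {a c : ℤ} (ha : 0 ≤ a) (z : (hat (B1 k n)).V)
    (hz : z ∈ (hat (B1 k n)).F a c) (h : hm (M := B1 k n) (N := B0 k n) (mA n) z = 0) :
    ∃ y ∈ (hat (B2 k n)).F a c, hm (M := B2 k n) (N := B1 k n) (mB n) y = z :=
  hat_ex (M := B2 k n) (N := B1 k n) (P := B0 k n) (mB n) (mA n) (exF_1 n ha)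
    (exF_1 n (by omega)) z hz h

theorem q2 (n : ℕ) {a c : ℤ} (z : (hat (B2 k n)).V)
    (hz : z ∈ (hat (B2 k n)).F a c) (h : hm (M := B2 k n) (N := B1 k n) (mB n) z = 0) :
    ∃ y ∈ (hat (B3 k n)).F a c, hm (M := B3 k n) (N := B2 k n) (mC n) y = z :=
  hat_ex (M := B3 k n) (N := B2 k n) (P := B1 k n) (mC n) (mB n) (exF_2 n) (exF_2 n) z hz h

theorem q3 (n : ℕ) {a c : ℤ} (z : (hat (B3 k n)).V)
    (hz : z ∈ (hat (B3 k n)).F a c) (h : hm (M := B3 k n) (N := B2 k n) (mC n) z = 0) : z = 0 :=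
  Prod.ext (exF_3 n _ hz.1 (congrArg Prod.fst h)) (exF_3 n _ hz.2 (congrArg Prod.snd h))

/-! ### zero compositions -/

theorem z0 (n : ℕ) {a c : ℤ} (z : (hat (B1 k n)).V) (hz : z ∈ (hat (B1 k n)).F a c) :
    hm (M := B0 k n) (N := XX k n) evX (hm (M := B1 k n) (N := B0 k n) (mA n) z) = 0 :=
  Prod.ext (evX_mA hz.1) (evX_mA hz.2)

theorem z1 (n : ℕ) {a c : ℤ} (z : (hat (B2 k n)).V) (hz : z ∈ (hat (B2 k n)).F a c) :
    hm (M := B1 k n) (N := B0 k n) (mA n) (hm (M := B2 k n) (N := B1 k n) (mB n) z) = 0 :=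
  Prod.ext (mA_mB hz.1) (mA_mB hz.2)

theorem z2 (n : ℕ) {a c : ℤ} (z : (hat (B3 k n)).V) (hz : z ∈ (hat (B3 k n)).F a c) :
    hm (M := B2 k n) (N := B1 k n) (mB n) (hm (M := B3 k n) (N := B2 k n) (mC n) z) = 0 :=
  Prod.ext (mB_mC hz.1) (mB_mC hz.2)

/-! ### (Surj) -/

theorem s3 (n : ℕ) {c' : ℤ} (f : (hat (B3 k n)).V) (hf : f ∈ (hat (B3 k n)).F 1 0) :
    ∃ v1 ∈ (hat (B3 k n)).F 0 0, ∃ v2 ∈ (hat (B3 k n)).F 0 0, ∃ v' ∈ (hat (B3 k n)).F 1 c',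
      f = (hat (B3 k n)).x 1 v1 - (hat (B3 k n)).x 0 v2 + v' := by
  refine hat_Surj (N := B3 k n) (a := 0) (c := 0) (c' := c') (fun y hy => ?_) (fun y hy => ?_) f hf
  · obtain ⟨v1, h1, v2, h2, e⟩ := Sj_SO (k := k) (m := n) (b0 := 0) (a := 0) (c := 0) le_rfl y hy
    exact ⟨v1, h1, v2, h2, 0, Submodule.zero_mem _, by rw [add_zero]; exact e⟩
  · obtain ⟨v1, h1, v2, h2, e⟩ := Sj_SO (k := k) (m := n) (b0 := 0) (a := 0 + 1) (c := 0)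
      (by norm_num) y hy
    exact ⟨v1, h1, v2, h2, 0, Submodule.zero_mem _, by rw [add_zero]; exact e⟩

theorem s2 (n : ℕ) {c' : ℤ} (f : (hat (B2 k n)).V) (hf : f ∈ (hat (B2 k n)).F 1 0) :
    ∃ v1 ∈ (hat (B2 k n)).F 0 0, ∃ v2 ∈ (hat (B2 k n)).F 0 0, ∃ v' ∈ (hat (B2 k n)).F 1 c',
      f = (hat (B2 k n)).x 1 v1 - (hat (B2 k n)).x 0 v2 + v' := by
  have key : ∀ a : ℤ, 0 ≤ a → Sj (B2 k n) a 0 := fun a ha =>
    Sj.prod (Sj_SP ha (by norm_num) le_rfl) (Sj_SP ha (by norm_num) le_rfl)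
  refine hat_Surj (N := B2 k n) (a := 0) (c := 0) (c' := c') (fun y hy => ?_) (fun y hy => ?_) f hf
  · obtain ⟨v1, h1, v2, h2, e⟩ := key 0 le_rfl y hy
    exact ⟨v1, h1, v2, h2, 0, Submodule.zero_mem _, by rw [add_zero]; exact e⟩
  · obtain ⟨v1, h1, v2, h2, e⟩ := key (0 + 1) (by norm_num) y hy
    exact ⟨v1, h1, v2, h2, 0, Submodule.zero_mem _, by rw [add_zero]; exact e⟩

theorem s1 (n : ℕ) {c' : ℤ} (f : (hat (B1 k n)).V) (hf : f ∈ (hat (B1 k n)).F 1 0) :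
    ∃ v1 ∈ (hat (B1 k n)).F 0 0, ∃ v2 ∈ (hat (B1 k n)).F 0 0, ∃ v' ∈ (hat (B1 k n)).F 1 c',
      f = (hat (B1 k n)).x 1 v1 - (hat (B1 k n)).x 0 v2 + v' := by
  have key : ∀ a : ℤ, 0 ≤ a → Sj (B1 k n) a 0 := fun a ha =>
    Sj.prod (Sj.prod (Sj_SO ha) (Sj_SO ha)) (Sj_SP ha (by norm_num) le_rfl)
  refine hat_Surj (N := B1 k n) (a := 0) (c := 0) (c' := c') (fun y hy => ?_) (fun y hy => ?_) f hf
  · obtain ⟨v1, h1, v2, h2, e⟩ := key 0 le_rfl y hy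
    exact ⟨v1, h1, v2, h2, 0, Submodule.zero_mem _, by rw [add_zero]; exact e⟩
  · obtain ⟨v1, h1, v2, h2, e⟩ := key (0 + 1) (by norm_num) y hy
    exact ⟨v1, h1, v2, h2, 0, Submodule.zero_mem _, by rw [add_zero]; exact e⟩

/-! ### the windows `P_e` -/

variable {e : ℤ}

theorem pX (n : ℕ) (he : 0 ≤ e) (he2 : e ≤ 2) (z : (hat (XX k n)).V × (hat (XX k n)).V)
    (hz : z ∈ EP (hat (XX k n)) e) :
    ∃ y ∈ EP (hat (B0 k n)) e, (hm (M := B0 k n) (N := XX k n) evX y.1,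
      hm (M := B0 k n) (N := XX k n) evX y.2) = z :=
  ep_su (M0 := hat (B1 k n)) (M1 := hat (B0 k n)) (M2 := hat (XX k n))
    (d := hm (M := B1 k n) (N := B0 k n) (mA n)) (f := hm (M := B0 k n) (N := XX k n) evX)
    (hm_mem (mA_hom n)) (hm_mem (evX_hom n)) (fun v hv => z0 n v hv) he
    (fun z hz => qX n le_rfl (by norm_num) z hz)
    (fun z hz => qX n (by norm_num) (by omega) z hz)
    (fun z hz h => q0 n (by norm_num) z hz h) (fun f hf => s1 n f hf) z hz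

theorem p0 (n : ℕ) (he : 0 ≤ e) (z : (hat (B0 k n)).V × (hat (B0 k n)).V)
    (hz : z ∈ EP (hat (B0 k n)) e) (h1 : hm (M := B0 k n) (N := XX k n) evX z.1 = 0)
    (h2 : hm (M := B0 k n) (N := XX k n) evX z.2 = 0) :
    ∃ y ∈ EP (hat (B1 k n)) e, (hm (M := B1 k n) (N := B0 k n) (mA n) y.1,
      hm (M := B1 k n) (N := B0 k n) (mA n) y.2) = z :=
  ep_ex (M0 := hat (B2 k n)) (M1 := hat (B1 k n)) (M2 := hat (B0 k n)) (M3 := hat (XX k n))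
    (d := hm (M := B2 k n) (N := B1 k n) (mB n)) (f := hm (M := B1 k n) (N := B0 k n) (mA n))
    (g := hm (M := B0 k n) (N := XX k n) evX)
    (hm_mem (mB_hom n)) (hm_mem (mA_hom n)) (hm_mem (evX_hom n)) (fun v hv => z1 n v hv) he
    (fun z hz h => q0 n le_rfl z hz h)
    (fun z hz h => q0 n (by norm_num) z hz h)
    (fun z hz h => q1 n (by norm_num) z hz h) (fun f hf => s2 n f hf) z hz h1 h2

theorem p1 (n : ℕ) (he : 0 ≤ e) (z : (hat (B1 k n)).V × (hat (B1 k n)).V)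
    (hz : z ∈ EP (hat (B1 k n)) e) (h1 : hm (M := B1 k n) (N := B0 k n) (mA n) z.1 = 0)
    (h2 : hm (M := B1 k n) (N := B0 k n) (mA n) z.2 = 0) :
    ∃ y ∈ EP (hat (B2 k n)) e, (hm (M := B2 k n) (N := B1 k n) (mB n) y.1,
      hm (M := B2 k n) (N := B1 k n) (mB n) y.2) = z :=
  ep_ex (M0 := hat (B3 k n)) (M1 := hat (B2 k n)) (M2 := hat (B1 k n)) (M3 := hat (B0 k n))
    (d := hm (M := B3 k n) (N := B2 k n) (mC n)) (f := hm (M := B2 k n) (N := B1 k n) (mB n))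
    (g := hm (M := B1 k n) (N := B0 k n) (mA n))
    (hm_mem (mC_hom n)) (hm_mem (mB_hom n)) (hm_mem (mA_hom n)) (fun v hv => z2 n v hv) he
    (fun z hz h => q1 n le_rfl z hz h)
    (fun z hz h => q1 n (by norm_num) z hz h)
    (fun z hz h => q2 n z hz h) (fun f hf => s3 n f hf) z hz h1 h2

theorem p2 (n : ℕ) (he : 0 ≤ e) (z : (hat (B2 k n)).V × (hat (B2 k n)).V)
    (hz : z ∈ EP (hat (B2 k n)) e) (h1 : hm (M := B2 k n) (N := B1 k n) (mB n) z.1 = 0)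
    (h2 : hm (M := B2 k n) (N := B1 k n) (mB n) z.2 = 0) :
    ∃ y ∈ EP (hat (B3 k n)) e, (hm (M := B3 k n) (N := B2 k n) (mC n) y.1,
      hm (M := B3 k n) (N := B2 k n) (mC n) y.2) = z :=
  ep_exact_inj (M1 := hat (B3 k n)) (M2 := hat (B2 k n)) (M3 := hat (B1 k n))
    (f := hm (M := B3 k n) (N := B2 k n) (mC n)) (g := hm (M := B2 k n) (N := B1 k n) (mB n))
    (hm_mem (mC_hom n)) (hm_mem (mB_hom n)) he (fun z hz h => q2 n z hz h)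
    (fun z hz h => q2 n z hz h) (fun z hz h => q3 n z hz h) z hz h1 h2

end Vale.Agent.P195.AR.H1
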