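import Vale.Agent.Lib.P195.AR.Basic

/-!
# P195: trihomogeneous polynomials `H m p q` (y-degree m, x-degree p, d-degree q)

Top symbols: `G m a b = H m (a+b) b ⊕ G m a (b-1)`; Euler identities; Koszul lemmas.
-/

namespace Vale.Agent.P195.AR.S5

open MvPolynomial

variable {k : Type} [Field k]

/-- exponents with `y`-degree `m`, `x`-degree `p`, `d`-degree `q` -/
def Hs (m p q : ℤ) : Set (Vr →₀ ℕ) :=
  {μ | (ydeg μ : ℤ) = m ∧ (xdeg μ : ℤ) = p ∧ (ddeg μ : ℤ) = q}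

/-- trihomogeneous polynomials -/
noncomputable def H (m p q : ℤ) : Submodule k (PA k) := restrictSupport k (Hs m p q)

theorem mem_H (m p q : ℤ) (f : PA k) :
    f ∈ H m p q ↔ ∀ μ ∈ f.support, (ydeg μ : ℤ) = m ∧ (xdeg μ : ℤ) = p ∧ (ddeg μ : ℤ) = q :=
  Iff.rfl

theorem H_le_G (m p q a b : ℤ) (h1 : p - q = a) (h2 : q ≤ b) :
    (H m p q : Submodule k (PA k)) ≤ G m a b := by
  intro f hf μ hμ
  obtain ⟨h3, h4, h5⟩ := hf hμ
  refine ⟨h3, ?_, ?_⟩ <;> omega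

theorem H_neg (m p q : ℤ) (h : m < 0 ∨ p < 0 ∨ q < 0) : (H m p q : Submodule k (PA k)) = ⊥ := by
  rw [eq_bot_iff]
  intro f hf
  rw [Submodule.mem_bot, ← MvPolynomial.support_eq_empty, Finset.eq_empty_iff_forall_notMem]
  intro μ hμ
  obtain ⟨h1, h2, h3⟩ := hf hμ
  rcases h with h | h | h <;> omega

theorem monomial_mem_H (m p q : ℤ) (μ : Vr →₀ ℕ) (c : k) (h : μ ∈ Hs m p q) :
    monomial μ c ∈ (H m p q : Submodule k (PA k)) := by
  intro ν hν
  have := MvPolynomial.support_monomial_subset hν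
  rw [Finset.mem_singleton] at this
  rw [this]; exact h

theorem H_induction {m p q : ℤ} {M : Type*} [AddCommGroup M] [Module k M] (φ : PA k →ₗ[k] M)
    (S : Submodule k M) (h : ∀ μ ∈ Hs m p q, φ (monomial μ 1) ∈ S) (f : PA k)
    (hf : f ∈ (H m p q : Submodule k (PA k))) : φ f ∈ S := by
  rw [f.as_sum, map_sum]
  apply Submodule.sum_mem
  intro μ hμ
  have : monomial μ (coeff μ f) = coeff μ f • monomial μ (1 : k) := by
    rw [smul_monomial, smul_eq_mul, mul_one]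
  rw [this, map_smul]
  exact S.smul_mem _ (h μ (hf hμ))

/-- two linear maps which agree on the monomials of `H m p q` agree on `H m p q` -/
theorem H_ext {m p q : ℤ} {M : Type*} [AddCommGroup M] [Module k M] (φ ψ : PA k →ₗ[k] M)
    (h : ∀ μ ∈ Hs m p q, φ (monomial μ 1) = ψ (monomial μ 1)) (f : PA k)
    (hf : f ∈ (H m p q : Submodule k (PA k))) : φ f = ψ f := by
  have h1 := H_induction (φ - ψ) ⊥ (fun μ hμ => by
    rw [Submodule.mem_bot, LinearMap.sub_apply, h μ hμ, sub_self]) f hf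
  rw [Submodule.mem_bot, LinearMap.sub_apply, sub_eq_zero] at h1
  exact h1

theorem mulX_mem_H (v : Vr) {m p q m' p' q' : ℤ}
    (h : ∀ μ ∈ Hs m p q, μ + Finsupp.single v 1 ∈ Hs m' p' q') (f : PA k)
    (hf : f ∈ (H m p q : Submodule k (PA k))) : X v * f ∈ (H m' p' q' : Submodule k (PA k)) := by
  refine H_induction (LinearMap.mulLeft k (X v)) _ ?_ f hf
  intro μ hμ
  rw [LinearMap.mulLeft_apply, X, monomial_mul, mul_one, add_comm]
  exact monomial_mem_H _ _ _ _ _ (h μ hμ)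

theorem pderiv_mem_H (v : Vr) {m p q m' p' q' : ℤ}
    (h : ∀ μ ∈ Hs m p q, μ v ≠ 0 → μ - Finsupp.single v 1 ∈ Hs m' p' q') (f : PA k)
    (hf : f ∈ (H m p q : Submodule k (PA k))) :
    pderiv v f ∈ (H m' p' q' : Submodule k (PA k)) := by
  refine H_induction (pderiv (R := k) v).toLinearMap _ ?_ f hf
  intro μ hμ
  change pderiv v (monomial μ 1) ∈ _
  rw [pderiv_monomial]
  by_cases h0 : μ v = 0
  · rw [h0]; simp
  · exact monomial_mem_H _ _ _ _ _ (h μ hμ h0)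

theorem x_mem_H (i : Fin 2) (m p q : ℤ) (f : PA k) (hf : f ∈ (H m p q : Submodule k (PA k))) :
    X (Vr.x i) * f ∈ (H m (p + 1) q : Submodule k (PA k)) := by
  refine mulX_mem_H _ ?_ f hf
  rintro μ ⟨h1, h2, h3⟩
  fin_cases i <;> simp [Hs, ydeg, xdeg, ddeg] at * <;> omega

theorem d_mem_H (i : Fin 2) (m p q : ℤ) (f : PA k) (hf : f ∈ (H m p q : Submodule k (PA k))) :
    X (Vr.d i) * f ∈ (H m p (q + 1) : Submodule k (PA k)) := by
  refine mulX_mem_H _ ?_ f hf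
  rintro μ ⟨h1, h2, h3⟩
  fin_cases i <;> simp [Hs, ydeg, xdeg, ddeg] at * <;> omega

theorem y_mem_H (i : Fin 2) (m p q : ℤ) (f : PA k) (hf : f ∈ (H m p q : Submodule k (PA k))) :
    X (Vr.y i) * f ∈ (H (m + 1) p q : Submodule k (PA k)) := by
  refine mulX_mem_H _ ?_ f hf
  rintro μ ⟨h1, h2, h3⟩
  fin_cases i <;> simp [Hs, ydeg, xdeg, ddeg] at * <;> omega

theorem dx_mem_H (i : Fin 2) (m p q : ℤ) (f : PA k) (hf : f ∈ (H m p q : Submodule k (PA k))) :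
    pderiv (Vr.x i) f ∈ (H m (p - 1) q : Submodule k (PA k)) := by
  refine pderiv_mem_H _ ?_ f hf
  rintro μ ⟨h1, h2, h3⟩ h0
  fin_cases i <;> simp [Hs, ydeg, xdeg, ddeg] at * <;> omega

theorem dd_mem_H (i : Fin 2) (m p q : ℤ) (f : PA k) (hf : f ∈ (H m p q : Submodule k (PA k))) :
    pderiv (Vr.d i) f ∈ (H m p (q - 1) : Submodule k (PA k)) := by
  refine pderiv_mem_H _ ?_ f hf
  rintro μ ⟨h1, h2, h3⟩ h0
  fin_cases i <;> simp [Hs, ydeg, xdeg, ddeg] at * <;> omega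

theorem dy_mem_H (i : Fin 2) (m p q : ℤ) (f : PA k) (hf : f ∈ (H m p q : Submodule k (PA k))) :
    pderiv (Vr.y i) f ∈ (H (m - 1) p q : Submodule k (PA k)) := by
  refine pderiv_mem_H _ ?_ f hf
  rintro μ ⟨h1, h2, h3⟩ h0
  fin_cases i <;> simp [Hs, ydeg, xdeg, ddeg] at * <;> omega

/-! ### top symbols -/

/-- splitting off the top symbol -/
theorem G_split (m a b : ℤ) (f : PA k) (hf : f ∈ (G m a b : Submodule k (PA k))) :
    ∃ f0 ∈ (H m (a + b) b : Submodule k (PA k)), ∃ f1 ∈ (G m a (b - 1) : Submodule k (PA k)),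
      f = f0 + f1 := by
  classical
  refine ⟨∑ μ ∈ f.support.filter (fun μ => (ddeg μ : ℤ) = b), monomial μ (coeff μ f), ?_,
    ∑ μ ∈ f.support.filter (fun μ => ¬ (ddeg μ : ℤ) = b), monomial μ (coeff μ f), ?_, ?_⟩
  · apply Submodule.sum_mem
    intro μ hμ
    rw [Finset.mem_filter] at hμ
    obtain ⟨h1, h2, h3⟩ := hf hμ.1
    exact monomial_mem_H _ _ _ _ _ ⟨h1, by omega, hμ.2⟩
  · apply Submodule.sum_mem
    intro μ hμ
    rw [Finset.mem_filter] at hμ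
    obtain ⟨h1, h2, h3⟩ := hf hμ.1
    exact monomial_mem_G _ _ _ _ _ ⟨h1, h2, by omega⟩
  · rw [Finset.sum_filter_add_sum_filter_not, ← f.as_sum]

theorem H_inf_G (m p q m' a b : ℤ) (f : PA k) (h1 : f ∈ (H m p q : Submodule k (PA k)))
    (h2 : f ∈ (G m' a b : Submodule k (PA k))) (h : b < q) : f = 0 := by
  rw [← MvPolynomial.support_eq_empty, Finset.eq_empty_iff_forall_notMem]
  intro μ hμ
  have h3 := h1 hμ
  have h4 := h2 hμ
  obtain ⟨-, -, h5⟩ := h3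
  obtain ⟨-, -, h6⟩ := h4
  omega

/-! ### Euler identities -/

theorem X_mul_pderiv_monomial (v : Vr) (μ : Vr →₀ ℕ) :
    X v * pderiv v (monomial μ (1 : k)) = (μ v : k) • monomial μ (1 : k) := by
  rw [pderiv_monomial]
  by_cases h0 : μ v = 0
  · rw [h0]; simp
  · have h1 : μ - Finsupp.single v 1 + Finsupp.single v 1 = μ :=
      tsub_add_cancel_of_le (Finsupp.single_le_iff.2 (Nat.one_le_iff_ne_zero.2 h0))
    rw [X, monomial_mul, smul_monomial, add_comm, h1]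
    simp

theorem euler_x {m p q : ℤ} {f : PA k} (hf : f ∈ (H m p q : Submodule k (PA k))) :
    X (Vr.x 0) * pderiv (Vr.x 0) f + X (Vr.x 1) * pderiv (Vr.x 1) f = (p : k) • f := by
  refine H_ext ((LinearMap.mulLeft k (X (Vr.x 0))) ∘ₗ (pderiv (R := k) (Vr.x 0)).toLinearMap +
    (LinearMap.mulLeft k (X (Vr.x 1))) ∘ₗ (pderiv (R := k) (Vr.x 1)).toLinearMap)
    ((p : k) • LinearMap.id) ?_ f hf
  rintro μ ⟨h1, h2, h3⟩
  change X (Vr.x 0) * pderiv (Vr.x 0) (monomial μ (1 : k)) + X (Vr.x 1) * pderiv (Vr.x 1) (monomial μ (1 : k))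
    = (p : k) • monomial μ (1 : k)
  rw [X_mul_pderiv_monomial, X_mul_pderiv_monomial, ← add_smul]
  congr 1
  rw [← h2, xdeg]; push_cast; ring

theorem euler_d {m p q : ℤ} {f : PA k} (hf : f ∈ (H m p q : Submodule k (PA k))) :
    X (Vr.d 0) * pderiv (Vr.d 0) f + X (Vr.d 1) * pderiv (Vr.d 1) f = (q : k) • f := by
  refine H_ext ((LinearMap.mulLeft k (X (Vr.d 0))) ∘ₗ (pderiv (R := k) (Vr.d 0)).toLinearMap +
    (LinearMap.mulLeft k (X (Vr.d 1))) ∘ₗ (pderiv (R := k) (Vr.d 1)).toLinearMap)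
    ((q : k) • LinearMap.id) ?_ f hf
  rintro μ ⟨h1, h2, h3⟩
  change X (Vr.d 0) * pderiv (Vr.d 0) (monomial μ (1 : k)) + X (Vr.d 1) * pderiv (Vr.d 1) (monomial μ (1 : k))
    = (q : k) • monomial μ (1 : k)
  rw [X_mul_pderiv_monomial, X_mul_pderiv_monomial, ← add_smul]
  congr 1
  rw [← h3, ddeg]; push_cast; ring

theorem euler_y {m p q : ℤ} {f : PA k} (hf : f ∈ (H m p q : Submodule k (PA k))) :
    X (Vr.y 0) * pderiv (Vr.y 0) f + X (Vr.y 1) * pderiv (Vr.y 1) f = (m : k) • f := by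
  refine H_ext ((LinearMap.mulLeft k (X (Vr.y 0))) ∘ₗ (pderiv (R := k) (Vr.y 0)).toLinearMap +
    (LinearMap.mulLeft k (X (Vr.y 1))) ∘ₗ (pderiv (R := k) (Vr.y 1)).toLinearMap)
    ((m : k) • LinearMap.id) ?_ f hf
  rintro μ ⟨h1, h2, h3⟩
  change X (Vr.y 0) * pderiv (Vr.y 0) (monomial μ (1 : k)) + X (Vr.y 1) * pderiv (Vr.y 1) (monomial μ (1 : k))
    = (m : k) • monomial μ (1 : k)
  rw [X_mul_pderiv_monomial, X_mul_pderiv_monomial, ← add_smul]
  congr 1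
  rw [← h1, ydeg]; push_cast; ring

/-! ### Koszul lemmas -/

/-- dividing by a variable: membership of the quotient -/
theorem H_of_X_mul (v : Vr) {m p q m' p' q' : ℤ}
    (h : ∀ μ : Vr →₀ ℕ, μ + Finsupp.single v 1 ∈ Hs m p q → μ ∈ Hs m' p' q') (f : PA k)
    (hf : X v * f ∈ (H m p q : Submodule k (PA k))) : f ∈ (H m' p' q' : Submodule k (PA k)) := by
  intro μ hμ
  apply h
  have h1 : coeff (μ + Finsupp.single v 1) (X v * f) = coeff μ f := by
    rw [mul_comm, coeff_mul_X]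
  have h2 : μ + Finsupp.single v 1 ∈ (X v * f).support := by
    rw [MvPolynomial.mem_support_iff, h1]
    exact MvPolynomial.mem_support_iff.1 hμ
  exact hf h2

theorem X_dvd_of {v w : Vr} (hvw : v ≠ w) {f g : PA k} (h : X v * f = X w * g) :
    ∃ c, f = X w * c ∧ g = X v * c := by
  have h1 : (X w : PA k) ∣ X v * f := ⟨g, h⟩
  rcases MvPolynomial.X_dvd_mul_iff.1 h1 with h2 | h2
  · exfalso
    rw [MvPolynomial.X_dvd_X] at h2
    exact hvw h2.symm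
  · obtain ⟨c, rfl⟩ := h2
    refine ⟨c, rfl, ?_⟩
    have h3 : (X w : PA k) * g = X w * (X v * c) := by rw [← h]; ring
    exact mul_left_cancel₀ (MvPolynomial.X_ne_zero w) h3

theorem koszul_x {m p q : ℤ} {u v : PA k} (hu : u ∈ (H m p q : Submodule k (PA k)))
    (h : X (Vr.x 1) * u = X (Vr.x 0) * v) :
    ∃ g ∈ (H m (p - 1) q : Submodule k (PA k)), u = X (Vr.x 0) * g ∧ v = X (Vr.x 1) * g := by
  obtain ⟨c, h1, h2⟩ := X_dvd_of (v := .x 1) (w := .x 0) (by simp) h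
  refine ⟨c, ?_, h1, h2⟩
  rw [h1] at hu
  refine H_of_X_mul _ ?_ c hu
  rintro μ ⟨h1, h2, h3⟩
  simp [Hs, ydeg, xdeg, ddeg] at *
  omega

theorem koszul_d {m p q : ℤ} {u v : PA k} (hu : u ∈ (H m p q : Submodule k (PA k)))
    (h : X (Vr.d 1) * u = X (Vr.d 0) * v) :
    ∃ g ∈ (H m p (q - 1) : Submodule k (PA k)), u = X (Vr.d 0) * g ∧ v = X (Vr.d 1) * g := by
  obtain ⟨c, h1, h2⟩ := X_dvd_of (v := .d 1) (w := .d 0) (by simp) h
  refine ⟨c, ?_, h1, h2⟩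
  rw [h1] at hu
  refine H_of_X_mul _ ?_ c hu
  rintro μ ⟨h1, h2, h3⟩
  simp [Hs, ydeg, xdeg, ddeg] at *
  omega

variable [CharZero k]

theorem split_x {m p q : ℤ} (hp : 1 ≤ p) {f : PA k} (hf : f ∈ (H m p q : Submodule k (PA k))) :
    ∃ u ∈ (H m (p - 1) q : Submodule k (PA k)), ∃ v ∈ (H m (p - 1) q : Submodule k (PA k)),
      f = X (Vr.x 1) * u - X (Vr.x 0) * v := by
  refine ⟨(p : k)⁻¹ • pderiv (Vr.x 1) f, Submodule.smul_mem _ _ (dx_mem_H 1 _ _ _ _ hf),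
    -((p : k)⁻¹ • pderiv (Vr.x 0) f),
    Submodule.neg_mem _ (Submodule.smul_mem _ _ (dx_mem_H 0 _ _ _ _ hf)), ?_⟩
  have h0 : (p : k) ≠ 0 := by
    rw [Int.cast_ne_zero]; omega
  have h1 := euler_x hf
  have h2 : f = (p : k)⁻¹ • ((p : k) • f) := by rw [smul_smul, inv_mul_cancel₀ h0, one_smul]
  rw [mul_neg, sub_neg_eq_add, mul_smul_comm, mul_smul_comm, ← smul_add, add_comm, h1, ← h2]

theorem split_d {m p q : ℤ} (hq : 1 ≤ q) {f : PA k} (hf : f ∈ (H m p q : Submodule k (PA k))) :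
    ∃ u ∈ (H m p (q - 1) : Submodule k (PA k)), ∃ v ∈ (H m p (q - 1) : Submodule k (PA k)),
      f = X (Vr.d 1) * u - X (Vr.d 0) * v := by
  refine ⟨(q : k)⁻¹ • pderiv (Vr.d 1) f, Submodule.smul_mem _ _ (dd_mem_H 1 _ _ _ _ hf),
    -((q : k)⁻¹ • pderiv (Vr.d 0) f),
    Submodule.neg_mem _ (Submodule.smul_mem _ _ (dd_mem_H 0 _ _ _ _ hf)), ?_⟩
  have h0 : (q : k) ≠ 0 := by
    rw [Int.cast_ne_zero]; omega
  have h1 := euler_d hf
  have h2 : f = (q : k)⁻¹ • ((q : k) • f) := by rw [smul_smul, inv_mul_cancel₀ h0, one_smul]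
  rw [mul_neg, sub_neg_eq_add, mul_smul_comm, mul_smul_comm, ← smul_add, add_comm, h1, ← h2]

omit [CharZero k] in
theorem pderiv_y_mul (i j : Fin 2) (f : PA k) :
    pderiv (Vr.y i) (X (Vr.y j) * f) = X (Vr.y j) * pderiv (Vr.y i) f + if i = j then f else 0 :=
  dy_my i j f

omit [CharZero k] in
theorem deRham_aux {m p q : ℤ} {g0 g1 : PA k}
    (h0 : g0 ∈ (H m p q : Submodule k (PA k)))
    (h : pderiv (Vr.y 0) g0 + pderiv (Vr.y 1) g1 = 0) :
    pderiv (Vr.y 1) (X (Vr.y 1) * g0 - X (Vr.y 0) * g1) = ((m : k) + 1) • g0 := by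
  have e0 := euler_y h0
  have h2 : pderiv (Vr.y 1) g1 = -pderiv (Vr.y 0) g0 := eq_neg_of_add_eq_zero_right h
  rw [map_sub, pderiv_y_mul, pderiv_y_mul, h2, if_pos rfl, if_neg (by decide), add_smul, one_smul,
    ← e0]
  ring

omit [CharZero k] in
theorem deRham_aux' {m p q : ℤ} {g0 g1 : PA k}
    (h1 : g1 ∈ (H m p q : Submodule k (PA k)))
    (h : pderiv (Vr.y 0) g0 + pderiv (Vr.y 1) g1 = 0) :
    pderiv (Vr.y 0) (X (Vr.y 1) * g0 - X (Vr.y 0) * g1) = -(((m : k) + 1) • g1) := by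
  have e1 := euler_y h1
  have h2 : pderiv (Vr.y 0) g0 = -pderiv (Vr.y 1) g1 := eq_neg_of_add_eq_zero_left h
  rw [map_sub, pderiv_y_mul, pderiv_y_mul, h2, if_pos rfl, if_neg (by decide), add_smul, one_smul,
    ← e1]
  ring

/-- the de Rham lemma in `y` -/
theorem deRham_y {m p q : ℤ} (hm : 0 ≤ m) {g0 g1 : PA k}
    (h0 : g0 ∈ (H m p q : Submodule k (PA k))) (h1 : g1 ∈ (H m p q : Submodule k (PA k)))
    (h : pderiv (Vr.y 0) g0 + pderiv (Vr.y 1) g1 = 0) :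
    ∃ u ∈ (H (m + 1) p q : Submodule k (PA k)), g0 = pderiv (Vr.y 1) u ∧ g1 = -pderiv (Vr.y 0) u := by
  have hm1 : ((m : k) + 1) ≠ 0 := by
    have h3 : ((m + 1 : ℤ) : k) ≠ 0 := by rw [Int.cast_ne_zero]; omega
    rwa [Int.cast_add, Int.cast_one] at h3
  have hmem : X (Vr.y 1) * g0 - X (Vr.y 0) * g1 ∈ (H (m + 1) p q : Submodule k (PA k)) :=
    Submodule.sub_mem _ (y_mem_H 1 _ _ _ _ h0) (y_mem_H 0 _ _ _ _ h1)
  have e1 := deRham_aux h0 h
  have e2 := deRham_aux' h1 h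
  generalize X (Vr.y 1) * g0 - X (Vr.y 0) * g1 = w at hmem e1 e2
  generalize (m : k) + 1 = c at hm1 e1 e2
  refine ⟨c⁻¹ • w, Submodule.smul_mem _ _ hmem, ?_, ?_⟩
  · rw [Derivation.map_smul, e1, smul_smul, inv_mul_cancel₀ hm1, one_smul]
  · rw [Derivation.map_smul, e2, smul_neg, neg_neg, smul_smul, inv_mul_cancel₀ hm1, one_smul]

theorem eq_zero_of_dy {m p q : ℤ} (hm : 1 ≤ m) {u : PA k}
    (hu : u ∈ (H m p q : Submodule k (PA k))) (h0 : pderiv (Vr.y 0) u = 0)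
    (h1 : pderiv (Vr.y 1) u = 0) : u = 0 := by
  have e := euler_y hu
  rw [h0, h1, mul_zero, mul_zero, add_zero] at e
  have hm1 : (m : k) ≠ 0 := by rw [Int.cast_ne_zero]; omega
  exact (smul_eq_zero.1 e.symm).resolve_left hm1

end Vale.Agent.P195.AR.S5
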