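import Vale.Agent.Lib.P195.AR.Win

/-!
# P195: projectivity and the Yoneda lemma

`Fp Q`: `Q : Bw k` is a finite sum of copies of the `T t` (dual basis formulation, on the level of
the filtration). For such `Q` the module `Wn (WE (hat Q))` is projective (`Fp.projective`), and every
`R`-linear map `Wn (WE (hat Q)) → Wn N` comes from a map in `HomW Q N.L` (`Fp.yoneda`), unique on
`F 0 0`... (`Fp.yoneda_unique`).
-/

namespace Vale.Agent.P195.AR

open MvPolynomial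

variable {k : Type} [Field k]

/-- dual basis data: `Q` is a finite sum of copies of the `T t` -/
structure Fp (Q : Bw k) where
  ι : Type
  [fin : Fintype ι]
  j : ι → Vt
  a : ∀ i, (T k (j i)).V →ₗ[k] Q.V
  c : ∀ i, Q.V →ₗ[k] (T k (j i)).V
  ha : ∀ i, a i ∈ HomW (T k (j i)) Q
  hc : ∀ i, c i ∈ HomW Q (T k (j i))
  sum_eq : ∀ p q (v : Q.V), v ∈ Q.F p q → ∑ i, a i (c i v) = v

attribute [instance] Fp.fin

/-- two maps of windows which agree on all `F a b` are equal -/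
theorem comp_eq_of_F {L L' : Bf k} {φ : (TT k).V →ₗ[k] L.V} (hφ : φ ∈ Win (WE L))
    {θ η : L.V →ₗ[k] L'.V} (hθ : θ ∈ Hom L L') (hη : η ∈ Hom L L')
    (h : ∀ v ∈ L.F 0 0, θ v = η v) : θ ∘ₗ φ = η ∘ₗ φ := by
  refine ext_cmp (L := L') (Hom.comp hθ hφ.1) (Hom.comp hη hφ.1) ?_ ?_ ?_
  · intro t
    rcases t with b | e
    · refine TO_ext (N := L'.toBw) (cmp_mem (Hom.comp hθ hφ.1) (Vt.o b))
        (cmp_mem (Hom.comp hη hφ.1) (Vt.o b)) ?_
      exact h _ (L.mono _ _ _ (by simp) (gen_o_mem hφ.1 b))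
    · refine TP_ext (N := L'.toBw) (cmp_mem (Hom.comp hθ hφ.1) (Vt.p e))
        (cmp_mem (Hom.comp hη hφ.1) (Vt.p e)) ?_ ?_
      · exact h _ (gen_p_mem hφ.1 e).1
      · exact h _ (gen_p_mem hφ.1 e).2.1
  · rw [LinearMap.comp_assoc, LinearMap.comp_assoc, WE_A hφ.2.1, LinearMap.comp_zero,
      LinearMap.comp_zero]
  · rw [LinearMap.comp_assoc, LinearMap.comp_assoc, WE_B hφ.2.2, LinearMap.comp_zero,
      LinearMap.comp_zero]

theorem ex_add {M : Bw k} {L : Bf k} (f g : M.V →ₗ[k] L.V) :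
    ex (M := M) (L := L) (f + g) = ex f + ex g := by
  apply LinearMap.ext
  rintro ⟨u, v⟩
  change (f u + g u) + L.s (f v + g v) = (f u + L.s (f v)) + (g u + L.s (g v))
  rw [map_add]
  abel

/-- the map `TT → hat (T t)`, as an element of `Wn (WE (hat (T t)))` -/
noncomputable def pe (t : Vt) : Wn (WE (hat (T k t))) :=
  Wn.mk (N := WE (hat (T k t))) (prj (Vx.e t)) ⟨prj_mem (Vx.e t),
    by rw [prj_inc_ne (by simp)]; exact Submodule.zero_mem _,
    by rw [prj_inc_ne (by simp)]; exact Submodule.zero_mem _⟩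

theorem pe_f (t : Vt) : (pe (k := k) t).f = prj (Vx.e t) := rfl

/-- an element of `Wn (WE (hat (T t)))`, seen in `R` (column `t`) -/
noncomputable def col {t : Vt} (φ : Wn (WE (hat (T k t)))) : R k :=
  toR (inc (Vx.e t) ∘ₗ φ.f) ⟨Hom.comp (inc_mem (Vx.e t)) φ.mem.1,
    by rw [LinearMap.comp_assoc, WE_A φ.mem.2.1, LinearMap.comp_zero]
       exact Submodule.zero_mem _,
    by rw [LinearMap.comp_assoc, WE_B φ.mem.2.2, LinearMap.comp_zero]
       exact Submodule.zero_mem _⟩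

theorem col_unop {t : Vt} (φ : Wn (WE (hat (T k t)))) :
    (col φ).1.unop = inc (Vx.e t) ∘ₗ φ.f := rfl

theorem col_smul_pe {t : Vt} (φ : Wn (WE (hat (T k t)))) : col φ • pe t = φ := by
  apply Wn.ext
  rw [Wn.rsmul_f, pe_f, col_unop, ← LinearMap.comp_assoc, prj_inc]
  exact LinearMap.id_comp _

/-- the column as a linear map -/
noncomputable def colL (t : Vt) : Wn (WE (hat (T k t))) →ₗ[R k] R k where
  toFun := col
  map_add' φ ψ := Subtype.ext (congrArg MulOpposite.op (LinearMap.comp_add _ _ _))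
  map_smul' r φ := Subtype.ext rfl

theorem colL_apply (t : Vt) (φ : Wn (WE (hat (T k t)))) : colL t φ = col φ := rfl

/-- the map `r ↦ r • x` -/
noncomputable def smulR {M : Type} [AddCommGroup M] [Module (R k) M] (x : M) : R k →ₗ[R k] M :=
  LinearMap.toSpanSingleton (R k) M x

theorem smulR_apply {M : Type} [AddCommGroup M] [Module (R k) M] (x : M) (r : R k) :
    smulR x r = r • x := rfl

namespace Fp

variable {Q : Bw k} (D : Fp Q)

/-- `c i` on windows -/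
noncomputable def cW (i : D.ι) : Wn (WE (hat Q)) →ₗ[R k] Wn (WE (hat (T k (D.j i)))) :=
  Wn.mapE (L := hat Q) (N := WE (hat (T k (D.j i)))) (hm (D.c i)) (hm_mem (D.hc i))

/-- `a i` on windows -/
noncomputable def aW (i : D.ι) : Wn (WE (hat (T k (D.j i)))) →ₗ[R k] Wn (WE (hat Q)) :=
  Wn.mapE (L := hat (T k (D.j i))) (N := WE (hat Q)) (hm (D.a i)) (hm_mem (D.ha i))

theorem sum_aW_cW (φ : Wn (WE (hat Q))) : ∑ i, D.aW i (D.cW i φ) = φ := by
  have hsum : ∀ (s : Finset D.ι), (∑ i ∈ s, D.aW i (D.cW i φ)).f =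
      (∑ i ∈ s, hm (M := Q) (N := Q) (D.a i ∘ₗ D.c i)) ∘ₗ φ.f := by
    classical
    intro s
    induction s using Finset.induction_on with
    | empty => rw [Finset.sum_empty, Finset.sum_empty, LinearMap.zero_comp]; rfl
    | insert i s hi ih =>
      rw [Finset.sum_insert hi, Finset.sum_insert hi, Wn.add_f, ih, LinearMap.add_comp]
      rfl
  apply Wn.ext
  rw [hsum]
  have hH : (∑ i, hm (M := Q) (N := Q) (D.a i ∘ₗ D.c i)) ∈ Hom (hat Q) (hat Q) :=
    Submodule.sum_mem _ fun i _ => hm_mem (HomW.comp (D.ha i) (D.hc i))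
  have := comp_eq_of_F (L := hat Q) (L' := hat Q) φ.mem hH (Hom.id (hat Q)) (by
    rintro ⟨v1, v2⟩ ⟨hv1, hv2⟩
    rw [LinearMap.sum_apply]
    refine Prod.ext ?_ ?_
    · rw [Prod.fst_sum]
      exact D.sum_eq _ _ v1 hv1
    · rw [Prod.snd_sum]
      exact D.sum_eq _ _ v2 hv2)
  rw [this, LinearMap.id_comp]

/-- projectivity -/
theorem projective (D : Fp Q) : Module.Projective (R k) (Wn (WE (hat Q))) := by
  let i : Wn (WE (hat Q)) →ₗ[R k] (D.ι → R k) :=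
    LinearMap.pi fun i => colL (D.j i) ∘ₗ D.cW i
  let s : (D.ι → R k) →ₗ[R k] Wn (WE (hat Q)) :=
    ∑ i, (D.aW i ∘ₗ smulR (pe (D.j i))) ∘ₗ LinearMap.proj i
  refine Module.Projective.of_split i s ?_
  apply LinearMap.ext
  intro φ
  rw [LinearMap.comp_apply, LinearMap.sum_apply, LinearMap.id_apply]
  conv_rhs => rw [← D.sum_aW_cW φ]
  refine Finset.sum_congr rfl fun t _ => ?_
  change D.aW t (smulR (pe (D.j t)) (col (D.cW t φ))) = _
  rw [smulR_apply, col_smul_pe]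

/-- the value of an `R`-linear map determines an `HomW` -/
noncomputable def th {N : Wd k} (f : Wn (WE (hat Q)) →ₗ[R k] Wn N) : Q.V →ₗ[k] N.L.V :=
  ∑ i, cmp (L := N.L) (f (D.aW i (pe (D.j i)))).f (D.j i) ∘ₗ D.c i

theorem th_mem {N : Wd k} (f : Wn (WE (hat Q)) →ₗ[R k] Wn N) : D.th f ∈ HomW Q N.L.toBw :=
  Submodule.sum_mem _ fun i _ =>
    HomW.comp (cmp_mem (f (D.aW i (pe (D.j i)))).mem.1 (D.j i)) (D.hc i)

theorem yoneda {N : Wd k} (f : Wn (WE (hat Q)) →ₗ[R k] Wn N) :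
    f = Wn.mapE (L := hat Q) (N := N) (ex (D.th f)) (ex_mem (D.th_mem f)) := by
  apply LinearMap.ext
  intro φ
  apply Wn.ext
  rw [Wn.mapE_f]
  conv_lhs => rw [← D.sum_aW_cW φ, map_sum]
  have key : ∀ i, (f (D.aW i (D.cW i φ))).f =
      ex (M := Q) (L := N.L) (cmp (L := N.L) (f (D.aW i (pe (D.j i)))).f (D.j i) ∘ₗ D.c i) ∘ₗ
        φ.f := by
    intro i
    set x := f (D.aW i (pe (D.j i))) with hx
    have h1 : D.aW i (D.cW i φ) = col (D.cW i φ) • D.aW i (pe (D.j i)) := by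
      rw [← map_smul, col_smul_pe]
    rw [h1, map_smul, Wn.rsmul_f, ← hx, col_unop]
    have h2 := jn_ex (M := T k (D.j i)) (L := N.L) (f := x.f ∘ₗ inc (Vx.e (D.j i)))
      (Hom.comp x.mem.1 (inc_mem (Vx.e (D.j i))))
    rw [← LinearMap.comp_assoc, ← h2]
    apply LinearMap.ext
    intro u
    rfl
  have hsum : ∀ (s : Finset D.ι), (∑ i ∈ s, f (D.aW i (D.cW i φ))).f =
      ex (M := Q) (L := N.L) (∑ i ∈ s, cmp (L := N.L) (f (D.aW i (pe (D.j i)))).f (D.j i) ∘ₗ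
        D.c i) ∘ₗ φ.f := by
    classical
    intro s
    induction s using Finset.induction_on with
    | empty =>
      rw [Finset.sum_empty, Finset.sum_empty]
      apply LinearMap.ext
      intro u
      rw [LinearMap.comp_apply, ex_apply]
      simp [Wn.zero_f]
    | insert i s hi ih =>
      rw [Finset.sum_insert hi, Finset.sum_insert hi, Wn.add_f, ih, key]
      rw [ex_add, LinearMap.add_comp]
  exact hsum Finset.univ

/-- the form used in applications -/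
theorem exists_th (D : Fp Q) {N : Wd k} (f : Wn (WE (hat Q)) →ₗ[R k] Wn N) :
    ∃ (θ : Q.V →ₗ[k] N.L.V) (hθ : θ ∈ HomW Q N.L.toBw),
      f = Wn.mapE (L := hat Q) (N := N) (ex θ) (ex_mem hθ) :=
  ⟨D.th f, D.th_mem f, D.yoneda f⟩

end Fp

/-- the converse: equality of maps of windows from equality on `F 0 0`; in particular
`mapE (ex θ) = mapE (ex θ')` if `θ = θ'` on `Q.F 0 0` and `Q.F 1 0` -/
theorem mapE_ex_congr {Q : Bw k} {N : Wd k} {θ θ' : Q.V →ₗ[k] N.L.V}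
    (hθ : θ ∈ HomW Q N.L.toBw) (hθ' : θ' ∈ HomW Q N.L.toBw)
    (h0 : ∀ v ∈ Q.F 0 0, θ v = θ' v) (h1 : ∀ v ∈ Q.F 1 0, θ v = θ' v) :
    Wn.mapE (L := hat Q) (N := N) (ex θ) (ex_mem hθ) =
      Wn.mapE (L := hat Q) (N := N) (ex θ') (ex_mem hθ') := by
  apply LinearMap.ext
  intro φ
  apply Wn.ext
  rw [Wn.mapE_f, Wn.mapE_f]
  refine comp_eq_of_F (L := hat Q) (L' := N.L) φ.mem (ex_mem hθ) (ex_mem hθ') ?_
  rintro ⟨v1, v2⟩ ⟨hv1, hv2⟩
  rw [ex_apply, ex_apply]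
  change θ v1 + N.L.s (θ v2) = θ' v1 + N.L.s (θ' v2)
  rw [h0 _ hv1, h1 _ (by simpa using hv2)]

/-- evaluation of an `R`-linear map of windows out of `WE (hat Q)`: if it is zero then `θ` is zero
on the images of the generators: `θ (g u0) = 0` for `g ∈ HomW (TO b) Q` -/
theorem mapE_zero_o {Q : Bw k} {N : Wd k} {θ : Q.V →ₗ[k] N.L.V} (hθ : θ ∈ HomW Q N.L.toBw)
    (h : ∀ φ, Wn.mapE (L := hat Q) (N := N) (ex θ) (ex_mem hθ) φ = 0) (b : Fin 3) (v : Q.V)
    (hv : v ∈ Q.F 0 (-(b : ℕ))) : θ v = 0 := by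
  obtain ⟨g, hg, hg'⟩ := TO_exists Q (b : ℕ) v hv
  have h1 := h (Wn.mapE (L := hat (T k (Vt.o b))) (N := WE (hat Q)) (hm g) (hm_mem hg) (pe (Vt.o b)))
  have h2 := congrArg (fun φ => cmp (L := N.L) φ.f (Vt.o b) u0) h1
  have h3 : cmp (L := N.L) (ex θ ∘ₗ hm (M := TO k (b : ℕ)) (N := Q) g ∘ₗ prj (Vx.e (Vt.o b)))
      (Vt.o b) u0 = θ (g u0) + N.L.s (θ (g 0)) := by
    have := congrArg (fun f => f (u0, 0)) (prj_inc (k := k) (Vx.e (Vt.o b)))
    change ex θ (hm (M := TO k (b : ℕ)) (N := Q) g (prj (Vx.e (Vt.o b)) (inc (Vx.e (Vt.o b)) (u0, 0)))) = _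
    have e : prj (Vx.e (Vt.o b)) (inc (Vx.e (Vt.o b)) ((u0, 0) : Y0 k × Y0 k)) = (u0, 0) := this
    rw [e]
    rfl
  rw [map_zero, map_zero, map_zero, add_zero, hg'] at h3
  rw [← h3]
  exact h2

end Vale.Agent.P195.AR
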