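import Vale.Agent.Lib.P195.AR.WM
import Vale.Agent.Lib.P195.AR.Yo
import Vale.Agent.Lib.P195.Formal.Prod

/-!
# P195: homomorphisms out of `M` (section 6 of PROOF.md)

* `hom_zero`: an `R`-linear map from `M` to a torsion-free window killing the generator `mbe`
  is zero;
* `homM_e`, `homM_be`, `homM_al`, `homM_M`: the maps `M → R e_v`, `M → M`;
* `EM.Hext`, `EM.Hex`;
* `M` is not projective.
-/

namespace Vale.Agent.P195.AR

open MvPolynomial SeqM

variable {k : Type} [Field k]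

/-! ### torsion-freeness -/

theorem lx_inj (i : Fin 2) {v : PA k} (h : lx i v = 0) : v = 0 := by
  by_contra hv
  have hne : v.support.Nonempty := by
    rw [Finset.nonempty_iff_ne_empty, Ne, MvPolynomial.support_eq_empty]
    exact hv
  obtain ⟨s, hs, hmax⟩ := v.support.exists_max_image (fun s => s (Vr.x i)) hne
  have h1 := congrArg (coeff (Finsupp.single (Vr.x i) 1 + s)) h
  rw [lx_apply, coeff_sub, coeff_X_mul, coeff_pderiv, coeff_zero] at h1
  have h2 : coeff (Finsupp.single (Vr.x i) 1 + s + Finsupp.single (Vr.d i) 1) v = 0 := by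
    by_contra hc
    have h3 := hmax _ (mem_support_iff.mpr hc)
    simp at h3
  rw [h2, zero_mul, sub_zero] at h1
  exact (mem_support_iff.mp hs) h1

theorem ld_inj (i : Fin 2) {v : PA k} (h : ld i v = 0) : v = 0 := by
  rw [ld_apply] at h
  exact (mul_eq_zero.1 h).resolve_left (X_ne_zero _)

theorem lx0_inj (i : Fin 2) {v : Y0 k} (h : lx0 i v = 0) : v = 0 :=
  Subtype.ext (lx_inj i (congrArg Subtype.val h))

theorem ld0_inj (i : Fin 2) {v : Y0 k} (h : ld0 i v = 0) : v = 0 :=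
  Subtype.ext (ld_inj i (congrArg Subtype.val h))

/-- `x_0` and `d_0` are injective -/
def TF (N : Bw k) : Prop := ∀ v, N.x 0 (N.d 0 v) = 0 → v = 0

theorem TF_TO (b : ℤ) : TF (TO k b) := fun _ h => ld0_inj 0 (lx0_inj 0 h)
theorem TF_TP (e : ℤ) : TF (TP k e) := fun _ h =>
  Prod.ext (ld0_inj 0 (lx0_inj 0 (congrArg Prod.fst h))) (ld0_inj 0 (lx0_inj 0 (congrArg Prod.snd h)))
theorem TF_prod {M N : Bw k} (hM : TF M) (hN : TF N) : TF (M.prod N) := fun v h =>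
  Prod.ext (hM v.1 (congrArg Prod.fst h)) (hN v.2 (congrArg Prod.snd h))
theorem TF_hat {M : Bw k} (hM : TF M) : TF (hat M).toBw := fun v h =>
  Prod.ext (hM v.1 (congrArg Prod.fst h)) (hM v.2 (congrArg Prod.snd h))

theorem TF_T7 (v : Vx) : TF (T7 k v) := by
  rcases v with t | _ | _
  · rcases t with b | e
    · exact TF_TO _
    · exact TF_TP _
  · exact TF_TP _
  · exact TF_prod (TF_TO _) (TF_TO _)

theorem TF_LL : TF (LL k) := fun _ h => ld0_inj 0 (lx0_inj 0 h)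

/-! ### scalars -/

theorem algebraMap_smul_f {N : Wd k} (c : k) (φ : Wn N) :
    (algebraMap k (R k) c • φ).f = c • φ.f := by
  rw [Wn.rsmul_f]
  have : (algebraMap k (R k) c).1.unop = c • LinearMap.id := rfl
  rw [this, LinearMap.comp_smul, LinearMap.comp_id]

/-! ### the generators of `M` -/

variable (k) in
/-- the generator at `be` of `R e_be` -/
noncomputable def gv (v : Vx) : Wn (WJ k v) := jP v 1

theorem gv_f (v : Vx) : (gv k v).f = prj v := rfl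

theorem smul_gv (v : Vx) (φ : Wn (WJ k v)) : jI v φ • gv k v = φ := by
  apply Wn.ext
  rw [Wn.rsmul_f, gv_f, jI_f, ← LinearMap.comp_assoc, prj_inc, LinearMap.id_comp]

/-- a map from `R e_v` is determined by the image of the generator -/
theorem eq_of_gv {X : Type} [AddCommGroup X] [Module (R k) X] {v : Vx}
    {f g : Wn (WJ k v) →ₗ[R k] X} (h : f (gv k v) = g (gv k v)) : f = g := by
  apply LinearMap.ext
  intro φ
  rw [← smul_gv v φ, map_smul, map_smul, h]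

/-- the idempotent `e_v` -/
noncomputable def ev7 (v : Vx) : R k := jI v (gv k v)

theorem ev7_unop (v : Vx) : (ev7 (k := k) v).1.unop = inc v ∘ₗ prj v := rfl

theorem ev7_gv (v : Vx) : ev7 (k := k) v • gv k v = gv k v := smul_gv v _

/-- the image of the generator under a map -/
theorem f_gv {N : Wd k} {v : Vx} (f : Wn (WJ k v) →ₗ[R k] Wn N) :
    (f (gv k v)).f = ((f (gv k v)).f ∘ₗ inc v) ∘ₗ prj v := by
  conv_lhs => rw [← ev7_gv v, map_smul, Wn.rsmul_f, ev7_unop]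
  rfl

variable (k) in
/-- the generator of `M` at `be` -/
noncomputable def mbe : Wn (WM k) := md1 (gv k .be)

theorem mbe_f : (mbe k).f = hm (M := Tbe k) (N := LL k) pi0 ∘ₗ prj .be := rfl

theorem ev7_mbe : ev7 (k := k) .be • mbe k = mbe k := by
  rw [mbe, ← map_smul, ev7_gv]

theorem f_mbe {N : Wd k} (f : Wn (WM k) →ₗ[R k] Wn N) :
    (f (mbe k)).f = ((f (mbe k)).f ∘ₗ inc .be) ∘ₗ prj .be := f_gv (f ∘ₗ md1)

theorem f_md1 {X : Type} [AddCommGroup X] [Module (R k) X] (f : Wn (WM k) →ₗ[R k] X)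
    (h : f (mbe k) = 0) (y : Wn (WJ k .be)) : f (md1 y) = 0 := by
  rw [← smul_gv .be y, map_smul, map_smul]
  exact (congrArg (fun z => jI .be y • z) h).trans (smul_zero _)

/-! ### the second generator -/

theorem id_shift2 : (LinearMap.id : (TO k 2).V →ₗ[k] (LL k).V) ∈
    HomW (TO k 2) ((LL k).shift 1 0) := by
  refine ⟨fun _ _ => rfl, fun _ _ => rfl, fun a b v hv => ?_⟩
  change (v : PA k) ∈ (G 0 (a + 1 + -1) (b + 0 + 0 + 2) : Submodule k (PA k))
  change (v : PA k) ∈ (G 0 a (b + 2) : Submodule k (PA k)) at hv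
  rwa [show a + 1 + -1 = a by ring, add_zero, add_zero]

variable (k) in
/-- `O_2 → M`, `w ↦ s w` -/
noncomputable def ms : Wn (WE (hat (TO k 2))) →ₗ[R k] Wn (WM k) :=
  Wn.mapE (L := hat (TO k 2)) (N := WM k) (sm (M := TO k 2) (N := LL k) LinearMap.id)
    (sm_mem id_shift2)

theorem ms_f (φ : Wn (WE (hat (TO k 2)))) :
    (ms k φ).f = sm (M := TO k 2) (N := LL k) LinearMap.id ∘ₗ φ.f := rfl

variable (k) in
/-- the generator of `O_2` -/
noncomputable def po : Wn (WE (hat (TO k 2))) := pe (k := k) (Vt.o 2)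

theorem po_f : (po k).f = prj (Vx.e (Vt.o 2)) := rfl

theorem smul_po (φ : Wn (WE (hat (TO k 2)))) : col (t := .o 2) φ • po k = φ :=
  col_smul_pe (t := .o 2) φ

theorem C_mem_Y0 (c : k) : (C c : PA k) ∈ Y0 k := monomial_mem_Y0 0 c (by simp [ydeg])

theorem C_mem_G {b : ℤ} (hb : 0 ≤ b) (c : k) : (C c : PA k) ∈ (G 0 0 b : Submodule k (PA k)) :=
  monomial_mem_G 0 0 b 0 c ⟨by simp [ydeg], by simp [xdeg, ddeg], by simpa [ddeg] using hb⟩

/-- every element of `(XX 0).F 0 c` is a constant -/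
theorem Hx_zero_eq {v : MvPolynomial (Fin 2) k} (hv : v ∈ Hx k 0) : ∃ c, v = C c := by
  refine ⟨coeff 0 v, ?_⟩
  ext μ
  rw [coeff_C]
  by_cases h : 0 = μ
  · rw [if_pos h, h]
  · rw [if_neg h]
    by_contra hc
    have h1 : ((μ 0 : ℤ) + μ 1) = 0 := hv (mem_support_iff.2 hc)
    apply h
    ext i
    fin_cases i <;> simp <;> omega

theorem C_mem_Hx (c : k) : (C c : MvPolynomial (Fin 2) k) ∈ Hx k 0 :=
  monomial_mem_Hx 0 c (by simp)

theorem pi1_C (c : k) : pi1 (C c : PA k) = C c := by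
  have h1 : (C c : PA k) = inX (C c) := by simp [inX]
  rw [h1, pi1_inX (C_mem_Hx c)]

variable (k) in
/-- `O_2 → X_0(-1, 0)`, `w ↦ w(1)` -/
noncomputable def ap2 : (TO k 2).V →ₗ[k] (XX k (-1)).V := pi1 ∘ₗ (Y0 k).subtype

theorem ap2_mem : ap2 k ∈ HomW (TO k 2) ((XX k (-1)).shift 1 0) := by
  refine ⟨fun i v => pi1_lx i _, fun i v => pi1_ld i _, fun a b v hv => ?_⟩
  change pi1 (v : PA k) ∈ Hx k (-1 + (a + 1))
  rw [show -1 + (a + 1) = a by ring]
  exact pi1_mem hv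

/-- the element `C c` of `Y0` -/
noncomputable def cY (c : k) : Y0 k := ⟨C c, C_mem_Y0 c⟩

theorem ap2_cY (c : k) : ap2 k (cY c) = C c := pi1_C c

theorem cY_mem (c : k) {b : ℤ} (hb : -2 ≤ b) : cY c ∈ (TO k 2).F 0 b := by
  change (C c : PA k) ∈ (G 0 0 (b + 2) : Submodule k (PA k))
  exact C_mem_G (by omega) c

theorem cY_mem2 (c c' : k) {b : ℤ} (hb : -2 ≤ b) :
    (TO k 2).x 1 (cY c) - (TO k 2).x 0 (cY c') ∈ (TO k 2).F (0 + 1) b :=
  Submodule.sub_mem _ ((TO k 2).Fx 1 _ _ _ (cY_mem c hb)) ((TO k 2).Fx 0 _ _ _ (cY_mem c' hb))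

theorem sO {b : ℤ} (v : (hat (XX k (-1))).V) (hv : v ∈ (hat (XX k (-1))).F 0 b) :
    ∃ c : k, sm (M := TO k 2) (N := XX k (-1)) (ap2 k) (cY c, 0) = v := by
  obtain ⟨h1, h2⟩ := hatX_F0 hv
  have h3 : v.2 ∈ Hx k (0 + 0) := h2
  obtain ⟨c, hc⟩ := Hx_zero_eq h3
  refine ⟨c, ?_⟩
  rw [sm_apply, h1, hc]
  exact Prod.ext rfl (ap2_cY c)

theorem hT2_mem {b : ℤ} (hb : -2 ≤ b) (c : k) : ((cY c, 0) : (hat (TO k 2)).V) ∈
    (hat (TO k 2)).F 0 b := ⟨cY_mem c hb, Submodule.zero_mem _⟩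

theorem hT2_mem2 {b : ℤ} (hb : -2 ≤ b) (c c' : k) :
    (hat (TO k 2)).x 1 ((cY c, 0) : (hat (TO k 2)).V) -
      (hat (TO k 2)).x 0 ((cY c', 0) : (hat (TO k 2)).V) ∈ (hat (TO k 2)).F 1 b := by
  refine ⟨cY_mem2 c c' hb, ?_⟩
  have e : (TO k 2).x 1 0 - (TO k 2).x 0 0 = 0 := by rw [map_zero, map_zero, sub_zero]
  have h : (TO k 2).x 1 0 - (TO k 2).x 0 0 ∈ (TO k 2).F (1 + 1) b := by
    rw [e]; exact Submodule.zero_mem _
  exact h

variable (k) in
/-- `O_2 → X_0` on windows -/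
noncomputable def spp : Wn (WE (hat (TO k 2))) →ₗ[R k] Wn (WE (hat (XX k (-1)))) :=
  Wn.mapE (L := hat (TO k 2)) (N := WE (hat (XX k (-1))))
    (sm (M := TO k 2) (N := XX k (-1)) (ap2 k)) (sm_mem ap2_mem)

theorem spp_surj : Function.Surjective (spp k) := by
  refine Wn.surj (N1 := WE (hat (TO k 2))) (N2 := WE (hat (XX k (-1))))
    (sm (M := TO k 2) (N := XX k (-1)) (ap2 k)) (sm_mem ap2_mem)
    (fun g hg => by rw [WE_A hg, LinearMap.comp_zero]; exact Submodule.zero_mem _)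
    (fun g hg => by rw [WE_B hg, LinearMap.comp_zero]; exact Submodule.zero_mem _) ?_ ?_ ?_ ?_
  · intro b v hv
    obtain ⟨c, hc⟩ := sO v hv
    exact ⟨_, hT2_mem (by omega) c, hc⟩
  · intro e v1 hv1 v2 hv2 _
    obtain ⟨c, hc⟩ := sO v1 hv1
    obtain ⟨c', hc'⟩ := sO v2 hv2
    exact ⟨_, hT2_mem (by omega) c, _, hT2_mem (by omega) c', hT2_mem2 (by omega) c c', hc, hc'⟩
  · intro g hg
    exact ⟨0, Submodule.zero_mem _, by rw [WE_A hg, LinearMap.comp_zero]⟩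
  · intro g hg
    exact ⟨0, Submodule.zero_mem _, by rw [WE_B hg, LinearMap.comp_zero]⟩

theorem hap_sm : hm (M := LL k) (N := XX k (-1)) ap0 ∘ₗ
    sm (M := TO k 2) (N := LL k) LinearMap.id = sm (M := TO k 2) (N := XX k (-1)) (ap2 k) := by
  apply LinearMap.ext
  intro v
  exact Prod.ext (map_zero (ap0 (k := k))) rfl

theorem mpp_ms (z : Wn (WE (hat (TO k 2)))) : mpp (ms k z) = spp k z := by
  apply Wn.ext
  have h1 : (mpp (ms k z)).f = hm (M := LL k) (N := XX k (-1)) ap0 ∘ₗ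
      (sm (M := TO k 2) (N := LL k) LinearMap.id ∘ₗ z.f) := rfl
  rw [h1, ← LinearMap.comp_assoc, hap_sm]
  rfl

/-- `(md1, ms)` is onto -/
theorem md1_ms_surj (x : Wn (WM k)) : ∃ (y : Wn (WJ k .be)) (z : Wn (WE (hat (TO k 2)))),
    x = md1 y + ms k z := by
  obtain ⟨z, hz⟩ := spp_surj (mpp x)
  have h1 : mpp (x - ms k z) = 0 := by
    rw [map_sub, mpp_ms, hz, sub_self]
  obtain ⟨y, hy⟩ := (ex1 (x - ms k z)).1 h1
  exact ⟨y, z, by rw [hy, sub_add_cancel]⟩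

/-! ### vanishing -/

variable (k) in
/-- `O_0 → O_2`, right multiplication by `x_0 d_0` -/
noncomputable def rho : (TO k 0).V →ₗ[k] (TO k 2).V := rd0 0 ∘ₗ rx0 0

theorem rho_mem : rho k ∈ HomW (TO k 0) (TO k 2) := by
  refine ⟨fun i v => ?_, fun i v => ?_, fun a b v hv => ?_⟩
  · change rd0 0 (rx0 0 (lx0 i v)) = lx0 i (rd0 0 (rx0 0 v))
    rw [lx0_rd0, lx0_rx0]
  · change rd0 0 (rx0 0 (ld0 i v)) = ld0 i (rd0 0 (rx0 0 v))
    rw [ld0_rd0, ld0_rx0]
  · change rd 0 (rx 0 (v : PA k)) ∈ (G 0 a (b + 2) : Submodule k (PA k))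
    have hv' : (v : PA k) ∈ (G 0 a (b + 0) : Submodule k (PA k)) := hv
    have h1 := rd_mem 0 _ _ _ _ (rx_mem 0 _ _ _ _ hv')
    rw [add_sub_cancel_right] at h1
    exact G_mono _ _ _ _ (by omega) h1

theorem rho_u0 : rho k u0 = lx0 0 (ld0 0 u0) := by
  apply Subtype.ext
  change rd 0 (rx 0 (1 : PA k)) = lx 0 (ld 0 (1 : PA k))
  rw [rx_apply, ld_apply, rd_apply, lx_apply, mul_one, mul_one, pderiv_X_self, pderiv_X_self,
    mul_comm]

variable (k) in
/-- `O_0 → O_1²(1,0)`, `u ↦ (u x_0, 0)` -/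
noncomputable def sig : (TO k 0).V →ₗ[k] (Tbe k).V := (rx0 0).prod 0

theorem sig_mem : sig k ∈ HomW (TO k 0) ((Tbe k).shift 1 0) := by
  refine ⟨fun i v => ?_, fun i v => ?_, fun a b v hv => ?_⟩
  · exact Prod.ext (lx0_rx0 i 0 v).symm (map_zero (lx0 i)).symm
  · exact Prod.ext (ld0_rx0 i 0 v).symm (map_zero (ld0 i)).symm
  · have hv' : (v : PA k) ∈ (G 0 a (b + 0) : Submodule k (PA k)) := hv
    have h1 := rx_mem 0 _ _ _ _ hv'
    refine ⟨?_, Submodule.zero_mem _⟩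
    change rx 0 (v : PA k) ∈ (G 0 (a + 1) (b + 0 + 1) : Submodule k (PA k))
    exact G_mono _ _ _ _ (by omega) h1

variable (k) in
/-- the element `x_0 d_0` of `O_2(O_0)` -/
noncomputable def wrho : Wn (WE (hat (TO k 2))) :=
  Wn.mapE (L := hat (TO k 0)) (N := WE (hat (TO k 2))) (hm (rho k)) (hm_mem rho_mem)
    (pe (k := k) (Vt.o 0))

variable (k) in
/-- its lift to `R e_be` -/
noncomputable def wsig : Wn (WJ k .be) :=
  Wn.mapE (L := hat (TO k 0)) (N := WJ k .be) (sm (M := TO k 0) (N := Tbe k) (sig k))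
    (sm_mem sig_mem) (pe (k := k) (Vt.o 0))

theorem pi0_sig : pi0 ∘ₗ sig k = rho k := by
  apply LinearMap.ext
  intro v
  change rd0 0 (rx0 0 v) + rd0 1 0 = rd0 0 (rx0 0 v)
  rw [map_zero, add_zero]

theorem sm_rho : sm (M := TO k 2) (N := LL k) LinearMap.id ∘ₗ
    hm (M := TO k 0) (N := TO k 2) (rho k) =
    hm (M := Tbe k) (N := LL k) pi0 ∘ₗ sm (M := TO k 0) (N := Tbe k) (sig k) := by
  apply LinearMap.ext
  intro v
  exact Prod.ext (map_zero (pi0 (k := k))).symm (LinearMap.congr_fun pi0_sig v.1).symm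

theorem ms_wrho : ms k (wrho k) = md1 (wsig k) := by
  apply Wn.ext
  have h1 : (ms k (wrho k)).f = sm (M := TO k 2) (N := LL k) LinearMap.id ∘ₗ
    (hm (M := TO k 0) (N := TO k 2) (rho k) ∘ₗ prj (Vx.e (Vt.o 0))) := rfl
  have h2 : (md1 (wsig k)).f = hm (M := Tbe k) (N := LL k) pi0 ∘ₗ
    (sm (M := TO k 0) (N := Tbe k) (sig k) ∘ₗ prj (Vx.e (Vt.o 0))) := rfl
  rw [h1, h2, ← LinearMap.comp_assoc, ← LinearMap.comp_assoc, sm_rho]

/-- the value on the generator of `O_2` -/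
theorem cmp_po_zero {N : Wd k} (hN : TF N.L.toBw) (g : Wn (WE (hat (TO k 2))) →ₗ[R k] Wn N)
    (h : g (wrho k) = 0) : cmp (L := N.L) (g (po k)).f (Vt.o 2) = 0 := by
  have hz := cmp_mem (L := N.L) (g (po k)).mem.1 (Vt.o 2)
  refine TO_ext (N := N.L.toBw) hz (Submodule.zero_mem _) ?_
  rw [← smul_po (wrho k), map_smul] at h
  have h1 : (g (po k)).f ∘ₗ (inc (Vx.e (Vt.o 2)) ∘ₗ (wrho k).f) = 0 := congrArg Wn.f h
  have h2 := LinearMap.congr_fun h1 (inc (Vx.e (Vt.o 0)) ((u0, 0) : Y0 k × Y0 k))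
  have h3 : (wrho k).f (inc (Vx.e (Vt.o 0)) ((u0, 0) : Y0 k × Y0 k)) =
      hm (M := TO k 0) (N := TO k 2) (rho k) ((u0, 0) : Y0 k × Y0 k) := by
    have := congrArg (fun f => f (u0, 0)) (prj_inc (k := k) (Vx.e (Vt.o 0)))
    exact congrArg (hm (M := TO k 0) (N := TO k 2) (rho k)) this
  rw [LinearMap.comp_apply, LinearMap.comp_apply, h3] at h2
  have h4 : cmp (L := N.L) (g (po k)).f (Vt.o 2) (rho k u0) = 0 := by
    refine Eq.trans ?_ h2
    have e : hm (M := TO k 0) (N := TO k 2) (rho k) ((u0, 0) : Y0 k × Y0 k) = (rho k u0, 0) :=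
      Prod.ext rfl (map_zero (rho k))
    rw [e]
    rfl
  rw [rho_u0] at h4
  have h5 := hz.1 0 (ld0 0 u0)
  have h6 := hz.2.1 0 u0
  refine hN _ ?_
  rw [← h6]
  exact h5.symm.trans h4

theorem col_po_unop : (col (t := .o 2) (po k)).1.unop = inc (Vx.e (Vt.o 2)) ∘ₗ prj (Vx.e (Vt.o 2)) := rfl

theorem g_po_zero {N : Wd k} (hN : TF N.L.toBw) (g : Wn (WE (hat (TO k 2))) →ₗ[R k] Wn N)
    (h : g (wrho k) = 0) : g (po k) = 0 := by
  have h0 := cmp_po_zero hN g h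
  apply Wn.ext
  have h1 : (g (po k)).f = ((g (po k)).f ∘ₗ inc (Vx.e (Vt.o 2))) ∘ₗ prj (Vx.e (Vt.o 2)) := by
    conv_lhs => rw [← smul_po (po k), map_smul, Wn.rsmul_f, col_po_unop]
    rfl
  have h2 := jn_ex (M := T k (Vt.o 2)) (L := N.L) (f := (g (po k)).f ∘ₗ inc (Vx.e (Vt.o 2)))
    (Hom.comp (g (po k)).mem.1 (inc_mem (Vx.e (Vt.o 2))))
  have h3 : ((g (po k)).f ∘ₗ inc (Vx.e (Vt.o 2))) = 0 := by
    rw [← h2]
    change ex (M := T k (Vt.o 2)) (L := N.L) (cmp (L := N.L) (g (po k)).f (Vt.o 2)) = 0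
    rw [h0]
    apply LinearMap.ext
    intro v
    rw [ex_apply]
    change (0 : N.L.V) + N.L.s 0 = 0
    rw [map_zero, add_zero]
  rw [h1, h3, LinearMap.zero_comp]
  rfl

/-- an `R`-linear map from `O_2` to a torsion-free window killing `x_0 d_0` is zero -/
theorem g_zero {N : Wd k} (hN : TF N.L.toBw) (g : Wn (WE (hat (TO k 2))) →ₗ[R k] Wn N)
    (h : g (wrho k) = 0) (z : Wn (WE (hat (TO k 2)))) : g z = 0 := by
  rw [← smul_po z, map_smul]
  exact (congrArg (fun x => col (t := .o 2) z • x) (g_po_zero hN g h)).trans (smul_zero _)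

/-- an `R`-linear map from `M` to a torsion-free window killing the generator `mbe` is zero -/
theorem hom_zero {N : Wd k} (hN : TF N.L.toBw) (f : Wn (WM k) →ₗ[R k] Wn N)
    (h : f (mbe k) = 0) : f = 0 := by
  apply LinearMap.ext
  intro x
  obtain ⟨y, z, rfl⟩ := md1_ms_surj x
  have h1 := f_md1 f h
  have h2 : (f ∘ₗ ms k) (wrho k) = 0 := by
    rw [LinearMap.comp_apply, ms_wrho]
    exact h1 _
  have h3 := g_zero hN (f ∘ₗ ms k) h2 z
  rw [map_add, h1 y]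
  exact (zero_add _).trans h3

/-- two maps from `M` agreeing on the generator -/
theorem hom_ext {N : Wd k} (hN : TF N.L.toBw) {f g : Wn (WM k) →ₗ[R k] Wn N}
    (h : f (mbe k) = g (mbe k)) : f = g :=
  sub_eq_zero.1 (hom_zero hN (f - g) (by rw [LinearMap.sub_apply, h, sub_self]))

/-- value at the generator from the component at `be` -/
theorem mbe_eq {N : Wd k} {f g : Wn (WM k) →ₗ[R k] Wn N}
    (h : (f (mbe k)).f ∘ₗ inc .be = (g (mbe k)).f ∘ₗ inc .be) : f (mbe k) = g (mbe k) :=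
  Wn.ext (by rw [f_mbe f, f_mbe g, h])

theorem gv_eq {N : Wd k} {v : Vx} {f g : Wn (WJ k v) →ₗ[R k] Wn N}
    (h : (f (gv k v)).f ∘ₗ inc v = (g (gv k v)).f ∘ₗ inc v) : f = g :=
  eq_of_gv (Wn.ext (by rw [f_gv f, f_gv g, h]))

theorem TF_WJ (v : Vx) : TF (WJ k v).L.toBw := TF_hat (TF_T7 v)
theorem TF_WM : TF (WM k).L.toBw := TF_hat TF_LL

/-- no maps to windows with `B = 0` -/
theorem hom_B0 {N : Wd k} (hN : TF N.L.toBw) (hB : N.B = ⊥) (f : Wn (WM k) →ₗ[R k] Wn N) :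
    f = 0 := by
  refine hom_zero hN f ?_
  refine mbe_eq (f := f) (g := 0) ?_
  have h := (f (mbe k)).mem.2.2
  rw [hB, Submodule.mem_bot] at h
  rw [h]
  exact (LinearMap.zero_comp _).symm

theorem homM_e (t : Vt) (f : Wn (WM k) →ₗ[R k] Wn (WJ k (Vx.e t))) : f = 0 :=
  hom_B0 (TF_WJ _) (JB_e t) f

/-- `ψ` kills the generator -/
theorem homM_be (f : Wn (WM k) →ₗ[R k] Wn (WJ k .be)) : f = 0 := by
  refine hom_zero (TF_WJ _) f ?_
  refine mbe_eq (f := f) (g := 0) ?_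
  have h : (f (mbe k)).f ∘ₗ inc .be ∈ JB k .be := (f (mbe k)).mem.2.2
  rw [JB_be] at h
  obtain ⟨c, hc⟩ := Submodule.mem_span_singleton.1 h
  -- the element of `R` given by `Ψ`
  have hr : inc (k := k) .be ∘ₗ hm (M := Tal k) (N := Tbe k) Psi ∘ₗ prj .al ∈ Win (WR k) := by
    refine ⟨Hom.comp (inc_mem .be) (Hom.comp (hm_mem Psi_mem) (prj_mem .al)), ?_, ?_⟩
    · rw [LinearMap.comp_assoc, LinearMap.comp_assoc, prj_inc]
      exact Submodule.subset_span (Or.inr rfl)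
    · rw [LinearMap.comp_assoc, LinearMap.comp_assoc, prj_inc_ne (by decide),
        LinearMap.comp_zero, LinearMap.comp_zero]
      exact Submodule.zero_mem _
  have h1 : toR _ hr • mbe k = 0 := by
    apply Wn.ext
    rw [toR_smul, mbe_f, LinearMap.comp_assoc, ← LinearMap.comp_assoc _ _ (prj Vx.be), prj_inc,
      LinearMap.id_comp, ← LinearMap.comp_assoc, cpi_Psi, LinearMap.zero_comp]
    rfl
  have h2 : ((f (mbe k)).f ∘ₗ (inc .be ∘ₗ hm (M := Tal k) (N := Tbe k) Psi ∘ₗ prj .al)) = 0 := by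
    rw [← toR_smul (N := WJ k .be) _ hr, ← map_smul, h1, map_zero]
    rfl
  have h3 := congrArg (fun g => g ∘ₗ inc (k := k) .al) h2
  have h4 : c • hm (M := Tal k) (N := Tbe k) Psi = 0 := by
    have e : ((f (mbe k)).f ∘ₗ (inc .be ∘ₗ hm (M := Tal k) (N := Tbe k) Psi ∘ₗ prj .al)) ∘ₗ
        inc .al = ((f (mbe k)).f ∘ₗ inc .be) ∘ₗ (hm (M := Tal k) (N := Tbe k) Psi ∘ₗ
          (prj .al ∘ₗ inc .al)) := rfl
    rw [prj_inc, LinearMap.comp_id, ← hc, LinearMap.smul_comp, LinearMap.id_comp] at e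
    rw [← e]
    exact h3
  have hc0 : c = 0 := (smul_eq_zero.1 h4).resolve_right Psi_ne
  rw [← hc, hc0, zero_smul]
  exact (LinearMap.zero_comp _).symm

/-- scalar multiplication on a window -/
noncomputable def scW (N : Wd k) (c : k) : Wn N →ₗ[R k] Wn N := F.LTower.sc (R := R k) (Wn N) c

theorem scW_apply (N : Wd k) (c : k) (φ : Wn N) : scW N c φ = algebraMap k (R k) c • φ := rfl

theorem scW_f (N : Wd k) (c : k) (φ : Wn N) : (scW N c φ).f = c • φ.f := algebraMap_smul_f c φ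

theorem mbe_inc : (mbe k).f ∘ₗ inc .be = hm (M := Tbe k) (N := LL k) pi0 := by
  rw [mbe_f, LinearMap.comp_assoc, prj_inc, LinearMap.comp_id]

theorem homM_al (f : Wn (WM k) →ₗ[R k] Wn (WJ k .al)) :
    ∃ c : k, ∀ x, f x = algebraMap k (R k) c • mi x := by
  have h : (f (mbe k)).f ∘ₗ inc .be ∈ JB k .al := (f (mbe k)).mem.2.2
  rw [JB_al] at h
  obtain ⟨c, hc⟩ := Submodule.mem_span_singleton.1 h
  refine ⟨c, LinearMap.congr_fun (f := f) (g := scW (WJ k .al) c ∘ₗ mi) ?_⟩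
  refine hom_ext (TF_WJ _) (mbe_eq ?_)
  rw [← hc]
  have e : (mi (mbe k)).f = hm (M := LL k) (N := Tal k) wp0 ∘ₗ (mbe k).f := rfl
  rw [LinearMap.comp_apply, scW_f, e, LinearMap.smul_comp, LinearMap.comp_assoc, mbe_inc, hwp_pi]

/-- `End_R(M) = k` -/
theorem homM_M (f : Wn (WM k) →ₗ[R k] Wn (WM k)) :
    ∃ c : k, ∀ x, f x = algebraMap k (R k) c • x := by
  have h : (f (mbe k)).f ∘ₗ inc .be ∈ (WM k).B := (f (mbe k)).mem.2.2
  obtain ⟨c, hc⟩ := Submodule.mem_span_singleton.1 h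
  refine ⟨c, LinearMap.congr_fun (f := f) (g := scW (WM k) c) ?_⟩
  refine hom_ext TF_WM (mbe_eq ?_)
  rw [← hc, scW_f, LinearMap.smul_comp, mbe_inc]

theorem mbe_ne_zero : mbe k ≠ 0 := by
  intro h
  have h1 := congrArg (fun φ : Wn (WM k) => φ.f ∘ₗ inc .be) h
  exact pi_ne ((mbe_inc (k := k)).symm.trans (h1.trans (LinearMap.zero_comp _)))

/-! ### maps from `R e_al` -/

theorem al_A0 {N : Wd k} (hA : N.A = ⊥) (f : Wn (WJ k .al) →ₗ[R k] Wn N) : f = 0 := by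
  refine gv_eq (f := f) (g := 0) ?_
  have h := (f (gv k .al)).mem.2.1
  rw [hA, Submodule.mem_bot] at h
  rw [h]
  exact (LinearMap.zero_comp _).symm

theorem gv_inc (v : Vx) : (gv k v).f ∘ₗ inc v = LinearMap.id := prj_inc v

theorem al_al (f : Wn (WJ k .al) →ₗ[R k] Wn (WJ k .al)) : ∃ c : k, f = scW (WJ k .al) c := by
  have h : (f (gv k .al)).f ∘ₗ inc .al ∈ JA k .al := (f (gv k .al)).mem.2.1
  rw [JA_al] at h
  obtain ⟨c, hc⟩ := Submodule.mem_span_singleton.1 h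
  refine ⟨c, gv_eq ?_⟩
  rw [← hc, scW_f, LinearMap.smul_comp, gv_inc]

theorem al_be (f : Wn (WJ k .al) →ₗ[R k] Wn (WJ k .be)) :
    ∃ c : k, f = scW (WJ k .be) c ∘ₗ md2 := by
  have h : (f (gv k .al)).f ∘ₗ inc .al ∈ JA k .be := (f (gv k .al)).mem.2.1
  rw [JA_be] at h
  obtain ⟨c, hc⟩ := Submodule.mem_span_singleton.1 h
  refine ⟨c, gv_eq ?_⟩
  have e : (md2 (gv k .al)).f = hm (M := Tal k) (N := Tbe k) Psi ∘ₗ (gv k .al).f := rfl
  rw [← hc, LinearMap.comp_apply, scW_f, e, LinearMap.smul_comp, LinearMap.comp_assoc, gv_inc,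
    LinearMap.comp_id]

theorem hexA0 {N : Wd k} (hA : N.A = ⊥) : (EM (k := k)).Hex (Wn N) := by
  intro f _
  refine ⟨0, fun x => ?_⟩
  have h := al_A0 hA f
  rw [h]
  rfl

theorem hexM : (EM (k := k)).Hex (Wn (WM k)) := hexA0 rfl

theorem hexJ (v : Vx) : (EM (k := k)).Hex (Wn (WJ k v)) := by
  rcases v with t | _ | _
  · exact hexA0 (JA_e t)
  · intro f hf
    obtain ⟨c, hc⟩ := al_al f
    refine ⟨0, fun x => ?_⟩
    have h1 : scW (WJ k .al) c (mi (mbe k)) = 0 := by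
      rw [← hc]; exact hf (mbe k)
    have h2 : c • (mi (mbe k)).f = 0 := by rw [← scW_f, h1]; rfl
    have h3 : c = 0 := by
      rcases smul_eq_zero.1 h2 with h | h
      · exact h
      · exact absurd (mi_inj ((Wn.ext h : mi (mbe k) = 0).trans (map_zero mi).symm)) mbe_ne_zero
    have h4 : f x = scW (WJ k .al) c x := LinearMap.congr_fun hc x
    have h5 : scW (WJ k .al) c x = 0 := by
      apply Wn.ext
      rw [scW_f, h3, zero_smul]
      rfl
    exact h4.trans h5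
  · intro f _
    obtain ⟨c, hc⟩ := al_be f
    exact ⟨scW (WJ k .be) c, LinearMap.congr_fun hc⟩

theorem hextJ (v : Vx) : (EM (k := k)).Hext (Wn (WJ k v)) := by
  rcases v with t | _ | _
  · intro f
    exact ⟨0, LinearMap.congr_fun (homM_e t f)⟩
  · intro f
    obtain ⟨c, hc⟩ := homM_al f
    exact ⟨scW (WJ k .al) c, hc⟩
  · intro f
    exact ⟨0, LinearMap.congr_fun (homM_be f)⟩

/-- for the module `R` -/
theorem hexR : (EM (k := k)).Hex (R k) :=
  F.LEx4.Hex.of_decomp (R := R k) (N := R k) (K := fun v : Vx => Wn (WJ k v)) (fun v => jP v)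
    (fun v => jI v) sum_jI_jP (E := EM (k := k)) hexJ

theorem hextR : (EM (k := k)).Hext (R k) :=
  F.LEx4.Hext.of_decomp (R := R k) (N := R k) (K := fun v : Vx => Wn (WJ k v)) (fun v => jP v)
    (fun v => jI v) sum_jI_jP (E := EM (k := k)) hextJ

/-- `M` is not projective -/
theorem M_not_projective : ¬ Module.Projective (R k) (Wn (WM k)) := by
  intro hproj
  have hs : Function.Surjective ((md1 (k := k)).coprod (ms k)) := by
    intro x
    obtain ⟨y, z, rfl⟩ := md1_ms_surj x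
    exact ⟨(y, z), LinearMap.coprod_apply _ _ _⟩
  obtain ⟨s, hs⟩ := Module.projective_lifting_property _ (LinearMap.id : Wn (WM k) →ₗ[R k] _) hs
  have h1 : LinearMap.fst (R k) _ _ ∘ₗ s = 0 := homM_be _
  have h2 : LinearMap.snd (R k) _ _ ∘ₗ s = 0 := hom_B0 (TF_hat (TF_TO 2)) rfl _
  have h3 := LinearMap.congr_fun hs (mbe k)
  rw [LinearMap.comp_apply, LinearMap.coprod_apply] at h3
  have h4 : (s (mbe k)).1 = 0 := LinearMap.congr_fun h1 (mbe k)
  have h5 : (s (mbe k)).2 = 0 := LinearMap.congr_fun h2 (mbe k)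
  rw [h4, h5, map_zero, map_zero, add_zero] at h3
  exact mbe_ne_zero h3.symm

end Vale.Agent.P195.AR
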