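import Vale.Agent.Lib.P195.AR.Ring

/-!
# P195: the universal map `d^β x^α y^γ ↦ D^β X^α ν(γ)`

`lift N ν : PA k →ₗ[k] N.V` commutes with the left operators (`lift_lx`, `lift_ld`), has the
values `lift N ν (ym a b) = ν a b`, preserves filtrations (`lift_mem`), and two maps commuting
with the left operators and equal on all `ym a b` are equal (`PA_ext`, `PA_ext_mem`).
-/

namespace Vale.Agent.P195.AR

open MvPolynomial

variable {k : Type} [Field k]

section ring

variable {A : Type*} [Ring A]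

theorem comm_pow_rel (d x : A) (h : d * x = x * d + 1) (n : ℕ) :
    x * d ^ n = d ^ n * x - (n : A) * d ^ (n - 1) := by
  induction n with
  | zero => simp
  | succ n ih =>
    rw [pow_succ, ← mul_assoc, ih, Nat.add_sub_cancel, sub_mul, mul_assoc (d ^ n) x d,
      show x * d = d * x - 1 by rw [h, add_sub_cancel_right], mul_sub, mul_one, mul_assoc (n : A)]
    rcases Nat.eq_zero_or_pos n with rfl | hn
    · simp
    · rw [← pow_succ, Nat.sub_add_cancel hn, Nat.cast_succ, add_mul, one_mul, ← mul_assoc,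
        sub_sub, add_comm (d ^ n)]

end ring

/-- `y₁^a y₂^b` -/
noncomputable def ym (a b : ℕ) : PA k := X (Vr.y 0) ^ a * X (Vr.y 1) ^ b

/-- `D₁^b0 D₂^b1 X₁^a0 X₂^a1` -/
noncomputable def mon (N : Bw k) (b0 b1 a0 a1 : ℕ) : Module.End k N.V :=
  (N.d 0) ^ b0 * (N.d 1) ^ b1 * (N.x 0) ^ a0 * (N.x 1) ^ a1

theorem mon_zero (N : Bw k) : mon N 0 0 0 0 = 1 := by simp [mon]

theorem d0_mon (N : Bw k) (b0 b1 a0 a1 : ℕ) :
    (N.d 0 : Module.End k N.V) * mon N b0 b1 a0 a1 = mon N (b0 + 1) b1 a0 a1 := by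
  simp only [mon, ← mul_assoc, pow_succ']

theorem ddc (N : Bw k) : Commute (N.d 0 : Module.End k N.V) (N.d 1) :=
  LinearMap.ext fun v => N.dd 0 1 v

theorem xxc (N : Bw k) : Commute (N.x 0 : Module.End k N.V) (N.x 1) :=
  LinearMap.ext fun v => N.xx 0 1 v

theorem dxc01 (N : Bw k) : Commute (N.d 0 : Module.End k N.V) (N.x 1) :=
  LinearMap.ext fun v => (N.dx 1 0 v).trans (by simp)

theorem dxc10 (N : Bw k) : Commute (N.d 1 : Module.End k N.V) (N.x 0) :=
  LinearMap.ext fun v => (N.dx 0 1 v).trans (by simp)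

theorem dx_eq (N : Bw k) (i : Fin 2) :
    (N.d i : Module.End k N.V) * N.x i = N.x i * N.d i + 1 :=
  LinearMap.ext fun v => (N.dx i i v).trans (by simp)

theorem d1_mon (N : Bw k) (b0 b1 a0 a1 : ℕ) :
    (N.d 1 : Module.End k N.V) * mon N b0 b1 a0 a1 = mon N b0 (b1 + 1) a0 a1 := by
  simp only [mon, ← mul_assoc]
  rw [((ddc N).symm.pow_right b0).eq, mul_assoc _ (N.d 1 : Module.End k N.V), ← pow_succ']

theorem x0_mon (N : Bw k) (b0 b1 a0 a1 : ℕ) :
    (N.x 0 : Module.End k N.V) * mon N b0 b1 a0 a1 =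
      mon N b0 b1 (a0 + 1) a1 - (b0 : Module.End k N.V) * mon N (b0 - 1) b1 a0 a1 := by
  simp only [mon, ← mul_assoc]
  rw [comm_pow_rel _ _ (dx_eq N 0)]
  simp only [sub_mul, ← mul_assoc]
  congr 1
  rw [mul_assoc _ (N.x 0 : Module.End k N.V), ((dxc10 N).symm.pow_right b1).eq, ← mul_assoc,
    mul_assoc _ (N.x 0 : Module.End k N.V) ((N.x 0) ^ a0), ← pow_succ']

theorem x1_mon (N : Bw k) (b0 b1 a0 a1 : ℕ) :
    (N.x 1 : Module.End k N.V) * mon N b0 b1 a0 a1 =
      mon N b0 b1 a0 (a1 + 1) - (b1 : Module.End k N.V) * mon N b0 (b1 - 1) a0 a1 := by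
  simp only [mon, ← mul_assoc]
  rw [((dxc01 N).symm.pow_right b0).eq, mul_assoc _ (N.x 1 : Module.End k N.V),
    comm_pow_rel _ _ (dx_eq N 1)]
  simp only [mul_sub, sub_mul, ← mul_assoc]
  congr 1
  · rw [mul_assoc _ (N.x 1 : Module.End k N.V), ((xxc N).symm.pow_right a0).eq, ← mul_assoc,
      mul_assoc _ (N.x 1 : Module.End k N.V) ((N.x 1) ^ a1), ← pow_succ']
  · rw [((Nat.cast_commute b1 ((N.d 0 : Module.End k N.V) ^ b0)).symm).eq]

/-- the universal map -/
noncomputable def lift (N : Bw k) (ν : ℕ → ℕ → N.V) : PA k →ₗ[k] N.V :=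
  (basisMonomials Vr k).constr k fun μ =>
    mon N (μ (Vr.d 0)) (μ (Vr.d 1)) (μ (Vr.x 0)) (μ (Vr.x 1)) (ν (μ (Vr.y 0)) (μ (Vr.y 1)))

theorem lift_monomial (N : Bw k) (ν : ℕ → ℕ → N.V) (μ : Vr →₀ ℕ) :
    lift N ν (monomial μ 1) =
      mon N (μ (Vr.d 0)) (μ (Vr.d 1)) (μ (Vr.x 0)) (μ (Vr.x 1)) (ν (μ (Vr.y 0)) (μ (Vr.y 1))) := by
  have := (basisMonomials Vr k).constr_basis k (fun μ : Vr →₀ ℕ =>
    mon N (μ (Vr.d 0)) (μ (Vr.d 1)) (μ (Vr.x 0)) (μ (Vr.x 1)) (ν (μ (Vr.y 0)) (μ (Vr.y 1)))) μ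
  rw [coe_basisMonomials] at this
  exact this

theorem ld_monomial (i : Fin 2) (μ : Vr →₀ ℕ) :
    ld i (monomial μ (1 : k)) = monomial (μ + Finsupp.single (Vr.d i) 1) 1 := by
  rw [ld_apply, X, monomial_mul, mul_one, add_comm]

theorem lx_monomial (i : Fin 2) (μ : Vr →₀ ℕ) :
    lx i (monomial μ (1 : k)) = monomial (μ + Finsupp.single (Vr.x i) 1) 1 -
      (μ (Vr.d i) : k) • monomial (μ - Finsupp.single (Vr.d i) 1) 1 := by
  rw [lx_apply, X, monomial_mul, mul_one, add_comm, pderiv_monomial, smul_monomial, one_mul,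
    smul_eq_mul, mul_one]

theorem lift_ld (N : Bw k) (ν : ℕ → ℕ → N.V) (i : Fin 2) (p : PA k) :
    lift N ν (ld i p) = N.d i (lift N ν p) := by
  have : lift N ν ∘ₗ ld i = N.d i ∘ₗ lift N ν := by
    apply (basisMonomials Vr k).ext
    intro μ
    rw [coe_basisMonomials, LinearMap.comp_apply, LinearMap.comp_apply]
    rw [ld_monomial, lift_monomial, lift_monomial]
    fin_cases i
    · have h := congrArg (fun f => f (ν (μ (Vr.y 0)) (μ (Vr.y 1))))
        (d0_mon N (μ (Vr.d 0)) (μ (Vr.d 1)) (μ (Vr.x 0)) (μ (Vr.x 1)))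
      simp only [Module.End.mul_apply] at h
      simp [h]
    · have h := congrArg (fun f => f (ν (μ (Vr.y 0)) (μ (Vr.y 1))))
        (d1_mon N (μ (Vr.d 0)) (μ (Vr.d 1)) (μ (Vr.x 0)) (μ (Vr.x 1)))
      simp only [Module.End.mul_apply] at h
      simp [h]
  exact congrArg (fun f => f p) this

theorem lift_lx (N : Bw k) (ν : ℕ → ℕ → N.V) (i : Fin 2) (p : PA k) :
    lift N ν (lx i p) = N.x i (lift N ν p) := by
  have : lift N ν ∘ₗ lx i = N.x i ∘ₗ lift N ν := by
    apply (basisMonomials Vr k).ext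
    intro μ
    rw [coe_basisMonomials, LinearMap.comp_apply, LinearMap.comp_apply]
    rw [lx_monomial, map_sub, map_smul, lift_monomial, lift_monomial, lift_monomial]
    fin_cases i
    · have h := congrArg (fun f => f (ν (μ (Vr.y 0)) (μ (Vr.y 1))))
        (x0_mon N (μ (Vr.d 0)) (μ (Vr.d 1)) (μ (Vr.x 0)) (μ (Vr.x 1)))
      simp only [Module.End.mul_apply, LinearMap.sub_apply] at h
      simp only [Fin.zero_eta, h]
      simp [Nat.cast_smul_eq_nsmul]
    · have h := congrArg (fun f => f (ν (μ (Vr.y 0)) (μ (Vr.y 1))))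
        (x1_mon N (μ (Vr.d 0)) (μ (Vr.d 1)) (μ (Vr.x 0)) (μ (Vr.x 1)))
      simp only [Module.End.mul_apply, LinearMap.sub_apply] at h
      simp only [Fin.mk_one, h]
      simp [Nat.cast_smul_eq_nsmul]
  exact congrArg (fun f => f p) this

theorem ym_eq (a b : ℕ) :
    (ym a b : PA k) = monomial (Finsupp.single (Vr.y 0) a + Finsupp.single (Vr.y 1) b) 1 := by
  rw [ym, X_pow_eq_monomial, X_pow_eq_monomial, monomial_mul, one_mul]

theorem lift_ym (N : Bw k) (ν : ℕ → ℕ → N.V) (a b : ℕ) : lift N ν (ym a b) = ν a b := by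
  rw [ym_eq, lift_monomial]
  simp [mon_zero]

/-- filtration of a monomial operator -/
theorem mon_mem (N : Bw k) (b0 b1 a0 a1 : ℕ) (a b : ℤ) (v : N.V) (hv : v ∈ N.F a b) :
    mon N b0 b1 a0 a1 v ∈ N.F (a + a0 + a1 - b0 - b1) (b + b0 + b1) := by
  have hx : ∀ (i : Fin 2) (n : ℕ) (a b : ℤ) (v : N.V), v ∈ N.F a b →
      ((N.x i : Module.End k N.V) ^ n) v ∈ N.F (a + n) b := by
    intro i n
    induction n with
    | zero => intro a b v hv; simpa using hv
    | succ n ih =>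
      intro a b v hv
      rw [pow_succ', Module.End.mul_apply]
      have := N.Fx i _ _ _ (ih a b v hv)
      rw [Nat.cast_succ, ← add_assoc]
      exact this
  have hd : ∀ (i : Fin 2) (n : ℕ) (a b : ℤ) (v : N.V), v ∈ N.F a b →
      ((N.d i : Module.End k N.V) ^ n) v ∈ N.F (a - n) (b + n) := by
    intro i n
    induction n with
    | zero => intro a b v hv; simpa using hv
    | succ n ih =>
      intro a b v hv
      rw [pow_succ', Module.End.mul_apply]
      have := N.Fd i _ _ _ (ih a b v hv)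
      rw [Nat.cast_succ, ← add_assoc, ← sub_sub]
      exact this
  have := hd 0 b0 _ _ _ (hd 1 b1 _ _ _ (hx 0 a0 _ _ _ (hx 1 a1 a b v hv)))
  rw [show a + (a1 : ℤ) + a0 - b1 - b0 = a + a0 + a1 - b0 - b1 by ring,
    show b + (b1 : ℤ) + b0 = b + b0 + b1 by ring] at this
  exact this

/-- if `ν c0 c1 ∈ F a0 b0` for `c0 + c1 = m` then `lift N ν` maps `G m a b` to
`F (a+a0) (b+b0)` -/
theorem lift_mem (N : Bw k) (ν : ℕ → ℕ → N.V) (m a0 b0 : ℤ)
    (h : ∀ c0 c1 : ℕ, (c0 + c1 : ℤ) = m → ν c0 c1 ∈ N.F a0 b0) (a b : ℤ) (p : PA k)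
    (hp : p ∈ (G m a b : Submodule k (PA k))) : lift N ν p ∈ N.F (a + a0) (b + b0) := by
  refine G_induction (lift N ν) _ ?_ p hp
  rintro μ ⟨h1, h2, h3⟩
  rw [lift_monomial]
  simp only [ydeg, xdeg, ddeg, Nat.cast_add] at h1 h2 h3
  have := mon_mem N (μ (Vr.d 0)) (μ (Vr.d 1)) (μ (Vr.x 0)) (μ (Vr.x 1)) a0 b0 _ (h _ _ h1)
  rw [show a0 + (μ (Vr.x 0) : ℤ) + μ (Vr.x 1) - μ (Vr.d 0) - μ (Vr.d 1) = a + a0 by omega] at this
  exact N.mono _ _ _ (by omega) this

theorem PA_mon (μ : Vr →₀ ℕ) (m a b : ℤ) : (monomial μ 1 : PA k) =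
    mon (SO k m a b) (μ (Vr.d 0)) (μ (Vr.d 1)) (μ (Vr.x 0)) (μ (Vr.x 1)) (ym (μ (Vr.y 0)) (μ (Vr.y 1))) := by
  have hd : ∀ (i : Fin 2) (n : ℕ) (μ : Vr →₀ ℕ),
      ((ld i : Module.End k (PA k)) ^ n) (monomial μ 1) =
        monomial (μ + Finsupp.single (Vr.d i) n) 1 := by
    intro i n
    induction n with
    | zero => intro μ; simp
    | succ n ih =>
      intro μ
      rw [pow_succ', Module.End.mul_apply, ih, ld_monomial, add_assoc, ← Finsupp.single_add]
  have hx : ∀ (i : Fin 2) (n : ℕ) (μ : Vr →₀ ℕ), μ (Vr.d i) = 0 →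
      ((lx i : Module.End k (PA k)) ^ n) (monomial μ 1) =
        monomial (μ + Finsupp.single (Vr.x i) n) 1 := by
    intro i n
    induction n with
    | zero => intro μ _; simp
    | succ n ih =>
      intro μ hμ
      rw [pow_succ', Module.End.mul_apply, ih μ hμ, lx_monomial, add_assoc, ← Finsupp.single_add]
      simp [hμ]
  rw [ym_eq]
  change _ = ((ld 0 : Module.End k (PA k)) ^ (μ (Vr.d 0))) (((ld 1 : Module.End k (PA k)) ^
    (μ (Vr.d 1))) (((lx 0 : Module.End k (PA k)) ^ (μ (Vr.x 0)))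
    (((lx 1 : Module.End k (PA k)) ^ (μ (Vr.x 1))) _)))
  rw [hx 1 _ _ (by simp), hx 0 _ _ (by simp), hd 1, hd 0]
  refine congrArg (fun μ => (monomial μ (1 : k) : PA k)) (Finsupp.ext fun v => ?_)
  rcases v with i | i | i <;> fin_cases i <;> simp

theorem mon_comm {M N : Bw k} {f : M.V →ₗ[k] N.V} (hx : ∀ i v, f (M.x i v) = N.x i (f v))
    (hd : ∀ i v, f (M.d i v) = N.d i (f v)) (b0 b1 a0 a1 : ℕ) (v : M.V) :
    f (mon M b0 b1 a0 a1 v) = mon N b0 b1 a0 a1 (f v) := by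
  have hx' : ∀ (i : Fin 2) (n : ℕ) (v : M.V),
      f (((M.x i : Module.End k M.V) ^ n) v) = ((N.x i : Module.End k N.V) ^ n) (f v) := by
    intro i n
    induction n with
    | zero => intro v; simp
    | succ n ih =>
      intro v
      rw [pow_succ', Module.End.mul_apply, hx, ih, pow_succ', Module.End.mul_apply]
  have hd' : ∀ (i : Fin 2) (n : ℕ) (v : M.V),
      f (((M.d i : Module.End k M.V) ^ n) v) = ((N.d i : Module.End k N.V) ^ n) (f v) := by
    intro i n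
    induction n with
    | zero => intro v; simp
    | succ n ih =>
      intro v
      rw [pow_succ', Module.End.mul_apply, hd, ih, pow_succ', Module.End.mul_apply]
  simp only [mon, Module.End.mul_apply, hd', hx']

/-- a map commuting with the left operators is determined by its values on the `ym a b` -/
theorem PA_ext {N : Bw k} {f g : PA k →ₗ[k] N.V} (hfx : ∀ i v, f (lx i v) = N.x i (f v))
    (hfd : ∀ i v, f (ld i v) = N.d i (f v)) (hgx : ∀ i v, g (lx i v) = N.x i (g v))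
    (hgd : ∀ i v, g (ld i v) = N.d i (g v)) (h : ∀ a b, f (ym a b) = g (ym a b)) : f = g := by
  apply (basisMonomials Vr k).ext
  intro μ
  rw [coe_basisMonomials]
  change f (monomial μ 1) = g (monomial μ 1)
  rw [PA_mon μ 0 0 0, mon_comm (M := SO k 0 0 0) hfx hfd, mon_comm (M := SO k 0 0 0) hgx hgd, h]

/-- the same for maps on `G m a b` -/
theorem PA_ext_mem {N : Bw k} {f g : PA k →ₗ[k] N.V} (hfx : ∀ i v, f (lx i v) = N.x i (f v))
    (hfd : ∀ i v, f (ld i v) = N.d i (f v)) (hgx : ∀ i v, g (lx i v) = N.x i (g v))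
    (hgd : ∀ i v, g (ld i v) = N.d i (g v)) (m : ℤ)
    (h : ∀ a b : ℕ, (a + b : ℤ) = m → f (ym a b) = g (ym a b)) (p : PA k)
    (hp : ∀ μ ∈ p.support, (ydeg μ : ℤ) = m) : f p = g p := by
  rw [← sub_eq_zero, ← LinearMap.sub_apply, p.as_sum, map_sum]
  apply Finset.sum_eq_zero
  intro μ hμ
  have : monomial μ (coeff μ p) = coeff μ p • monomial μ (1 : k) := by
    rw [smul_monomial, smul_eq_mul, mul_one]
  rw [this, map_smul, LinearMap.sub_apply, PA_mon μ 0 0 0, mon_comm (M := SO k 0 0 0) hfx hfd,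
    mon_comm (M := SO k 0 0 0) hgx hgd, h, sub_self, smul_zero]
  have := hp μ hμ
  rw [ydeg, Nat.cast_add] at this
  exact this

end Vale.Agent.P195.AR
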