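import Vale.Agent.Lib.P195.AR.PsiM
import Vale.Agent.Lib.P195.AR.HTw

/-!
# P195: the chain map from the resolution (level `0`) to the exact sequence of `M`, on windows
-/

namespace Vale.Agent.P195.AR

open MvPolynomial SeqM H1

variable {k : Type} [Field k]

/-- commutative squares of maps of windows -/
theorem sqW {L L1 : Bf k} {N N' : Wd k} {θ : L.V →ₗ[k] L1.V} {η : L1.V →ₗ[k] N'.L.V}
    {θ' : L.V →ₗ[k] N.L.V} {η' : N.L.V →ₗ[k] N'.L.V} (hθ : θ ∈ Hom L L1) (hη : η ∈ Hom L1 N'.L)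
    (hθ' : θ' ∈ Hom L N.L) (hη' : η' ∈ Hom N.L N'.L)
    (hA : ∀ g ∈ N.A, η' ∘ₗ g ∈ N'.A) (hB : ∀ g ∈ N.B, η' ∘ₗ g ∈ N'.B)
    (h : ∀ v ∈ L.F 0 0, η (θ v) = η' (θ' v)) (x : Wn (WE L)) :
    Wn.mapE (N := N') η hη (Wn.mapE (N := WE L1) θ hθ x) =
      Wn.map (N := N) (N' := N') η' hη' hA hB (Wn.mapE (N := N) θ' hθ' x) := by
  have h1 : Wn.mapE (N := N') η hη (Wn.mapE (N := WE L1) θ hθ x) =
      Wn.mapE (N := N') (η ∘ₗ θ) (Hom.comp hη hθ) x := by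
    apply Wn.ext
    rw [Wn.mapE_f, Wn.mapE_f, Wn.mapE_f, LinearMap.comp_assoc]
  have h2 : Wn.map (N := N) (N' := N') η' hη' hA hB (Wn.mapE (N := N) θ' hθ' x) =
      Wn.mapE (N := N') (η' ∘ₗ θ') (Hom.comp hη' hθ') x := by
    apply Wn.ext
    rw [Wn.map_f, Wn.mapE_f, Wn.mapE_f, LinearMap.comp_assoc]
  rw [h1, h2]
  exact mapE_ext _ _ h x

/-- level 3 -/
noncomputable def W3 : Wn (WE (hat (B3 k 0))) →ₗ[R k] Wn (WM k) :=
  Wn.mapE (L := hat (B3 k 0)) (N := WM k) (sm (M := B3 k 0) (N := LL k) q3) (sm_mem q3_hom)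

/-- level 2 -/
noncomputable def W2 : Wn (WE (hat (B2 k 0))) →ₗ[R k] Wn (WJ k Vx.al) :=
  Wn.mapE (L := hat (B2 k 0)) (N := WJ k Vx.al) (sm (M := B2 k 0) (N := Tal k) q2) (sm_mem q2_hom)

/-- level 1 -/
noncomputable def W1 : Wn (WE (hat (B1 k 0))) →ₗ[R k] Wn (WJ k Vx.be) :=
  Wn.mapE (L := hat (B1 k 0)) (N := WJ k Vx.be) (sm (M := B1 k 0) (N := Tbe k) q1) (sm_mem q1_hom)

/-- level 0 -/
noncomputable def W0 : Wn (WE (hat (B0 k 0))) →ₗ[R k] Wn (WM k) :=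
  Wn.mapE (L := hat (B0 k 0)) (N := WM k) (sm (M := B0 k 0) (N := LL k) kp) (sm_mem q0_hom)

theorem t3 (v : (hat (B3 k 0)).V) (hv : v ∈ (hat (B3 k 0)).F 0 0) :
    sm (M := B2 k 0) (N := Tal k) q2 (hm (M := B3 k 0) (N := B2 k 0) (mC 0) v) =
      hm (M := LL k) (N := Tal k) wp0 (sm (M := B3 k 0) (N := LL k) q3 v) :=
  Prod.ext (map_zero wp0).symm (I3 hv.1)

theorem t2 (v : (hat (B2 k 0)).V) (hv : v ∈ (hat (B2 k 0)).F 0 0) :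
    sm (M := B1 k 0) (N := Tbe k) q1 (hm (M := B2 k 0) (N := B1 k 0) (mB 0) v) =
      hm (M := Tal k) (N := Tbe k) Psi (sm (M := B2 k 0) (N := Tal k) q2 v) :=
  Prod.ext (map_zero Psi).symm (I2 hv.1)

theorem t1 (v : (hat (B1 k 0)).V) :
    sm (M := B0 k 0) (N := LL k) kp (hm (M := B1 k 0) (N := B0 k 0) (mA 0) v) =
      hm (M := Tbe k) (N := LL k) pi0 (sm (M := B1 k 0) (N := Tbe k) q1 v) :=
  Prod.ext (map_zero pi0).symm (I1 v.1)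

theorem t0 (v : (hat (B0 k 0)).V) (hv : v ∈ (hat (B0 k 0)).F 0 0) :
    (um (M := XX k 0) (N := XX k (-1)) LinearMap.id)
      (tm (M := B0 k 0) (N := XX k 0) evX v) =
      hm (M := LL k) (N := XX k (-1)) ap0 (sm (M := B0 k 0) (N := LL k) kp v) :=
  Prod.ext (map_zero ap0).symm (I0 hv.1)

theorem w3 (x : Wn (WE (hat (B3 k 0)))) : W2 (mc 0 x) = mi (W3 x) :=
  sqW (L := hat (B3 k 0)) (L1 := hat (B2 k 0)) (N := WM k) (N' := WJ k Vx.al)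
    (hm_mem (mC_hom 0)) (sm_mem q2_hom) (sm_mem q3_hom) (hm_mem wp0_mem) _ _ t3 x

theorem w2 (x : Wn (WE (hat (B2 k 0)))) : W1 (mb 0 x) = md2 (W2 x) :=
  sqW (L := hat (B2 k 0)) (L1 := hat (B1 k 0)) (N := WJ k Vx.al) (N' := WJ k Vx.be)
    (hm_mem (mB_hom 0)) (sm_mem q1_hom) (sm_mem q2_hom) (hm_mem Psi_mem) _ _ t2 x

theorem w1 (x : Wn (WE (hat (B1 k 0)))) : W0 (ma 0 x) = md1 (W1 x) :=
  sqW (L := hat (B1 k 0)) (L1 := hat (B0 k 0)) (N := WJ k Vx.be) (N' := WM k)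
    (hm_mem (mA_hom 0)) (sm_mem q0_hom) (sm_mem q1_hom) (hm_mem pi0_mem) _ _ (fun v _ => t1 v) x

/-- `Q0 → X_0` -/
theorem pp_me (x : Wn (WE (hat (B0 k 0)))) : pp 0 (me 0 x) =
    Wn.mapE (L := hat (B0 k 0)) (N := WE (triv (XX k ((0 : ℕ) : ℤ))))
      (tm (M := B0 k 0) (N := XX k ((0 : ℕ) : ℤ)) evX) (tm_mem (evX_hom 0)) x :=
  Wn.ext rfl

theorem w0 (x : Wn (WE (hat (B0 k 0)))) : pp 0 (me 0 x) = mp (W0 x) := by
  apply mu_bij.1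
  rw [mu_mp, pp_me]
  have e : ∀ y : Wn (WE (triv (XX k ((0 : ℕ) : ℤ)))), mu y = Wn.mapE
      (L := triv (XX k ((0 : ℕ) : ℤ))) (N := WE (hat (XX k (-1))))
      (um (M := XX k ((0 : ℕ) : ℤ)) (N := XX k (-1)) LinearMap.id) (um_mem id_shift0) y :=
    fun y => Wn.ext rfl
  rw [e]
  exact sqW (L := hat (B0 k 0)) (L1 := triv (XX k ((0 : ℕ) : ℤ))) (N := WM k)
    (N' := WE (hat (XX k (-1)))) (tm_mem (evX_hom 0)) (um_mem id_shift0) (sm_mem q0_hom)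
    (hm_mem ap0_mem) _ _ t0 x

variable (k) in
open Vale.Agent.P195.F in
/-- the chain map -/
noncomputable def psM4 [CharZero k] : LHom4 ((tow k).Q 0) (EM (k := k)) W3 ((tow k).π 0) where
  x2 := W2
  x1 := W1
  x0 := W0
  ci := w3
  c2 := w2
  c1 := w1
  cp := w0

end Vale.Agent.P195.AR
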