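import Vale.Agent.Lib.P195.AR.TxT
import Vale.Agent.Lib.P195.AR.PsiW

/-!
# P195: the hypotheses `nd1`, `nd2` of the criterion for `EM`, `W3`
-/

namespace Vale.Agent.P195.AR.TX

open MvPolynomial SeqM
open H1 (B0 B1 B2 B3 D0 D1 D2 D3)

variable {k : Type} [Field k]

/-- a map of windows which is zero vanishes on `(v, 0)`, `v ∈ F 0 0` -/
theorem mapE_zero_F00 {Q : Bw k} {N : Wd k} {f : (hat Q).V →ₗ[k] N.L.V} (hf : f ∈ Hom (hat Q) N.L)
    (h : ∀ φ, Wn.mapE (L := hat Q) (N := N) f hf φ = 0) (v : Q.V) (hv : v ∈ Q.F 0 0) :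
    f (v, 0) = 0 := by
  have hθ : f ∘ₗ jn Q ∈ HomW Q N.L.toBw := HomW.comp hf.1 (jn_mem Q)
  have h1 : ∀ φ, Wn.mapE (L := hat Q) (N := N) (ex (f ∘ₗ jn Q)) (ex_mem hθ) φ = 0 := by
    intro φ
    have h2 := h φ
    apply Wn.ext
    rw [Wn.mapE_f, jn_ex (M := Q) (L := N.L) hf]
    exact congrArg Wn.f h2
  exact zero_F00 (Q := Q) (N := N) hθ h1 v hv

theorem q3_one : (ap0 (q3 (1 : PA k)) : MvPolynomial (Fin 2) k) = -1 := by
  have e : (q3 (1 : PA k) : Y0 k) = -u0 := by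
    apply Subtype.ext
    rw [q3_apply]
    change -(kp (1 : PA k) : PA k) = -(1 : PA k)
    rw [kp_coe, map_one]
  rw [e, map_neg, ap0_apply, u0_coe]
  congr 1
  have h := pi1_inX (k := k) (n := 0) (g := 1) (monomial_mem_Hx 0 1 (by simp))
  rw [map_one] at h
  exact h

/-- `p ∘ ψ₃` -/
noncomputable def f00 : Wn (WE (hat (B3 k 0))) →ₗ[R k] Wn (X0w k) := mp ∘ₗ W3

theorem f00_ne : (f00 : Wn (WE (hat (B3 k 0))) →ₗ[R k] Wn (X0w k)) ≠ 0 := by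
  intro h
  have h1 : ∀ x : Wn (WE (hat (B3 k 0))), mpp (W3 x) = 0 := by
    intro x
    rw [← mp_eq_zero]
    exact LinearMap.congr_fun h x
  have hf : (hm (M := LL k) (N := XX k (-1)) ap0 ∘ₗ sm (M := B3 k 0) (N := LL k) q3) ∈
      Hom (hat (B3 k 0)) (hat (XX k (-1))) := Hom.comp (hm_mem ap0_mem) (sm_mem q3_hom)
  have h2 : ∀ φ, Wn.mapE (L := hat (B3 k 0)) (N := WE (hat (XX k (-1))))
      (hm (M := LL k) (N := XX k (-1)) ap0 ∘ₗ sm (M := B3 k 0) (N := LL k) q3) hf φ = 0 := by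
    intro φ
    exact (Wn.ext rfl : _ = mpp (W3 φ)).trans (h1 φ)
  have h3 := mapE_zero_F00 (Q := B3 k 0) (N := WE (hat (XX k (-1)))) hf h2 1 (by
    rw [H1.mem_B3]
    exact one_mem_G 0 le_rfl)
  have h4 := congrArg Prod.snd h3
  have h5 : (ap0 (q3 (1 : PA k)) : MvPolynomial (Fin 2) k) = 0 := h4
  rw [q3_one] at h5
  exact one_ne_zero (neg_eq_zero.1 h5)

variable [CharZero k]

variable (k) in
open Vale.Agent.P195.F in
/-- the sequence `EM`, ending at `Y 0` of the tower -/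
noncomputable def EMt : LEx4 (ModuleCat.of (R k) (Wn (WM k)))
    (ModuleCat.of (R k) (Wn (WJ k Vx.al))) (ModuleCat.of (R k) (Wn (WJ k Vx.be)))
    (ModuleCat.of (R k) (Wn (WM k))) ((H1.tow k).Y 0) := EM

/-- the hypothesis `nd1` -/
theorem nd1 (g : (H1.tow k).Q2 0 →ₗ[R k] (H1.tow k).Y 0) :
    ∃ x, (EMt k).p (W3 x) ≠ g (((H1.tow k).Q 0).i x) :=
  nd1_of f00 f00_ne g

/-- the hypothesis `nd2` -/
theorem nd2 (f : (H1.tow k).Q3 0 →ₗ[R k] (H1.tow k).Y 0) :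
    ∃ (c : k) (g : (H1.tow k).Q2 0 →ₗ[R k] (H1.tow k).Y 0),
      ∀ x, f x = algebraMap k (R k) c • (EMt k).p (W3 x) + g (((H1.tow k).Q 0).i x) := by
  obtain ⟨c, hc⟩ := nd2_of f f00 f00_ne
  refine ⟨c, 0, fun x => ?_⟩
  refine (hc x).trans ?_
  exact (add_zero _).symm

end Vale.Agent.P195.AR.TX
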