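import Vale.Agent.Lib.P195.AR.Asm
import Vale.Agent.Lib.P195.AR.HomM
import Vale.Agent.Lib.P195.AR.TxN

/-!
# P195: the theorem, from the two conditions on `R` still to be supplied
-/

namespace Vale.Agent.P195.AR

open MvPolynomial SeqM H1 CategoryTheory CategoryTheory.Abelian
open Vale.Agent.P195.F

variable {k : Type} [Field k] [CharZero k]

/-- the theorem, from the goodness of `R` -/
theorem main_of (hgood : (tow k).Good (R k)) (hj0 : (tow k).J0Inj (R k)) :
    (∀ i : ℕ, 1 ≤ i → Subsingleton (Ext (ModuleCat.of (R k) (Wn (WM k)))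
      (ModuleCat.of (R k) (Wn (WM k))) i)) ∧
    (∀ i : ℕ, 1 ≤ i → Subsingleton (Ext (ModuleCat.of (R k) (Wn (WM k)))
      (ModuleCat.of (R k) (R k)) i)) := by
  have h3 := hexR (k := k)
  have h4 := hextR (k := k)
  have p2 := WJ_projective (k := k) Vx.al
  have p1 := WJ_projective (k := k) Vx.be
  have f2 := WJ_finite (k := k) Vx.al
  have f1 := WJ_finite (k := k) Vx.be
  refine F.counterexample (k := k) (R := R k) (tow k) hgood TX.orth hj0 (Wn (WM k))
    (P2 := ModuleCat.of (R k) (Wn (WJ k Vx.al))) (P1 := ModuleCat.of (R k) (Wn (WJ k Vx.be)))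
    p2 p1 f2 f1 (EM (k := k)) W3 (psM4 k) h3 h4 hexM homM_M ?_ ?_ ?_
  · exact TX.hY
  · exact nd1
  · exact TX.nd2

variable (k) in
/-- the algebra, the module and all their properties, in the form of the hand-in -/
theorem main_ex_of (hgood : (tow k).Good (R k)) (hj0 : (tow k).J0Inj (R k)) :
    ∃ (A : Type) (_ : Ring A) (_ : Algebra k A) (_ : Module.Finite k A)
      (M : Type) (_ : AddCommGroup M) (_ : Module A M) (_ : Module.Finite A M),
      (∀ i : ℕ, 1 ≤ i → Subsingleton (Ext (ModuleCat.of A M) (ModuleCat.of A M) i)) ∧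
      (∀ i : ℕ, 1 ≤ i → Subsingleton (Ext (ModuleCat.of A M) (ModuleCat.of A A) i)) ∧
      ¬ Module.Projective A M := by
  obtain ⟨h1, h2⟩ := main_of hgood hj0
  exact ⟨R k, inferInstance, inferInstance, R_finite, Wn (WM k), inferInstance, inferInstance,
    WM_finite, h1, h2, M_not_projective⟩

end Vale.Agent.P195.AR
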