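import Vale.Agent.Lib.P195.AR.PsiW

/-!
# P195: the condition `nd1`: the class of `M → X_0` composed with `ψ3` is not a boundary
-/

namespace Vale.Agent.P195.AR

open MvPolynomial SeqM H1

variable {k : Type} [Field k]

/-- two maps of windows out of `WE (hat Q)` which agree have the same values at generators -/
theorem mapE_eq_o {Q : Bw k} {N : Wd k} {θ η : (hat Q).V →ₗ[k] N.L.V}
    (hθ : θ ∈ Hom (hat Q) N.L) (hη : η ∈ Hom (hat Q) N.L)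
    (h : ∀ x, Wn.mapE (L := hat Q) (N := N) θ hθ x = Wn.mapE (L := hat Q) (N := N) η hη x)
    (b : Fin 3) (v : Q.V) (hv : v ∈ Q.F 0 (-(b : ℕ))) : θ (v, 0) = η (v, 0) := by
  obtain ⟨g, hg, hg'⟩ := TO_exists Q (b : ℕ) v hv
  have h1 := h (Wn.mapE (L := hat (T k (Vt.o b))) (N := WE (hat Q)) (hm g) (hm_mem hg) (pe (Vt.o b)))
  have h2 := congrArg (fun φ : Wn N => φ.f (inc (Vx.e (Vt.o b)) (u0, 0))) h1
  have e : prj (Vx.e (Vt.o b)) (inc (Vx.e (Vt.o b)) ((u0, 0) : Y0 k × Y0 k)) = (u0, 0) :=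
    congrArg (fun f => f (u0, 0)) (prj_inc (k := k) (Vx.e (Vt.o b)))
  have h3 : ∀ (ξ : (hat Q).V →ₗ[k] N.L.V) (hξ : ξ ∈ Hom (hat Q) N.L),
      (Wn.mapE (L := hat Q) (N := N) ξ hξ (Wn.mapE (L := hat (T k (Vt.o b))) (N := WE (hat Q))
        (hm g) (hm_mem hg) (pe (Vt.o b)))).f (inc (Vx.e (Vt.o b)) (u0, 0)) = ξ (v, 0) := by
    intro ξ hξ
    change ξ (hm (M := TO k (b : ℕ)) (N := Q) g (prj (Vx.e (Vt.o b)) (inc (Vx.e (Vt.o b)) (u0, 0)))) = _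
    rw [e]
    change ξ (g u0, g 0) = _
    rw [hg', map_zero]
  rw [← h3 θ hθ, ← h3 η hη]
  exact h2

theorem pd_const {c : MvPolynomial (Fin 2) k} (hc : c ∈ Hx k 0) (i : Fin 2) : pderiv i c = 0 :=
  Hx_neg (by norm_num) (pderiv_mem_Hx i 0 c hc)

theorem pd_xx {c : MvPolynomial (Fin 2) k} (hc : c ∈ Hx k 0) (i j : Fin 2) :
    pderiv j (X i * c) = if i = j then c else 0 := by
  rw [Derivation.leibniz, pd_const hc, pderiv_X]
  fin_cases i <;> fin_cases j <;> simp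

theorem B2_theta {θ : (B2 k 0).V →ₗ[k] (XX k ((0 : ℕ) : ℤ)).V}
    (hθ : θ ∈ HomW (B2 k 0) (XX k ((0 : ℕ) : ℤ))) : θ (mC 0 1) = 0 := by
  have hm1 : (1 : PA k) ∈ (G 0 0 0 : Submodule k (PA k)) := by
    have := monomial_mem_G (k := k) 0 0 0 0 1 (by simp [Gs, ydeg, xdeg, ddeg])
    exact this
  have hm2 : (1 : PA k) ∈ (G 0 0 1 : Submodule k (PA k)) := G_mono _ _ _ _ (by norm_num) hm1
  have z (a b : ℤ) : (0 : PA k) ∈ (G 0 a b : Submodule k (PA k)) := Submodule.zero_mem _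
  have mem : ∀ z : (PA k × PA k) × (PA k × PA k), M2 0 0 0 z → θ z ∈ Hx k 0 := by
    intro z hz
    have := hθ.2.2 0 0 z (mem_B2.2 hz)
    exact this
  have e1 : θ ((1, 0), 0) ∈ Hx k 0 := mem _ ⟨⟨hm2, z _ _, by
    have : H1.qq ((1, 0) : PA k × PA k) = rx 0 1 := by simp [H1.qq, rx_apply]
    rw [this]
    exact rx_mem 0 _ _ _ _ hm1⟩, z _ _, z _ _, by
    have : H1.qq (0 : PA k × PA k) = 0 := by simp [H1.qq]
    rw [this]; exact z _ _⟩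
  have e2 : θ ((0, 1), 0) ∈ Hx k 0 := mem _ ⟨⟨z _ _, hm2, by
    have : H1.qq ((0, 1) : PA k × PA k) = rx 1 1 := by simp [H1.qq, rx_apply]
    rw [this]
    exact rx_mem 1 _ _ _ _ hm1⟩, z _ _, z _ _, by
    have : H1.qq (0 : PA k × PA k) = 0 := by simp [H1.qq]
    rw [this]; exact z _ _⟩
  have e3 : θ (0, (1, 0)) ∈ Hx k 0 := mem _ ⟨⟨z _ _, z _ _, by
    have : H1.qq (0 : PA k × PA k) = 0 := by simp [H1.qq]
    rw [this]; exact z _ _⟩, hm2, z _ _, by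
    have : H1.qq ((1, 0) : PA k × PA k) = rx 0 1 := by simp [H1.qq, rx_apply]
    rw [this]
    exact rx_mem 0 _ _ _ _ hm1⟩
  have e4 : θ (0, (0, 1)) ∈ Hx k 0 := mem _ ⟨⟨z _ _, z _ _, by
    have : H1.qq (0 : PA k × PA k) = 0 := by simp [H1.qq]
    rw [this]; exact z _ _⟩, z _ _, hm2, by
    have : H1.qq ((0, 1) : PA k × PA k) = rx 1 1 := by simp [H1.qq, rx_apply]
    rw [this]
    exact rx_mem 1 _ _ _ _ hm1⟩
  have dec : mC 0 (1 : PA k) =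
      -((1, 0), 0) + (B2 k 0).d 1 ((B2 k 0).x 1 ((1, 0), 0)) -
        (B2 k 0).d 1 ((B2 k 0).x 0 ((0, 1), 0)) -
        (B2 k 0).d 0 ((B2 k 0).x 1 (0, (1, 0))) - (0, (0, 1)) +
        (B2 k 0).d 0 ((B2 k 0).x 0 (0, (0, 1))) := by
    change fC 0 1 = -((1, 0), 0) + (((ld 1 (lx 1 1), ld 1 (lx 1 0)), (ld 1 (lx 1 0), ld 1 (lx 1 0))) :
      (PA k × PA k) × (PA k × PA k)) - ((ld 1 (lx 0 0), ld 1 (lx 0 1)), (ld 1 (lx 0 0), ld 1 (lx 0 0)))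
      - ((ld 0 (lx 1 0), ld 0 (lx 1 0)), (ld 0 (lx 1 1), ld 0 (lx 1 0))) - (0, (0, 1)) +
      ((ld 0 (lx 0 0), ld 0 (lx 0 0)), (ld 0 (lx 0 0), ld 0 (lx 0 1)))
    simp only [map_zero, fC, rd1, rd2, lx_apply, ld_apply]
    refine Prod.ext (Prod.ext ?_ ?_) (Prod.ext ?_ ?_) <;> simp <;> ring
  have hx : ∀ i z, θ ((B2 k 0).x i z) = X i * θ z := fun i z => hθ.1 i z
  have hd : ∀ i z, θ ((B2 k 0).d i z) = pderiv i (θ z) := fun i z => hθ.2.1 i z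
  rw [dec, map_add, map_sub, map_sub, map_sub, map_add, hd, hd, hd, hd, hx, hx, hx, hx, map_neg,
    pd_xx e1, pd_xx e2, pd_xx e3, pd_xx e4]
  simp

variable [CharZero k]

theorem nd1 (g : Wn (WE (hat (B2 k 0))) →ₗ[R k] Wn (WE (triv (XX k ((0 : ℕ) : ℤ))))) :
    ∃ x, mp (W3 x) ≠ g (mc 0 x) := by
  by_contra hcon
  push Not at hcon
  obtain ⟨θ, hθ, rfl⟩ := (D2 k 0).exists_th (N := WE (triv (XX k ((0 : ℕ) : ℤ)))) g
  have hθ0 : θ ∈ HomW (B2 k 0) (XX k ((0 : ℕ) : ℤ)) := hθ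
  have hex : ex (M := B2 k 0) (L := triv (XX k ((0 : ℕ) : ℤ))) θ ∈
    Hom (hat (B2 k 0)) (triv (XX k ((0 : ℕ) : ℤ))) := ex_mem hθ
  have h1 : ∀ x, Wn.mapE (L := hat (B3 k 0)) (N := WE (hat (XX k (-1))))
      (hm (M := LL k) (N := XX k (-1)) ap0 ∘ₗ sm (M := B3 k 0) (N := LL k) q3)
      (Hom.comp (hm_mem ap0_mem) (sm_mem q3_hom)) x =
      Wn.mapE (L := hat (B3 k 0)) (N := WE (hat (XX k (-1))))
      (um (M := XX k ((0 : ℕ) : ℤ)) (N := XX k (-1)) LinearMap.id ∘ₗ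
        (ex (M := B2 k 0) (L := triv (XX k ((0 : ℕ) : ℤ))) θ ∘ₗ
          hm (M := B3 k 0) (N := B2 k 0) (mC 0)))
      (Hom.comp (um_mem id_shift0) (Hom.comp hex (hm_mem (mC_hom 0)))) x := by
    intro x
    have h2 := congrArg mu (hcon x)
    rw [mu_mp] at h2
    exact h2
  have h3 := mapE_eq_o (Q := B3 k 0) (N := WE (hat (XX k (-1)))) _ _ h1 0 1 (by
    rw [mem_B3]
    have := monomial_mem_G (k := k) 0 0 0 0 1 (by simp [Gs, ydeg, xdeg, ddeg])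
    exact G_cst this (by simp) rfl (by simp))
  have h4 : ap0 (q3 (1 : PA k)) = θ (mC 0 1) + 0 := congrArg Prod.snd h3
  rw [B2_theta hθ0, add_zero, q3_apply, map_neg, neg_eq_zero, ap0_apply] at h4
  have h5 : (kp (1 : PA k) : PA k) = 1 := by rw [kp_coe, map_one]
  rw [h5, pi1_apply] at h4
  have h6 : ap (1 : PA k) = 1 := by
    have := monomial_mem_G (k := k) 0 0 0 0 1 (by simp [Gs, ydeg, xdeg, ddeg])
    exact ap_of_zero (by rw [← G_eq]; exact this)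
  rw [h6, map_one] at h4
  exact one_ne_zero h4

end Vale.Agent.P195.AR
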