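import Vale.Agent.Lib.P195.AR.Basic

/-!
# P195: bifiltered modules

`Bw k`: a space with left operators `x i`, `d i` (Weyl relations) and a bifiltration `F a b`.
`Bf k`: the same with one more operator `s`, `s² = 0`, commuting with all others and sending
`F a b` to `F (a-1) b`. `HomW`, `Hom`: the maps commuting with the operators and preserving the
filtration (as submodules of the space of linear maps). `hat N = N ⊕ s N(1,0)`.
-/

namespace Vale.Agent.P195.AR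

open MvPolynomial

/-- a space with operators `x_i, d_i` (Weyl relations) and a bifiltration -/
structure Bw (k : Type) [Field k] where
  V : Type
  [acg : AddCommGroup V]
  [mod : Module k V]
  x : Fin 2 → V →ₗ[k] V
  d : Fin 2 → V →ₗ[k] V
  xx : ∀ i j v, x i (x j v) = x j (x i v)
  dd : ∀ i j v, d i (d j v) = d j (d i v)
  dx : ∀ i j v, d j (x i v) = x i (d j v) + if i = j then v else 0
  F : ℤ → ℤ → Submodule k V
  mono : ∀ a b b', b ≤ b' → F a b ≤ F a b'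
  Fx : ∀ i a b v, v ∈ F a b → x i v ∈ F (a + 1) b
  Fd : ∀ i a b v, v ∈ F a b → d i v ∈ F (a - 1) (b + 1)

attribute [instance] Bw.acg Bw.mod

/-- a bifiltered module with an operator `s` -/
structure Bf (k : Type) [Field k] extends Bw k where
  s : V →ₗ[k] V
  ss : ∀ v, s (s v) = 0
  sx : ∀ i v, s (x i v) = x i (s v)
  sd : ∀ i v, s (d i v) = d i (s v)
  Fs : ∀ a b v, v ∈ F a b → s v ∈ F (a - 1) b

variable {k : Type} [Field k]

/-- filtered maps commuting with `x_i`, `d_i` -/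
def HomW (M N : Bw k) : Submodule k (M.V →ₗ[k] N.V) where
  carrier := {f | (∀ i v, f (M.x i v) = N.x i (f v)) ∧ (∀ i v, f (M.d i v) = N.d i (f v)) ∧
    ∀ a b v, v ∈ M.F a b → f v ∈ N.F a b}
  add_mem' := by
    rintro f g ⟨h1, h2, h3⟩ ⟨g1, g2, g3⟩
    refine ⟨fun i v => ?_, fun i v => ?_, fun a b v hv => ?_⟩
    · simp only [LinearMap.add_apply, map_add, h1, g1]
    · simp only [LinearMap.add_apply, map_add, h2, g2]
    · exact (N.F a b).add_mem (h3 a b v hv) (g3 a b v hv)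
  zero_mem' := ⟨fun i v => by simp, fun i v => by simp, fun a b v _ => (N.F a b).zero_mem⟩
  smul_mem' := by
    rintro c f ⟨h1, h2, h3⟩
    refine ⟨fun i v => ?_, fun i v => ?_, fun a b v hv => ?_⟩
    · simp only [LinearMap.smul_apply, map_smul, h1]
    · simp only [LinearMap.smul_apply, map_smul, h2]
    · exact (N.F a b).smul_mem c (h3 a b v hv)

theorem mem_HomW {M N : Bw k} {f : M.V →ₗ[k] N.V} : f ∈ HomW M N ↔
    (∀ i v, f (M.x i v) = N.x i (f v)) ∧ (∀ i v, f (M.d i v) = N.d i (f v)) ∧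
    ∀ a b v, v ∈ M.F a b → f v ∈ N.F a b := Iff.rfl

/-- filtered maps commuting with `x_i`, `d_i`, `s` -/
def Hom (M N : Bf k) : Submodule k (M.V →ₗ[k] N.V) where
  carrier := {f | f ∈ HomW M.toBw N.toBw ∧ ∀ v, f (M.s v) = N.s (f v)}
  add_mem' := by
    rintro f g ⟨h1, h2⟩ ⟨g1, g2⟩
    exact ⟨(HomW M.toBw N.toBw).add_mem h1 g1, fun v => by
      simp only [LinearMap.add_apply, map_add, h2, g2]⟩
  zero_mem' := ⟨(HomW M.toBw N.toBw).zero_mem, fun v => by simp⟩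
  smul_mem' := by
    rintro c f ⟨h1, h2⟩
    exact ⟨(HomW M.toBw N.toBw).smul_mem c h1, fun v => by
      simp only [LinearMap.smul_apply, map_smul, h2]⟩

theorem mem_Hom {M N : Bf k} {f : M.V →ₗ[k] N.V} : f ∈ Hom M N ↔
    f ∈ HomW M.toBw N.toBw ∧ ∀ v, f (M.s v) = N.s (f v) := Iff.rfl

theorem HomW.comp {M N P : Bw k} {g : N.V →ₗ[k] P.V} {f : M.V →ₗ[k] N.V} (hg : g ∈ HomW N P)
    (hf : f ∈ HomW M N) : g ∘ₗ f ∈ HomW M P :=
  ⟨fun i v => by rw [LinearMap.comp_apply, hf.1, hg.1]; rfl,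
    fun i v => by rw [LinearMap.comp_apply, hf.2.1, hg.2.1]; rfl,
    fun a b v hv => hg.2.2 a b _ (hf.2.2 a b v hv)⟩

theorem HomW.id (M : Bw k) : (LinearMap.id : M.V →ₗ[k] M.V) ∈ HomW M M :=
  ⟨fun _ _ => rfl, fun _ _ => rfl, fun _ _ _ hv => hv⟩

theorem Hom.comp {M N P : Bf k} {g : N.V →ₗ[k] P.V} {f : M.V →ₗ[k] N.V} (hg : g ∈ Hom N P)
    (hf : f ∈ Hom M N) : g ∘ₗ f ∈ Hom M P :=
  ⟨HomW.comp hg.1 hf.1, fun v => by rw [LinearMap.comp_apply, hf.2, hg.2]; rfl⟩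

theorem Hom.id (M : Bf k) : (LinearMap.id : M.V →ₗ[k] M.V) ∈ Hom M M :=
  ⟨HomW.id M.toBw, fun _ => rfl⟩

/-- shift of the bifiltration -/
abbrev Bw.shift (N : Bw k) (a0 b0 : ℤ) : Bw k where
  V := N.V
  x := N.x
  d := N.d
  xx := N.xx
  dd := N.dd
  dx := N.dx
  F := fun a b => N.F (a + a0) (b + b0)
  mono := fun a b b' h => N.mono _ _ _ (by omega)
  Fx := fun i a b v hv => by
    have := N.Fx i _ _ v hv
    rwa [show a + a0 + 1 = a + 1 + a0 by ring] at this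
  Fd := fun i a b v hv => by
    have := N.Fd i _ _ v hv
    rwa [show a + a0 - 1 = a - 1 + a0 by ring, show b + b0 + 1 = b + 1 + b0 by ring] at this

/-- products of two bifiltered modules -/
abbrev Bw.prod (M N : Bw k) : Bw k where
  V := M.V × N.V
  x := fun i => (M.x i).prodMap (N.x i)
  d := fun i => (M.d i).prodMap (N.d i)
  xx := fun i j v => Prod.ext (M.xx i j _) (N.xx i j _)
  dd := fun i j v => Prod.ext (M.dd i j _) (N.dd i j _)
  dx := fun i j v => by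
    refine Prod.ext ((M.dx i j _).trans ?_) ((N.dx i j _).trans ?_) <;> split_ifs <;> simp
  F := fun a b => (M.F a b).prod (N.F a b)
  mono := fun a b b' h => Submodule.prod_mono (M.mono a b b' h) (N.mono a b b' h)
  Fx := fun i a b v hv => ⟨M.Fx i a b _ hv.1, N.Fx i a b _ hv.2⟩
  Fd := fun i a b v hv => ⟨M.Fd i a b _ hv.1, N.Fd i a b _ hv.2⟩

/-- products of bifiltered modules -/
abbrev Bw.pi {ι : Type} (N : ι → Bw k) : Bw k where
  V := ∀ i, (N i).V
  x := fun j => LinearMap.pi (fun i => (N i).x j ∘ₗ LinearMap.proj i)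
  d := fun j => LinearMap.pi (fun i => (N i).d j ∘ₗ LinearMap.proj i)
  xx := fun i j v => funext fun t => (N t).xx i j _
  dd := fun i j v => funext fun t => (N t).dd i j _
  dx := fun i j v => by
    funext t
    refine ((N t).dx i j _).trans ?_
    split_ifs <;> simp
  F := fun a b => Submodule.pi Set.univ (fun i => (N i).F a b)
  mono := fun a b b' h v hv i hi => (N i).mono a b b' h (hv i hi)
  Fx := fun i a b v hv t ht => (N t).Fx i a b _ (hv t ht)
  Fd := fun i a b v hv t ht => (N t).Fd i a b _ (hv t ht)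

/-- `hat N = N ⊕ s N(1,0)` -/
abbrev hat (N : Bw k) : Bf k where
  V := N.V × N.V
  x := fun i => (N.x i).prodMap (N.x i)
  d := fun i => (N.d i).prodMap (N.d i)
  xx := fun i j v => Prod.ext (N.xx i j _) (N.xx i j _)
  dd := fun i j v => Prod.ext (N.dd i j _) (N.dd i j _)
  dx := fun i j v => by
    refine Prod.ext ((N.dx i j _).trans ?_) ((N.dx i j _).trans ?_) <;> split_ifs <;> simp
  F := fun a b => (N.F a b).prod (N.F (a + 1) b)
  mono := fun a b b' h => Submodule.prod_mono (N.mono a b b' h) (N.mono (a + 1) b b' h)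
  Fx := fun i a b v hv => ⟨N.Fx i a b _ hv.1, N.Fx i (a + 1) b _ hv.2⟩
  Fd := fun i a b v hv => ⟨N.Fd i a b _ hv.1, by
    have := N.Fd i (a + 1) b _ hv.2
    rwa [show a + 1 - 1 = a - 1 + 1 by ring] at this⟩
  s := LinearMap.prod 0 (LinearMap.fst k N.V N.V)
  ss := fun v => by simp
  sx := fun i v => Prod.ext (by simp) rfl
  sd := fun i v => Prod.ext (by simp) rfl
  Fs := fun a b v hv => ⟨(N.F (a - 1) b).zero_mem, by
    have := hv.1
    change v.1 ∈ N.F (a - 1 + 1) b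
    rwa [show a - 1 + 1 = a by ring]⟩

/-- a bifiltered module with `s = 0` -/
abbrev triv (N : Bw k) : Bf k where
  toBw := N
  s := 0
  ss := fun v => rfl
  sx := fun i v => by simp
  sd := fun i v => by simp
  Fs := fun a b v _ => (N.F (a - 1) b).zero_mem

/-- the hat of a map -/
def hm {M N : Bw k} (f : M.V →ₗ[k] N.V) : (hat M).V →ₗ[k] (hat N).V := f.prodMap f

theorem hm_apply {M N : Bw k} (f : M.V →ₗ[k] N.V) (v : (hat M).V) : hm f v = (f v.1, f v.2) := rfl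

theorem hm_mem {M N : Bw k} {f : M.V →ₗ[k] N.V} (hf : f ∈ HomW M N) :
    hm f ∈ Hom (hat M) (hat N) :=
  ⟨⟨fun i _ => Prod.ext (hf.1 i _) (hf.1 i _), fun i _ => Prod.ext (hf.2.1 i _) (hf.2.1 i _),
    fun a b _ hv => ⟨hf.2.2 a b _ hv.1, hf.2.2 (a + 1) b _ hv.2⟩⟩,
    fun _ => Prod.ext (map_zero f) rfl⟩

theorem hm_comp {M N P : Bw k} (g : N.V →ₗ[k] P.V) (f : M.V →ₗ[k] N.V) :
    hm (M := M) (N := P) (g ∘ₗ f) = hm (M := N) (N := P) g ∘ₗ hm (M := M) (N := N) f := rfl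

theorem hm_id (M : Bw k) : hm (M := M) (N := M) LinearMap.id = LinearMap.id := rfl

theorem hm_add {M N : Bw k} (f g : M.V →ₗ[k] N.V) : hm (M := M) (N := N) (f + g) =
    hm (M := M) (N := N) f + hm (M := M) (N := N) g := rfl

/-- the inclusion `N → hat N`, `u ↦ (u, 0)` -/
def jn (M : Bw k) : M.V →ₗ[k] (hat M).V := LinearMap.inl k M.V M.V

theorem jn_apply (M : Bw k) (u : M.V) : jn M u = (u, 0) := rfl

theorem jn_mem (M : Bw k) : jn M ∈ HomW M (hat M).toBw :=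
  ⟨fun i _ => Prod.ext rfl (map_zero (M.x i)).symm,
    fun i _ => Prod.ext rfl (map_zero (M.d i)).symm,
    fun a b _ hv => ⟨hv, (M.F (a + 1) b).zero_mem⟩⟩

/-- extension of a map `M → L` to `hat M → L`: `(u, v) ↦ f u + s f v` -/
def ex {M : Bw k} {L : Bf k} (f : M.V →ₗ[k] L.V) : (hat M).V →ₗ[k] L.V :=
  LinearMap.coprod f (L.s ∘ₗ f)

theorem ex_apply {M : Bw k} {L : Bf k} (f : M.V →ₗ[k] L.V) (v : (hat M).V) :
    ex f v = f v.1 + L.s (f v.2) := rfl

theorem ex_mem {M : Bw k} {L : Bf k} {f : M.V →ₗ[k] L.V} (hf : f ∈ HomW M L.toBw) :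
    ex f ∈ Hom (hat M) L := by
  refine ⟨⟨fun i v => ?_, fun i v => ?_, fun a b v hv => ?_⟩, fun v => ?_⟩
  · rw [ex_apply, ex_apply]
    change f (M.x i v.1) + L.s (f (M.x i v.2)) = _
    rw [hf.1, hf.1, L.sx, map_add]
  · rw [ex_apply, ex_apply]
    change f (M.d i v.1) + L.s (f (M.d i v.2)) = _
    rw [hf.2.1, hf.2.1, L.sd, map_add]
  · rw [ex_apply]
    refine (L.F a b).add_mem (hf.2.2 a b _ hv.1) ?_
    have := L.Fs _ _ _ (hf.2.2 (a + 1) b _ hv.2)
    rwa [show a + 1 - 1 = a by ring] at this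
  · rw [ex_apply, ex_apply]
    change f 0 + L.s (f v.1) = _
    rw [map_zero, zero_add, map_add, L.ss, add_zero]

theorem ex_jn {M : Bw k} {L : Bf k} (f : M.V →ₗ[k] L.V) : ex f ∘ₗ jn M = f := by
  apply LinearMap.ext
  intro u
  rw [LinearMap.comp_apply, ex_apply, jn_apply]
  simp

theorem jn_ex {M : Bw k} {L : Bf k} {f : (hat M).V →ₗ[k] L.V} (hf : f ∈ Hom (hat M) L) :
    ex (f ∘ₗ jn M) = f := by
  apply LinearMap.ext
  rintro ⟨u, v⟩
  change f (u, 0) + L.s (f (v, 0)) = f (u, v)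
  rw [← hf.2, ← map_add]
  congr 1
  exact Prod.ext (add_zero u) (zero_add v)

/-- `M → hat N`, `u ↦ (0, f u)` for `f : M → N(1,0)`; extended to `hat M → hat N`,
`(u, v) ↦ (0, f u)` -/
def sm {M N : Bw k} (f : M.V →ₗ[k] N.V) : (hat M).V →ₗ[k] (hat N).V :=
  LinearMap.prod 0 (f ∘ₗ LinearMap.fst k M.V M.V)

theorem sm_apply {M N : Bw k} (f : M.V →ₗ[k] N.V) (v : (hat M).V) : sm f v = (0, f v.1) := rfl

theorem sm_mem {M N : Bw k} {f : M.V →ₗ[k] N.V} (hf : f ∈ HomW M (N.shift 1 0)) :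
    sm f ∈ Hom (hat M) (hat N) := by
  refine ⟨⟨fun i v => Prod.ext (map_zero (N.x i)).symm (hf.1 i _),
    fun i v => Prod.ext (map_zero (N.d i)).symm (hf.2.1 i _),
    fun a b v hv => ⟨(N.F a b).zero_mem, ?_⟩⟩, fun v => Prod.ext rfl (map_zero f)⟩
  have := hf.2.2 a b _ hv.1
  change f v.1 ∈ N.F (a + 1) (b + 0) at this
  rwa [add_zero] at this

/-- the map `M → triv N` extended to `hat M` : `(u, v) ↦ f u` -/
def tm {M N : Bw k} (f : M.V →ₗ[k] N.V) : (hat M).V →ₗ[k] (triv N).V :=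
  f ∘ₗ LinearMap.fst k M.V M.V

theorem tm_apply {M N : Bw k} (f : M.V →ₗ[k] N.V) (v : (hat M).V) : tm f v = f v.1 := rfl

theorem tm_mem {M N : Bw k} {f : M.V →ₗ[k] N.V} (hf : f ∈ HomW M N) :
    tm f ∈ Hom (hat M) (triv N) :=
  ⟨⟨fun i _ => hf.1 i _, fun i _ => hf.2.1 i _, fun a b _ hv => hf.2.2 a b _ hv.1⟩,
    fun _ => map_zero f⟩

/-- the map `triv M → hat N`, `u ↦ (0, f u)` for `f : M → N(1,0)` -/
def um {M N : Bw k} (f : M.V →ₗ[k] N.V) : (triv M).V →ₗ[k] (hat N).V := LinearMap.prod 0 f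

theorem um_apply {M N : Bw k} (f : M.V →ₗ[k] N.V) (v : (triv M).V) : um f v = (0, f v) := rfl

theorem um_mem {M N : Bw k} {f : M.V →ₗ[k] N.V} (hf : f ∈ HomW M (N.shift 1 0)) :
    um f ∈ Hom (triv M) (hat N) := by
  refine ⟨⟨fun i v => Prod.ext (map_zero (N.x i)).symm (hf.1 i _),
    fun i v => Prod.ext (map_zero (N.d i)).symm (hf.2.1 i _),
    fun a b v hv => ⟨(N.F a b).zero_mem, ?_⟩⟩, fun v => Prod.ext rfl (map_zero f)⟩
  have := hf.2.2 a b _ hv
  change f v ∈ N.F (a + 1) (b + 0) at this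
  rwa [add_zero] at this

end Vale.Agent.P195.AR
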