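import Mathlib.Algebra.MvPolynomial.PDeriv
import Mathlib.Algebra.MvPolynomial.Division
import Mathlib.RingTheory.Derivation.Lie
import Mathlib.RingTheory.MvPolynomial.Basic
import Mathlib.RingTheory.MvPolynomial.Homogeneous
import Mathlib.Tactic

/-!
# P195: exactness at the vertices `P_e` from exactness at the filtration pieces

`N(P_e) = {(u_1, u_2) ∈ N[0,0]^2 : X_2 u_1 - X_1 u_2 ∈ N[1,-e]}`.  The lemma `PEx.exact` is stated for raw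
spaces: `A i` = the piece `[a,0]`, `B i` = the piece `[a+1,0]`, `C i` = the piece `[a+1,-e]`.
-/

namespace Vale.Agent.P195.AR

namespace PEx

variable {k : Type*} [Field k]

/-- the vertex `P_e`: pairs in `A` with `x2 u_1 - x1 u_2 ∈ C` -/
def PW {V : Type*} [AddCommGroup V] [Module k V] (x1 x2 : V →ₗ[k] V) (A C : Submodule k V) :
    Submodule k (V × V) where
  carrier := {u | u.1 ∈ A ∧ u.2 ∈ A ∧ x2 u.1 - x1 u.2 ∈ C}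
  add_mem' := by
    rintro u v ⟨h1, h2, h3⟩ ⟨h4, h5, h6⟩
    refine ⟨A.add_mem h1 h4, A.add_mem h2 h5, ?_⟩
    have e : x2 (u + v).1 - x1 (u + v).2 = (x2 u.1 - x1 u.2) + (x2 v.1 - x1 v.2) := by
      simp only [Prod.fst_add, Prod.snd_add, map_add]
      abel
    rw [e]
    exact C.add_mem h3 h6
  zero_mem' := ⟨A.zero_mem, A.zero_mem, by simp⟩
  smul_mem' := by
    rintro c u ⟨h1, h2, h3⟩
    refine ⟨A.smul_mem c h1, A.smul_mem c h2, ?_⟩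
    have e : x2 (c • u).1 - x1 (c • u).2 = c • (x2 u.1 - x1 u.2) := by
      simp only [Prod.smul_fst, Prod.smul_snd, map_smul, smul_sub]
    rw [e]
    exact C.smul_mem c h3

theorem mem_PW {V : Type*} [AddCommGroup V] [Module k V] (x1 x2 : V →ₗ[k] V)
    (A C : Submodule k V) (u : V × V) :
    u ∈ PW x1 x2 A C ↔ u.1 ∈ A ∧ u.2 ∈ A ∧ x2 u.1 - x1 u.2 ∈ C := Iff.rfl

variable {V0 V1 V2 : Type*} [AddCommGroup V0] [Module k V0] [AddCommGroup V1] [Module k V1]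
  [AddCommGroup V2] [Module k V2]

/-- **Exactness at `P_e`.** `V0 -d-> V1 -f-> V2`; `K2` = the kernel of the next map (or everything). -/
theorem exact (d : V0 →ₗ[k] V1) (f : V1 →ₗ[k] V2)
    (x10 x20 : V0 →ₗ[k] V0) (x11 x21 : V1 →ₗ[k] V1) (x12 x22 : V2 →ₗ[k] V2)
    (hd1 : ∀ v, d (x10 v) = x11 (d v)) (hd2 : ∀ v, d (x20 v) = x21 (d v))
    (hf1 : ∀ v, f (x11 v) = x12 (f v)) (hf2 : ∀ v, f (x21 v) = x22 (f v))
    (A0 B0 C0 : Submodule k V0) (A1 B1 C1 : Submodule k V1) (A2 C2 K2 : Submodule k V2)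
    (hdA : ∀ v ∈ A0, d v ∈ A1) (hdC : ∀ v ∈ C0, d v ∈ C1)
    (hCB : C1 ≤ B1) (hX1 : ∀ v ∈ A1, x11 v ∈ B1) (hX2 : ∀ v ∈ A1, x21 v ∈ B1)
    (hfd : ∀ v ∈ A0, f (d v) = 0)
    (hK1 : ∀ v ∈ K2, x12 v ∈ K2) (hK2 : ∀ v ∈ K2, x22 v ∈ K2)
    (e1 : ∀ z ∈ A2, z ∈ K2 → ∃ y ∈ A1, f y = z)
    (e2 : ∀ z ∈ C2, z ∈ K2 → ∃ y ∈ C1, f y = z)
    (e3 : ∀ y ∈ B1, f y = 0 → ∃ y' ∈ B0, d y' = y)
    (surj : ∀ y' ∈ B0, ∃ v1 ∈ A0, ∃ v2 ∈ A0, ∃ v' ∈ C0, y' = x20 v1 - x10 v2 + v')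
    (z : V2 × V2) (hz : z ∈ PW x12 x22 A2 C2) (hz1 : z.1 ∈ K2) (hz2 : z.2 ∈ K2) :
    ∃ y ∈ PW x11 x21 A1 C1, (f y.1, f y.2) = z := by
  obtain ⟨h1, h2, h3⟩ := hz
  obtain ⟨y1, hy1, e4⟩ := e1 z.1 h1 hz1
  obtain ⟨y2, hy2, e5⟩ := e1 z.2 h2 hz2
  obtain ⟨c', hc', e6⟩ := e2 _ h3 (K2.sub_mem (hK2 _ hz1) (hK1 _ hz2))
  have hc : x21 y1 - x11 y2 ∈ B1 := B1.sub_mem (hX2 _ hy1) (hX1 _ hy2)
  have hfc : f (x21 y1 - x11 y2 - c') = 0 := by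
    rw [map_sub, map_sub, hf1, hf2, e4, e5, e6, sub_self]
  obtain ⟨y', hy', e7⟩ := e3 _ (B1.sub_mem hc (hCB hc')) hfc
  obtain ⟨v1, hv1, v2, hv2, v', hv', e8⟩ := surj y' hy'
  refine ⟨(y1 - d v1, y2 - d v2), ⟨?_, ?_, ?_⟩, ?_⟩
  · exact A1.sub_mem hy1 (hdA _ hv1)
  · exact A1.sub_mem hy2 (hdA _ hv2)
  · have e9 : x21 (y1 - d v1) - x11 (y2 - d v2) = c' + d v' := by
      have e10 : d y' = x21 (d v1) - x11 (d v2) + d v' := by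
        rw [e8, map_add, map_sub, hd1, hd2]
      rw [map_sub, map_sub]
      have e11 : x21 y1 - x11 y2 = c' + d y' := by
        rw [e7]; abel
      have e12 : x21 y1 - x21 (d v1) - (x11 y2 - x11 (d v2)) =
          (x21 y1 - x11 y2) - (x21 (d v1) - x11 (d v2)) := by abel
      rw [e12, e11, e10]
      abel
    change x21 (y1 - d v1) - x11 (y2 - d v2) ∈ C1
    rw [e9]
    exact C1.add_mem hc' (hdC _ hv')
  · change (f (y1 - d v1), f (y2 - d v2)) = z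
    rw [map_sub, map_sub, hfd _ hv1, hfd _ hv2, sub_zero, sub_zero, e4, e5]

/-- the same when `f` is injective on `B1` (no previous term) -/
theorem exact_of_inj (f : V1 →ₗ[k] V2)
    (x11 x21 : V1 →ₗ[k] V1) (x12 x22 : V2 →ₗ[k] V2)
    (hf1 : ∀ v, f (x11 v) = x12 (f v)) (hf2 : ∀ v, f (x21 v) = x22 (f v))
    (A1 B1 C1 : Submodule k V1) (A2 C2 K2 : Submodule k V2)
    (hCB : C1 ≤ B1) (hX1 : ∀ v ∈ A1, x11 v ∈ B1) (hX2 : ∀ v ∈ A1, x21 v ∈ B1)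
    (hK1 : ∀ v ∈ K2, x12 v ∈ K2) (hK2 : ∀ v ∈ K2, x22 v ∈ K2)
    (e1 : ∀ z ∈ A2, z ∈ K2 → ∃ y ∈ A1, f y = z)
    (e2 : ∀ z ∈ C2, z ∈ K2 → ∃ y ∈ C1, f y = z)
    (e3 : ∀ y ∈ B1, f y = 0 → y = 0)
    (z : V2 × V2) (hz : z ∈ PW x12 x22 A2 C2) (hz1 : z.1 ∈ K2) (hz2 : z.2 ∈ K2) :
    ∃ y ∈ PW x11 x21 A1 C1, (f y.1, f y.2) = z := by
  refine exact (0 : V1 →ₗ[k] V1) f 0 0 x11 x21 x12 x22 (by simp) (by simp) hf1 hf2
    ⊥ ⊥ ⊥ A1 B1 C1 A2 C2 K2 (by simp) (by simp) hCB hX1 hX2 (by simp) hK1 hK2 e1 e2 ?_ ?_ z hz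
    hz1 hz2
  · intro y hy h
    exact ⟨0, Submodule.zero_mem _, by rw [e3 y hy h]; simp⟩
  · intro y' hy'
    refine ⟨0, Submodule.zero_mem _, 0, Submodule.zero_mem _, 0, Submodule.zero_mem _, ?_⟩
    rw [Submodule.mem_bot] at hy'
    simp [hy']

end PEx

end Vale.Agent.P195.AR
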