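import Vale.Agent.Lib.P195.AR.HTower

/-!
# P195: `P_e ⊂ O(0,e)²` as the preimage of `O(1,0) ⊂ O(1,e)` under `q`

The hypotheses `hinj`, `hr`, `hs` of `LTower.RelAc.pull`.
-/

namespace Vale.Agent.P195.AR.S5

open MvPolynomial

variable {k : Type} [Field k]

variable (k)

/-- `O(0,e)²` -/
noncomputable abbrev OO (e : ℤ) : Bw k := (SO k 0 0 e).prod (SO k 0 0 e)

variable {k}

theorem pe_cast {m m' a a' b b' : ℤ} {f : PA k} (h : f ∈ (G m a b : Submodule k (PA k)))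
    (hm : m = m') (ha : a = a') (hb : b = b') : f ∈ (G m' a' b' : Submodule k (PA k)) := by
  subst hm; subst ha; subst hb; exact h

theorem qq_hom (e : ℤ) : (qq : (PA k × PA k) →ₗ[k] PA k) ∈ HomW (OO k e) (SO k 0 1 e) := by
  refine ⟨fun i v => ?_, fun i v => ?_, fun a b v hv => ?_⟩
  · change rx 0 (lx i v.1) + rx 1 (lx i v.2) = lx i (rx 0 v.1 + rx 1 v.2)
    rw [map_add, lx_rx, lx_rx]
  · change rx 0 (ld i v.1) + rx 1 (ld i v.2) = ld i (rx 0 v.1 + rx 1 v.2)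
    rw [map_add, ld_rx, ld_rx]
  · obtain ⟨h1, h2⟩ := hv
    have h1' : v.1 ∈ (G 0 (a + 0) (b + e) : Submodule k (PA k)) := h1
    have h2' : v.2 ∈ (G 0 (a + 0) (b + e) : Submodule k (PA k)) := h2
    change rx 0 v.1 + rx 1 v.2 ∈ (G 0 (a + 1) (b + e) : Submodule k (PA k))
    exact Submodule.add_mem _ (pe_cast (rx_mem 0 _ _ _ _ h1') rfl (by ring) rfl)
      (pe_cast (rx_mem 1 _ _ _ _ h2') rfl (by ring) rfl)

theorem idP_hom {e : ℤ} (he : 0 ≤ e) :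
    (LinearMap.id : (PA k × PA k) →ₗ[k] (PA k × PA k)) ∈ HomW (SP k 0 0 e) (OO k e) := by
  refine ⟨fun i v => rfl, fun i v => rfl, fun a b v hv => ?_⟩
  exact hv.1

theorem idO_hom {a r r' : ℤ} (h : r' ≤ r) :
    (LinearMap.id : PA k →ₗ[k] PA k) ∈ HomW (SO k 0 a r') (SO k 0 a r) := by
  refine ⟨fun i v => rfl, fun i v => rfl, fun p q v hv => ?_⟩
  have hv' : v ∈ (G 0 (p + a) (q + r') : Submodule k (PA k)) := hv
  change v ∈ (G 0 (p + a) (q + r) : Submodule k (PA k))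
  exact G_mono _ _ _ _ (by omega) hv'

/-- `O(a,r') → O(a,r)` -/
noncomputable def jO {a r r' : ℤ} (h : r' ≤ r) :
    Wn (WE (hat (SO k 0 a r'))) →ₗ[R k] Wn (WE (hat (SO k 0 a r))) :=
  Wn.mapE (L := hat (SO k 0 a r')) (N := WE (hat (SO k 0 a r))) (hm LinearMap.id)
    (hm_mem (idO_hom h))

/-- `P_e → O(0,e)²` -/
noncomputable def jPe {e : ℤ} (he : 0 ≤ e) :
    Wn (WE (hat (SP k 0 0 e))) →ₗ[R k] Wn (WE (hat (OO k e))) :=
  Wn.mapE (L := hat (SP k 0 0 e)) (N := WE (hat (OO k e))) (hm LinearMap.id)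
    (hm_mem (idP_hom he))

/-- `q : O(0,e)² → O(1,e)` -/
noncomputable def qPe (e : ℤ) : Wn (WE (hat (OO k e))) →ₗ[R k] Wn (WE (hat (SO k 0 1 e))) :=
  Wn.mapE (L := hat (OO k e)) (N := WE (hat (SO k 0 1 e))) (hm qq) (hm_mem (qq_hom e))

theorem jO_inj {a r r' : ℤ} (h : r' ≤ r) : Function.Injective (jO (k := k) (a := a) h) :=
  H1.mapE_inj (L := hat (SO k 0 a r')) (L' := hat (SO k 0 a r)) (hm_mem (idO_hom h))
    (fun _ _ h => h)

theorem jPe_inj {e : ℤ} (he : 0 ≤ e) : Function.Injective (jPe (k := k) he) :=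
  H1.mapE_inj (L := hat (SP k 0 0 e)) (L' := hat (OO k e)) (hm_mem (idP_hom he))
    (fun _ _ h => h)

theorem qqP_hom (e : ℤ) : (qq : (PA k × PA k) →ₗ[k] PA k) ∈ HomW (SP k 0 0 e) (SO k 0 1 0) := by
  refine ⟨(qq_hom e).1, (qq_hom e).2.1, fun a b v hv => ?_⟩
  have h : rx 0 v.1 + rx 1 v.2 ∈ (G 0 (a + 0 + 1) b : Submodule k (PA k)) := hv.2
  change rx 0 v.1 + rx 1 v.2 ∈ (G 0 (a + 1) (b + 0) : Submodule k (PA k))
  exact pe_cast h rfl (by ring) (by ring)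

/-- `q : P_e → O(1,0)` -/
noncomputable def qPP (e : ℤ) : Wn (WE (hat (SP k 0 0 e))) →ₗ[R k] Wn (WE (hat (SO k 0 1 0))) :=
  Wn.mapE (L := hat (SP k 0 0 e)) (N := WE (hat (SO k 0 1 0))) (hm qq) (hm_mem (qqP_hom e))

theorem jO_qPP {e : ℤ} (he : 0 ≤ e) (z : Wn (WE (hat (SP k 0 0 e)))) :
    jO (k := k) (a := 1) (r := e) (r' := 0) he (qPP e z) = qPe e (jPe he z) :=
  H1.mapE_sq (L := hat (SP k 0 0 e)) (L1 := hat (SO k 0 1 0)) (L2 := hat (OO k e))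
    (N := hat (SO k 0 1 e)) (hm_mem (qqP_hom e)) (hm_mem (idO_hom he)) (hm_mem (idP_hom he))
    (hm_mem (qq_hom e)) (fun _ _ => rfl) z

/-- a map to `O(0,e)²` whose composition with `q` has values in `O(1,0)` has values in `P_e` -/
theorem pe_mem {e : ℤ} {φ : (TT k).V →ₗ[k] (hat (OO k e)).V} (hφ : φ ∈ Hom (TT k) (hat (OO k e)))
    {w : (TT k).V →ₗ[k] (hat (SO k 0 1 0)).V} (hw : w ∈ Hom (TT k) (hat (SO k 0 1 0)))
    (h : ∀ v, hm (M := OO k e) (N := SO k 0 1 e) qq (φ v) = w v) :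
    φ ∈ Hom (TT k) (hat (SP k 0 0 e)) := by
  refine ⟨⟨hφ.1.1, hφ.1.2.1, fun a b v hv => ?_⟩, hφ.2⟩
  obtain ⟨⟨h1, h2⟩, h3, h4⟩ := hφ.1.2.2 a b v hv
  obtain ⟨h5, h6⟩ := hw.1.2.2 a b v hv
  have e1 : (w v).1 = rx 0 (φ v).1.1 + rx 1 (φ v).1.2 := (congrArg Prod.fst (h v)).symm
  have e2 : (w v).2 = rx 0 (φ v).2.1 + rx 1 (φ v).2.2 := (congrArg Prod.snd (h v)).symm
  rw [e1] at h5
  rw [e2] at h6
  exact ⟨⟨⟨h1, h2⟩, pe_cast h5 rfl (by ring) (by ring)⟩,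
    ⟨⟨h3, h4⟩, pe_cast h6 rfl (by ring) (by ring)⟩⟩

/-- `P_e` is the preimage -/
theorem pe_hr {e : ℤ} (he : 0 ≤ e) (x : Wn (WE (hat (OO k e)))) :
    x ∈ LinearMap.range (jPe (k := k) he) ↔
      qPe e x ∈ LinearMap.range (jO (k := k) (a := 1) (r := e) (r' := 0) he) := by
  constructor
  · rintro ⟨z, rfl⟩
    exact ⟨qPP e z, jO_qPP he z⟩
  · rintro ⟨w, hw⟩
    have h1 : ∀ v, hm (M := OO k e) (N := SO k 0 1 e) qq (x.f v) = w.f v := by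
      intro v
      have h2 := congrArg Wn.f hw
      exact (LinearMap.congr_fun h2 v).symm
    have h3 : x.f ∈ Hom (TT k) (hat (SP k 0 0 e)) := pe_mem x.mem.1 w.mem.1 h1
    exact ⟨Wn.mk (N := WE (hat (SP k 0 0 e))) x.f ⟨h3, x.mem.2⟩, rfl⟩

variable [CharZero k]

theorem pe_f0 (e : ℤ) : ((LinearMap.id : (PA k × PA k) →ₗ[k] (PA k × PA k)).prod (-qq)) ∈
    HomW (SP k 0 0 e) ((OO k e).prod (SO k 0 1 0)) := by
  have h := qqP_hom (k := k) e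
  refine ⟨fun i v => ?_, fun i v => ?_, fun a b v hv => ?_⟩
  · refine Prod.ext rfl ?_
    change -(qq ((SP k 0 0 e).x i v)) = lx i (-(qq v))
    rw [map_neg]
    exact congrArg Neg.neg (h.1 i v)
  · refine Prod.ext rfl ?_
    change -(qq ((SP k 0 0 e).d i v)) = ld i (-(qq v))
    rw [map_neg]
    exact congrArg Neg.neg (h.2.1 i v)
  · exact ⟨hv.1, Submodule.neg_mem _ (h.2.2 a b v hv)⟩

theorem pe_f1 {e : ℤ} (he : 0 ≤ e) : ((qq : (PA k × PA k) →ₗ[k] PA k).coprod LinearMap.id) ∈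
    HomW ((OO k e).prod (SO k 0 1 0)) (SO k 0 1 e) := by
  have h := qq_hom (k := k) e
  have h' := idO_hom (k := k) (a := 1) he
  refine ⟨fun i v => ?_, fun i v => ?_, fun a b v hv => ?_⟩
  · change qq ((OO k e).x i v.1) + lx i v.2 = lx i (qq v.1 + v.2)
    rw [map_add]
    exact congrArg (fun z => z + lx i v.2) (h.1 i v.1)
  · change qq ((OO k e).d i v.1) + ld i v.2 = ld i (qq v.1 + v.2)
    rw [map_add]
    exact congrArg (fun z => z + ld i v.2) (h.2.1 i v.1)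
  · exact Submodule.add_mem _ (h.2.2 a b v.1 hv.1) (h'.2.2 a b v.2 hv.2)

theorem pe_surj {e : ℤ} (he : 0 ≤ e) : Function.Surjective
    (Wn.mapE (L := hat ((OO k e).prod (SO k 0 1 0))) (N := WE (hat (SO k 0 1 e)))
      (hm ((qq : (PA k × PA k) →ₗ[k] PA k).coprod LinearMap.id)) (hm_mem (pe_f1 he))) := by
  have h := surj_hm (M0 := SP k 0 0 e) (M1 := (OO k e).prod (SO k 0 1 0)) (M2 := SO k 0 1 e)
    (pe_f0 e) (pe_f1 he)
  refine h ?_ ?_ ?_ (H1.SurP_of fun a ha => H1.Sj_SP ha he le_rfl)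
  · intro a _ v _
    change qq v + -(qq v) = 0
    exact add_neg_cancel _
  · intro a b ha _ _ v hv
    have hv' : v ∈ (G 0 (a + 1) (b + e) : Submodule k (PA k)) := hv
    obtain ⟨p1, h1, p2, h2, e1⟩ := H1.factD1 ha hv'
    refine ⟨((p1, p2), 0), ⟨⟨?_, ?_⟩, Submodule.zero_mem _⟩, ?_⟩
    · change p1 ∈ (G 0 (a + 0) (b + e) : Submodule k (PA k))
      exact pe_cast h1 rfl (by ring) rfl
    · change p2 ∈ (G 0 (a + 0) (b + e) : Submodule k (PA k))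
      exact pe_cast h2 rfl (by ring) rfl
    · change qq (p1, p2) + 0 = v
      rw [add_zero, e1]
      rfl
  · intro a _ v hv h0
    obtain ⟨⟨h1, h2⟩, h3⟩ := hv
    have h3' : v.2 ∈ (G 0 (a + 1) (0 + 0) : Submodule k (PA k)) := h3
    have h0' : qq v.1 + v.2 = 0 := h0
    have e1 : qq v.1 = -v.2 := eq_neg_of_add_eq_zero_left h0'
    refine ⟨v.1, ⟨⟨h1, h2⟩, ?_⟩, ?_⟩
    · change qq v.1 ∈ (G 0 (a + 0 + 1) 0 : Submodule k (PA k))
      rw [e1]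
      exact Submodule.neg_mem _ (pe_cast h3' rfl (by ring) (by ring))
    · refine Prod.ext rfl ?_
      change -(qq v.1) = v.2
      rw [e1, neg_neg]

theorem pe_fst (M N : Bw k) : LinearMap.fst k M.V N.V ∈ HomW (M.prod N) M :=
  ⟨fun _ _ => rfl, fun _ _ => rfl, fun _ _ _ hv => hv.1⟩

theorem pe_snd (M N : Bw k) : LinearMap.snd k M.V N.V ∈ HomW (M.prod N) N :=
  ⟨fun _ _ => rfl, fun _ _ => rfl, fun _ _ _ hv => hv.2⟩

/-- surjectivity modulo `O(1,0)`: use `surj_hm` for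
`0 → SP 0 0 e → OO e × SO 0 1 0 → SO 0 1 e → 0` with `SurP (SP k 0 0 e)` from `H1.Sj_SP`,
`H1.SurP_of`, and `H1.factD1` -/
theorem pe_hs {e : ℤ} (he : 0 ≤ e) (y : Wn (WE (hat (SO k 0 1 e)))) :
    ∃ x : Wn (WE (hat (OO k e))),
      y - qPe e x ∈ LinearMap.range (jO (k := k) (a := 1) (r := e) (r' := 0) he) := by
  obtain ⟨φ, hφ⟩ := pe_surj he y
  refine ⟨Wn.mapE (L := hat ((OO k e).prod (SO k 0 1 0))) (N := WE (hat (OO k e)))
    (hm (LinearMap.fst k (OO k e).V (SO k 0 1 0).V)) (hm_mem (pe_fst _ _)) φ,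
    Wn.mapE (L := hat ((OO k e).prod (SO k 0 1 0))) (N := WE (hat (SO k 0 1 0)))
    (hm (LinearMap.snd k (OO k e).V (SO k 0 1 0).V)) (hm_mem (pe_snd _ _)) φ, ?_⟩
  rw [eq_sub_iff_add_eq, ← hφ]
  apply Wn.ext
  rw [Wn.add_f]
  apply LinearMap.ext
  intro v
  refine Prod.ext ?_ ?_
  · change (φ.f v).1.2 + qq (φ.f v).1.1 = qq (φ.f v).1.1 + (φ.f v).1.2
    exact add_comm _ _
  · change (φ.f v).2.2 + qq (φ.f v).2.1 = qq (φ.f v).2.1 + (φ.f v).2.2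
    exact add_comm _ _

end Vale.Agent.P195.AR.S5
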