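import Vale.Agent.Lib.P195.AR.WM
import Vale.Agent.Lib.P195.AR.HHom
import Vale.Agent.Lib.P195.AR.Yo

/-!
# P195: the chain map from the resolution (level `0`) to the exact sequence of `M`
-/

namespace Vale.Agent.P195.AR

open MvPolynomial SeqM H1

variable {k : Type} [Field k]

/-! ### killing `y` -/

/-- `y_i ↦ 0` -/
noncomputable def k0 : PA k →ₐ[k] PA k :=
  aeval (fun v => match v with
    | .x i => X (Vr.x i)
    | .d i => X (Vr.d i)
    | .y _ => 0)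

theorem k0_x (i : Fin 2) : k0 (X (Vr.x i) : PA k) = X (Vr.x i) := by simp [k0]
theorem k0_d (i : Fin 2) : k0 (X (Vr.d i) : PA k) = X (Vr.d i) := by simp [k0]
theorem k0_y (i : Fin 2) : k0 (X (Vr.y i) : PA k) = 0 := by simp [k0]

theorem k0_px (i : Fin 2) (f : PA k) : k0 (pderiv (Vr.x i) f) = pderiv (Vr.x i) (k0 f) := by
  induction f using MvPolynomial.induction_on with
  | C a => simp [k0]
  | add p q hp hq => rw [map_add, map_add, map_add, map_add, hp, hq]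
  | mul_X p v hp =>
    rw [pderiv_mul, map_add, map_mul, map_mul, map_mul, pderiv_mul, hp]
    congr 2
    rcases v with j | j | j
    · rw [k0_x]
      by_cases hij : j = i
      · subst hij; rw [pderiv_X_self, map_one]
      · rw [pderiv_X_of_ne (by simpa using hij), map_zero]
    · rw [k0_d, pderiv_X_of_ne (by simp), map_zero]
    · rw [k0_y, pderiv_X_of_ne (by simp), map_zero, map_zero]

theorem k0_pd (i : Fin 2) (f : PA k) : k0 (pderiv (Vr.d i) f) = pderiv (Vr.d i) (k0 f) := by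
  induction f using MvPolynomial.induction_on with
  | C a => simp [k0]
  | add p q hp hq => rw [map_add, map_add, map_add, map_add, hp, hq]
  | mul_X p v hp =>
    rw [pderiv_mul, map_add, map_mul, map_mul, map_mul, pderiv_mul, hp]
    congr 2
    rcases v with j | j | j
    · rw [k0_x, pderiv_X_of_ne (by simp), map_zero]
    · rw [k0_d]
      by_cases hij : j = i
      · subst hij; rw [pderiv_X_self, map_one]
      · rw [pderiv_X_of_ne (by simpa using hij), map_zero]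
    · rw [k0_y, pderiv_X_of_ne (by simp), map_zero, map_zero]

theorem k0_mem (f : PA k) : k0 f ∈ Y0 k := by
  induction f using MvPolynomial.induction_on with
  | C a =>
    have : k0 (C a : PA k) = monomial 0 a := by simp [k0]
    rw [this]
    exact monomial_mem_Y0 0 a (by simp [ydeg])
  | add p q hp hq => rw [map_add]; exact (Y0 k).add_mem hp hq
  | mul_X p v hp =>
    rw [map_mul, mul_comm]
    rcases v with j | j | j
    · rw [k0_x]; exact rx_mem_Y0 j _ hp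
    · rw [k0_d]; exact ld_mem_Y0 j _ hp
    · rw [k0_y, zero_mul]; exact (Y0 k).zero_mem

theorem alg_id (F : PA k →ₐ[k] PA k) (hx : ∀ i, F (X (Vr.x i)) = X (Vr.x i))
    (hd : ∀ i, F (X (Vr.d i)) = X (Vr.d i)) {f : PA k} (hf : f ∈ Y0 k) : F f = f := by
  have h := Y0_induction (F.toLinearMap - LinearMap.id) ⊥ ?_ f hf
  · rw [Submodule.mem_bot, LinearMap.sub_apply, sub_eq_zero] at h
    exact h
  · intro μ hμ
    rw [Submodule.mem_bot, LinearMap.sub_apply, sub_eq_zero]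
    change F (monomial μ 1) = monomial μ 1
    rw [monomial_eq, map_mul, algHom_C, map_finsuppProd]
    congr 1
    refine Finsupp.prod_congr fun v hv => ?_
    rw [map_pow]
    rcases v with j | j | j
    · rw [hx]
    · rw [hd]
    · exfalso
      have h1 : μ (Vr.y j) ≠ 0 := Finsupp.mem_support_iff.1 hv
      simp only [ydeg] at hμ
      fin_cases j <;> simp at h1 <;> omega

theorem k0_id {f : PA k} (hf : f ∈ Y0 k) : k0 f = f := alg_id k0 k0_x k0_d hf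

/-- killing `y`, as a map to `Y0` -/
noncomputable def kp : PA k →ₗ[k] Y0 k :=
  (k0 : PA k →ₐ[k] PA k).toLinearMap.codRestrict (Y0 k) k0_mem

theorem kp_coe (f : PA k) : (kp f : PA k) = k0 f := rfl

theorem kp_rx (i : Fin 2) (f : PA k) : kp (rx i f) = rx0 i (kp f) := by
  apply Subtype.ext
  rw [rx0_coe, kp_coe, kp_coe, rx_apply, rx_apply, map_mul, k0_x]

theorem kp_ld (i : Fin 2) (f : PA k) : kp (ld i f) = ld0 i (kp f) := by
  apply Subtype.ext
  rw [ld0_coe, kp_coe, kp_coe, ld_apply, ld_apply, map_mul, k0_d]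

theorem kp_rd (i : Fin 2) (f : PA k) : kp (rd i f) = rd0 i (kp f) := by
  apply Subtype.ext
  rw [rd0_coe, kp_coe, kp_coe, rd_apply, rd_apply, map_sub, map_mul, k0_d, k0_px]

theorem kp_lx (i : Fin 2) (f : PA k) : kp (lx i f) = lx0 i (kp f) := by
  apply Subtype.ext
  rw [lx0_coe, kp_coe, kp_coe, lx_apply, lx_apply, map_sub, map_mul, k0_x, k0_pd]

theorem kp_my (i : Fin 2) (f : PA k) : kp (my i f) = 0 := by
  apply Subtype.ext
  rw [kp_coe, my_apply, map_mul, k0_y, zero_mul]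
  rfl

theorem kp_G {a b : ℤ} {f : PA k} (hf : f ∈ (G 0 a b : Submodule k (PA k))) :
    (kp f : PA k) = f := k0_id (G0_le_Y0 a b hf)

theorem dy_G0 {a b : ℤ} (i : Fin 2) {f : PA k} (hf : f ∈ (G 0 a b : Submodule k (PA k))) :
    dy i f = 0 := by
  have h := dy_mem i _ _ _ f hf
  rw [G_neg _ _ _ (Or.inl (by norm_num)), Submodule.mem_bot] at h
  exact h

/-! ### the four maps -/

/-- `E = x_1 ∂/∂y_1 + x_2 ∂/∂y_2` -/
noncomputable def El : PA k →ₗ[k] PA k := rx 0 ∘ₗ dy 0 + rx 1 ∘ₗ dy 1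

theorem El_apply (f : PA k) : El f = rx 0 (dy 0 f) + rx 1 (dy 1 f) := rfl

/-- level 3 -/
noncomputable def q3 : PA k →ₗ[k] Y0 k := -kp

/-- level 2 -/
noncomputable def q2 : ((PA k × PA k) × (PA k × PA k)) →ₗ[k] (Y0 k × Y0 k) :=
  LinearMap.prod (kp ∘ₗ AR.qq ∘ₗ LinearMap.snd k _ _) (-(kp ∘ₗ AR.qq ∘ₗ LinearMap.fst k _ _))

/-- level 1 -/
noncomputable def q1 : ((PA k × PA k) × (PA k × PA k)) →ₗ[k] (Y0 k × Y0 k) :=
  (kp ∘ₗ El).prodMap (kp ∘ₗ El) ∘ₗ LinearMap.fst k _ _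

theorem q2_apply (z : (PA k × PA k) × (PA k × PA k)) :
    q2 z = (kp (AR.qq z.2), -kp (AR.qq z.1)) := rfl

theorem q1_apply (z : (PA k × PA k) × (PA k × PA k)) :
    q1 z = (kp (El z.1.1), kp (El z.1.2)) := rfl

theorem q3_apply (f : PA k) : q3 f = -kp f := rfl

theorem kp_hom (b0 : ℤ) (hb : b0 ≤ 2) : kp ∈ HomW (SO k 0 0 b0) ((LL k).shift 1 0) := by
  refine ⟨fun i v => kp_lx i v, fun i v => kp_ld i v, fun a b v hv => ?_⟩
  change v ∈ (G 0 (a + 0) (b + b0) : Submodule k (PA k)) at hv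
  change kp v ∈ (LL k).F (a + 1) (b + 0)
  rw [mem_LL, kp_G hv]
  exact G_mono _ _ _ _ (by omega) (G_cst hv rfl (show a + 0 = a + 1 - 1 by ring) rfl)

theorem q3_hom : q3 ∈ HomW (B3 k 0) ((LL k).shift 1 0) :=
  Submodule.neg_mem _ (kp_hom 0 (by norm_num))

theorem q0_hom : kp ∈ HomW (B0 k 0) ((LL k).shift 1 0) := kp_hom 2 le_rfl

theorem qq_lx (i : Fin 2) (p : PA k × PA k) : AR.qq (lx i p.1, lx i p.2) = lx i (AR.qq p) := by
  rw [AR.qq_apply, AR.qq_apply, map_add, lx_rx, lx_rx]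

theorem qq_ld (i : Fin 2) (p : PA k × PA k) : AR.qq (ld i p.1, ld i p.2) = ld i (AR.qq p) := by
  rw [AR.qq_apply, AR.qq_apply, map_add, ld_rx, ld_rx]

theorem El_lx (i : Fin 2) (f : PA k) : El (lx i f) = lx i (El f) := by
  rw [El_apply, El_apply, map_add, lx_rx, lx_rx, dy_lx, dy_lx]

theorem El_ld (i : Fin 2) (f : PA k) : El (ld i f) = ld i (El f) := by
  rw [El_apply, El_apply, map_add, ld_rx, ld_rx, dy_ld, dy_ld]

theorem El_mem {m a b : ℤ} {f : PA k} (hf : f ∈ (G (m + 1) a b : Submodule k (PA k))) :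
    El f ∈ (G m (a + 1) b : Submodule k (PA k)) := by
  rw [El_apply]
  exact Submodule.add_mem _ (rx_mem 0 _ _ _ _ (G_cst (dy_mem 0 _ _ _ _ hf) (by ring) rfl rfl))
    (rx_mem 1 _ _ _ _ (G_cst (dy_mem 1 _ _ _ _ hf) (by ring) rfl rfl))

theorem q2_hom : q2 ∈ HomW (B2 k 0) ((Tal k).shift 1 0) := by
  refine ⟨fun i v => ?_, fun i v => ?_, fun a b v hv => ?_⟩
  · refine Prod.ext ?_ ?_
    · change kp (AR.qq (lx i v.2.1, lx i v.2.2)) = lx0 i (kp (AR.qq v.2))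
      rw [qq_lx, kp_lx]
    · change -kp (AR.qq (lx i v.1.1, lx i v.1.2)) = lx0 i (-kp (AR.qq v.1))
      rw [qq_lx, kp_lx, map_neg]
  · refine Prod.ext ?_ ?_
    · change kp (AR.qq (ld i v.2.1, ld i v.2.2)) = ld0 i (kp (AR.qq v.2))
      rw [qq_ld, kp_ld]
    · change -kp (AR.qq (ld i v.1.1, ld i v.1.2)) = ld0 i (-kp (AR.qq v.1))
      rw [qq_ld, kp_ld, map_neg]
  · obtain ⟨⟨⟨_, _⟩, h1⟩, ⟨_, _⟩, h2⟩ := hv
    change AR.qq v.1 ∈ (G 0 (a + 0 + 1) b : Submodule k (PA k)) at h1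
    change AR.qq v.2 ∈ (G 0 (a + 0 + 1) b : Submodule k (PA k)) at h2
    change q2 v ∈ (Tal k).F (a + 1) (b + 0)
    rw [mem_Tal, q2_apply]
    have e1 : AR.qq v.1 ∈ (G 0 (a + 1) (b + 0 + 2) : Submodule k (PA k)) :=
      G_mono _ _ _ _ (by omega) (G_cst h1 rfl (by ring) rfl)
    have e2 : AR.qq v.2 ∈ (G 0 (a + 1) (b + 0 + 2) : Submodule k (PA k)) :=
      G_mono _ _ _ _ (by omega) (G_cst h2 rfl (by ring) rfl)
    refine ⟨⟨?_, ?_⟩, ?_⟩
    · change (kp (AR.qq v.2) : PA k) ∈ _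
      rw [kp_G e2]
      exact e2
    · change -(kp (AR.qq v.1) : PA k) ∈ _
      rw [kp_G e1]
      exact Submodule.neg_mem _ e1
    · change rx 0 (kp (AR.qq v.2) : PA k) + rx 1 (-(kp (AR.qq v.1) : PA k)) ∈ _
      rw [kp_G e1, kp_G e2]
      refine Submodule.add_mem _ ?_ ?_
      · exact G_cst (rx_mem 0 _ _ _ _ h2) rfl (by ring) (by ring)
      · exact G_cst (rx_mem 1 _ _ _ _ (Submodule.neg_mem _ h1)) rfl (by ring) (by ring)

theorem q1_hom : q1 ∈ HomW (B1 k 0) ((Tbe k).shift 1 0) := by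
  refine ⟨fun i v => ?_, fun i v => ?_, fun a b v hv => ?_⟩
  · refine Prod.ext ?_ ?_
    · change kp (El (lx i v.1.1)) = lx0 i (kp (El v.1.1))
      rw [El_lx, kp_lx]
    · change kp (El (lx i v.1.2)) = lx0 i (kp (El v.1.2))
      rw [El_lx, kp_lx]
  · refine Prod.ext ?_ ?_
    · change kp (El (ld i v.1.1)) = ld0 i (kp (El v.1.1))
      rw [El_ld, kp_ld]
    · change kp (El (ld i v.1.2)) = ld0 i (kp (El v.1.2))
      rw [El_ld, kp_ld]
  · rw [mem_B1] at hv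
    obtain ⟨⟨h1, h2⟩, _⟩ := hv
    change q1 v ∈ (Tbe k).F (a + 1) (b + 0)
    rw [mem_Tbe, q1_apply]
    have e1 : El v.1.1 ∈ (G 0 (a + 1) (b + 1) : Submodule k (PA k)) :=
      El_mem (G_cst h1 (by simp) rfl rfl)
    have e2 : El v.1.2 ∈ (G 0 (a + 1) (b + 1) : Submodule k (PA k)) :=
      El_mem (G_cst h2 (by simp) rfl rfl)
    constructor
    · change (kp (El v.1.1) : PA k) ∈ _
      rw [kp_G e1]
      exact G_cst e1 rfl rfl (by ring)
    · change (kp (El v.1.2) : PA k) ∈ _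
      rw [kp_G e2]
      exact G_cst e2 rfl rfl (by ring)

/-! ### the identities -/

theorem I3 {a b : ℤ} {h : PA k} (hh : h ∈ (B3 k 0).F a b) : q2 (mC 0 h) = wp0 (q3 h) := by
  rw [mem_B3] at hh
  have e0 : pderiv (Vr.y 0) h = 0 := dy_G0 0 (G_cst hh (by simp) rfl rfl)
  have e1 : pderiv (Vr.y 1) h = 0 := dy_G0 1 (G_cst hh (by simp) rfl rfl)
  rw [q2_apply, q3_apply, wp0_apply, mC_apply]
  have h1 : AR.qq (fC 0 h).2 = -(rx 1 h) := by
    change X (Vr.x 0) * (fC 0 h).2.1 + X (Vr.x 1) * (fC 0 h).2.2 = -(X (Vr.x 1) * h)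
    simp only [fC, e0, e1]
    push_cast
    ring
  have h2 : AR.qq (fC 0 h).1 = -(rx 0 h) := by
    change X (Vr.x 0) * (fC 0 h).1.1 + X (Vr.x 1) * (fC 0 h).1.2 = -(X (Vr.x 0) * h)
    simp only [fC, e0, e1]
    push_cast
    ring
  rw [h1, h2, map_neg, map_neg, kp_rx, kp_rx, map_neg, map_neg]

theorem E_rd (j : Fin 2) (f : PA k) : El (rd j f) = rd j (El f) + dy j f := by
  rw [El_apply, El_apply, map_add, dy_rd, dy_rd, rx_rd, rx_rd]
  fin_cases j <;> simp <;> ring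

theorem E_my (j : Fin 2) (f : PA k) : El (my j f) = my j (El f) + rx j f := by
  rw [El_apply, El_apply, map_add, dy_my, dy_my, map_add, map_add, my_rx, my_rx]
  fin_cases j <;> simp <;> ring

theorem I2 {a b : ℤ} {z : (PA k × PA k) × (PA k × PA k)} (hz : z ∈ (B2 k 0).F a b) :
    q1 (mB 0 z) = Psi (q2 z) := by
  rw [mem_B2] at hz
  obtain ⟨⟨h1, h2, _⟩, h3, h4, _⟩ := hz
  have a0 : dy 0 z.1.1 = 0 := dy_G0 0 (G_cst h1 (by simp) rfl rfl)
  have a1 : dy 1 z.1.1 = 0 := dy_G0 1 (G_cst h1 (by simp) rfl rfl)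
  have b0 : dy 0 z.1.2 = 0 := dy_G0 0 (G_cst h2 (by simp) rfl rfl)
  have b1 : dy 1 z.1.2 = 0 := dy_G0 1 (G_cst h2 (by simp) rfl rfl)
  have c0 : dy 0 z.2.1 = 0 := dy_G0 0 (G_cst h3 (by simp) rfl rfl)
  have c1 : dy 1 z.2.1 = 0 := dy_G0 1 (G_cst h3 (by simp) rfl rfl)
  have d0 : dy 0 z.2.2 = 0 := dy_G0 0 (G_cst h4 (by simp) rfl rfl)
  have d1 : dy 1 z.2.2 = 0 := dy_G0 1 (G_cst h4 (by simp) rfl rfl)
  have eb1 : (fB 0 z).1.1 = my 0 z.1.1 + my 1 z.1.2 +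
      rd 1 (my 0 (AR.qq z.2) - my 1 (AR.qq z.1)) := by
    change ((((0 : ℕ) : PA k) + 1) * (X (Vr.y 0) * z.1.1 + X (Vr.y 1) * z.1.2) + rd2 (kap z)) = _
    push_cast
    rw [zero_add, one_mul]
    rfl
  have eb2 : (fB 0 z).1.2 = my 0 z.2.1 + my 1 z.2.2 -
      rd 0 (my 0 (AR.qq z.2) - my 1 (AR.qq z.1)) := by
    change ((((0 : ℕ) : PA k) + 1) * (X (Vr.y 0) * z.2.1 + X (Vr.y 1) * z.2.2) - rd1 (kap z)) = _
    push_cast
    rw [zero_add, one_mul]
    rfl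
  have El0 : ∀ f : PA k, dy 0 f = 0 → dy 1 f = 0 → El f = 0 := by
    intro f e f'
    rw [El_apply, e, f', map_zero, map_zero, add_zero]
  have dq : ∀ (i : Fin 2) (p : PA k × PA k), dy i p.1 = 0 → dy i p.2 = 0 →
      dy i (AR.qq p) = 0 := by
    intro i p e f'
    rw [AR.qq_apply, map_add, dy_rx, dy_rx, e, f', map_zero, map_zero, add_zero]
  have ez1 := El0 (AR.qq z.1) (dq 0 z.1 a0 b0) (dq 1 z.1 a1 b1)
  have ez2 := El0 (AR.qq z.2) (dq 0 z.2 c0 d0) (dq 1 z.2 c1 d1)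
  have key : El (my 0 (AR.qq z.2) - my 1 (AR.qq z.1)) = rx 0 (AR.qq z.2) - rx 1 (AR.qq z.1) := by
    rw [map_sub, E_my, E_my, ez1, ez2, map_zero, map_zero, zero_add, zero_add]
  have k1 : dy 1 (my 0 (AR.qq z.2) - my 1 (AR.qq z.1)) = -(AR.qq z.1) := by
    rw [map_sub, dy_my, dy_my, dq 1 z.2 c1 d1, dq 1 z.1 a1 b1]
    simp
  have k2 : dy 0 (my 0 (AR.qq z.2) - my 1 (AR.qq z.1)) = AR.qq z.2 := by
    rw [map_sub, dy_my, dy_my, dq 0 z.2 c0 d0, dq 0 z.1 a0 b0]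
    simp
  have e1 : El (fB 0 z).1.1 = rd 1 (rx 0 (AR.qq z.2) - rx 1 (AR.qq z.1)) := by
    rw [eb1, map_add, map_add, E_my, E_my, El0 _ a0 a1, El0 _ b0 b1, E_rd, key, k1, map_zero,
      map_zero, zero_add, zero_add, AR.qq_apply z.1]
    ring
  have e2 : El (fB 0 z).1.2 = -rd 0 (rx 0 (AR.qq z.2) - rx 1 (AR.qq z.1)) := by
    rw [eb2, map_sub, map_add, E_my, E_my, El0 _ c0 c1, El0 _ d0 d1, E_rd, key, k2, map_zero,
      map_zero, zero_add, zero_add, AR.qq_apply z.2]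
    ring
  rw [mB_apply, q1_apply, e1, e2, q2_apply, Psi_apply]
  refine Prod.ext ?_ ?_
  · change kp _ = rd0 1 (rx0 0 (kp (AR.qq z.2)) + rx0 1 (-kp (AR.qq z.1)))
    rw [kp_rd, map_sub, kp_rx, kp_rx, map_neg, sub_eq_add_neg]
  · change kp _ = -rd0 0 (rx0 0 (kp (AR.qq z.2)) + rx0 1 (-kp (AR.qq z.1)))
    rw [map_neg, kp_rd, map_sub, kp_rx, kp_rx, map_neg, sub_eq_add_neg]

theorem I1 (z : (PA k × PA k) × (PA k × PA k)) : kp (mA 0 z) = pi0 (q1 z) := by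
  have e : fA 0 z = rd 0 (El z.1.1) + rd 1 (El z.1.2) - (my 0 z.2.1 + my 1 z.2.2) +
      (my 0 (rd 0 (AR.qq z.2)) + my 1 (rd 1 (AR.qq z.2))) := by
    change (rd1 (EE z.1.1) - ((0 : ℕ) : PA k) * pderiv (Vr.y 0) z.1.1) +
      (rd2 (EE z.1.2) - ((0 : ℕ) : PA k) * pderiv (Vr.y 1) z.1.2)
      - (((0 : ℕ) : PA k) + 1) * (X (Vr.y 0) * z.2.1 + X (Vr.y 1) * z.2.2)
      + (X (Vr.y 0) * rd1 (H1.qq z.2) + X (Vr.y 1) * rd2 (H1.qq z.2)) = _
    push_cast
    rw [zero_mul, zero_mul, sub_zero, sub_zero, zero_add, one_mul]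
    rfl
  rw [mA_apply, e, map_add, map_sub, map_add, map_add, map_add, kp_my, kp_my, kp_my, kp_my, kp_rd,
    kp_rd, q1_apply, pi0_apply]
  simp

theorem I0 {a b : ℤ} {f : PA k} (hf : f ∈ (B0 k 0).F a b) : evX f = ap0 (kp f) := by
  rw [mem_B0] at hf
  have h0 : f ∈ (G 0 a (b + 2) : Submodule k (PA k)) := G_cst hf (by simp) rfl rfl
  have h1 : dg f = f := alg_id sg sg_x sg_d (G0_le_Y0 _ _ h0)
  rw [ap0_apply, kp_G h0, evX_apply, pi1_apply, ev_eq, h1]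
  have h2 : (resx : PA k →ₐ[k] MvPolynomial (Fin 2) k) = toX := by
    apply MvPolynomial.algHom_ext
    intro v
    rcases v with j | j | j <;> simp [resx, toX]
  rw [h2]

end Vale.Agent.P195.AR
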