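import Vale.Agent.Lib.P195.AR.Win

/-!
# P195: the windows `WJ v` of the projective modules `R e_v`, and `R = ⊕ R e_v`
-/

namespace Vale.Agent.P195.AR

open MvPolynomial

variable {k : Type} [Field k]

variable (k) in
/-- the maps allowed at `al` for `R e_v` -/
noncomputable def JA (v : Vx) : Submodule k ((hat (Tal k)).V →ₗ[k] (hat (T7 k v)).V) :=
  (WR k).A.map (LinearMap.llcomp k _ _ _ (prj v))

variable (k) in
/-- the maps allowed at `be` for `R e_v` -/
noncomputable def JB (v : Vx) : Submodule k ((hat (Tbe k)).V →ₗ[k] (hat (T7 k v)).V) :=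
  (WR k).B.map (LinearMap.llcomp k _ _ _ (prj v))

theorem mem_JA {v : Vx} {g : (hat (Tal k)).V →ₗ[k] (hat (T7 k v)).V} :
    g ∈ JA k v ↔ ∃ f ∈ (WR k).A, prj v ∘ₗ f = g := Iff.rfl

theorem mem_JB {v : Vx} {g : (hat (Tbe k)).V →ₗ[k] (hat (T7 k v)).V} :
    g ∈ JB k v ↔ ∃ f ∈ (WR k).B, prj v ∘ₗ f = g := Iff.rfl

variable (k) in
/-- the window of `R e_v` -/
noncomputable abbrev WJ (v : Vx) : Wd k where
  L := hat (T7 k v)
  A := JA k v
  B := JB k v
  hA := by
    intro g hg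
    obtain ⟨f, hf, rfl⟩ := mem_JA.1 hg
    exact Hom.comp (prj_mem v) ((WR k).hA hf)
  hB := by
    intro g hg
    obtain ⟨f, hf, rfl⟩ := mem_JB.1 hg
    exact Hom.comp (prj_mem v) ((WR k).hB hf)
  BA := by
    intro g hg
    obtain ⟨f, hf, rfl⟩ := mem_JB.1 hg
    exact mem_JA.2 ⟨_, (WR k).BA f hf, rfl⟩
  AB := by
    intro g hg
    obtain ⟨f, hf, rfl⟩ := mem_JA.1 hg
    exact mem_JB.2 ⟨_, (WR k).AB f hf, rfl⟩

theorem JA_eq (v : Vx) : JA k v =
    Submodule.span k {prj v ∘ₗ inc .al, prj v ∘ₗ (inc .be ∘ₗ hm Psi)} := by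
  rw [JA]
  change (Submodule.span k {inc .al, inc .be ∘ₗ hm Psi}).map _ = _
  rw [Submodule.map_span, Set.image_pair]
  rfl

theorem JB_eq (v : Vx) : JB k v =
    Submodule.span k {prj v ∘ₗ inc .be, prj v ∘ₗ (inc .al ∘ₗ hm Ome)} := by
  rw [JB]
  change (Submodule.span k {inc .be, inc .al ∘ₗ hm Ome}).map _ = _
  rw [Submodule.map_span, Set.image_pair]
  rfl

theorem span_pair_zero {V : Type*} [AddCommGroup V] [Module k V] (a : V) :
    Submodule.span k {a, 0} = Submodule.span k {a} := by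
  rw [Set.pair_comm, Submodule.span_insert_zero]

theorem span_zero_pair {V : Type*} [AddCommGroup V] [Module k V] (a : V) :
    Submodule.span k {0, a} = Submodule.span k {a} := Submodule.span_insert_zero

theorem prj_inc_comp {V : Type*} [AddCommGroup V] [Module k V] (v : Vx)
    (f : V →ₗ[k] (hat (T7 k v)).V) : prj (k := k) v ∘ₗ (inc v ∘ₗ f) = f := by
  rw [← LinearMap.comp_assoc, prj_inc, LinearMap.id_comp]

theorem prj_inc_comp_ne {V : Type*} [AddCommGroup V] [Module k V] {v w : Vx} (h : v ≠ w)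
    (f : V →ₗ[k] (hat (T7 k w)).V) : prj (k := k) v ∘ₗ (inc w ∘ₗ f) = 0 := by
  rw [← LinearMap.comp_assoc, prj_inc_ne h, LinearMap.zero_comp]

/-- the maps at `al` of `R e_al` -/
theorem JA_al : JA k .al = Submodule.span k {LinearMap.id} := by
  rw [JA_eq, prj_inc_comp_ne (by decide), prj_inc]
  exact span_pair_zero (k := k) (V := (hat (Tal k)).V →ₗ[k] (hat (T7 k .al)).V) _

/-- the maps at `be` of `R e_al` -/
theorem JB_al : JB k .al = Submodule.span k {hm Ome} := by
  rw [JB_eq, prj_inc_comp, prj_inc_ne (by decide)]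
  exact span_zero_pair (k := k) (V := (hat (Tbe k)).V →ₗ[k] (hat (T7 k .al)).V) _

/-- the maps at `al` of `R e_be` -/
theorem JA_be : JA k .be = Submodule.span k {hm Psi} := by
  rw [JA_eq, prj_inc_comp, prj_inc_ne (by decide)]
  exact span_zero_pair (k := k) (V := (hat (Tal k)).V →ₗ[k] (hat (T7 k .be)).V) _

/-- the maps at `be` of `R e_be` -/
theorem JB_be : JB k .be = Submodule.span k {LinearMap.id} := by
  rw [JB_eq, prj_inc_comp_ne (by decide), prj_inc]
  exact span_pair_zero (k := k) (V := (hat (Tbe k)).V →ₗ[k] (hat (T7 k .be)).V) _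

/-- the maps at `al` of `R e_t` -/
theorem JA_e (t : Vt) : JA k (Vx.e t) = ⊥ := by
  rw [JA_eq, prj_inc_comp_ne (by simp), prj_inc_ne (by simp), span_pair_zero,
    Submodule.span_zero_singleton]

/-- the maps at `be` of `R e_t` -/
theorem JB_e (t : Vt) : JB k (Vx.e t) = ⊥ := by
  rw [JB_eq, prj_inc_comp_ne (by simp), prj_inc_ne (by simp), span_pair_zero,
    Submodule.span_zero_singleton]

/-! ### the decomposition of `R` -/

/-- `inc v` is allowed -/
theorem inc_JA (v : Vx) (g : (hat (Tal k)).V →ₗ[k] (hat (T7 k v)).V) (hg : g ∈ JA k v) :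
    inc v ∘ₗ g ∈ (WR k).A := by
  change _ ∈ Submodule.span k {inc .al, inc .be ∘ₗ hm Psi}
  rcases v with t | _ | _
  · rw [JA_e, Submodule.mem_bot] at hg
    rw [hg, LinearMap.comp_zero]
    exact Submodule.zero_mem _
  · rw [JA_al] at hg
    obtain ⟨c, rfl⟩ := Submodule.mem_span_singleton.1 hg
    rw [LinearMap.comp_smul, LinearMap.comp_id]
    exact Submodule.smul_mem _ c (Submodule.subset_span (Or.inl rfl))
  · rw [JA_be] at hg
    obtain ⟨c, rfl⟩ := Submodule.mem_span_singleton.1 hg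
    rw [LinearMap.comp_smul]
    exact Submodule.smul_mem _ c (Submodule.subset_span (Or.inr rfl))

theorem inc_JB (v : Vx) (g : (hat (Tbe k)).V →ₗ[k] (hat (T7 k v)).V) (hg : g ∈ JB k v) :
    inc v ∘ₗ g ∈ (WR k).B := by
  change _ ∈ Submodule.span k {inc .be, inc .al ∘ₗ hm Ome}
  rcases v with t | _ | _
  · rw [JB_e, Submodule.mem_bot] at hg
    rw [hg, LinearMap.comp_zero]
    exact Submodule.zero_mem _
  · rw [JB_al] at hg
    obtain ⟨c, rfl⟩ := Submodule.mem_span_singleton.1 hg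
    rw [LinearMap.comp_smul]
    exact Submodule.smul_mem _ c (Submodule.subset_span (Or.inr rfl))
  · rw [JB_be] at hg
    obtain ⟨c, rfl⟩ := Submodule.mem_span_singleton.1 hg
    rw [LinearMap.comp_smul, LinearMap.comp_id]
    exact Submodule.smul_mem _ c (Submodule.subset_span (Or.inl rfl))

/-- `R → R e_v`, `x ↦ x e_v` -/
noncomputable def jP (v : Vx) : R k →ₗ[R k] Wn (WJ k v) where
  toFun r := Wn.mk (N := WJ k v) (prj v ∘ₗ r.1.unop)
    ⟨Hom.comp (prj_mem v) r.2.1, mem_JA.2 ⟨_, r.2.2.1, rfl⟩, mem_JB.2 ⟨_, r.2.2.2, rfl⟩⟩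
  map_add' _ _ := Wn.ext (LinearMap.comp_add _ _ _)
  map_smul' _ _ := rfl

theorem jP_f (v : Vx) (r : R k) : (jP v r).f = prj v ∘ₗ r.1.unop := rfl

/-- `R e_v → R`, the inclusion -/
noncomputable def jI (v : Vx) : Wn (WJ k v) →ₗ[R k] R k where
  toFun φ := toR (inc v ∘ₗ φ.f) ⟨Hom.comp (inc_mem v) φ.mem.1, inc_JA v _ φ.mem.2.1,
    inc_JB v _ φ.mem.2.2⟩
  map_add' _ _ := Subtype.ext (congrArg MulOpposite.op (LinearMap.comp_add _ _ _))
  map_smul' _ _ := Subtype.ext rfl

theorem jI_f (v : Vx) (φ : Wn (WJ k v)) : (jI v φ).1.unop = inc v ∘ₗ φ.f := rfl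

theorem jP_jI (v : Vx) (φ : Wn (WJ k v)) : jP v (jI v φ) = φ :=
  Wn.ext (prj_inc_comp v φ.f)

theorem sum_jI_jP (r : R k) : ∑ v, jI v (jP v r) = r := by
  apply Subtype.ext
  apply MulOpposite.unop_injective
  apply LinearMap.ext
  intro u
  have h : ∀ s : Finset Vx, ((∑ v ∈ s, jI v (jP v r) : R k)).1.unop u =
      ∑ v ∈ s, inc v (prj v (r.1.unop u)) := by
    intro s
    induction s using Finset.induction_on with
    | empty => simp
    | insert v s hv ih =>
      rw [Finset.sum_insert hv, Finset.sum_insert hv, ← ih]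
      rfl
  exact (h Finset.univ).trans (sum_inc_prj _)

theorem WJ_projective (v : Vx) : Module.Projective (R k) (Wn (WJ k v)) :=
  Module.Projective.of_split (jI v) (jP v) (LinearMap.ext (jP_jI v))

theorem WJ_finite (v : Vx) : Module.Finite (R k) (Wn (WJ k v)) :=
  Module.Finite.of_surjective (jP v) (fun φ => ⟨jI v φ, jP_jI v φ⟩)

end Vale.Agent.P195.AR
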