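import Vale.Agent.Lib.P195.AR.RelTop

/-!
# P195: relative exactness of `C(a,r)/C(a,r-1)` at `C^0` and `C^3` (5.1 of PROOF.md)

`rel0`: `G_split`: `Φ = Φ0 + Φ1`, `Φ0 ∈ H n (a+r-2) (r-2)`. `d0G n Φ j ∈ G (n+1) a (r-2)` (from `hd`), and
`d0G n Φ j - X (Vr.d j) * (Qp * Φ0) ∈ G (n+1) a (r-2)` (use `lx_top`), so `X (Vr.d j) * (Qp * Φ0) = 0` by
`H_inf_G`, and `Φ0 = 0` by `ga0`.

`rel3`: `Ψ = Ψ0 + Ψ1`; `ga3`: `Ψ0 = d_1 c0 - d_0 c1`, `c_i ∈ H n (a+r) (r-1)`; `split_x` (a+r ≥ 1):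
`c_i = x_1 u_i - x_0 v_i`, `u_i, v_i ∈ H n (a+r-1) (r-1)`; take `P c 0 = u_c`, `P c 1 = v_c`.
-/

namespace Vale.Agent.P195.AR.S5

open MvPolynomial

variable {k : Type} [Field k] [CharZero k]

theorem rel0 (n : ℕ) (a r : ℤ) (Φ : PA k) (h : W0 a r n Φ)
    (hd : W1 a (r - 1) n (d0G n Φ) (d0L n Φ)) : W0 a (r - 1) n Φ := by
  obtain ⟨Φ0, h0, Φ1, h1, rfl⟩ := G_split _ _ _ _ h
  have hmy : my 0 (Φ0 + Φ1) ∈ (G (n + 1) a (r - 2) : Submodule k (PA k)) :=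
    myG h rfl rfl le_rfl
  have hG := hd.1 0
  rw [d0G] at hG
  have hld0 : ld 0 Φ0 ∈ (H n (a + (r - 2)) (r - 2 + 1) : Submodule k (PA k)) :=
    d_mem_H 0 _ _ _ _ h0
  have htop : Qh (ld 0 Φ0) - Qp * ld 0 Φ0 ∈ (G (n + 1) a (r - 2) : Submodule k (PA k)) :=
    Qh_top hld0 rfl (by omega) (by omega)
  have h1' : Qh (ld 0 Φ1) ∈ (G (n + 1) a (r - 2) : Submodule k (PA k)) :=
    QhG (ldG h1 rfl rfl le_rfl) rfl (by omega) (by omega)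
  have key : X (Vr.d 0) * (Qp * Φ0) ∈ (G (n + 1) a (r - 2) : Submodule k (PA k)) := by
    have e : X (Vr.d 0) * (Qp * Φ0) = (Qh (ld 0 (Φ0 + Φ1)) - (n : k) • my 0 (Φ0 + Φ1)) +
        (n : k) • my 0 (Φ0 + Φ1) - Qh (ld 0 Φ1) - (Qh (ld 0 Φ0) - Qp * ld 0 Φ0) := by
      rw [map_add (ld 0), Qh_add, ld_apply 0 Φ0]
      ring
    rw [e]
    exact Gsub (Gsub (Gadd (Gle hG rfl rfl (by omega)) (Gsmul _ hmy)) h1') htop
  have hH : X (Vr.d 0) * (Qp * Φ0) ∈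
      (H (n + 1) (a + (r - 2) + 1) (r - 2 + 1) : Submodule k (PA k)) :=
    d_mem_H 0 _ _ _ _ (Qp_mem h0)
  have hz := ga0 (H_inf_G _ _ _ _ _ _ _ hH key (by omega))
  subst hz
  rw [zero_add]
  exact Gle h1 rfl rfl (by omega)

theorem rel3 (n : ℕ) (a r : ℤ) (ha : 0 ≤ a) (hr : 1 ≤ r) (Ψ : PA k) (h : W3 a r n Ψ) :
    ∃ P : Fin 2 → Fin 2 → PA k, W2 a r n P ∧ W3 a (r - 1) n (Ψ - d2S n P) := by
  obtain ⟨Ψ0, h0, Ψ1, h1, rfl⟩ := G_split _ _ _ _ h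
  obtain ⟨c0, hc0, c1, hc1, rfl⟩ := ga3 hr h0
  obtain ⟨u0, hu0, v0, hv0, e0⟩ := split_x (by omega) hc0
  obtain ⟨u1, hu1, v1, hv1, e1⟩ := split_x (by omega) hc1
  have hP : ∀ c i, (![![u0, v0], ![u1, v1]] : Fin 2 → Fin 2 → PA k) c i ∈
      (H n (a + r - 1) (r - 1) : Submodule k (PA k)) := by
    intro c i
    fin_cases c <;> fin_cases i
    · exact hu0
    · exact hv0
    · exact hu1
    · exact hv1
  have hPG : ∀ c i, (![![u0, v0], ![u1, v1]] : Fin 2 → Fin 2 → PA k) c i ∈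
      (G n a (r - 1) : Submodule k (PA k)) := fun c i => Hle (hP c i) rfl (by omega) le_rfl
  have t0 : ell ((![![u0, v0], ![u1, v1]] : Fin 2 → Fin 2 → PA k) 0) - c0 ∈
      (G n (a + 1) (r - 2) : Submodule k (PA k)) := by
    have := ell_top (u := (![![u0, v0], ![u1, v1]] : Fin 2 → Fin 2 → PA k) 0)
      (u0 := (![![u0, v0], ![u1, v1]] : Fin 2 → Fin 2 → PA k) 0) (m' := n) (a' := a + 1)
      (b' := r - 2) (hP 0) (fun i => by rw [sub_self]; exact Submodule.zero_mem _) rfl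
      (by omega) (by omega)
    rw [e0]
    exact this
  have t1 : ell ((![![u0, v0], ![u1, v1]] : Fin 2 → Fin 2 → PA k) 1) - c1 ∈
      (G n (a + 1) (r - 2) : Submodule k (PA k)) := by
    have := ell_top (u := (![![u0, v0], ![u1, v1]] : Fin 2 → Fin 2 → PA k) 1)
      (u0 := (![![u0, v0], ![u1, v1]] : Fin 2 → Fin 2 → PA k) 1) (m' := n) (a' := a + 1)
      (b' := r - 2) (hP 1) (fun i => by rw [sub_self]; exact Submodule.zero_mem _) rfl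
      (by omega) (by omega)
    rw [e1]
    exact this
  generalize (![![u0, v0], ![u1, v1]] : Fin 2 → Fin 2 → PA k) = P at hP hPG t0 t1
  refine ⟨P, ⟨fun c i => Gle (hPG c i) rfl rfl (by omega), fun c =>
    Gsub (lxG (hPG c 0) rfl rfl le_rfl) (lxG (hPG c 1) rfl rfl le_rfl)⟩, ?_⟩
  have e : X (Vr.d 1) * c0 - X (Vr.d 0) * c1 + Ψ1 - d2S n P =
      Ψ1 + ((n : k) + 1) • (P 0 0 + P 1 1) -
      (my 0 (dy 0 (P 0 0)) + my 1 (dy 0 (P 0 1)) + my 0 (dy 1 (P 1 0)) + my 1 (dy 1 (P 1 1))) -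
      (ld 1 (ell (P 0) - c0) - ld 0 (ell (P 1) - c1)) := by
    rw [d2S, map_sub (ld 1), map_sub (ld 0), ld_apply 1 c0, ld_apply 0 c1]
    ring
  rw [W3, e]
  have hmd : ∀ i j (f : PA k), f ∈ (G n a (r - 1) : Submodule k (PA k)) →
      my i (dy j f) ∈ (G n a (r - 1) : Submodule k (PA k)) := fun i j f hf =>
    myG (dyG hf rfl rfl le_rfl) (by omega) rfl le_rfl
  exact Gsub (Gsub (Gadd h1 (Gsmul _ (Gadd (hPG 0 0) (hPG 1 1))))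
    (Gadd (Gadd (Gadd (hmd _ _ _ (hPG 0 0)) (hmd _ _ _ (hPG 0 1))) (hmd _ _ _ (hPG 1 0)))
      (hmd _ _ _ (hPG 1 1))))
    (Gsub (ldG t0 rfl (by omega) (by omega)) (ldG t1 rfl (by omega) (by omega)))

end Vale.Agent.P195.AR.S5
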