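import Vale.Agent.Lib.P195.AR.RelTop
import Vale.Agent.Lib.P195.AR.GA1

/-!
# P195: relative exactness of `C(a,r)/C(a,r-1)` at `C^1` (5.1 of PROOF.md)

Proof of `rel1`. Let `p = a + r`. `G_split`: `Γ j = G_j + ..`, `G_j ∈ H (n+1) (p-1) (r-1)`;
`Λ i = L_i + ..`, `L_i ∈ H (n-1) p r`; `ell Λ = e + ..`, `e ∈ H (n-1) (p-1) (r-2)`.
`ell Λ ∈ G (n-1) (a+1) (r-2)` gives (top degree `r`, `H_inf_G`, `lx_top`) `x_1 L_0 - x_0 L_1 = 0`, so by
`koszul_x` `L_i = x_i g`, `g ∈ H (n-1) (p-1) r`. From `hd`: the top symbol (degree `r`) of `d1P n Γ Λ c i`,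
which is `x_i * (∂^⊥_c (d_0 G_1 - d_1 G_0) - (n+1) y_c g)`, vanishes (cancel `x_i`), and the top symbol
(degree `r-1`) of `ell (d1P n Γ Λ c)` (`ell_d1`), which is `(n+1) Lc G_c + Qp (d_c e)`, vanishes.
`ga1` gives `Φ ∈ H n (p-2) (r-2)` with `G_j = d_j (Qp Φ)`, `e = -(n+1) Lc Φ`, `g = 0`. Then `Φ` works:
`Γ j - d0G n Φ j` and `ell (Λ - d0L n Φ) = ell Λ + (n+1) Lh Φ` (`ell_d0`) have no top symbol, and
`Λ i ∈ G (n-1) a (r-1)` as `L_i = 0`, `d0L n Φ i ∈ G (n-1) a (r-1)`.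
-/

namespace Vale.Agent.P195.AR.S5

open MvPolynomial

variable {k : Type} [Field k]

private theorem rel1_a {n : ℕ} {a r : ℤ} {Λ L : Fin 2 → PA k}
    (hL : ∀ i, L i ∈ (H (n - 1) (a + r) r : Submodule k (PA k)))
    (hΛ : ∀ i, Λ i - L i ∈ (G (n - 1) a (r - 1) : Submodule k (PA k)))
    (hell : ell Λ ∈ (G (n - 1) (a + 1) (r - 2) : Submodule k (PA k))) :
    ∃ g ∈ (H (n - 1) (a + r - 1) r : Submodule k (PA k)),
      L 0 = X (Vr.x 0) * g ∧ L 1 = X (Vr.x 1) * g := by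
  have h1 : ∀ i, Λ i - L i ∈ (G (n - 1) (a + r - r) (r - 1) : Submodule k (PA k)) :=
    fun i => Gle (hΛ i) rfl (by ring) le_rfl
  have t := ell_top (m' := (n : ℤ) - 1) (a' := a + 1) (b' := r - 1) hL h1 rfl (by ring) le_rfl
  have hD : X (Vr.x 1) * L 0 - X (Vr.x 0) * L 1 ∈ (H (n - 1) (a + r + 1) r : Submodule k (PA k)) :=
    Submodule.sub_mem _ (x_mem_H _ _ _ _ _ (hL 0)) (x_mem_H _ _ _ _ _ (hL 1))
  have hD2 : X (Vr.x 1) * L 0 - X (Vr.x 0) * L 1 ∈ (G (n - 1) (a + 1) (r - 1) :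
      Submodule k (PA k)) := by
    have h2 := Gsub (Gle hell rfl rfl (by omega : r - 2 ≤ r - 1)) t
    rwa [sub_sub_cancel] at h2
  have hD0 := H_inf_G _ _ _ _ _ _ _ hD hD2 (by omega)
  exact koszul_x (hL 0) (sub_eq_zero.1 hD0)

private theorem rel1_dypG {c : Fin 2} {m a b m' a' b' : ℤ} {f : PA k}
    (hf : f ∈ (G m a b : Submodule k (PA k))) (hm : m - 1 = m') (ha : a = a') (hb : b ≤ b') :
    dyp c f ∈ (G m' a' b' : Submodule k (PA k)) := by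
  unfold dyp
  split_ifs
  · exact dyG hf hm ha hb
  · exact Gneg' (dyG hf hm ha hb)

private theorem rel1_etpG {i : Fin 2} {m a b m' a' b' : ℤ} {f : PA k}
    (hf : f ∈ (G m a b : Submodule k (PA k))) (hm : m + 1 = m') (ha : a = a') (hb : b ≤ b') :
    etp i f ∈ (G m' a' b' : Submodule k (PA k)) := by
  unfold etp
  split_ifs
  · exact myG hf hm ha hb
  · exact Gneg' (myG hf hm ha hb)

private theorem rel1_dyp_sub (c : Fin 2) (f g : PA k) : dyp c (f - g) = dyp c f - dyp c g := by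
  unfold dyp
  split_ifs
  · exact map_sub _ _ _
  · rw [map_sub]; ring

private theorem rel1_dypH {c : Fin 2} {m p q : ℤ} {f : PA k}
    (hf : f ∈ (H m p q : Submodule k (PA k))) :
    dyp c f ∈ (H (m - 1) p q : Submodule k (PA k)) := by
  unfold dyp
  split_ifs
  · exact dy_mem_H _ _ _ _ _ hf
  · exact Submodule.neg_mem _ (dy_mem_H _ _ _ _ _ hf)

private theorem rel1_b {n : ℕ} {a r : ℤ} {Γ Λ Gm L : Fin 2 → PA k}
    (hGm : ∀ j, Gm j ∈ (H (n + 1) (a + r - 1) (r - 1) : Submodule k (PA k)))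
    (hΓ : ∀ j, Γ j ∈ (G (n + 1) a (r - 1) : Submodule k (PA k)))
    (hΓ' : ∀ j, Γ j - Gm j ∈ (G (n + 1) a (r - 2) : Submodule k (PA k)))
    (hΛ : ∀ i, Λ i - L i ∈ (G (n - 1) a (r - 1) : Submodule k (PA k)))
    (hell : ell Λ ∈ (G (n - 1) (a + 1) (r - 2) : Submodule k (PA k))) (c i : Fin 2) :
    d1P n Γ Λ c i - (X (Vr.x i) * dyp c (X (Vr.d 0) * Gm 1 - X (Vr.d 1) * Gm 0) -
      ((n : k) + 1) • (X (Vr.y c) * L i)) ∈ (G n a (r - 1) : Submodule k (PA k)) := by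
  have hK : X (Vr.d 0) * Gm 1 - X (Vr.d 1) * Gm 0 ∈ (H (n + 1) (a + r - 1) r : Submodule k (PA k)) :=
    Submodule.sub_mem _ (Hcast (d_mem_H 0 _ _ _ _ (hGm 1)) rfl rfl (by ring))
      (Hcast (d_mem_H 1 _ _ _ _ (hGm 0)) rfl rfl (by ring))
  have hKd : kap Γ - (X (Vr.d 0) * Gm 1 - X (Vr.d 1) * Gm 0) ∈
      (G (n + 1) (a - 1) (r - 1) : Submodule k (PA k)) := by
    have e1 : kap Γ - (X (Vr.d 0) * Gm 1 - X (Vr.d 1) * Gm 0) =
        ld 0 (Γ 1 - Gm 1) - ld 1 (Γ 0 - Gm 0) := by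
      simp only [kap, ld_apply]; ring
    rw [e1]
    exact Gsub (ldG (hΓ' 1) rfl rfl (by omega)) (ldG (hΓ' 0) rfl rfl (by omega))
  have t1 : ((n : k) + 1) • dy i (Γ c) ∈ (G n a (r - 1) : Submodule k (PA k)) :=
    Gsmul _ (dyG (hΓ c) (by ring) rfl le_rfl)
  have t2 : lx i (dyp c (kap Γ) - dyp c (X (Vr.d 0) * Gm 1 - X (Vr.d 1) * Gm 0)) ∈
      (G n a (r - 1) : Submodule k (PA k)) := by
    rw [← rel1_dyp_sub]
    exact lxG (rel1_dypG hKd rfl rfl le_rfl) (by ring) (by ring) le_rfl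
  have t3 : lx i (dyp c (X (Vr.d 0) * Gm 1 - X (Vr.d 1) * Gm 0)) -
      X (Vr.x i) * dyp c (X (Vr.d 0) * Gm 1 - X (Vr.d 1) * Gm 0) ∈
      (G n a (r - 1) : Submodule k (PA k)) :=
    lx_top (rel1_dypH hK) (by ring) (by ring) le_rfl
  have t4 : ((n : k) + 1) • my c (Λ i - L i) ∈ (G n a (r - 1) : Submodule k (PA k)) :=
    Gsmul _ (myG (hΛ i) (by ring) rfl le_rfl)
  have t5 : etp i (ld c (ell Λ)) ∈ (G n a (r - 1) : Submodule k (PA k)) :=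
    rel1_etpG (ldG hell rfl rfl le_rfl) (by ring) (by ring) (by omega)
  have e2 : d1P n Γ Λ c i - (X (Vr.x i) * dyp c (X (Vr.d 0) * Gm 1 - X (Vr.d 1) * Gm 0) -
      ((n : k) + 1) • (X (Vr.y c) * L i)) =
      ((n : k) + 1) • dy i (Γ c) +
      lx i (dyp c (kap Γ) - dyp c (X (Vr.d 0) * Gm 1 - X (Vr.d 1) * Gm 0)) +
      (lx i (dyp c (X (Vr.d 0) * Gm 1 - X (Vr.d 1) * Gm 0)) -
        X (Vr.x i) * dyp c (X (Vr.d 0) * Gm 1 - X (Vr.d 1) * Gm 0)) -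
      ((n : k) + 1) • my c (Λ i - L i) + etp i (ld c (ell Λ)) := by
    rw [d1P, map_sub, map_sub, smul_sub, my_apply c (L i)]
    ring
  rw [e2]
  exact Gadd (Gsub (Gadd (Gadd t1 t2) t3) t4) t5

private theorem rel1_c {n : ℕ} {a r : ℤ} {Γ Λ Gm : Fin 2 → PA k} {e : PA k}
    (hGm : ∀ j, Gm j ∈ (H (n + 1) (a + r - 1) (r - 1) : Submodule k (PA k)))
    (hΓ' : ∀ j, Γ j - Gm j ∈ (G (n + 1) a (r - 2) : Submodule k (PA k)))
    (he : e ∈ (H (n - 1) (a + r - 1) (r - 2) : Submodule k (PA k)))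
    (hell : ell Λ ∈ (G (n - 1) (a + 1) (r - 2) : Submodule k (PA k)))
    (he' : ell Λ - e ∈ (G (n - 1) (a + 1) (r - 3) : Submodule k (PA k))) (c : Fin 2) :
    ell (d1P n Γ Λ c) - (((n : k) + 1) • Lc (Gm c) + Qp * (X (Vr.d c) * e)) ∈
      (G n (a + 1) (r - 2) : Submodule k (PA k)) := by
  have t1 : ((n : k) + 1) • Lh (Γ c - Gm c) ∈ (G n (a + 1) (r - 2) : Submodule k (PA k)) :=
    Gsmul _ (LhG (hΓ' c) (by ring) rfl le_rfl)
  have t2 : ((n : k) + 1) • (Lh (Gm c) - Lc (Gm c)) ∈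
      (G n (a + 1) (r - 2) : Submodule k (PA k)) :=
    Gsmul _ (Lh_top (hGm c) (by ring) (by ring) (by omega))
  have t3 : ((n : k) + 1) • my c (ell Λ) ∈ (G n (a + 1) (r - 2) : Submodule k (PA k)) :=
    Gsmul _ (myG hell (by ring) rfl le_rfl)
  have t4 : Qh (ld c (ell Λ - e)) ∈ (G n (a + 1) (r - 2) : Submodule k (PA k)) :=
    QhG (ldG he' rfl rfl le_rfl) (by ring) (by ring) (by omega)
  have t5 : Qh (ld c e) - Qp * (ld c e) ∈ (G n (a + 1) (r - 2) : Submodule k (PA k)) :=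
    Qh_top (d_mem_H c _ _ _ _ he) (by ring) (by ring) (by omega)
  have e2 : ell (d1P n Γ Λ c) - (((n : k) + 1) • Lc (Gm c) + Qp * (X (Vr.d c) * e)) =
      ((n : k) + 1) • Lh (Γ c - Gm c) + ((n : k) + 1) • (Lh (Gm c) - Lc (Gm c)) -
      ((n : k) + 1) • my c (ell Λ) + Qh (ld c (ell Λ - e)) + (Qh (ld c e) - Qp * (ld c e)) := by
    rw [ell_d1, map_sub, Qh_sub, Lh_sub, smul_sub, smul_sub, ← ld_apply c e]
    ring
  rw [e2]
  exact Gadd (Gadd (Gsub (Gadd t1 t2) t3) t4) t5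

variable [CharZero k]

theorem rel1 (n : ℕ) (a r : ℤ) (ha : 0 ≤ a) (hr : 1 ≤ r) (Γ Λ : Fin 2 → PA k)
    (h : W1 a r n Γ Λ) (hd : W2 a (r - 1) n (d1P n Γ Λ)) :
    ∃ Φ : PA k, W0 a r n Φ ∧ W1 a (r - 1) n (Γ - d0G n Φ) (Λ - d0L n Φ) := by
  obtain ⟨hΓ, hΛ, hell⟩ := h
  obtain ⟨hd1, hd2⟩ := hd
  have s1 : ∀ j, ∃ g ∈ (H (n + 1) (a + r - 1) (r - 1) : Submodule k (PA k)),
      Γ j - g ∈ (G (n + 1) a (r - 2) : Submodule k (PA k)) := by
    intro j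
    obtain ⟨f0, h0, f1, h1, h2⟩ := G_split _ _ _ _ (hΓ j)
    refine ⟨f0, Hcast h0 rfl (by ring) rfl, ?_⟩
    rw [h2, add_sub_cancel_left]
    exact Gle h1 rfl rfl (by omega)
  choose Gm hGm hΓ' using s1
  have s2 : ∀ i, ∃ g ∈ (H (n - 1) (a + r) r : Submodule k (PA k)),
      Λ i - g ∈ (G (n - 1) a (r - 1) : Submodule k (PA k)) := by
    intro i
    obtain ⟨f0, h0, f1, h1, h2⟩ := G_split _ _ _ _ (hΛ i)
    refine ⟨f0, h0, ?_⟩
    rw [h2, add_sub_cancel_left]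
    exact h1
  choose L hL hΛ' using s2
  obtain ⟨e, he0, e1, he1, he2⟩ := G_split _ _ _ _ hell
  have he : e ∈ (H (n - 1) (a + r - 1) (r - 2) : Submodule k (PA k)) :=
    Hcast he0 rfl (by ring) rfl
  have he' : ell Λ - e ∈ (G (n - 1) (a + 1) (r - 3) : Submodule k (PA k)) := by
    rw [he2, add_sub_cancel_left]
    exact Gle he1 rfl rfl (by omega)
  obtain ⟨g, hg, hL0, hL1⟩ := rel1_a hL hΛ' hell
  have hLg : ∀ i, L i = X (Vr.x i) * g := by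
    intro i
    fin_cases i
    · exact hL0
    · exact hL1
  have hK : X (Vr.d 0) * Gm 1 - X (Vr.d 1) * Gm 0 ∈ (H (n + 1) (a + r - 1) r : Submodule k (PA k)) :=
    Submodule.sub_mem _ (Hcast (d_mem_H 0 _ _ _ _ (hGm 1)) rfl rfl (by ring))
      (Hcast (d_mem_H 1 _ _ _ _ (hGm 0)) rfl rfl (by ring))
  -- the top symbol of `d1P`
  have q1 : ∀ c, dyp c (X (Vr.d 0) * Gm 1 - X (Vr.d 1) * Gm 0) - ((n : k) + 1) • (X (Vr.y c) * g) =
      0 := by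
    intro c
    have b1 := rel1_b hGm hΓ hΓ' hΛ' hell c 0
    have b2 := Gsub (hd1 c 0) b1
    rw [sub_sub_cancel, hLg 0] at b2
    have b3 : X (Vr.x 0) * dyp c (X (Vr.d 0) * Gm 1 - X (Vr.d 1) * Gm 0) -
        ((n : k) + 1) • (X (Vr.y c) * (X (Vr.x 0) * g)) =
        X (Vr.x 0) * (dyp c (X (Vr.d 0) * Gm 1 - X (Vr.d 1) * Gm 0) -
          ((n : k) + 1) • (X (Vr.y c) * g)) := by
      rw [mul_sub, mul_smul_comm]
      congr 2
      ring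
    rw [b3] at b2
    have b4 : X (Vr.x 0) * (dyp c (X (Vr.d 0) * Gm 1 - X (Vr.d 1) * Gm 0) -
          ((n : k) + 1) • (X (Vr.y c) * g)) ∈ (H n (a + r) r : Submodule k (PA k)) := by
      refine Hcast (x_mem_H 0 n (a + r - 1) r _ (Submodule.sub_mem _
        (Hcast (rel1_dypH hK) (by ring) rfl rfl)
        (Submodule.smul_mem _ _ (Hcast (y_mem_H c _ _ _ _ hg) (by ring) rfl rfl))))
        rfl (by ring) rfl
    have b5 := H_inf_G _ _ _ _ _ _ _ b4 b2 (by omega)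
    exact (mul_eq_zero.1 b5).resolve_left (X_ne_zero _)
  have q2 : ∀ c, ((n : k) + 1) • Lc (Gm c) + Qp * (X (Vr.d c) * e) = 0 := by
    intro c
    have b1 := rel1_c hGm hΓ' he hell he' c
    have b2 := Gsub (Gle (hd2 c) rfl rfl (by omega : r - 1 - 1 ≤ r - 2)) b1
    rw [sub_sub_cancel] at b2
    have b4 : ((n : k) + 1) • Lc (Gm c) + Qp * (X (Vr.d c) * e) ∈
        (H n (a + r) (r - 1) : Submodule k (PA k)) :=
      Submodule.add_mem _ (Submodule.smul_mem _ _ (Hcast (Lc_mem (hGm c)) (by ring) (by ring) rfl))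
        (Hcast (Qp_mem (d_mem_H c _ _ _ _ he)) (by ring) (by ring) (by ring))
    exact H_inf_G _ _ _ _ _ _ _ b4 b2 (by omega)
  have hA : ∀ f : PA k, ((n : PA k) + 1) * f = ((n : k) + 1) • f := ncast_mul n
  obtain ⟨Φ, hΦ, hG0, hG1, heΦ, hg0⟩ := ga1 (n := n) (p := a + r) (r := r) (by omega)
    (hGm 0) (hGm 1) hg he
    (by rw [hA]; exact q2 0) (by rw [hA]; exact q2 1)
    (by rw [hA]; exact q1 0) (by rw [hA]; exact q1 1)
  have hGΦ : ∀ j, Gm j = Qp * (ld j Φ) := by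
    intro j
    fin_cases j
    · show Gm 0 = Qp * (X (Vr.d 0) * Φ)
      rw [hG0]; ring
    · show Gm 1 = Qp * (X (Vr.d 1) * Φ)
      rw [hG1]; ring
  have hΦG : Φ ∈ (G n a (r - 2) : Submodule k (PA k)) := Hle hΦ rfl (by ring) le_rfl
  refine ⟨Φ, hΦG, ?_, ?_, ?_⟩
  · intro j
    have c1 : Qh (ld j Φ) - Qp * (ld j Φ) ∈ (G (n + 1) a (r - 2) : Submodule k (PA k)) :=
      Qh_top (d_mem_H j _ _ _ _ hΦ) rfl (by ring) (by omega)
    have c2 : (n : k) • my j Φ ∈ (G (n + 1) a (r - 2) : Submodule k (PA k)) :=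
      Gsmul _ (myG hΦG rfl rfl le_rfl)
    have c3 : (Γ - d0G n Φ) j = (Γ j - Gm j) - (Qh (ld j Φ) - Qp * (ld j Φ)) +
        (n : k) • my j Φ := by
      rw [hGΦ j, Pi.sub_apply, d0G]
      ring
    rw [c3]
    exact Gle (Gadd (Gsub (hΓ' j) c1) c2) rfl rfl (by omega)
  · intro i
    have c1 : Λ i ∈ (G (n - 1) a (r - 1) : Submodule k (PA k)) := by
      have := hΛ' i
      rwa [hLg i, hg0, mul_zero, sub_zero] at this
    have c2 : d0L n Φ i ∈ (G (n - 1) a (r - 1) : Submodule k (PA k)) := by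
      rw [d0L]
      refine Gadd (Gneg' (Gsmul _ (dyG hΦG rfl rfl (by omega)))) ?_
      exact lxG (Gadd (ldG (dyG hΦG rfl rfl le_rfl) rfl rfl le_rfl)
        (ldG (dyG hΦG rfl rfl le_rfl) rfl rfl le_rfl)) rfl (by ring) (by omega)
    exact Gsub c1 c2
  · rw [ell_sub, ell_d0]
    have c1 : ((n : k) + 1) • (Lh Φ - Lc Φ) ∈ (G (n - 1) (a + 1) (r - 3) :
        Submodule k (PA k)) := Gsmul _ (Lh_top hΦ rfl (by ring) (by omega))
    have c2 : ell Λ - -(((n : k) + 1) • Lh Φ) = (ell Λ - e) + ((n : k) + 1) • (Lh Φ - Lc Φ) := by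
      have c3 : e = -(((n : k) + 1) • Lc Φ) := by
        rw [heΦ, neg_mul, hA]
      rw [smul_sub]
      conv_rhs => rw [c3]
      ring
    rw [c2]
    exact Gle (Gadd he' c1) rfl rfl (by omega)

end Vale.Agent.P195.AR.S5
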