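import Vale.Agent.Lib.P195.AR.RelTop
import Vale.Agent.Lib.P195.AR.GA2

/-!
# P195: relative exactness of `C(a,r)/C(a,r-1)` at `C^2` (5.1 of PROOF.md)
-/

namespace Vale.Agent.P195.AR.S5

open MvPolynomial

variable {k : Type} [Field k]

theorem fin2_cases {Q : Fin 2 → Prop} (h0 : Q 0) (h1 : Q 1) : ∀ i, Q i := by
  intro i; fin_cases i
  · exact h0
  · exact h1

theorem kpred (n : ℕ) (f : PA k) : ((n : PA k) + 1) * f = ((n : k) + 1) • f := by
  rw [MvPolynomial.smul_eq_C_mul, C_add, C_1, map_natCast]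

/-- the symbols of a cochain in `C^2(a,r)` -/
theorem rel2_sym (n : ℕ) (a r : ℤ) (P : Fin 2 → Fin 2 → PA k) (h : W2 a r n P) :
    ∃ g C0 : Fin 2 → PA k, (∀ c, g c ∈ (H n (a + r - 1) r : Submodule k (PA k))) ∧
      (∀ c, C0 c ∈ (H n (a + r) (r - 1) : Submodule k (PA k))) ∧
      (∀ c i, P c i - X (Vr.x i) * g c ∈ (G n a (r - 1) : Submodule k (PA k))) ∧
      (∀ c, ell (P c) - C0 c ∈ (G n (a + 1) (r - 2) : Submodule k (PA k))) := by
  have hs : ∀ c i, ∃ f0 ∈ (H n (a + r) r : Submodule k (PA k)),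
      ∃ f1 ∈ (G n a (r - 1) : Submodule k (PA k)), P c i = f0 + f1 :=
    fun c i => G_split _ _ _ _ (h.1 c i)
  choose P0 hP0 P1 hP1 hP using hs
  have hC : ∀ c, ∃ f0 ∈ (H n (a + r) (r - 1) : Submodule k (PA k)),
      ∃ f1 ∈ (G n (a + 1) (r - 2) : Submodule k (PA k)), ell (P c) = f0 + f1 := by
    intro c
    obtain ⟨f0, h0, f1, h1, e⟩ := G_split _ _ _ _ (h.2 c)
    exact ⟨f0, Hcast h0 rfl (by ring) rfl, f1, Gle h1 rfl rfl (by omega), e⟩
  choose C0 hC0 C1 hC1 hC2 using hC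
  have hK : ∀ c, ∃ g ∈ (H n (a + r - 1) r : Submodule k (PA k)),
      P0 c 0 = X (Vr.x 0) * g ∧ P0 c 1 = X (Vr.x 1) * g := by
    intro c
    apply koszul_x (hP0 c 0)
    rw [← sub_eq_zero]
    have e1 := ell_top (u := P c) (u0 := P0 c) (m' := n) (a' := a + 1) (b' := r - 1) (hP0 c)
      (fun i => by
        rw [hP c i, add_sub_cancel_left]
        exact Gle (hP1 c i) rfl (by ring) le_rfl) rfl (by ring) le_rfl
    have e2 : X (Vr.x 1) * P0 c 0 - X (Vr.x 0) * P0 c 1 ∈ (G n (a + 1) (r - 1) : Submodule k (PA k)) := by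
      have := Gsub (h.2 c) e1
      rwa [sub_sub_cancel] at this
    have e3 : X (Vr.x 1) * P0 c 0 - X (Vr.x 0) * P0 c 1 ∈ (H n (a + r + 1) r : Submodule k (PA k)) :=
      Submodule.sub_mem _ (x_mem_H _ _ _ _ _ (hP0 c 0)) (x_mem_H _ _ _ _ _ (hP0 c 1))
    exact H_inf_G _ _ _ _ _ _ _ e3 e2 (by omega)
  choose g hg hg0 hg1 using hK
  refine ⟨g, C0, hg, hC0, ?_, ?_⟩
  · intro c
    apply fin2_cases
    · rw [hP, hg0, add_sub_cancel_left]; exact hP1 c 0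
    · rw [hP, hg1, add_sub_cancel_left]; exact hP1 c 1
  · intro c
    rw [hC2, add_sub_cancel_left]; exact hC1 c

/-- the symbol of `d2S` -/
theorem rel2_d2 (n : ℕ) (a r : ℤ) (P : Fin 2 → Fin 2 → PA k) (g C0 : Fin 2 → PA k)
    (h1 : ∀ c i, P c i - X (Vr.x i) * g c ∈ (G n a (r - 1) : Submodule k (PA k)))
    (h2 : ∀ c, ell (P c) - C0 c ∈ (G n (a + 1) (r - 2) : Submodule k (PA k))) :
    d2S n P - (-((n : PA k) + 1) * (X (Vr.x 0) * g 0 + X (Vr.x 1) * g 1) +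
      Qp * (pderiv (Vr.y 0) (g 0) + pderiv (Vr.y 1) (g 1)) + X (Vr.d 1) * C0 0 - X (Vr.d 0) * C0 1) ∈
      (G n a (r - 1) : Submodule k (PA k)) := by
  have hdy : ∀ (c i : Fin 2) (f : PA k), dy c (X (Vr.x i) * f) = X (Vr.x i) * dy c f :=
    fun c i f => dy_rx c i f
  have e : d2S n P - (-((n : PA k) + 1) * (X (Vr.x 0) * g 0 + X (Vr.x 1) * g 1) +
      Qp * (pderiv (Vr.y 0) (g 0) + pderiv (Vr.y 1) (g 1)) + X (Vr.d 1) * C0 0 - X (Vr.d 0) * C0 1) =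
      -(((n : k) + 1) • ((P 0 0 - X (Vr.x 0) * g 0) + (P 1 1 - X (Vr.x 1) * g 1))) +
      (my 0 (dy 0 (P 0 0 - X (Vr.x 0) * g 0)) + my 1 (dy 0 (P 0 1 - X (Vr.x 1) * g 0)) +
        my 0 (dy 1 (P 1 0 - X (Vr.x 0) * g 1)) + my 1 (dy 1 (P 1 1 - X (Vr.x 1) * g 1))) +
      (ld 1 (ell (P 0) - C0 0) - ld 0 (ell (P 1) - C0 1)) := by
    rw [neg_mul, kpred]
    simp only [d2S, map_sub, hdy, smul_add, smul_sub]
    simp only [Qp, my_apply, ld_apply, dy_apply]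
    ring
  rw [e]
  refine Gadd (Gadd (Gneg' (Gsmul _ (Gadd (h1 0 0) (h1 1 1)))) (Gadd (Gadd (Gadd ?_ ?_) ?_) ?_))
    (Gsub ?_ ?_)
  · exact myG (dyG (h1 0 0) rfl rfl le_rfl) (by ring) rfl le_rfl
  · exact myG (dyG (h1 0 1) rfl rfl le_rfl) (by ring) rfl le_rfl
  · exact myG (dyG (h1 1 0) rfl rfl le_rfl) (by ring) rfl le_rfl
  · exact myG (dyG (h1 1 1) rfl rfl le_rfl) (by ring) rfl le_rfl
  · exact ldG (h2 0) rfl (by ring) (by omega)
  · exact ldG (h2 1) rfl (by ring) (by omega)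

variable [CharZero k]

/-- lift of a symbol `(g, e)` to a pair `Λ` -/
theorem rel_lift (m : ℤ) (a r : ℤ) (ha : 0 ≤ a) (hr : 1 ≤ r) (g e : PA k)
    (hg : g ∈ (H m (a + r - 1) r : Submodule k (PA k)))
    (he : e ∈ (H m (a + r - 1) (r - 2) : Submodule k (PA k))) :
    ∃ Λ : Fin 2 → PA k, (∀ i, Λ i ∈ (G m a r : Submodule k (PA k))) ∧
      (∀ i, Λ i - lx i g ∈ (G m a (r - 1) : Submodule k (PA k))) ∧
      ell Λ - e ∈ (G m (a + 1) (r - 3) : Submodule k (PA k)) := by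
  have h1 : ∃ u ∈ (H m (a + r - 2) (r - 2) : Submodule k (PA k)),
      ∃ v ∈ (H m (a + r - 2) (r - 2) : Submodule k (PA k)), e = X (Vr.x 1) * u - X (Vr.x 0) * v := by
    by_cases h2 : 2 ≤ a + r
    · obtain ⟨u, hu, v, hv, e1⟩ := split_x (by omega) he
      exact ⟨u, Hcast hu rfl (by ring) rfl, v, Hcast hv rfl (by ring) rfl, e1⟩
    · have h3 : e = 0 := by
        have h4 := he
        rw [H_neg m (a + r - 1) (r - 2) (by omega)] at h4
        exact h4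
      exact ⟨0, Submodule.zero_mem _, 0, Submodule.zero_mem _, by rw [h3]; simp⟩
  obtain ⟨u, hu, v, hv, e1⟩ := h1
  refine ⟨![lx 0 g + u, lx 1 g + v], ?_, ?_, ?_⟩
  · apply fin2_cases
    · exact Gadd (lxG (Hle hg rfl rfl le_rfl) rfl (by ring) le_rfl)
        (Hle hu rfl (by ring) (by omega))
    · exact Gadd (lxG (Hle hg rfl rfl le_rfl) rfl (by ring) le_rfl)
        (Hle hv rfl (by ring) (by omega))
  · apply fin2_cases
    · change lx 0 g + u - lx 0 g ∈ _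
      rw [add_sub_cancel_left]
      exact Hle hu rfl (by ring) (by omega)
    · change lx 1 g + v - lx 1 g ∈ _
      rw [add_sub_cancel_left]
      exact Hle hv rfl (by ring) (by omega)
  · have e2 : ell ![lx 0 g + u, lx 1 g + v] - e =
        (lx 1 u - X (Vr.x 1) * u) - (lx 0 v - X (Vr.x 0) * v) := by
      rw [e1]
      change lx 1 (lx 0 g + u) - lx 0 (lx 1 g + v) - (X (Vr.x 1) * u - X (Vr.x 0) * v) = _
      rw [map_add, map_add, lx_comm 1 0]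
      ring
    rw [e2]
    exact Gsub (lx_top hu rfl (by ring) (by omega)) (lx_top hv rfl (by ring) (by omega))

theorem rel2 (n : ℕ) (a r : ℤ) (ha : 0 ≤ a) (hr : 1 ≤ r) (P : Fin 2 → Fin 2 → PA k)
    (h : W2 a r n P) (hd : W3 a (r - 1) n (d2S n P)) :
    ∃ Γ Λ : Fin 2 → PA k, W1 a r n Γ Λ ∧ W2 a (r - 1) n (P - d1P n Γ Λ) := by
  obtain ⟨g, C0, hg, hC0, h1, h2⟩ := rel2_sym n a r P h
  have h3 := rel2_d2 n a r P g C0 h1 h2
  have hE : -((n : PA k) + 1) * (X (Vr.x 0) * g 0 + X (Vr.x 1) * g 1) +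
      Qp * (pderiv (Vr.y 0) (g 0) + pderiv (Vr.y 1) (g 1)) + X (Vr.d 1) * C0 0 - X (Vr.d 0) * C0 1 = 0 := by
    have h4 := Gsub hd h3
    rw [sub_sub_cancel] at h4
    refine H_inf_G n (a + r) r _ _ _ _ ?_ h4 (by omega)
    have hx : ∀ i c, X (Vr.x i) * g c ∈ (H n (a + r) r : Submodule k (PA k)) := fun i c =>
      Hcast (x_mem_H i _ _ _ _ (hg c)) rfl (by ring) rfl
    rw [neg_mul, kpred]
    refine Submodule.sub_mem _ (Submodule.add_mem _ (Submodule.add_mem _ (Submodule.neg_mem _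
      (Submodule.smul_mem _ _ (Submodule.add_mem _ (hx 0 0) (hx 1 1)))) ?_) ?_) ?_
    · exact Hcast (Qp_mem (Submodule.add_mem _ (dy_mem_H 0 _ _ _ _ (hg 0))
        (dy_mem_H 1 _ _ _ _ (hg 1)))) (by ring) (by ring) rfl
    · exact Hcast (d_mem_H 1 _ _ _ _ (hC0 0)) rfl rfl (by ring)
    · exact Hcast (d_mem_H 0 _ _ _ _ (hC0 1)) rfl rfl (by ring)
  obtain ⟨G0, hG0, G1, hG1, gg, hgg, e, he, q0, q1, q2, q3⟩ :=
    ga2 (p := a + r) (by omega) hr (hg 0) (hg 1) (hC0 0) (hC0 1) hE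
  obtain ⟨Λ, hΛ1, hΛ2, hΛ3⟩ := rel_lift (n - 1) a r ha hr gg e hgg he
  have hell : ell Λ ∈ (G (n - 1) (a + 1) (r - 2) : Submodule k (PA k)) := by
    have := Gadd (Gle hΛ3 rfl rfl (show r - 3 ≤ r - 2 by omega)) (Hle he rfl
      (show a + r - 1 - (r - 2) = a + 1 by ring) le_rfl)
    rwa [sub_add_cancel] at this
  have hK : ∀ c, ∃ D : Fin 2 → PA k, D = ![G0, G1] ∧ C0 c = ((n : PA k) + 1) * Lc (D c) +
      Qp * (X (Vr.d c) * e) ∧ g c = dyp c (X (Vr.d 0) * G1 - X (Vr.d 1) * G0) -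
        ((n : PA k) + 1) * (X (Vr.y c) * gg) := by
    apply fin2_cases
    · exact ⟨_, rfl, q0, q2⟩
    · exact ⟨_, rfl, q1, q3⟩
  set K : PA k := X (Vr.d 0) * G1 - X (Vr.d 1) * G0 with hKdef
  have hKH : K ∈ (H (n + 1) (a + r - 1) r : Submodule k (PA k)) :=
    Submodule.sub_mem _ (Hcast (d_mem_H 0 _ _ _ _ hG1) rfl rfl (by ring))
      (Hcast (d_mem_H 1 _ _ _ _ hG0) rfl rfl (by ring))
  have hdK : ∀ c, dyp c K ∈ (H n (a + r - 1) r : Submodule k (PA k)) := by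
    apply fin2_cases
    · exact Hcast (dy_mem_H 1 _ _ _ _ hKH) (by ring) rfl rfl
    · exact Submodule.neg_mem _ (Hcast (dy_mem_H 0 _ _ _ _ hKH) (by ring) rfl rfl)
  have hΓH : ∀ j, (![G0, G1] : Fin 2 → PA k) j ∈
      (H (n + 1) (a + r - 1) (r - 1) : Submodule k (PA k)) := fin2_cases hG0 hG1
  have hetp : ∀ (i : Fin 2) (f : PA k), f ∈ (G (n - 1) a (r - 1) : Submodule k (PA k)) →
      etp i f ∈ (G n a (r - 1) : Submodule k (PA k)) := by
    intro i f hf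
    fin_cases i
    · exact myG hf (by ring) rfl le_rfl
    · exact Gneg' (myG hf (by ring) rfl le_rfl)
  refine ⟨![G0, G1], Λ, ⟨fun j => Hle (hΓH j) rfl (by ring) le_rfl, hΛ1, hell⟩, ?_, ?_⟩
  · intro c i
    obtain ⟨D, rfl, -, hgc⟩ := hK c
    have e1 : (P - d1P n ![G0, G1] Λ) c i = (P c i - X (Vr.x i) * g c) -
        (lx i (dyp c K) - X (Vr.x i) * dyp c K) +
        ((n : k) + 1) • (lx i (my c gg) - X (Vr.x i) * my c gg) -
        ((n : k) + 1) • dy i ((![G0, G1] : Fin 2 → PA k) c) +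
        ((n : k) + 1) • my c (Λ i - lx i gg) - etp i (ld c (ell Λ)) := by
      have e2 : kap (![G0, G1] : Fin 2 → PA k) = K := rfl
      change P c i - d1P n ![G0, G1] Λ c i = _
      rw [d1P, e2, hgc, kpred, map_sub, ← my_lx]
      simp only [smul_sub, mul_sub, mul_smul_comm, my_apply]
      ring
    rw [e1]
    refine Gsub (Gadd (Gsub (Gadd (Gsub (h1 c i) ?_) (Gsmul _ ?_)) (Gsmul _ ?_)) (Gsmul _ ?_)) ?_
    · exact lx_top (hdK c) rfl (by ring) le_rfl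
    · exact lx_top (y_mem_H c _ _ _ _ hgg) (by ring) (by ring) le_rfl
    · exact dyG (Hle (hΓH c) rfl rfl le_rfl) (by ring) (by ring) le_rfl
    · exact myG (hΛ2 i) (by ring) rfl le_rfl
    · exact hetp i _ (ldG hell rfl (by ring) (by omega))
  · intro c
    obtain ⟨D, rfl, hCc, -⟩ := hK c
    have e1 : ell ((P - d1P n ![G0, G1] Λ) c) = (ell (P c) - C0 c) -
        ((n : k) + 1) • (Lh ((![G0, G1] : Fin 2 → PA k) c) - Lc ((![G0, G1] : Fin 2 → PA k) c)) +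
        ((n : k) + 1) • my c (ell Λ) - (Qh (X (Vr.d c) * e) - Qp * (X (Vr.d c) * e)) -
        Qh (ld c (ell Λ - e)) := by
      change ell (P c - d1P n ![G0, G1] Λ c) = _
      rw [ell_sub, ell_d1, hCc, kpred, map_sub, Qh_sub, ld_apply c e]
      simp only [smul_sub]
      ring
    rw [e1]
    refine Gsub (Gsub (Gadd (Gsub (Gle (h2 c) rfl rfl (by omega)) (Gsmul _ ?_)) (Gsmul _ ?_)) ?_) ?_
    · exact Lh_top (hΓH c) (by ring) (by ring) (by omega)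
    · exact myG hell (by ring) rfl (by omega)
    · exact Qh_top (d_mem_H c _ _ _ _ he) (by ring) (by ring) (by omega)
    · exact QhG (ldG hΛ3 rfl rfl le_rfl) (by ring) (by ring) (by omega)

end Vale.Agent.P195.AR.S5
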