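import Vale.Agent.Lib.P195.AR.Dics
import Vale.Agent.Lib.P195.AR.CochW
import Vale.Agent.Lib.P195.AR.Rel03
import Vale.Agent.Lib.P195.AR.Rel1
import Vale.Agent.Lib.P195.AR.Rel2
import Vale.Agent.Lib.P195.AR.HTw

/-!
# P195: relative acyclicity of `O(a,r-1) ⊂ O(a,r)`, `a ≥ 0`, `r ≥ 1`
-/

namespace Vale.Agent.P195.AR.S5

open MvPolynomial

variable {k : Type} [Field k] [CharZero k]

theorem rep_d0 {n : ℕ} {a r : ℤ}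
    {f : Wn (WE (hat (H1.B0 k n))) →ₗ[R k] Wn (WE (hat (SO k 0 a r)))} {c0 c1 : PA k}
    (h : (DB0 n).Rep f c0 c1) :
    (DB1 n).Rep (f ∘ₗ H1.ma n) (d0G n c0, d0L n c0) (d0G n c1, d0L n c1) := by
  have key : ∀ c : PA k, Yd n c → ∀ p q v, v ∈ (H1.B1 k n).F p q →
      th c (H1.mA n v) = t1 (d0G n c) (d0L n c) v := by
    intro c hc p q v hv
    rw [H1.mem_B1] at hv
    exact th_fA hc (Yd_of_G hv.1.1) (Yd_of_G hv.1.2)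
  exact Dic.Rep.comp (D := DB0 n) (D' := DB1 n) (H1.mA_hom n) h (W1_d0 h.1) (W1_d0 h.2.1)
    (key c0 (Yd_of_G h.1)) (key c1 (Yd_of_G h.2.1))

theorem rep_d1 {n : ℕ} {a r : ℤ}
    {f : Wn (WE (hat (H1.B1 k n))) →ₗ[R k] Wn (WE (hat (SO k 0 a r)))}
    {c0 c1 : (Fin 2 → PA k) × (Fin 2 → PA k)} (h : (DB1 n).Rep f c0 c1) :
    (DB2 n).Rep (f ∘ₗ H1.mb n) (d1P n c0.1 c0.2) (d1P n c1.1 c1.2) := by
  have key : ∀ c : (Fin 2 → PA k) × (Fin 2 → PA k), (∀ i, Yd (n - 1) (c.2 i)) →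
      ∀ p q v, v ∈ (H1.B2 k n).F p q → t1 c.1 c.2 (H1.mB n v) = t2 (d1P n c.1 c.2) v := by
    intro c hc p q v hv
    rw [H1.mem_B2] at hv
    exact th_fB hc (Yd_of_G hv.1.1) (Yd_of_G hv.1.2.1) (Yd_of_G hv.2.1) (Yd_of_G hv.2.2.1)
  exact Dic.Rep.comp (D := DB1 n) (D' := DB2 n) (H1.mB_hom n) h (W2_d1 h.1) (W2_d1 h.2.1)
    (key c0 (fun i => Yd_of_G (h.1.2.1 i))) (key c1 (fun i => Yd_of_G (h.2.1.2.1 i)))

theorem rep_d2 {n : ℕ} {a r : ℤ}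
    {f : Wn (WE (hat (H1.B2 k n))) →ₗ[R k] Wn (WE (hat (SO k 0 a r)))}
    {c0 c1 : Fin 2 → Fin 2 → PA k} (h : (DB2 n).Rep f c0 c1) :
    (DB3 n).Rep (f ∘ₗ H1.mc n) (d2S n c0) (d2S n c1) := by
  have key : ∀ c : Fin 2 → Fin 2 → PA k, (∀ i j, Yd n (c i j)) →
      ∀ p q v, v ∈ (H1.B3 k n).F p q → t2 c (H1.mC n v) = th (d2S n c) v := by
    intro c hc p q v hv
    rw [H1.mem_B3] at hv
    exact th_fC hc (Yd_of_G hv)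
  exact Dic.Rep.comp (D := DB2 n) (D' := DB3 n) (H1.mC_hom n) h (W3_d2 h.1) (W3_d2 h.2.1)
    (key c0 (fun i j => Yd_of_G (h.1.1 i j))) (key c1 (fun i j => Yd_of_G (h.2.1.1 i j)))

theorem rep_f3 {n : ℕ} {a r : ℤ}
    {f : Wn (WE (hat (H1.B3 k n))) →ₗ[R k] Wn (WE (hat (SO k 0 a r)))}
    {c0 c1 : PA k} (h : (DB3 n).Rep f c0 c1) :
    (DB3 (n + 1)).Rep (f ∘ₗ H1.f3 n) 0 (((n : k) + 2) • Qh c0) := by
  have key : ∀ p q v, v ∈ (H1.B3 k (n + 1)).F p q →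
      th c0 (H1.mF3 n v) = th (((n : k) + 2) • Qh c0) v := by
    intro p q v hv
    rw [H1.mem_B3] at hv
    refine th_fF3 (Yd_of_G h.1) ?_
    have := Yd_of_G hv
    push_cast at this
    exact this
  exact Dic.Rep.comps (D := DB3 n) (D' := DB3 (n + 1)) (H1.mF3_hom n) h (W3_Qh h.1) key

theorem relAc_jO {a r : ℤ} (ha : 0 ≤ a) (hr : 1 ≤ r) (h : r - 1 ≤ r) :
    (H1.tow k).RelAc (jO (k := k) (a := a) h) where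
  inj := jO_inj h
  r0 := by
    intro n f hf
    obtain ⟨c0, c1, hc⟩ := Dic.Rep.exists (D := DB0 n) (H1.D0 k n) f
    have h1 := (Dic.Rep.range (H1.D1 k n) h (rep_d0 hc)).1 hf
    exact (Dic.Rep.range (H1.D0 k n) h hc).2 ⟨rel0 n a r c0 hc.1 h1.1,
      rel0 n (a + 1) r c1 hc.2.1 h1.2⟩
  r1 := by
    intro n f hf
    obtain ⟨c0, c1, hc⟩ := Dic.Rep.exists (D := DB1 n) (H1.D1 k n) f
    have h1 := (Dic.Rep.range (H1.D2 k n) h (rep_d1 hc)).1 hf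
    obtain ⟨Φ0, p0, p1⟩ := rel1 n a r ha hr c0.1 c0.2 hc.1 h1.1
    obtain ⟨Φ1, q0, q1⟩ := rel1 n (a + 1) r (by omega) hr c1.1 c1.2 hc.2.1 h1.2
    obtain ⟨g, hg⟩ := Dic.Rep.of (D := DB0 n) p0 q0
    exact ⟨g, (Dic.Rep.range (H1.D1 k n) h (Dic.Rep.sub' hc (rep_d0 hg))).2 ⟨p1, q1⟩⟩
  r2 := by
    intro n f hf
    obtain ⟨c0, c1, hc⟩ := Dic.Rep.exists (D := DB2 n) (H1.D2 k n) f
    have h1 := (Dic.Rep.range (H1.D3 k n) h (rep_d2 hc)).1 hf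
    obtain ⟨Γ0, Λ0, p0, p1⟩ := rel2 n a r ha hr c0 hc.1 h1.1
    obtain ⟨Γ1, Λ1, q0, q1⟩ := rel2 n (a + 1) r (by omega) hr c1 hc.2.1 h1.2
    obtain ⟨g, hg⟩ := Dic.Rep.of (D := DB1 n) (c0 := (Γ0, Λ0)) (c1 := (Γ1, Λ1)) p0 q0
    exact ⟨g, (Dic.Rep.range (H1.D2 k n) h (Dic.Rep.sub' hc (rep_d1 hg))).2 ⟨p1, q1⟩⟩
  r3 := by
    intro n f
    obtain ⟨c0, c1, hc⟩ := Dic.Rep.exists (D := DB3 n) (H1.D3 k n) f
    obtain ⟨P0, p0, p1⟩ := rel3 n a r ha hr c0 hc.1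
    obtain ⟨P1, q0, q1⟩ := rel3 n (a + 1) r (by omega) hr c1 hc.2.1
    obtain ⟨g, hg⟩ := Dic.Rep.of (D := DB2 n) p0 q0
    exact ⟨g, (Dic.Rep.range (H1.D3 k n) h (Dic.Rep.sub' hc (rep_d2 hg))).2 ⟨p1, q1⟩⟩

end Vale.Agent.P195.AR.S5
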