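import Vale.Agent.Lib.P195.AR.RelDefs

/-!
# P195: top symbols of `Qh`, `Lh`, `ell`
-/

namespace Vale.Agent.P195.AR.S5

open MvPolynomial

variable {k : Type} [Field k]

theorem Gsub {m a b : ℤ} {f g : PA k} (hf : f ∈ (G m a b : Submodule k (PA k)))
    (hg : g ∈ (G m a b : Submodule k (PA k))) : f - g ∈ (G m a b : Submodule k (PA k)) :=
  Submodule.sub_mem _ hf hg
theorem Gadd {m a b : ℤ} {f g : PA k} (hf : f ∈ (G m a b : Submodule k (PA k)))
    (hg : g ∈ (G m a b : Submodule k (PA k))) : f + g ∈ (G m a b : Submodule k (PA k)) :=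
  Submodule.add_mem _ hf hg
theorem Gneg' {m a b : ℤ} {f : PA k} (hf : f ∈ (G m a b : Submodule k (PA k))) :
    -f ∈ (G m a b : Submodule k (PA k)) := Submodule.neg_mem _ hf
theorem Gsmul {m a b : ℤ} (c : k) {f : PA k} (hf : f ∈ (G m a b : Submodule k (PA k))) :
    c • f ∈ (G m a b : Submodule k (PA k)) := Submodule.smul_mem _ c hf

theorem Qh_add (f g : PA k) : Qh (f + g) = Qh f + Qh g := by
  simp only [Qh, map_add]; ring
theorem Qh_sub (f g : PA k) : Qh (f - g) = Qh f - Qh g := by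
  simp only [Qh, map_sub]; ring
theorem Lh_add (f g : PA k) : Lh (f + g) = Lh f + Lh g := by
  simp only [Lh, map_add]; ring
theorem Lh_sub (f g : PA k) : Lh (f - g) = Lh f - Lh g := by
  simp only [Lh, map_sub]; ring

theorem QhG {m a b m' a' b' : ℤ} {f : PA k} (hf : f ∈ (G m a b : Submodule k (PA k)))
    (hm : m + 1 = m') (ha : a + 1 = a') (hb : b ≤ b') :
    Qh f ∈ (G m' a' b' : Submodule k (PA k)) :=
  Gadd (myG (lxG hf rfl rfl le_rfl) hm ha hb) (myG (lxG hf rfl rfl le_rfl) hm ha hb)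

theorem LhG {m a b m' a' b' : ℤ} {f : PA k} (hf : f ∈ (G m a b : Submodule k (PA k)))
    (hm : m - 1 = m') (ha : a + 1 = a') (hb : b ≤ b') :
    Lh f ∈ (G m' a' b' : Submodule k (PA k)) :=
  Gsub (lxG (dyG hf rfl rfl le_rfl) hm ha hb) (lxG (dyG hf rfl rfl le_rfl) hm ha hb)

theorem Qh_top {m p q m' a' b' : ℤ} {f : PA k} (hf : f ∈ (H m p q : Submodule k (PA k)))
    (hm : m + 1 = m') (ha : p - q + 1 = a') (hb : q - 1 ≤ b') :
    Qh f - Qp * f ∈ (G m' a' b' : Submodule k (PA k)) := by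
  have h1 : Qh f - Qp * f = my 0 (lx 0 f - X (Vr.x 0) * f) + my 1 (lx 1 f - X (Vr.x 1) * f) := by
    simp only [Qh, Qp, my_apply]; ring
  rw [h1]
  exact Gadd (myG (lx_top hf rfl rfl le_rfl) hm ha hb) (myG (lx_top hf rfl rfl le_rfl) hm ha hb)

theorem Lh_top {m p q m' a' b' : ℤ} {f : PA k} (hf : f ∈ (H m p q : Submodule k (PA k)))
    (hm : m - 1 = m') (ha : p - q + 1 = a') (hb : q - 1 ≤ b') :
    Lh f - Lc f ∈ (G m' a' b' : Submodule k (PA k)) := by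
  have h1 : Lh f - Lc f = (lx 1 (dy 0 f) - X (Vr.x 1) * dy 0 f) -
      (lx 0 (dy 1 f) - X (Vr.x 0) * dy 1 f) := by
    simp only [Lh, Lc, dy_apply]; ring
  rw [h1]
  exact Gsub (lx_top (dy_mem_H 0 _ _ _ _ hf) hm ha hb) (lx_top (dy_mem_H 1 _ _ _ _ hf) hm ha hb)

/-- if `u_i` has top symbol `u0_i` then `ell u` has top symbol `x_1 u0_0 - x_0 u0_1` -/
theorem ell_top {m p q m' a' b' : ℤ} {u u0 : Fin 2 → PA k}
    (h0 : ∀ i, u0 i ∈ (H m p q : Submodule k (PA k)))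
    (h1 : ∀ i, u i - u0 i ∈ (G m (p - q) (q - 1) : Submodule k (PA k)))
    (hm : m = m') (ha : p - q + 1 = a') (hb : q - 1 ≤ b') :
    ell u - (X (Vr.x 1) * u0 0 - X (Vr.x 0) * u0 1) ∈ (G m' a' b' : Submodule k (PA k)) := by
  have h2 : ell u - (X (Vr.x 1) * u0 0 - X (Vr.x 0) * u0 1) =
      (lx 1 (u 0 - u0 0) - lx 0 (u 1 - u0 1)) + ((lx 1 (u0 0) - X (Vr.x 1) * u0 0) -
        (lx 0 (u0 1) - X (Vr.x 0) * u0 1)) := by
    simp only [ell, map_sub]; ring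
  rw [h2]
  exact Gadd (Gsub (lxG (h1 0) hm ha hb) (lxG (h1 1) hm ha hb))
    (Gsub (lx_top (h0 0) hm ha hb) (lx_top (h0 1) hm ha hb))

end Vale.Agent.P195.AR.S5
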