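import Vale.Agent.Lib.P195.AR.Std

/-!
# P195: the ring `R` and the windows `Win N`

Vertices: `Vt` (five vertices `o b`, `p e`), `Vx` (seven vertices). `T7 v : Bw k` is the
bifiltered module at the vertex `v`, `TT = hat (⊕ T7 v)`.

`R` is the opposite of a ring of filtered endomorphisms `f` of `TT`: arbitrary on the five vertices
`e t`, and with `f ∘ inc al ∈ ⟨inc al, inc be ∘ Ψ⟩`, `f ∘ inc be ∈ ⟨inc be, inc al ∘ Ω⟩`.

A window is given by `N : Wd k`: a bifiltered module `N.L` and spaces `N.A`, `N.B` of maps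
`hat (T al) → N.L`, `hat (T be) → N.L`. `Win N` is the space of maps `φ : TT → N.L` with
`φ ∘ inc al ∈ A`, `φ ∘ inc be ∈ B`; `r : R` acts by `r • φ = φ ∘ r`.
-/

namespace Vale.Agent.P195.AR

open MvPolynomial

/-- the five vertices `O_0, O_1, O_2, P_1, P_2` -/
inductive Vt | o (b : Fin 3) | p (e : Fin 2)
  deriving DecidableEq, Fintype

/-- the seven vertices -/
inductive Vx | e (t : Vt) | al | be
  deriving DecidableEq, Fintype

variable (k : Type) [Field k]

/-- the bifiltered modules `O(0,b)`, `b = 0,1,2`, and `P_e`, `e = 1,2` -/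
noncomputable abbrev T : Vt → Bw k
  | .o b => TO k (b : ℕ)
  | .p e => TP k ((e : ℕ) + 1)

/-- `T al = P_2` -/
noncomputable abbrev Tal : Bw k := TP k 2
/-- `T be = O_1 ⊕ O_1` -/
noncomputable abbrev Tbe : Bw k := (TO k 1).prod (TO k 1)

/-- the bifiltered modules at the seven vertices -/
noncomputable abbrev T7 : Vx → Bw k
  | .e t => T k t
  | .al => Tal k
  | .be => Tbe k

/-- the sum of all of them, with `s` -/
noncomputable abbrev TT : Bf k := hat (Bw.pi (T7 k))

variable {k}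

/-- `Ψ : P_2 → O_1², p ↦ (d₂ q(p), - d₁ q(p))` (right multiplications) -/
noncomputable def Psi : (Tal k).V →ₗ[k] (Tbe k).V :=
  (rd0 1 ∘ₗ (rx0 0).coprod (rx0 1)).prod (-(rd0 0 ∘ₗ (rx0 0).coprod (rx0 1)))

/-- `Ω : O_1² → P_2, v ↦ wp(d₁ v₁ + d₂ v₂)` (right multiplications) -/
noncomputable def Ome : (Tbe k).V →ₗ[k] (Tal k).V :=
  (rx0 1 ∘ₗ (rd0 0).coprod (rd0 1)).prod (-(rx0 0 ∘ₗ (rd0 0).coprod (rd0 1)))

theorem Psi_apply (p : Y0 k × Y0 k) : Psi p =
    (rd0 1 (rx0 0 p.1 + rx0 1 p.2), -(rd0 0 (rx0 0 p.1 + rx0 1 p.2))) := rfl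

theorem Ome_apply (p : Y0 k × Y0 k) : Ome p =
    (rx0 1 (rd0 0 p.1 + rd0 1 p.2), -(rx0 0 (rd0 0 p.1 + rd0 1 p.2))) := rfl

theorem rx0_comm (i j : Fin 2) (p : Y0 k) : rx0 i (rx0 j p) = rx0 j (rx0 i p) :=
  Subtype.ext (rx_comm i j _)
theorem rd0_comm (i j : Fin 2) (p : Y0 k) : rd0 i (rd0 j p) = rd0 j (rd0 i p) :=
  Subtype.ext (rd_comm i j _)
theorem lx0_rx0 (i j : Fin 2) (p : Y0 k) : lx0 i (rx0 j p) = rx0 j (lx0 i p) :=
  Subtype.ext (lx_rx i j _)
theorem lx0_rd0 (i j : Fin 2) (p : Y0 k) : lx0 i (rd0 j p) = rd0 j (lx0 i p) :=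
  Subtype.ext (lx_rd i j _)
theorem ld0_rx0 (i j : Fin 2) (p : Y0 k) : ld0 i (rx0 j p) = rx0 j (ld0 i p) :=
  Subtype.ext (ld_rx i j _)
theorem ld0_rd0 (i j : Fin 2) (p : Y0 k) : ld0 i (rd0 j p) = rd0 j (ld0 i p) :=
  Subtype.ext (ld_rd i j _)

theorem Psi_Ome : (Psi (k := k)) ∘ₗ Ome = 0 := by
  apply LinearMap.ext
  intro v
  rw [LinearMap.comp_apply, Ome_apply, Psi_apply, map_neg, rx0_comm 1 0, add_neg_cancel, map_zero,
    map_zero, neg_zero]
  rfl

theorem Ome_Psi : (Ome (k := k)) ∘ₗ Psi = 0 := by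
  apply LinearMap.ext
  intro v
  rw [LinearMap.comp_apply, Psi_apply, Ome_apply, map_neg, rd0_comm 1 0, add_neg_cancel, map_zero,
    map_zero, neg_zero]
  rfl

theorem Psi_mem : Psi (k := k) ∈ HomW (Tal k) (Tbe k) := by
  refine ⟨fun i v => ?_, fun i v => ?_, fun a b v hv => ?_⟩
  · have key : ∀ (j : Fin 2) (u w : Y0 k), rd0 j (rx0 0 (lx0 i u) + rx0 1 (lx0 i w)) =
        lx0 i (rd0 j (rx0 0 u + rx0 1 w)) := by
      intro j u w
      rw [lx0_rd0, map_add (lx0 i), lx0_rx0, lx0_rx0]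
    exact Prod.ext (key 1 v.1 v.2) ((congrArg Neg.neg (key 0 v.1 v.2)).trans
      (map_neg (lx0 i) _).symm)
  · have key : ∀ (j : Fin 2) (u w : Y0 k), rd0 j (rx0 0 (ld0 i u) + rx0 1 (ld0 i w)) =
        ld0 i (rd0 j (rx0 0 u + rx0 1 w)) := by
      intro j u w
      rw [ld0_rd0, map_add (ld0 i), ld0_rx0, ld0_rx0]
    exact Prod.ext (key 1 v.1 v.2) ((congrArg Neg.neg (key 0 v.1 v.2)).trans
      (map_neg (ld0 i) _).symm)
  · have h3 : rx 0 (v.1 : PA k) + rx 1 (v.2 : PA k) ∈ (G 0 (a + 1) b : Submodule k (PA k)) := hv.2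
    constructor
    · change rd 1 (rx 0 (v.1 : PA k) + rx 1 (v.2 : PA k)) ∈ (G 0 a (b + 1) : Submodule k (PA k))
      have := rd_mem 1 _ _ _ _ h3
      rwa [show a + 1 - 1 = a by ring] at this
    · change -(rd 0 (rx 0 (v.1 : PA k) + rx 1 (v.2 : PA k))) ∈
        (G 0 a (b + 1) : Submodule k (PA k))
      have := rd_mem 0 _ _ _ _ h3
      rw [show a + 1 - 1 = a by ring] at this
      exact (G 0 a (b + 1)).neg_mem this

theorem Ome_mem : Ome (k := k) ∈ HomW (Tbe k) (Tal k) := by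
  refine ⟨fun i v => ?_, fun i v => ?_, fun a b v hv => ?_⟩
  · have key : ∀ (j : Fin 2) (u w : Y0 k), rx0 j (rd0 0 (lx0 i u) + rd0 1 (lx0 i w)) =
        lx0 i (rx0 j (rd0 0 u + rd0 1 w)) := by
      intro j u w
      rw [lx0_rx0, map_add (lx0 i), lx0_rd0, lx0_rd0]
    exact Prod.ext (key 1 v.1 v.2) ((congrArg Neg.neg (key 0 v.1 v.2)).trans
      (map_neg (lx0 i) _).symm)
  · have key : ∀ (j : Fin 2) (u w : Y0 k), rx0 j (rd0 0 (ld0 i u) + rd0 1 (ld0 i w)) =
        ld0 i (rx0 j (rd0 0 u + rd0 1 w)) := by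
      intro j u w
      rw [ld0_rx0, map_add (ld0 i), ld0_rd0, ld0_rd0]
    exact Prod.ext (key 1 v.1 v.2) ((congrArg Neg.neg (key 0 v.1 v.2)).trans
      (map_neg (ld0 i) _).symm)
  · have h1 : (v.1 : PA k) ∈ (G 0 a (b + 1) : Submodule k (PA k)) := hv.1
    have h2 : (v.2 : PA k) ∈ (G 0 a (b + 1) : Submodule k (PA k)) := hv.2
    have h3 : rd 0 (v.1 : PA k) + rd 1 (v.2 : PA k) ∈
        (G 0 (a - 1) (b + 2) : Submodule k (PA k)) := by
      have e1 := rd_mem 0 _ _ _ _ h1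
      have e2 := rd_mem 1 _ _ _ _ h2
      rw [show b + 1 + 1 = b + 2 by ring] at e1 e2
      exact (G 0 (a - 1) (b + 2)).add_mem e1 e2
    have e1 := rx_mem 1 _ _ _ _ h3
    have e2 := rx_mem 0 _ _ _ _ h3
    rw [show a - 1 + 1 = a by ring] at e1 e2
    refine ⟨⟨e1, (G 0 a (b + 2)).neg_mem e2⟩, ?_⟩
    change rx 0 (rx 1 (rd 0 (v.1 : PA k) + rd 1 (v.2 : PA k))) +
      rx 1 (-(rx 0 (rd 0 (v.1 : PA k) + rd 1 (v.2 : PA k)))) ∈
      (G 0 (a + 1) b : Submodule k (PA k))
    rw [map_neg, rx_comm 1 0, add_neg_cancel]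
    exact Submodule.zero_mem _

/-- inclusion of a vertex -/
noncomputable def inc (v : Vx) : (hat (T7 k v)).V →ₗ[k] (TT k).V :=
  hm (M := T7 k v) (N := Bw.pi (T7 k)) (LinearMap.single k (fun v => (T7 k v).V) v)

/-- projection to a vertex -/
noncomputable def prj (v : Vx) : (TT k).V →ₗ[k] (hat (T7 k v)).V :=
  hm (M := Bw.pi (T7 k)) (N := T7 k v) (LinearMap.proj v)

theorem inc_mem (v : Vx) : inc (k := k) v ∈ Hom (hat (T7 k v)) (TT k) := by
  apply hm_mem
  refine ⟨fun i u => ?_, fun i u => ?_, fun a b u hu => ?_⟩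
  · funext w
    change Pi.single (M := fun v => (T7 k v).V) v ((T7 k v).x i u) w =
      (T7 k w).x i (Pi.single (M := fun v => (T7 k v).V) v u w)
    by_cases h : w = v
    · subst h; rw [Pi.single_eq_same, Pi.single_eq_same]
    · rw [Pi.single_eq_of_ne h, Pi.single_eq_of_ne h, map_zero]
  · funext w
    change Pi.single (M := fun v => (T7 k v).V) v ((T7 k v).d i u) w =
      (T7 k w).d i (Pi.single (M := fun v => (T7 k v).V) v u w)
    by_cases h : w = v
    · subst h; rw [Pi.single_eq_same, Pi.single_eq_same]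
    · rw [Pi.single_eq_of_ne h, Pi.single_eq_of_ne h, map_zero]
  · intro w _
    change Pi.single (M := fun v => (T7 k v).V) v u w ∈ (T7 k w).F a b
    by_cases h : w = v
    · subst h; rw [Pi.single_eq_same]; exact hu
    · rw [Pi.single_eq_of_ne h]; exact Submodule.zero_mem _

theorem prj_mem (v : Vx) : prj (k := k) v ∈ Hom (TT k) (hat (T7 k v)) := by
  apply hm_mem
  exact ⟨fun i u => rfl, fun i u => rfl, fun a b u hu => hu v (Set.mem_univ v)⟩

theorem prj_inc (v : Vx) : prj (k := k) v ∘ₗ inc v = LinearMap.id := by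
  apply LinearMap.ext
  intro u
  refine Prod.ext ?_ ?_
  · exact Pi.single_eq_same (M := fun v => (T7 k v).V) v u.1
  · exact Pi.single_eq_same (M := fun v => (T7 k v).V) v u.2

theorem prj_inc_ne {v w : Vx} (h : v ≠ w) : prj (k := k) v ∘ₗ inc w = 0 := by
  apply LinearMap.ext
  intro u
  refine Prod.ext ?_ ?_
  · exact Pi.single_eq_of_ne (M := fun v => (T7 k v).V) h u.1
  · exact Pi.single_eq_of_ne (M := fun v => (T7 k v).V) h u.2

theorem sum_inc_prj (u : (TT k).V) : ∑ v, inc (k := k) v (prj v u) = u := by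
  refine Prod.ext ?_ ?_
  · rw [Prod.fst_sum]
    exact Finset.univ_sum_single (u.1 : ∀ v, (T7 k v).V)
  · rw [Prod.snd_sum]
    exact Finset.univ_sum_single (u.2 : ∀ v, (T7 k v).V)

/-- data of a window -/
structure Wd (k : Type) [Field k] where
  L : Bf k
  A : Submodule k ((hat (Tal k)).V →ₗ[k] L.V)
  B : Submodule k ((hat (Tbe k)).V →ₗ[k] L.V)
  hA : A ≤ Hom (hat (Tal k)) L
  hB : B ≤ Hom (hat (Tbe k)) L
  BA : ∀ g ∈ B, g ∘ₗ hm Psi ∈ A
  AB : ∀ g ∈ A, g ∘ₗ hm Ome ∈ B

/-- the window of `N` as a vector space -/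
noncomputable def Win (N : Wd k) : Submodule k ((TT k).V →ₗ[k] N.L.V) where
  carrier := {φ | φ ∈ Hom (TT k) N.L ∧ φ ∘ₗ inc .al ∈ N.A ∧ φ ∘ₗ inc .be ∈ N.B}
  add_mem' := by
    rintro f g ⟨h1, h2, h3⟩ ⟨g1, g2, g3⟩
    refine ⟨Submodule.add_mem _ h1 g1, ?_, ?_⟩
    · rw [LinearMap.add_comp]; exact Submodule.add_mem _ h2 g2
    · rw [LinearMap.add_comp]; exact Submodule.add_mem _ h3 g3
  zero_mem' := by
    refine ⟨Submodule.zero_mem _, ?_, ?_⟩
    · rw [LinearMap.zero_comp]; exact Submodule.zero_mem _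
    · rw [LinearMap.zero_comp]; exact Submodule.zero_mem _
  smul_mem' := by
    rintro c f ⟨h1, h2, h3⟩
    refine ⟨Submodule.smul_mem _ c h1, ?_, ?_⟩
    · rw [LinearMap.smul_comp]; exact Submodule.smul_mem _ c h2
    · rw [LinearMap.smul_comp]; exact Submodule.smul_mem _ c h3

theorem mem_Win {N : Wd k} {φ : (TT k).V →ₗ[k] N.L.V} : φ ∈ Win N ↔
    φ ∈ Hom (TT k) N.L ∧ φ ∘ₗ inc .al ∈ N.A ∧ φ ∘ₗ inc .be ∈ N.B := Iff.rfl

variable (k) in
/-- the ring itself as a window -/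
noncomputable abbrev WR : Wd k where
  L := TT k
  A := Submodule.span k {inc .al, inc .be ∘ₗ hm Psi}
  B := Submodule.span k {inc .be, inc .al ∘ₗ hm Ome}
  hA := by
    rw [Submodule.span_le]
    rintro g (rfl | rfl)
    · exact inc_mem .al
    · exact Hom.comp (inc_mem .be) (hm_mem Psi_mem)
  hB := by
    rw [Submodule.span_le]
    rintro g (rfl | rfl)
    · exact inc_mem .be
    · exact Hom.comp (inc_mem .al) (hm_mem Ome_mem)
  BA := by
    intro g hg
    induction hg using Submodule.span_induction with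
    | mem g hg =>
      rcases hg with rfl | rfl
      · exact Submodule.subset_span (Or.inr rfl)
      · rw [LinearMap.comp_assoc]
        change _ ∘ₗ hm (M := Tal k) (N := Tal k) (Ome ∘ₗ Psi) ∈ _
        rw [Ome_Psi]
        have e : inc (k := k) .al ∘ₗ hm (M := Tal k) (N := Tal k) 0 = 0 :=
          LinearMap.ext fun _ => map_zero (inc (k := k) .al)
        rw [e]
        exact Submodule.zero_mem _
    | zero => rw [LinearMap.zero_comp]; exact Submodule.zero_mem _
    | add f g _ _ hf hg => rw [LinearMap.add_comp]; exact Submodule.add_mem _ hf hg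
    | smul c f _ hf => rw [LinearMap.smul_comp]; exact Submodule.smul_mem _ c hf
  AB := by
    intro g hg
    induction hg using Submodule.span_induction with
    | mem g hg =>
      rcases hg with rfl | rfl
      · exact Submodule.subset_span (Or.inr rfl)
      · rw [LinearMap.comp_assoc]
        change _ ∘ₗ hm (M := Tbe k) (N := Tbe k) (Psi ∘ₗ Ome) ∈ _
        rw [Psi_Ome]
        have e : inc (k := k) .be ∘ₗ hm (M := Tbe k) (N := Tbe k) 0 = 0 :=
          LinearMap.ext fun _ => map_zero (inc (k := k) .be)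
        rw [e]
        exact Submodule.zero_mem _
    | zero => rw [LinearMap.zero_comp]; exact Submodule.zero_mem _
    | add f g _ _ hf hg => rw [LinearMap.add_comp]; exact Submodule.add_mem _ hf hg
    | smul c f _ hf => rw [LinearMap.smul_comp]; exact Submodule.smul_mem _ c hf

/-- the action of `Win WR` on `Win N` is by composition -/
theorem Win.comp_mem {N : Wd k} {φ : (TT k).V →ₗ[k] N.L.V} {r : (TT k).V →ₗ[k] (TT k).V}
    (hφ : φ ∈ Win N) (hr : r ∈ Win (WR k)) : φ ∘ₗ r ∈ Win N := by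
  obtain ⟨h1, h2, h3⟩ := hφ
  obtain ⟨r1, r2, r3⟩ := hr
  refine ⟨Hom.comp h1 r1, ?_, ?_⟩
  · rw [LinearMap.comp_assoc]
    have : ∀ g ∈ (WR k).A, φ ∘ₗ g ∈ N.A := by
      intro g hg
      change g ∈ Submodule.span k {inc .al, inc .be ∘ₗ hm Psi} at hg
      induction hg using Submodule.span_induction with
      | mem g hg =>
        rcases hg with rfl | rfl
        · exact h2
        · rw [← LinearMap.comp_assoc]; exact N.BA _ h3
      | zero => rw [LinearMap.comp_zero]; exact Submodule.zero_mem _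
      | add f g _ _ hf hg => rw [LinearMap.comp_add]; exact Submodule.add_mem _ hf hg
      | smul c f _ hf => rw [LinearMap.comp_smul]; exact Submodule.smul_mem _ c hf
    exact this _ r2
  · rw [LinearMap.comp_assoc]
    have : ∀ g ∈ (WR k).B, φ ∘ₗ g ∈ N.B := by
      intro g hg
      change g ∈ Submodule.span k {inc .be, inc .al ∘ₗ hm Ome} at hg
      induction hg using Submodule.span_induction with
      | mem g hg =>
        rcases hg with rfl | rfl
        · exact h3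
        · rw [← LinearMap.comp_assoc]; exact N.AB _ h2
      | zero => rw [LinearMap.comp_zero]; exact Submodule.zero_mem _
      | add f g _ _ hf hg => rw [LinearMap.comp_add]; exact Submodule.add_mem _ hf hg
      | smul c f _ hf => rw [LinearMap.comp_smul]; exact Submodule.smul_mem _ c hf
    exact this _ r3

theorem id_mem_WR : (LinearMap.id : (TT k).V →ₗ[k] (TT k).V) ∈ Win (WR k) := by
  refine ⟨Hom.id _, ?_, ?_⟩
  · exact Submodule.subset_span (Or.inl rfl)
  · exact Submodule.subset_span (Or.inl rfl)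

variable (k) in
/-- the ring `R` -/
noncomputable def RS : Subalgebra k (Module.End k (TT k).V)ᵐᵒᵖ where
  carrier := {f | f.unop ∈ Win (WR k)}
  mul_mem' := by
    intro f g hf hg
    exact Win.comp_mem (N := WR k) hg hf
  one_mem' := id_mem_WR
  add_mem' := by
    intro f g hf hg
    exact (Win (WR k)).add_mem hf hg
  zero_mem' := (Win (WR k)).zero_mem
  algebraMap_mem' := by
    intro c
    have := (Win (WR k)).smul_mem c id_mem_WR
    exact this

variable (k) in
/-- the ring `R` -/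
abbrev R : Type := RS k

/-- the window of `N` as a type (module over `k` and over `R k`); its elements are the elements
of the subtype `Win N` -/
def Wn (N : Wd k) : Type := Win N

noncomputable instance (N : Wd k) : AddCommGroup (Wn N) := inferInstanceAs (AddCommGroup (Win N))
noncomputable instance (N : Wd k) : Module k (Wn N) := inferInstanceAs (Module k (Win N))

/-- the underlying map `TT → N.L` -/
def Wn.f {N : Wd k} (φ : Wn N) : (TT k).V →ₗ[k] N.L.V := Subtype.val (p := (· ∈ Win N)) φ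

theorem Wn.mem {N : Wd k} (φ : Wn N) : φ.f ∈ Win N := Subtype.property (p := (· ∈ Win N)) φ

/-- an element of the window from a map -/
def Wn.mk {N : Wd k} (f : (TT k).V →ₗ[k] N.L.V) (h : f ∈ Win N) : Wn N :=
  (⟨f, h⟩ : Win N)

theorem Wn.mk_f {N : Wd k} (f : (TT k).V →ₗ[k] N.L.V) (h : f ∈ Win N) : (Wn.mk f h).f = f := rfl

theorem Wn.ext {N : Wd k} {φ ψ : Wn N} (h : φ.f = ψ.f) : φ = ψ :=
  Subtype.ext (p := (· ∈ Win N)) h

theorem Wn.add_f {N : Wd k} (φ ψ : Wn N) : (φ + ψ).f = φ.f + ψ.f := rfl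
theorem Wn.zero_f {N : Wd k} : (0 : Wn N).f = 0 := rfl
theorem Wn.smul_f {N : Wd k} (c : k) (φ : Wn N) : (c • φ).f = c • φ.f := rfl

noncomputable instance (N : Wd k) : SMul (R k) (Wn N) :=
  ⟨fun r φ => Wn.mk (φ.f ∘ₗ r.1.unop) (Win.comp_mem φ.mem r.2)⟩

/-- the action of `R` is by composition -/
theorem Wn.rsmul_f {N : Wd k} (r : R k) (φ : Wn N) : (r • φ).f = φ.f ∘ₗ r.1.unop := rfl

noncomputable instance (N : Wd k) : Module (R k) (Wn N) where
  one_smul _ := rfl
  mul_smul _ _ _ := rfl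
  smul_zero _ := rfl
  smul_add _ _ _ := rfl
  add_smul _ _ _ := Wn.ext (LinearMap.comp_add _ _ _)
  zero_smul _ := Wn.ext (LinearMap.comp_zero _)

/-- the element of `R` given by an element of `Win WR` -/
noncomputable def toR (f : (TT k).V →ₗ[k] (TT k).V) (hf : f ∈ Win (WR k)) : R k :=
  ⟨MulOpposite.op f, hf⟩

theorem toR_smul {N : Wd k} (f : (TT k).V →ₗ[k] (TT k).V) (hf : f ∈ Win (WR k)) (φ : Wn N) :
    (toR f hf • φ).f = φ.f ∘ₗ f := rfl

end Vale.Agent.P195.AR
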