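import Vale.Agent.Lib.P195.AR.Facts
import Vale.Agent.Lib.P195.AR.Surj

/-!
# P195: the operators of the exact sequence `0 → L → P_2 → O_1^2 → L → X_0 → 0`

`L = O(-1,2)`: pieces `L[a,c] = G 0 (a-1) (c+2)`; `P_2[a,c] = {p | p_i ∈ G 0 a (c+2), q p ∈ G 0 (a+1) c}`;
`O_1[a,c] = G 0 a (c+1)`; `X_0`-piece `G 0 (a-1) 0`.
-/

namespace Vale.Agent.P195.AR.SeqM

open MvPolynomial

variable {k : Type} [Field k]

/-- `wp w = (w x_2, - w x_1)` -/
noncomputable def wpM : PA k →ₗ[k] PA k × PA k := LinearMap.prod (rx 1) (-(rx 0))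

/-- `q p = p_1 x_1 + p_2 x_2` -/
noncomputable def qM : PA k × PA k →ₗ[k] PA k := LinearMap.coprod (rx 0) (rx 1)

/-- `Ψ p = (q d_2, - q d_1)` -/
noncomputable def psM : PA k × PA k →ₗ[k] PA k × PA k :=
  LinearMap.prod (rd 1 ∘ₗ qM) (-(rd 0 ∘ₗ qM))

/-- `π v = v_1 d_1 + v_2 d_2` -/
noncomputable def piM : PA k × PA k →ₗ[k] PA k := LinearMap.coprod (rd 0) (rd 1)

theorem wpM_apply (w : PA k) : wpM w = (rx 1 w, - rx 0 w) := rfl
theorem qM_apply (p : PA k × PA k) : qM p = rx 0 p.1 + rx 1 p.2 := rfl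
theorem psM_apply (p : PA k × PA k) : psM p = (rd 1 (qM p), - rd 0 (qM p)) := rfl
theorem piM_apply (p : PA k × PA k) : piM p = rd 0 p.1 + rd 1 p.2 := rfl

theorem qM_wpM (w : PA k) : qM (wpM w) = 0 := by
  rw [qM_apply, wpM_apply]
  simp only [rx_apply]
  ring

theorem psM_wpM (w : PA k) : psM (wpM w) = 0 := by
  rw [psM_apply, qM_wpM, map_zero, map_zero, neg_zero]
  rfl

theorem piM_psM (p : PA k × PA k) : piM (psM p) = 0 := by
  rw [piM_apply, psM_apply]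
  simp only [map_neg]
  rw [rd_comm 0 1]
  ring

theorem ap_piM (p : PA k × PA k) : ap (piM p) = 0 := by
  rw [piM_apply, map_add, ap_rd, ap_rd, add_zero]

/-! ### commutation with the left operators -/

theorem wpM_lx (i : Fin 2) (w : PA k) : wpM (lx i w) = (lx i (wpM w).1, lx i (wpM w).2) := by
  simp only [wpM_apply, map_neg, lx_rx]
theorem wpM_ld (i : Fin 2) (w : PA k) : wpM (ld i w) = (ld i (wpM w).1, ld i (wpM w).2) := by
  simp only [wpM_apply, map_neg, ld_rx]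
theorem qM_lx (i : Fin 2) (p : PA k × PA k) : qM (lx i p.1, lx i p.2) = lx i (qM p) := by
  simp only [qM_apply, map_add, lx_rx]
theorem qM_ld (i : Fin 2) (p : PA k × PA k) : qM (ld i p.1, ld i p.2) = ld i (qM p) := by
  simp only [qM_apply, map_add, ld_rx]
theorem psM_lx (i : Fin 2) (p : PA k × PA k) :
    psM (lx i p.1, lx i p.2) = (lx i (psM p).1, lx i (psM p).2) := by
  simp only [psM_apply, qM_lx, map_neg, lx_rd]
theorem psM_ld (i : Fin 2) (p : PA k × PA k) :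
    psM (ld i p.1, ld i p.2) = (ld i (psM p).1, ld i (psM p).2) := by
  simp only [psM_apply, qM_ld, map_neg, ld_rd]
theorem piM_lx (i : Fin 2) (p : PA k × PA k) : piM (lx i p.1, lx i p.2) = lx i (piM p) := by
  simp only [piM_apply, map_add, lx_rd]
theorem piM_ld (i : Fin 2) (p : PA k × PA k) : piM (ld i p.1, ld i p.2) = ld i (piM p) := by
  simp only [piM_apply, map_add, ld_rd]

/-! ### filtrations -/

theorem G_cast {m m' a a' b b' : ℤ} {f : PA k} (h : f ∈ (G m a b : Submodule k (PA k)))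
    (hm : m = m') (ha : a = a') (hb : b = b') : f ∈ (G m' a' b' : Submodule k (PA k)) := by
  subst hm; subst ha; subst hb; exact h

theorem wpM_mem {m a c : ℤ} {w : PA k} (hw : w ∈ (G m (a - 1) c : Submodule k (PA k))) :
    (wpM w).1 ∈ (G m a c : Submodule k (PA k)) ∧ (wpM w).2 ∈ (G m a c : Submodule k (PA k)) :=
  ⟨G_cast (rx_mem 1 _ _ _ w hw) rfl (by ring) rfl,
    Submodule.neg_mem _ (G_cast (rx_mem 0 _ _ _ w hw) rfl (by ring) rfl)⟩

theorem qM_mem {m a c : ℤ} {p : PA k × PA k} (h1 : p.1 ∈ (G m a c : Submodule k (PA k)))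
    (h2 : p.2 ∈ (G m a c : Submodule k (PA k))) :
    qM p ∈ (G m (a + 1) c : Submodule k (PA k)) :=
  Submodule.add_mem _ (rx_mem 0 _ _ _ _ h1) (rx_mem 1 _ _ _ _ h2)

theorem psM_mem {m a c : ℤ} {p : PA k × PA k}
    (hq : qM p ∈ (G m (a + 1) c : Submodule k (PA k))) :
    (psM p).1 ∈ (G m a (c + 1) : Submodule k (PA k)) ∧
      (psM p).2 ∈ (G m a (c + 1) : Submodule k (PA k)) :=
  ⟨G_cast (rd_mem 1 _ _ _ _ hq) rfl (by ring) rfl,
    Submodule.neg_mem _ (G_cast (rd_mem 0 _ _ _ _ hq) rfl (by ring) rfl)⟩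

theorem piM_mem {m a c : ℤ} {p : PA k × PA k} (h1 : p.1 ∈ (G m a (c + 1) : Submodule k (PA k)))
    (h2 : p.2 ∈ (G m a (c + 1) : Submodule k (PA k))) :
    piM p ∈ (G m (a - 1) (c + 2) : Submodule k (PA k)) :=
  Submodule.add_mem _ (G_cast (rd_mem 0 _ _ _ _ h1) rfl rfl (by ring))
    (G_cast (rd_mem 1 _ _ _ _ h2) rfl rfl (by ring))

/-! ### exactness of the pieces -/

/-- exactness at `L` (first) -/
theorem wpM_inj {w : PA k} (h : wpM w = 0) : w = 0 :=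
  rx_inj 1 (congrArg Prod.fst h)

/-- `Ψ p = 0` iff `q p = 0` -/
theorem qM_of_psM {p : PA k × PA k} (h : psM p = 0) : qM p = 0 :=
  fb3 1 (congrArg Prod.fst h)

/-- exactness at `P_2` -/
theorem ex_P {m a c : ℤ} {p : PA k × PA k} (h1 : p.1 ∈ (G m a c : Submodule k (PA k)))
    (h : psM p = 0) : ∃ w ∈ (G m (a - 1) c : Submodule k (PA k)), wpM w = p := by
  obtain ⟨w, hw, e1, e2⟩ := fd2 h1 (qM_of_psM h)
  exact ⟨w, hw, Prod.ext e1.symm e2.symm⟩

/-- exactness at `O_1^2` -/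
theorem ex_O {m a c : ℤ} (ha : 0 ≤ a) {v : PA k × PA k}
    (h1 : v.1 ∈ (G m a (c + 1) : Submodule k (PA k)))
    (h2 : v.2 ∈ (G m a (c + 1) : Submodule k (PA k))) (h : piM v = 0) :
    ∃ p : PA k × PA k, p.1 ∈ (G m a (c + 2) : Submodule k (PA k)) ∧
      p.2 ∈ (G m a (c + 2) : Submodule k (PA k)) ∧
      qM p ∈ (G m (a + 1) c : Submodule k (PA k)) ∧ psM p = v := by
  obtain ⟨u, hu, e1, e2⟩ := fb1 h1 h2 h
  have hu' : u ∈ (G m (a + 1) c : Submodule k (PA k)) := G_cast hu rfl rfl (by ring)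
  obtain ⟨p1, hp1, p2, hp2, e3⟩ := fd1 ha hu'
  refine ⟨(p1, p2), G_mono _ _ _ _ (by omega) hp1, G_mono _ _ _ _ (by omega) hp2, ?_, ?_⟩
  · rw [qM_apply, ← e3]; exact hu'
  · rw [psM_apply, qM_apply, ← e3]
    exact Prod.ext e1.symm e2.symm

/-- exactness at `L` (second) -/
theorem ex_L {m a c : ℤ} {f : PA k} (hf : f ∈ (G m (a - 1) (c + 2) : Submodule k (PA k)))
    (h : ap f = 0) : ∃ v : PA k × PA k, v.1 ∈ (G m a (c + 1) : Submodule k (PA k)) ∧
      v.2 ∈ (G m a (c + 1) : Submodule k (PA k)) ∧ piM v = f := by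
  obtain ⟨v1, h1, v2, h2, e⟩ := fb2 hf h
  exact ⟨(v1, v2), G_cast h1 rfl (by ring) (by ring), G_cast h2 rfl (by ring) (by ring),
    by rw [piM_apply, e]⟩

/-- surjectivity onto `X_0` -/
theorem ap_onto {m a c : ℤ} (hc : 0 ≤ c) {f : PA k} (hf : f ∈ (G m a 0 : Submodule k (PA k))) :
    f ∈ (G m a c : Submodule k (PA k)) ∧ ap f = f :=
  ⟨G_mono _ _ _ _ hc hf, ap_of_zero (by rw [← G_eq]; exact hf)⟩

/-- the piece `[a,0]` with `a < 0` is zero -/
theorem G_zero_of_neg {m a : ℤ} (ha : a < 0) {f : PA k} (hf : f ∈ (G m a 0 : Submodule k (PA k))) :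
    f = 0 := by
  rw [G_neg _ _ _ (Or.inr (Or.inr (by omega)))] at hf
  exact (Submodule.mem_bot k).1 hf

end Vale.Agent.P195.AR.SeqM
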