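import Vale.Agent.Lib.P195.AR.Facts
import Vale.Agent.Lib.P195.AR.Std

/-!
# P195: from `PA k` to `k[x_1, x_2] = MvPolynomial (Fin 2) k`

`toX` kills `d, y`; `inX` is the inclusion; `pi1 f = toX (ap f)` = the operator `f` applied to `1`.
-/

namespace Vale.Agent.P195.AR

open MvPolynomial

variable {k : Type} [Field k]

/-- `x_i ↦ x_i`, `d_i, y_i ↦ 0` -/
noncomputable def toX : PA k →ₐ[k] MvPolynomial (Fin 2) k :=
  aeval (fun v => match v with
    | .x i => X i
    | .d _ => 0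
    | .y _ => 0)

/-- the inclusion `k[x] → PA k` -/
noncomputable def inX : MvPolynomial (Fin 2) k →ₐ[k] PA k := aeval (fun i => X (Vr.x i))

theorem toX_x (i : Fin 2) : toX (X (Vr.x i) : PA k) = X i := by simp [toX]
theorem toX_d (i : Fin 2) : toX (X (Vr.d i) : PA k) = 0 := by simp [toX]
theorem toX_y (i : Fin 2) : toX (X (Vr.y i) : PA k) = 0 := by simp [toX]
theorem inX_X (i : Fin 2) : inX (X i : MvPolynomial (Fin 2) k) = X (Vr.x i) := by simp [inX]

theorem toX_inX (g : MvPolynomial (Fin 2) k) : toX (inX g) = g := by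
  have h : (toX.comp inX : MvPolynomial (Fin 2) k →ₐ[k] MvPolynomial (Fin 2) k)
      = AlgHom.id k _ := by
    apply MvPolynomial.algHom_ext
    intro i
    change toX (inX (X i)) = X i
    rw [inX_X, toX_x]
  exact DFunLike.congr_fun h g

theorem toX_rx (i : Fin 2) (f : PA k) : toX (rx i f) = X i * toX f := by
  rw [rx_apply, map_mul, toX_x]

theorem toX_pderiv (i : Fin 2) (f : PA k) : toX (pderiv (Vr.x i) f) = pderiv i (toX f) := by
  induction f using MvPolynomial.induction_on with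
  | C a => simp [toX]
  | add p q hp hq => rw [map_add, map_add, map_add, map_add, hp, hq]
  | mul_X p v hp =>
    rw [pderiv_mul, map_add, map_mul, map_mul, map_mul, pderiv_mul, hp]
    congr 2
    rcases v with j | j | j
    · rw [toX_x]
      by_cases hij : j = i
      · subst hij; rw [pderiv_X_self, pderiv_X_self, map_one]
      · rw [pderiv_X_of_ne (by simpa using hij), pderiv_X_of_ne hij, map_zero]
    · rw [toX_d, pderiv_X_of_ne (by simp), map_zero, map_zero]
    · rw [toX_y, pderiv_X_of_ne (by simp), map_zero, map_zero]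

theorem inX_monomial (μ : Fin 2 →₀ ℕ) : inX (monomial μ (1 : k)) =
    monomial (Finsupp.single (Vr.x 0) (μ 0) + Finsupp.single (Vr.x 1) (μ 1)) 1 := by
  have h : monomial μ (1 : k) = X 0 ^ μ 0 * X 1 ^ μ 1 := by
    rw [monomial_eq, Finsupp.prod_fintype]
    · simp [Fin.prod_univ_two]
    · intro i; simp
  rw [h, map_mul, map_pow, map_pow, inX_X, inX_X, X_pow_eq_monomial, X_pow_eq_monomial,
    monomial_mul, mul_one]

theorem inX_mem {n b : ℤ} (hb : 0 ≤ b) {g : MvPolynomial (Fin 2) k} (hg : g ∈ Hx k n) :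
    inX g ∈ (G 0 n b : Submodule k (PA k)) := by
  refine Hx_induction (inX : MvPolynomial (Fin 2) k →ₐ[k] PA k).toLinearMap _ ?_ g hg
  intro μ hμ
  change inX (monomial μ 1) ∈ _
  rw [inX_monomial]
  apply monomial_mem_G
  refine ⟨?_, ?_, ?_⟩
  · simp [ydeg]
  · simp [xdeg, ddeg]
    omega
  · simp [ddeg]
    omega

theorem toX_monomial {s : Vr →₀ ℕ} (h : ddeg s = 0) (hy : ydeg s = 0) :
    toX (monomial s (1 : k)) = monomial (Finsupp.single 0 (s (Vr.x 0)) +
      Finsupp.single 1 (s (Vr.x 1))) 1 ∧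
    s = Finsupp.single (Vr.x 0) (s (Vr.x 0)) + Finsupp.single (Vr.x 1) (s (Vr.x 1)) := by
  have hs : s = Finsupp.single (Vr.x 0) (s (Vr.x 0)) + Finsupp.single (Vr.x 1) (s (Vr.x 1)) := by
    simp only [ddeg, ydeg] at h hy
    ext v
    simp only [Finsupp.add_apply, Finsupp.single_apply]
    rcases v with j | j | j <;> fin_cases j <;> simp <;> omega
  refine ⟨?_, hs⟩
  have h2 : monomial s (1 : k) = X (Vr.x 0) ^ s (Vr.x 0) * X (Vr.x 1) ^ s (Vr.x 1) := by
    conv_lhs => rw [hs]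
    rw [X_pow_eq_monomial, X_pow_eq_monomial, monomial_mul, mul_one]
  rw [h2, map_mul, map_pow, map_pow, toX_x, toX_x, X_pow_eq_monomial, X_pow_eq_monomial,
    monomial_mul, mul_one]

theorem toX_mem {n : ℤ} {f : PA k} (hf : f ∈ (G 0 n 0 : Submodule k (PA k))) :
    toX f ∈ Hx k n := by
  refine G_induction (toX : PA k →ₐ[k] MvPolynomial (Fin 2) k).toLinearMap _ ?_ f hf
  rintro s ⟨h1, h2, h3⟩
  change toX (monomial s 1) ∈ _
  have hd : ddeg s = 0 := by omega
  have hy : ydeg s = 0 := by omega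
  rw [(toX_monomial hd hy).1]
  apply monomial_mem_Hx
  simp only [xdeg] at h2
  rw [hd] at h2
  simp
  push_cast at h2
  omega

theorem inX_toX {n : ℤ} {f : PA k} (hf : f ∈ (G 0 n 0 : Submodule k (PA k))) :
    inX (toX f) = f := by
  have h := G_induction (m := 0) (a := n) (b := 0)
    ((inX.comp toX : PA k →ₐ[k] PA k).toLinearMap - LinearMap.id) ⊥ ?_ f hf
  · rw [Submodule.mem_bot, LinearMap.sub_apply, sub_eq_zero] at h
    exact h
  · rintro s ⟨h1, h2, h3⟩
    have hd : ddeg s = 0 := by omega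
    have hy : ydeg s = 0 := by omega
    obtain ⟨e1, e2⟩ := toX_monomial (k := k) hd hy
    rw [Submodule.mem_bot, LinearMap.sub_apply, sub_eq_zero]
    change inX (toX (monomial s 1)) = monomial s 1
    rw [e1, inX_monomial]
    congr 1
    conv_rhs => rw [e2]
    simp

/-- the operator `f` applied to `1` -/
noncomputable def pi1 : PA k →ₗ[k] MvPolynomial (Fin 2) k :=
  (toX : PA k →ₐ[k] MvPolynomial (Fin 2) k).toLinearMap ∘ₗ ap

theorem pi1_apply (f : PA k) : pi1 f = toX (ap f) := rfl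

theorem pi1_lx (i : Fin 2) (f : PA k) : pi1 (lx i f) = X i * pi1 f := by
  rw [pi1_apply, ap_lx, map_mul, toX_x]; rfl

theorem pi1_ld (i : Fin 2) (f : PA k) : pi1 (ld i f) = pderiv i (pi1 f) := by
  rw [pi1_apply, ap_ld, toX_pderiv]; rfl

theorem pi1_rd (i : Fin 2) (f : PA k) : pi1 (rd i f) = 0 := by
  rw [pi1_apply, ap_rd, map_zero]

theorem pi1_mem {a b : ℤ} {f : PA k} (hf : f ∈ (G 0 a b : Submodule k (PA k))) :
    pi1 f ∈ Hx k a := toX_mem (ap_mem hf)

theorem ap_of_pi1 {a b : ℤ} {f : PA k} (hf : f ∈ (G 0 a b : Submodule k (PA k)))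
    (h : pi1 f = 0) : ap f = 0 := by
  rw [← inX_toX (ap_mem hf), ← pi1_apply, h, map_zero]

theorem pi1_inX {n : ℤ} {g : MvPolynomial (Fin 2) k} (hg : g ∈ Hx k n) : pi1 (inX g) = g := by
  have h := inX_mem (b := 0) le_rfl hg
  rw [pi1_apply, ap_of_zero (by rw [← G_eq]; exact h), toX_inX]

theorem Hx_neg {n : ℤ} (hn : n < 0) {g : MvPolynomial (Fin 2) k} (hg : g ∈ Hx k n) : g = 0 := by
  rw [← MvPolynomial.support_eq_empty, Finset.eq_empty_iff_forall_notMem]
  intro μ hμ
  have h1 : (μ 0 + μ 1 : ℤ) = n := hg hμ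
  omega

end Vale.Agent.P195.AR
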