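import Vale.Agent.Lib.P195.AR.Ring
import Vale.Agent.Lib.P195.AR.ToX
import Vale.Agent.Lib.P195.AR.Surj
import Vale.Agent.Lib.P195.AR.PEx

/-!
# P195: the sequence `0 → L → P_2 → O_1^2 → L → X_{-1} → 0` (`L = W(-1,2)`) and its hats

Pieces with carriers `Y0`; exactness at `F a c` for `a ≥ 0`, then at the evaluation windows
`F 0 (-b)` and `PW (x 0) (x 1) (F 0 0) (F 1 (-e))` of the hats.
-/

namespace Vale.Agent.P195.AR.SeqM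

open MvPolynomial

variable {k : Type} [Field k]

variable (k) in
/-- `L = W(-1,2)` -/
noncomputable abbrev LL : Bw k := (TO k 2).shift (-1) 0

/-- `wp` -/
noncomputable def wp0 : (LL k).V →ₗ[k] (Tal k).V := (rx0 1).prod (-(rx0 0))

/-- `π` -/
noncomputable def pi0 : (Tbe k).V →ₗ[k] (LL k).V := (rd0 0).coprod (rd0 1)

/-- the operator applied to `1` -/
noncomputable def ap0 : (LL k).V →ₗ[k] (XX k (-1)).V := pi1 ∘ₗ (Y0 k).subtype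

theorem wp0_apply (w : Y0 k) : wp0 w = (rx0 1 w, -(rx0 0 w)) := rfl
theorem pi0_apply (v : Y0 k × Y0 k) : pi0 v = rd0 0 v.1 + rd0 1 v.2 := rfl
theorem ap0_apply (w : Y0 k) : ap0 w = pi1 (w : PA k) := rfl

theorem wp0_pi0 : (wp0 (k := k)) ∘ₗ pi0 = Ome := rfl

theorem Psi_wp0 : (Psi (k := k)) ∘ₗ wp0 = 0 := by
  apply LinearMap.ext
  intro v
  rw [LinearMap.comp_apply, wp0_apply, Psi_apply, map_neg, rx0_comm 1 0, add_neg_cancel, map_zero,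
    map_zero, neg_zero]
  rfl

theorem pi0_Psi : (pi0 (k := k)) ∘ₗ Psi = 0 := by
  apply LinearMap.ext
  intro v
  rw [LinearMap.comp_apply, Psi_apply, pi0_apply, map_neg, rd0_comm 1 0, add_neg_cancel]
  rfl

theorem ap0_pi0 : (ap0 (k := k)) ∘ₗ pi0 = 0 := by
  apply LinearMap.ext
  intro v
  rw [LinearMap.comp_apply, pi0_apply, map_add, ap0_apply, ap0_apply, rd0_coe, rd0_coe, pi1_rd,
    pi1_rd, add_zero]
  rfl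

/-! ### membership -/

theorem mem_LL {a c : ℤ} {w : Y0 k} : w ∈ (LL k).F a c ↔
    (w : PA k) ∈ (G 0 (a - 1) (c + 2) : Submodule k (PA k)) := by
  change (w : PA k) ∈ (G 0 (a + -1) (c + 0 + 2) : Submodule k (PA k)) ↔ _
  rw [show a + -1 = a - 1 by ring, show c + 0 + 2 = c + 2 by ring]

theorem mem_Tal {a c : ℤ} {p : Y0 k × Y0 k} : p ∈ (Tal k).F a c ↔
    ((p.1 : PA k) ∈ (G 0 a (c + 2) : Submodule k (PA k)) ∧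
      (p.2 : PA k) ∈ (G 0 a (c + 2) : Submodule k (PA k))) ∧
      rx 0 (p.1 : PA k) + rx 1 (p.2 : PA k) ∈ (G 0 (a + 1) c : Submodule k (PA k)) := Iff.rfl

theorem mem_Tbe {a c : ℤ} {p : Y0 k × Y0 k} : p ∈ (Tbe k).F a c ↔
    (p.1 : PA k) ∈ (G 0 a (c + 1) : Submodule k (PA k)) ∧
      (p.2 : PA k) ∈ (G 0 a (c + 1) : Submodule k (PA k)) := Iff.rfl

theorem mem_XX {n a c : ℤ} {g : MvPolynomial (Fin 2) k} : g ∈ (XX k n).F a c ↔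
    g ∈ Hx k (n + a) := Iff.rfl

theorem G_cst {m m' a a' b b' : ℤ} {f : PA k} (h : f ∈ (G m a b : Submodule k (PA k)))
    (hm : m = m') (ha : a = a') (hb : b = b') : f ∈ (G m' a' b' : Submodule k (PA k)) := by
  subst hm; subst ha; subst hb; exact h

theorem wp0_mem : wp0 (k := k) ∈ HomW (LL k) (Tal k) := by
  refine ⟨fun i v => ?_, fun i v => ?_, fun a b v hv => ?_⟩
  · exact Prod.ext (lx0_rx0 i 1 v).symm (by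
      change -(rx0 0 (lx0 i v)) = lx0 i (-(rx0 0 v))
      rw [map_neg, lx0_rx0])
  · exact Prod.ext (ld0_rx0 i 1 v).symm (by
      change -(rx0 0 (ld0 i v)) = ld0 i (-(rx0 0 v))
      rw [map_neg, ld0_rx0])
  · rw [mem_LL] at hv
    rw [mem_Tal]
    have h1 := rx_mem 1 _ _ _ _ hv
    have h0 := rx_mem 0 _ _ _ _ hv
    rw [sub_add_cancel] at h1 h0
    refine ⟨⟨h1, Submodule.neg_mem _ h0⟩, ?_⟩
    change rx 0 (rx 1 (v : PA k)) + rx 1 (-(rx 0 (v : PA k))) ∈ _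
    rw [map_neg, rx_comm 1 0, add_neg_cancel]
    exact Submodule.zero_mem _

theorem pi0_mem : pi0 (k := k) ∈ HomW (Tbe k) (LL k) := by
  refine ⟨fun i v => ?_, fun i v => ?_, fun a b v hv => ?_⟩
  · change rd0 0 (lx0 i v.1) + rd0 1 (lx0 i v.2) = lx0 i (rd0 0 v.1 + rd0 1 v.2)
    rw [map_add, lx0_rd0, lx0_rd0]
  · change rd0 0 (ld0 i v.1) + rd0 1 (ld0 i v.2) = ld0 i (rd0 0 v.1 + rd0 1 v.2)
    rw [map_add, ld0_rd0, ld0_rd0]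
  · rw [mem_Tbe] at hv
    rw [mem_LL]
    change rd 0 (v.1 : PA k) + rd 1 (v.2 : PA k) ∈ _
    exact Submodule.add_mem _ (G_cst (rd_mem 0 _ _ _ _ hv.1) rfl rfl (by ring))
      (G_cst (rd_mem 1 _ _ _ _ hv.2) rfl rfl (by ring))

theorem ap0_mem : ap0 (k := k) ∈ HomW (LL k) (XX k (-1)) := by
  refine ⟨fun i v => ?_, fun i v => ?_, fun a b v hv => ?_⟩
  · exact pi1_lx i _
  · exact pi1_ld i _
  · rw [mem_LL] at hv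
    have := pi1_mem hv
    rw [show a - 1 = -1 + a by ring] at this
    exact this

/-! ### exactness of the pieces -/

theorem wp0_inj {w : Y0 k} (h : wp0 w = 0) : w = 0 := by
  have h1 : rx0 1 w = 0 := congrArg Prod.fst h
  have h2 : rx 1 (w : PA k) = 0 := congrArg Subtype.val h1
  exact Subtype.ext (rx_inj 1 h2)

theorem x2 {a c : ℤ} {p : Y0 k × Y0 k} (hp : p ∈ (Tal k).F a c) (h : Psi p = 0) :
    ∃ w ∈ (LL k).F a c, wp0 w = p := by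
  have h1 : rd 1 (rx 0 (p.1 : PA k) + rx 1 (p.2 : PA k)) = 0 :=
    congrArg (fun z : Y0 k × Y0 k => (z.1 : PA k)) h
  rw [mem_Tal] at hp
  obtain ⟨w, hw, e1, e2⟩ := fd2 hp.1.1 (fb3 1 h1)
  exact ⟨⟨w, G0_le_Y0 _ _ hw⟩, mem_LL.2 hw, Prod.ext (Subtype.ext e1.symm) (Subtype.ext e2.symm)⟩

theorem x3 {a c : ℤ} (ha : 0 ≤ a) {v : Y0 k × Y0 k} (hv : v ∈ (Tbe k).F a c) (h : pi0 v = 0) :
    ∃ p ∈ (Tal k).F a c, Psi p = v := by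
  rw [mem_Tbe] at hv
  have h1 : rd 0 (v.1 : PA k) + rd 1 (v.2 : PA k) = 0 := congrArg Subtype.val h
  obtain ⟨u, hu, e1, e2⟩ := fb1 hv.1 hv.2 h1
  have hu' : u ∈ (G 0 (a + 1) c : Submodule k (PA k)) := G_cst hu rfl rfl (by ring)
  obtain ⟨p1, hp1, p2, hp2, e3⟩ := fd1 ha hu'
  refine ⟨(⟨p1, G0_le_Y0 _ _ hp1⟩, ⟨p2, G0_le_Y0 _ _ hp2⟩), mem_Tal.2 ⟨⟨?_, ?_⟩, ?_⟩, ?_⟩
  · exact G_mono _ _ _ _ (by omega) hp1
  · exact G_mono _ _ _ _ (by omega) hp2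
  · change rx 0 p1 + rx 1 p2 ∈ _
    rw [← e3]; exact hu'
  · refine Prod.ext (Subtype.ext ?_) (Subtype.ext ?_)
    · change rd 1 (rx 0 p1 + rx 1 p2) = _
      rw [← e3, e1]
    · change -(rd 0 (rx 0 p1 + rx 1 p2)) = _
      rw [← e3, e2]

theorem x4 {a c : ℤ} {f : Y0 k} (hf : f ∈ (LL k).F a c) (h : ap0 f = 0) :
    ∃ v ∈ (Tbe k).F a c, pi0 v = f := by
  rw [mem_LL] at hf
  obtain ⟨v1, h1, v2, h2, e⟩ := fb2 hf (ap_of_pi1 hf h)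
  refine ⟨(⟨v1, G0_le_Y0 _ _ h1⟩, ⟨v2, G0_le_Y0 _ _ h2⟩), mem_Tbe.2 ⟨?_, ?_⟩, ?_⟩
  · exact G_cst h1 rfl (by ring) (by ring)
  · exact G_cst h2 rfl (by ring) (by ring)
  · exact Subtype.ext e.symm

theorem x5 {a c : ℤ} (hc : -2 ≤ c) {g : MvPolynomial (Fin 2) k} (hg : g ∈ (XX k (-1)).F a c) :
    ∃ f ∈ (LL k).F a c, ap0 f = g := by
  have h1 := inX_mem (b := c + 2) (by omega) (mem_XX.1 hg)
  refine ⟨⟨inX g, G0_le_Y0 _ _ h1⟩, mem_LL.2 (G_cst h1 rfl (by ring) rfl), ?_⟩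
  exact pi1_inX (mem_XX.1 hg)

/-! ### (Surj) -/

theorem surjL {a c c' : ℤ} (h : -a ≤ c' + 2) {f : Y0 k} (hf : f ∈ (LL k).F (a + 1) c) :
    ∃ v1 ∈ (LL k).F a c, ∃ v2 ∈ (LL k).F a c, ∃ v' ∈ (LL k).F (a + 1) c',
      f = lx0 1 v1 - lx0 0 v2 + v' := by
  rw [mem_LL] at hf
  obtain ⟨v1, h1, v2, h2, v', h3, e⟩ := surjW (a := a - 1) (b' := c' + 2) (by omega)
    (G_cst hf rfl (show a + 1 - 1 = a - 1 + 1 by ring) rfl)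
  refine ⟨⟨v1, G0_le_Y0 _ _ h1⟩, mem_LL.2 h1, ⟨v2, G0_le_Y0 _ _ h2⟩, mem_LL.2 h2,
    ⟨v', G0_le_Y0 _ _ h3⟩, mem_LL.2 (G_cst h3 rfl (by ring) rfl), Subtype.ext e⟩

theorem surjTbe {a c : ℤ} (c' : ℤ) (h : 0 ≤ a) {f : Y0 k × Y0 k} (hf : f ∈ (Tbe k).F (a + 1) c) :
    ∃ v1 ∈ (Tbe k).F a c, ∃ v2 ∈ (Tbe k).F a c, ∃ v' ∈ (Tbe k).F (a + 1) c',
      f = (Tbe k).x 1 v1 - (Tbe k).x 0 v2 + v' := by
  rw [mem_Tbe] at hf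
  obtain ⟨v1, h1, v2, h2, v', h3, e1⟩ := surjW0 (c' + 1) h hf.1
  obtain ⟨w1, g1, w2, g2, w', g3, e2⟩ := surjW0 (c' + 1) h hf.2
  exact ⟨(⟨v1, G0_le_Y0 _ _ h1⟩, ⟨w1, G0_le_Y0 _ _ g1⟩), ⟨h1, g1⟩,
    (⟨v2, G0_le_Y0 _ _ h2⟩, ⟨w2, G0_le_Y0 _ _ g2⟩), ⟨h2, g2⟩,
    (⟨v', G0_le_Y0 _ _ h3⟩, ⟨w', G0_le_Y0 _ _ g3⟩), ⟨h3, g3⟩,
    Prod.ext (Subtype.ext e1) (Subtype.ext e2)⟩

theorem surjTal {a c c' : ℤ} (ha : 0 ≤ a) (hc : -a ≤ c' + 2) {f : Y0 k × Y0 k}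
    (hf : f ∈ (Tal k).F (a + 1) c) :
    ∃ v1 ∈ (Tal k).F a c, ∃ v2 ∈ (Tal k).F a c, ∃ v' ∈ (Tal k).F (a + 1) c',
      f = (Tal k).x 1 v1 - (Tal k).x 0 v2 + v' := by
  rw [mem_Tal] at hf
  obtain ⟨v1, v2, u1, u2, w1, w2, ⟨a1, a2, a3⟩, ⟨b1, b2, b3⟩, ⟨c1, c2, c3⟩, e1, e2⟩ :=
    surjP (m := 0) (a := a) (c := c) (e := 2) c' ha (by norm_num) hc hf.1.1
      (G_cst hf.2 rfl (by ring) rfl)
  exact ⟨(⟨v1, G0_le_Y0 _ _ a1⟩, ⟨v2, G0_le_Y0 _ _ a2⟩), mem_Tal.2 ⟨⟨a1, a2⟩, a3⟩,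
    (⟨u1, G0_le_Y0 _ _ b1⟩, ⟨u2, G0_le_Y0 _ _ b2⟩), mem_Tal.2 ⟨⟨b1, b2⟩, b3⟩,
    (⟨w1, G0_le_Y0 _ _ c1⟩, ⟨w2, G0_le_Y0 _ _ c2⟩),
    mem_Tal.2 ⟨⟨c1, c2⟩, G_cst c3 rfl (by ring) rfl⟩,
    Prod.ext (Subtype.ext e1) (Subtype.ext e2)⟩

end Vale.Agent.P195.AR.SeqM
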