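import Mathlib.Algebra.MvPolynomial.PDeriv
import Mathlib.Algebra.MvPolynomial.Division
import Mathlib.RingTheory.Derivation.Lie
import Mathlib.RingTheory.MvPolynomial.Basic
import Mathlib.RingTheory.MvPolynomial.Homogeneous
import Mathlib.Tactic

/-!
# P195: the small complex `C_n(X_0) = Hom(Q^(n), X_0)` as polynomials in two variables `η_1, η_2`

`C^0 = k[η]_n`, `C^1 = k[η]_{n+1}^2 + k[η]_{n-1}^2`, `C^2 = k[η]_n^4`, `C^3 = k[η]_n`,
* `d0 Φ = (-n η_j Φ ; -(n+1) ∂_i Φ)`,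
* `d1 (Γ ; Λ)`: `Π^1_1 = (n+1) ∂_1 Γ_1 - (n+1) η_1 Λ_1 - η_2 Λ_2`, `Π^1_2 = (n+1) ∂_2 Γ_1 - n η_1 Λ_2`,
  `Π^2_1 = (n+1) ∂_1 Γ_2 - n η_2 Λ_1`, `Π^2_2 = (n+1) ∂_2 Γ_2 - (n+1) η_2 Λ_2 - η_1 Λ_1`,
* `d2 Π = - n (Π^1_1 + Π^2_2) + ∑ η_i ∂_k Π^k_i`.
-/

namespace Vale.Agent.P195.AR.SmallC

open MvPolynomial

variable {k : Type*} [Field k] [CharZero k]

/-- polynomials in two variables, homogeneous of degree `m : ℤ` (zero if `m < 0`) -/
def Hm (k : Type*) [Field k] (m : ℤ) : Submodule k (MvPolynomial (Fin 2) k) where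
  carrier := {f | ∀ s ∈ f.support, ((s 0 : ℤ) + (s 1 : ℤ)) = m}
  add_mem' := by
    intro f g hf hg s hs
    rcases Finset.mem_union.1 (MvPolynomial.support_add hs) with h | h
    · exact hf s h
    · exact hg s h
  zero_mem' := by
    intro s hs
    simp at hs
  smul_mem' := by
    intro c f hf s hs
    exact hf s (MvPolynomial.support_smul hs)

omit [CharZero k] in
theorem mem_Hm {m : ℤ} {f : MvPolynomial (Fin 2) k} :
    f ∈ Hm k m ↔ ∀ s ∈ f.support, ((s 0 : ℤ) + (s 1 : ℤ)) = m := Iff.rfl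

omit [CharZero k] in
theorem mem_Hm_coeff {m : ℤ} {f : MvPolynomial (Fin 2) k} :
    f ∈ Hm k m ↔ ∀ s, ((s 0 : ℤ) + (s 1 : ℤ)) ≠ m → coeff s f = 0 := by
  constructor
  · intro h s hs
    by_contra hc
    exact hs (h s (mem_support_iff.2 hc))
  · intro h s hs
    by_contra hc
    exact (mem_support_iff.1 hs) (h s hc)

omit [CharZero k] in
theorem X_mul_mem {m : ℤ} {f : MvPolynomial (Fin 2) k} (hf : f ∈ Hm k m) (i : Fin 2) :
    X i * f ∈ Hm k (m + 1) := by
  rw [mem_Hm_coeff] at hf ⊢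
  intro s hs
  rw [mul_comm, coeff_mul_X']
  split_ifs with h
  · apply hf
    intro h2
    apply hs
    have h3 : 1 ≤ s i := Nat.one_le_iff_ne_zero.2 (Finsupp.mem_support_iff.1 h)
    fin_cases i
    · simp at h2 h3
      omega
    · simp at h2 h3
      omega
  · rfl

omit [CharZero k] in
theorem of_X_mul_mem {m : ℤ} {f : MvPolynomial (Fin 2) k} (i : Fin 2)
    (h : X i * f ∈ Hm k (m + 1)) : f ∈ Hm k m := by
  rw [mem_Hm_coeff] at h ⊢
  intro s hs
  have h1 := h (s + Finsupp.single i 1) (by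
    intro h2
    apply hs
    fin_cases i
    · simp at h2
      omega
    · simp at h2
      omega)
  rw [mul_comm, coeff_mul_X] at h1
  exact h1

omit [CharZero k] in
theorem pderiv_mem {m : ℤ} {f : MvPolynomial (Fin 2) k} (hf : f ∈ Hm k m) (i : Fin 2) :
    pderiv i f ∈ Hm k (m - 1) := by
  rw [mem_Hm_coeff] at hf ⊢
  intro s hs
  rw [coeff_pderiv]
  rw [hf, zero_mul]
  intro h2
  apply hs
  fin_cases i
  · simp at h2
    omega
  · simp at h2
    omega

omit [CharZero k] in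
theorem eq_zero_of_neg {m : ℤ} (hm : m < 0) {f : MvPolynomial (Fin 2) k} (hf : f ∈ Hm k m) :
    f = 0 := by
  rw [mem_Hm_coeff] at hf
  ext s
  rw [coeff_zero]
  apply hf
  omega

omit [CharZero k] in
theorem C_mul_mem {m : ℤ} {f : MvPolynomial (Fin 2) k} (hf : f ∈ Hm k m) (c : k) :
    C c * f ∈ Hm k m := by
  rw [← smul_eq_C_mul]
  exact Submodule.smul_mem _ _ hf

omit [CharZero k] in
/-- Euler's identity -/
theorem euler {m : ℤ} {f : MvPolynomial (Fin 2) k} (hf : f ∈ Hm k m) :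
    X 0 * pderiv 0 f + X 1 * pderiv 1 f = C (m : k) * f := by
  rw [mem_Hm_coeff] at hf
  ext s
  rw [coeff_add, mul_comm (X 0), mul_comm (X 1), coeff_mul_X', coeff_mul_X', coeff_C_mul]
  by_cases hs : ((s 0 : ℤ) + (s 1 : ℤ)) = m
  · have e : ∀ i : Fin 2, (if i ∈ s.support then coeff (s - Finsupp.single i 1) (pderiv i f)
        else 0) = coeff s f * (s i : k) := by
      intro i
      split_ifs with h
      · rw [coeff_pderiv]
        have h1 : 1 ≤ s i := Nat.one_le_iff_ne_zero.2 (Finsupp.mem_support_iff.1 h)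
        have h2 : s - Finsupp.single i 1 + Finsupp.single i 1 = s := by
          ext j
          simp only [Finsupp.add_apply, Finsupp.tsub_apply, Finsupp.single_apply]
          split_ifs with hij
          · subst hij
            omega
          · omega
        rw [h2]
        congr 1
        simp only [Finsupp.tsub_apply, Finsupp.single_eq_same]
        rw [Nat.cast_sub h1]
        simp
      · rw [Finsupp.notMem_support_iff.1 h, Nat.cast_zero, mul_zero]
    rw [e 0, e 1, ← mul_add, mul_comm]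
    congr 1
    rw [← hs]
    push_cast
    rfl
  · have hz : coeff s f = 0 := hf s hs
    rw [hz, mul_zero]
    have e : ∀ i : Fin 2, (if i ∈ s.support then coeff (s - Finsupp.single i 1) (pderiv i f)
        else 0) = 0 := by
      intro i
      split_ifs with h
      · rw [coeff_pderiv]
        have h1 : 1 ≤ s i := Nat.one_le_iff_ne_zero.2 (Finsupp.mem_support_iff.1 h)
        have h2 : s - Finsupp.single i 1 + Finsupp.single i 1 = s := by
          ext j
          simp only [Finsupp.add_apply, Finsupp.tsub_apply, Finsupp.single_apply]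
          split_ifs with hij
          · subst hij
            omega
          · omega
        rw [h2, hz, zero_mul]
      · rfl
    rw [e 0, e 1, add_zero]

omit [CharZero k] in
/-- if `X 1 * f = X 0 * g` then `f = X 0 * r`, `g = X 1 * r` -/
theorem coprime {m : ℤ} {f g : MvPolynomial (Fin 2) k} (hf : f ∈ Hm k (m + 1))
    (h : X 1 * f = X 0 * g) : ∃ r ∈ Hm k m, f = X 0 * r ∧ g = X 1 * r := by
  have h1 : (X 0 : MvPolynomial (Fin 2) k) ∣ X 1 * f := ⟨g, h⟩
  have hp : Prime (X 0 : MvPolynomial (Fin 2) k) := X_prime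
  rcases hp.dvd_or_dvd h1 with h2 | h2
  · exfalso
    rw [X_dvd_X] at h2
    exact absurd h2 (by decide)
  · obtain ⟨r, rfl⟩ := h2
    refine ⟨r, of_X_mul_mem 0 hf, rfl, ?_⟩
    have h3 : (X 0 : MvPolynomial (Fin 2) k) * (X 1 * r) = X 0 * g := by
      rw [← h]; ring
    exact (mul_left_cancel₀ (X_ne_zero 0) h3).symm

/-! ## the differentials -/

/-- exactness at `C^0` for `n ≥ 1` -/
theorem x0 {n : ℕ} (hn : n ≠ 0) (Φ : MvPolynomial (Fin 2) k)
    (h : - C (n : k) * X 0 * Φ = 0) : Φ = 0 := by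
  have hn' : (n : k) ≠ 0 := Nat.cast_ne_zero.2 hn
  rcases mul_eq_zero.1 h with h2 | h2
  · rcases mul_eq_zero.1 h2 with h3 | h3
    · exact absurd (C_eq_zero.1 (neg_eq_zero.1 h3)) hn'
    · exact absurd h3 (X_ne_zero 0)
  · exact h2

/-- exactness at `C^3` for `n ≥ 1` -/
theorem x3 {n : ℕ} (hn : n ≠ 0) {Ψ : MvPolynomial (Fin 2) k} (hΨ : Ψ ∈ Hm k n) :
    ∃ P ∈ Hm k n, Ψ = - C (n : k) * (P + P) + (X 0 * pderiv 0 P + X 1 * pderiv 1 P) := by
  have hn' : (n : k) ≠ 0 := Nat.cast_ne_zero.2 hn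
  have hP : C (-((n : k)⁻¹)) * Ψ ∈ Hm k n := C_mul_mem hΨ _
  refine ⟨C (-((n : k)⁻¹)) * Ψ, hP, ?_⟩
  rw [euler hP]
  have h1 : C (n : k) * C (-((n : k)⁻¹)) = (-1 : MvPolynomial (Fin 2) k) := by
    rw [← C_mul, mul_neg, mul_inv_cancel₀ hn', C_neg, C_1]
  have h2 : C (((n : ℤ) : k)) = (C (n : k) : MvPolynomial (Fin 2) k) := by
    rw [Int.cast_natCast]
  rw [h2]
  linear_combination Ψ * h1

/-- exactness at `C^1` -/
theorem x1 {n : ℕ} {G0 G1 L0 L1 : MvPolynomial (Fin 2) k} (hG0 : G0 ∈ Hm k (n + 1))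
    (hG1 : G1 ∈ Hm k (n + 1)) (hL0 : L0 ∈ Hm k (n - 1)) (hL1 : L1 ∈ Hm k (n - 1))
    (e00 : C ((n : k) + 1) * pderiv 0 G0 - C ((n : k) + 1) * (X 0 * L0) - X 1 * L1 = 0)
    (e01 : C ((n : k) + 1) * pderiv 1 G0 - C (n : k) * (X 0 * L1) = 0)
    (e10 : C ((n : k) + 1) * pderiv 0 G1 - C (n : k) * (X 1 * L0) = 0)
    (e11 : C ((n : k) + 1) * pderiv 1 G1 - C ((n : k) + 1) * (X 1 * L1) - X 0 * L0 = 0) :
    ∃ Φ ∈ Hm k n, G0 = - C (n : k) * (X 0 * Φ) ∧ G1 = - C (n : k) * (X 1 * Φ) ∧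
      L0 = - C ((n : k) + 1) * pderiv 0 Φ ∧ L1 = - C ((n : k) + 1) * pderiv 1 Φ := by
  have hn1 : ((n : k) + 1) ≠ 0 := Nat.cast_add_one_ne_zero (R := k) n
  have hc1 : (C ((n : k) + 1) : MvPolynomial (Fin 2) k) ≠ 0 := by
    rw [Ne, C_eq_zero]; exact hn1
  have cn : (C ((n : k) + 1) : MvPolynomial (Fin 2) k) = C (n : k) + 1 := by
    rw [C_add, C_1]
  have E0 := euler hG0
  have E1 := euler hG1
  have hcast : (((n : ℤ) + 1 : ℤ) : k) = (n : k) + 1 := by push_cast; rfl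
  rw [hcast] at E0 E1
  -- `(n+1) Γ_j = η_j σ`
  have hσ0 : C ((n : k) + 1) * G0 = X 0 * (X 0 * L0 + X 1 * L1) := by
    apply mul_left_cancel₀ hc1
    linear_combination (-C ((n : k) + 1)) * E0 + X 0 * e00 + X 1 * e01 -
      (X 0 * X 1 * L1) * cn
  have hσ1 : C ((n : k) + 1) * G1 = X 1 * (X 0 * L0 + X 1 * L1) := by
    apply mul_left_cancel₀ hc1
    linear_combination (-C ((n : k) + 1)) * E1 + X 0 * e10 + X 1 * e11 -
      (X 0 * X 1 * L0) * cn
  rcases Nat.eq_zero_or_pos n with rfl | hn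
  · have z0 : L0 = 0 := eq_zero_of_neg (by norm_num) hL0
    have z1 : L1 = 0 := eq_zero_of_neg (by norm_num) hL1
    refine ⟨0, Submodule.zero_mem _, ?_, ?_, ?_, ?_⟩
    · rw [z0, z1] at hσ0
      have : C (((0 : ℕ) : k) + 1) * G0 = 0 := by rw [hσ0]; ring
      rcases mul_eq_zero.1 this with h | h
      · exact absurd h hc1
      · rw [h]; ring
    · rw [z0, z1] at hσ1
      have : C (((0 : ℕ) : k) + 1) * G1 = 0 := by rw [hσ1]; ring
      rcases mul_eq_zero.1 this with h | h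
      · exact absurd h hc1
      · rw [h]; ring
    · rw [z0, map_zero, mul_zero]
    · rw [z1, map_zero, mul_zero]
  · have hn' : (n : k) ≠ 0 := Nat.cast_ne_zero.2 hn.ne'
    have hcn : (C (n : k) : MvPolynomial (Fin 2) k) ≠ 0 := by
      rw [Ne, C_eq_zero]; exact hn'
    -- derivatives of `σ`
    have d0 := congrArg (pderiv 0) hσ0
    have d1 := congrArg (pderiv 1) hσ1
    rw [pderiv_C_mul, Derivation.leibniz, pderiv_X_self, smul_eq_mul, smul_eq_mul, mul_one]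
      at d0 d1
    have s0 : C (n : k) * L0 = pderiv 0 (X 0 * L0 + X 1 * L1) := by
      apply mul_left_cancel₀ (X_ne_zero (R := k) (0 : Fin 2))
      linear_combination d0 - e00 - (X 0 * L0) * cn
    have s1 : C (n : k) * L1 = pderiv 1 (X 0 * L0 + X 1 * L1) := by
      apply mul_left_cancel₀ (X_ne_zero (R := k) (1 : Fin 2))
      linear_combination d1 - e11 - (X 1 * L1) * cn
    have hσm : X 0 * L0 + X 1 * L1 ∈ Hm k n := by
      have a0 := X_mul_mem hL0 0
      have a1 := X_mul_mem hL1 1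
      rw [sub_add_cancel] at a0 a1
      exact Submodule.add_mem _ a0 a1
    refine ⟨C (-((n : k) * ((n : k) + 1))⁻¹) * (X 0 * L0 + X 1 * L1), C_mul_mem hσm _, ?_, ?_, ?_,
      ?_⟩
    · apply mul_left_cancel₀ hc1
      rw [hσ0]
      have h1 : C ((n : k) + 1) * (C (n : k) * C (-((n : k) * ((n : k) + 1))⁻¹)) =
          (-1 : MvPolynomial (Fin 2) k) := by
        rw [← C_mul, ← C_mul, ← C_1, ← C_neg]
        congr 1
        field_simp
      linear_combination (X 0 * (X 0 * L0 + X 1 * L1)) * h1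
    · apply mul_left_cancel₀ hc1
      rw [hσ1]
      have h1 : C ((n : k) + 1) * (C (n : k) * C (-((n : k) * ((n : k) + 1))⁻¹)) =
          (-1 : MvPolynomial (Fin 2) k) := by
        rw [← C_mul, ← C_mul, ← C_1, ← C_neg]
        congr 1
        field_simp
      linear_combination (X 1 * (X 0 * L0 + X 1 * L1)) * h1
    · rw [pderiv_C_mul, ← s0]
      have h1 : C ((n : k) + 1) * (C (-((n : k) * ((n : k) + 1))⁻¹) * C (n : k)) =
          (-1 : MvPolynomial (Fin 2) k) := by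
        rw [← C_mul, ← C_mul, ← C_1, ← C_neg]
        congr 1
        field_simp
      linear_combination L0 * h1
    · rw [pderiv_C_mul, ← s1]
      have h1 : C ((n : k) + 1) * (C (-((n : k) * ((n : k) + 1))⁻¹) * C (n : k)) =
          (-1 : MvPolynomial (Fin 2) k) := by
        rw [← C_mul, ← C_mul, ← C_1, ← C_neg]
        congr 1
        field_simp
      linear_combination L1 * h1

/-- primitive of a closed pair -/
theorem prim {n : ℕ} {A B : MvPolynomial (Fin 2) k} (hA : A ∈ Hm k n) (hB : B ∈ Hm k n)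
    (h : pderiv 1 A = pderiv 0 B) :
    ∃ G ∈ Hm k (n + 1), C ((n : k) + 1) * pderiv 0 G = A ∧ C ((n : k) + 1) * pderiv 1 G = B := by
  have hn1 : ((n : k) + 1) ≠ 0 := Nat.cast_add_one_ne_zero (R := k) n
  have EA := euler hA
  have EB := euler hB
  have hcast : (((n : ℤ)) : k) = (n : k) := by push_cast; rfl
  rw [hcast] at EA EB
  have cn : (C ((n : k) + 1) : MvPolynomial (Fin 2) k) = C (n : k) + 1 := by
    rw [C_add, C_1]
  have cc : C ((n : k) + 1) * (C (((n : k) + 1)⁻¹) * C (((n : k) + 1)⁻¹)) * (C (n : k) + 1) =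
      (1 : MvPolynomial (Fin 2) k) := by
    rw [← cn, ← C_mul, ← C_mul, ← C_mul, ← C_1]
    congr 1
    field_simp
  refine ⟨C (((n : k) + 1)⁻¹) * (C (((n : k) + 1)⁻¹) * (X 0 * A + X 1 * B)),
    C_mul_mem (C_mul_mem (Submodule.add_mem _ (X_mul_mem hA 0) (X_mul_mem hB 1)) _) _, ?_, ?_⟩
  · have hd : pderiv 0 (X 0 * A + X 1 * B) = X 0 * pderiv 0 A + A + X 1 * pderiv 0 B := by
      rw [map_add, Derivation.leibniz, Derivation.leibniz,
        pderiv_X_self, pderiv_X_of_ne (by decide : (1 : Fin 2) ≠ 0), smul_eq_mul, smul_eq_mul,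
        smul_eq_mul, smul_eq_mul, mul_one, mul_zero, add_zero]
    rw [pderiv_C_mul, pderiv_C_mul, hd, ← h]
    linear_combination A * cc + (C ((n : k) + 1) * (C (((n : k) + 1)⁻¹) *
      C (((n : k) + 1)⁻¹))) * EA
  · have hd : pderiv 1 (X 0 * A + X 1 * B) = X 0 * pderiv 1 A + (X 1 * pderiv 1 B + B) := by
      rw [map_add, Derivation.leibniz, Derivation.leibniz,
        pderiv_X_self, pderiv_X_of_ne (by decide : (0 : Fin 2) ≠ 1), smul_eq_mul, smul_eq_mul,
        smul_eq_mul, smul_eq_mul, mul_one, mul_zero, add_zero]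
    rw [pderiv_C_mul, pderiv_C_mul, hd, h]
    linear_combination B * cc + (C ((n : k) + 1) * (C (((n : k) + 1)⁻¹) *
      C (((n : k) + 1)⁻¹))) * EB

/-- exactness at `C^2` -/
theorem x2 {n : ℕ} {P11 P12 P21 P22 : MvPolynomial (Fin 2) k} (h11 : P11 ∈ Hm k n)
    (h12 : P12 ∈ Hm k n) (h21 : P21 ∈ Hm k n) (h22 : P22 ∈ Hm k n)
    (h : - C (n : k) * (P11 + P22) + (X 0 * pderiv 0 P11 + X 1 * pderiv 0 P12 +
      X 0 * pderiv 1 P21 + X 1 * pderiv 1 P22) = 0) :
    ∃ G0 ∈ Hm k (n + 1), ∃ G1 ∈ Hm k (n + 1), ∃ L0 ∈ Hm k ((n : ℤ) - 1), ∃ L1 ∈ Hm k ((n : ℤ) - 1),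
      P11 = C ((n : k) + 1) * pderiv 0 G0 - C ((n : k) + 1) * (X 0 * L0) - X 1 * L1 ∧
      P12 = C ((n : k) + 1) * pderiv 1 G0 - C (n : k) * (X 0 * L1) ∧
      P21 = C ((n : k) + 1) * pderiv 0 G1 - C (n : k) * (X 1 * L0) ∧
      P22 = C ((n : k) + 1) * pderiv 1 G1 - C ((n : k) + 1) * (X 1 * L1) - X 0 * L0 := by
  have hn1 : ((n : k) + 1) ≠ 0 := Nat.cast_add_one_ne_zero (R := k) n
  have hcast : (((n : ℤ)) : k) = (n : k) := by push_cast; rfl
  have cn : (C ((n : k) + 1) : MvPolynomial (Fin 2) k) = C (n : k) + 1 := by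
    rw [C_add, C_1]
  have E11 := euler h11
  have E22 := euler h22
  rw [hcast] at E11 E22
  have hR : X 1 * (pderiv 1 P11 - pderiv 0 P12) = X 0 * (pderiv 1 P21 - pderiv 0 P22) := by
    linear_combination E11 + E22 - h
  have hRm : pderiv 1 P11 - pderiv 0 P12 ∈ Hm k ((n : ℤ) - 2 + 1) := by
    have e : (n : ℤ) - 2 + 1 = n - 1 := by ring
    rw [e]
    exact Submodule.sub_mem _ (pderiv_mem h11 1) (pderiv_mem h12 0)
  obtain ⟨r, hr, hr1, hr2⟩ := coprime hRm hR
  have Er := euler hr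
  have hcast2 : (((n : ℤ) - 2 : ℤ) : k) = (n : k) - 2 := by push_cast; rfl
  rw [hcast2] at Er
  have cn2 : (C ((n : k) - 2) : MvPolynomial (Fin 2) k) = C (n : k) - 2 := by
    rw [C_sub]
    congr 1
  -- constants
  have c1 : C ((n : k) + 1) * C (((n : k) + 1)⁻¹) = (1 : MvPolynomial (Fin 2) k) := by
    rw [← C_mul, mul_inv_cancel₀ hn1, C_1]
  have hρ : C (n : k) * (C (((n : k) * ((n : k) + 1))⁻¹) * r) = C (((n : k) + 1)⁻¹) * r := by
    rcases Nat.eq_zero_or_pos n with rfl | hn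
    · have hr0 : r = 0 := eq_zero_of_neg (by norm_num) hr
      rw [hr0]; ring
    · have hn' : (n : k) ≠ 0 := Nat.cast_ne_zero.2 hn.ne'
      rw [← mul_assoc, ← C_mul]
      congr 2
      field_simp
  -- corrected pairs
  have hXX : X 0 * (X 1 * r) ∈ Hm k n := by
    have := X_mul_mem (X_mul_mem hr 1) 0
    have e : (n : ℤ) - 2 + 1 + 1 = n := by ring
    rwa [e] at this
  have hX00 : X 0 * (X 0 * r) ∈ Hm k n := by
    have := X_mul_mem (X_mul_mem hr 0) 0
    have e : (n : ℤ) - 2 + 1 + 1 = n := by ring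
    rwa [e] at this
  have hX11 : X 1 * (X 1 * r) ∈ Hm k n := by
    have := X_mul_mem (X_mul_mem hr 1) 1
    have e : (n : ℤ) - 2 + 1 + 1 = n := by ring
    rwa [e] at this
  have dXX : ∀ i : Fin 2, pderiv i (X 0 * (X 1 * r)) =
      (if i = 0 then X 1 * r else X 0 * r) + X 0 * (X 1 * pderiv i r) := by
    intro i
    fin_cases i
    · simp [Derivation.leibniz, pderiv_X_of_ne (R := k) (by decide : (1 : Fin 2) ≠ 0)]
      ring
    · simp [Derivation.leibniz, pderiv_X_of_ne (R := k) (by decide : (0 : Fin 2) ≠ 1)]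
      ring
  have dX00 : pderiv 0 (X 0 * (X 0 * r)) = 2 * (X 0 * r) + X 0 * (X 0 * pderiv 0 r) := by
    simp [Derivation.leibniz]
    ring
  have dX11 : pderiv 1 (X 1 * (X 1 * r)) = 2 * (X 1 * r) + X 1 * (X 1 * pderiv 1 r) := by
    simp [Derivation.leibniz]
    ring
  obtain ⟨G0, hG0, g00, g01⟩ := prim (n := n)
    (A := P11 - C (((n : k) + 1)⁻¹) * (X 0 * (X 1 * r)))
    (B := P12 + C (((n : k) + 1)⁻¹) * (X 0 * (X 0 * r)))
    (Submodule.sub_mem _ h11 (C_mul_mem hXX _)) (Submodule.add_mem _ h12 (C_mul_mem hX00 _)) (by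
      rw [map_sub, map_add, pderiv_C_mul, pderiv_C_mul, dXX 1, dX00, if_neg (by decide)]
      linear_combination hr1 - (C (((n : k) + 1)⁻¹) * X 0) * Er - (X 0 * r) * c1 +
        (C (((n : k) + 1)⁻¹) * X 0 * r) * cn - (C (((n : k) + 1)⁻¹) * X 0 * r) * cn2)
  obtain ⟨G1, hG1, g10, g11⟩ := prim (n := n)
    (A := P21 - C (((n : k) + 1)⁻¹) * (X 1 * (X 1 * r)))
    (B := P22 + C (((n : k) + 1)⁻¹) * (X 0 * (X 1 * r)))
    (Submodule.sub_mem _ h21 (C_mul_mem hX11 _)) (Submodule.add_mem _ h22 (C_mul_mem hXX _)) (by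
      rw [map_sub, map_add, pderiv_C_mul, pderiv_C_mul, dXX 0, dX11, if_pos rfl]
      linear_combination hr2 - (C (((n : k) + 1)⁻¹) * X 1) * Er - (X 1 * r) * c1 +
        (C (((n : k) + 1)⁻¹) * X 1 * r) * cn - (C (((n : k) + 1)⁻¹) * X 1 * r) * cn2)
  have hL0 : - (C (((n : k) * ((n : k) + 1))⁻¹) * (X 1 * r)) ∈ Hm k ((n : ℤ) - 1) := by
    have := X_mul_mem hr 1
    have e : (n : ℤ) - 2 + 1 = n - 1 := by ring
    rw [e] at this
    exact Submodule.neg_mem _ (C_mul_mem this _)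
  have hL1 : C (((n : k) * ((n : k) + 1))⁻¹) * (X 0 * r) ∈ Hm k ((n : ℤ) - 1) := by
    have := X_mul_mem hr 0
    have e : (n : ℤ) - 2 + 1 = n - 1 := by ring
    rw [e] at this
    exact C_mul_mem this _
  refine ⟨G0, hG0, G1, hG1, _, hL0, _, hL1, ?_, ?_, ?_, ?_⟩
  · rw [g00]
    linear_combination (-(X 0 * X 1)) * hρ + (-(X 0 * X 1) *
      (C (((n : k) * ((n : k) + 1))⁻¹) * r)) * cn
  · rw [g01]
    linear_combination (X 0 * X 0) * hρ
  · rw [g10]
    linear_combination (-(X 1 * X 1)) * hρ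
  · rw [g11]
    linear_combination (X 0 * X 1) * hρ + ((X 0 * X 1) *
      (C (((n : k) * ((n : k) + 1))⁻¹) * r)) * cn

end Vale.Agent.P195.AR.SmallC
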