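import Vale.Agent.Lib.P195.AR.EvW
import Vale.Agent.Lib.P195.AR.Std
import Vale.Agent.Lib.P195.AR.SmallC
import Vale.Agent.Lib.P195.AR.HMaps

/-!
# P195: maps out of the standard modules into `X_0` as polynomials in two variables

For `Φ : MvPolynomial (Fin 2) k` the map `tx Φ : PA k → k[x]` sends `w ⊗ y^s` to
`s! · coeff s Φ · w(1)`. It commutes with the left operators, kills the image of `rd i`, and
`tx Φ ∘ my i = tx (∂_i Φ)`, `tx Φ ∘ dy i = tx (X_i Φ)`.
-/

namespace Vale.Agent.P195.AR.TX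

open MvPolynomial

variable {k : Type} [Field k]

/-- the `y`-exponent as a pair -/
noncomputable def ye (μ : Vr →₀ ℕ) : Fin 2 →₀ ℕ :=
  Finsupp.single 0 (μ (Vr.y 0)) + Finsupp.single 1 (μ (Vr.y 1))

theorem ye_zero (μ : Vr →₀ ℕ) : ye μ 0 = μ (Vr.y 0) := by simp [ye]
theorem ye_one (μ : Vr →₀ ℕ) : ye μ 1 = μ (Vr.y 1) := by simp [ye]
theorem ye_apply (μ : Vr →₀ ℕ) (i : Fin 2) : ye μ i = μ (Vr.y i) := by
  fin_cases i
  · exact ye_zero μ
  · exact ye_one μ

/-- `s!` -/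
def fc (s : Fin 2 →₀ ℕ) : ℕ := (s 0).factorial * (s 1).factorial

theorem fc_add (s : Fin 2 →₀ ℕ) (i : Fin 2) : fc (s + Finsupp.single i 1) = (s i + 1) * fc s := by
  fin_cases i
  · simp [fc, Nat.factorial_succ]; ring
  · simp [fc, Nat.factorial_succ]; ring

theorem fc_ne [CharZero k] (s : Fin 2 →₀ ℕ) : (fc s : k) ≠ 0 :=
  Nat.cast_ne_zero.2 (Nat.mul_ne_zero (Nat.factorial_ne_zero _) (Nat.factorial_ne_zero _))

/-- the pairing with `Φ` as a functional on `PA` -/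
noncomputable def pr (Φ : MvPolynomial (Fin 2) k) : PA k →ₗ[k] MvPolynomial (Fin 2) k :=
  (basisMonomials Vr k).constr k fun μ => C ((fc (ye μ) : k) * coeff (ye μ) Φ)

theorem pr_monomial (Φ : MvPolynomial (Fin 2) k) (μ : Vr →₀ ℕ) :
    pr Φ (monomial μ 1) = C ((fc (ye μ) : k) * coeff (ye μ) Φ) := by
  have h := (basisMonomials Vr k).constr_basis k
    (fun μ => (C ((fc (ye μ) : k) * coeff (ye μ) Φ) : MvPolynomial (Fin 2) k)) μ
  rw [coe_basisMonomials] at h
  exact h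

theorem ye_add (μ : Vr →₀ ℕ) (i : Fin 2) :
    ye (μ + Finsupp.single (Vr.y i) 1) = ye μ + Finsupp.single i 1 := by
  ext j
  rw [ye_apply, Finsupp.add_apply, Finsupp.add_apply, ye_apply]
  congr 1
  rw [Finsupp.single_apply, Finsupp.single_apply]
  simp

theorem ye_sub (μ : Vr →₀ ℕ) (i : Fin 2) :
    ye (μ - Finsupp.single (Vr.y i) 1) = ye μ - Finsupp.single i 1 := by
  ext j
  rw [ye_apply, Finsupp.tsub_apply, Finsupp.tsub_apply, ye_apply]
  congr 1
  rw [Finsupp.single_apply, Finsupp.single_apply]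
  simp

theorem pr_my (Φ : MvPolynomial (Fin 2) k) (i : Fin 2) : pr Φ ∘ₗ my i = pr (pderiv i Φ) := by
  apply evPA_ext
  intro μ
  rw [LinearMap.comp_apply, ev_my_monomial, pr_monomial, pr_monomial, ye_add, fc_add, coeff_pderiv]
  congr 1
  push_cast
  ring

theorem pr_dy (Φ : MvPolynomial (Fin 2) k) (i : Fin 2) : pr Φ ∘ₗ dy i = pr (X i * Φ) := by
  apply evPA_ext
  intro μ
  rw [LinearMap.comp_apply, ev_dy_monomial, map_smul, pr_monomial, pr_monomial, ye_sub, smul_eq_C_mul,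
    ← C_mul, mul_comm (X i) Φ, coeff_mul_X']
  congr 1
  by_cases h : μ (Vr.y i) = 0
  · have h1 : i ∉ (ye μ).support := by
      rw [Finsupp.notMem_support_iff, ye_apply, h]
    rw [if_neg h1, h]
    simp
  · have h1 : i ∈ (ye μ).support := by
      rw [Finsupp.mem_support_iff, ye_apply]; exact h
    rw [if_pos h1]
    have h2 : ye μ - Finsupp.single i 1 + Finsupp.single i 1 = ye μ := by
      ext j
      simp only [Finsupp.add_apply, Finsupp.tsub_apply, Finsupp.single_apply, ye_apply]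
      split_ifs with hij
      · subst hij; omega
      · omega
    have h3 := fc_add (ye μ - Finsupp.single i 1) i
    rw [h2] at h3
    rw [h3]
    have h4 : (ye μ - Finsupp.single i 1 : Fin 2 →₀ ℕ) i + 1 = μ (Vr.y i) := by
      simp only [Finsupp.tsub_apply, Finsupp.single_eq_same, ye_apply]
      omega
    rw [h4]
    push_cast
    ring

theorem wey_XX (n : ℤ) : Wey (k := k) (XX k n).x (XX k n).d where
  xx := (XX k n).xx
  dd := (XX k n).dd
  dx := (XX k n).dx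

theorem wf_XX (n : ℤ) : WF (k := k) (XX k n).x (XX k n).d (XX k n).F where
  x := (XX k n).Fx
  d := (XX k n).Fd
  mono := fun a b v hv => (XX k n).mono a b (b + 1) (by omega) hv

/-- the map `w ⊗ y^s ↦ s! · coeff s Φ · w(1)` -/
noncomputable def tx (Φ : MvPolynomial (Fin 2) k) : PA k →ₗ[k] MvPolynomial (Fin 2) k :=
  evW (XX k 0).x (XX k 0).d (pr Φ)

theorem tx_lx (Φ : MvPolynomial (Fin 2) k) (i : Fin 2) (p : PA k) :
    tx Φ (lx i p) = (XX k 0).x i (tx Φ p) := evW_lx (wey_XX 0) i p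

theorem tx_ld (Φ : MvPolynomial (Fin 2) k) (i : Fin 2) (p : PA k) :
    tx Φ (ld i p) = (XX k 0).d i (tx Φ p) := evW_ld (wey_XX 0) i p

theorem tx_my (Φ : MvPolynomial (Fin 2) k) (i : Fin 2) (p : PA k) :
    tx Φ (my i p) = tx (pderiv i Φ) p := by
  rw [tx, evW_my (wey_XX 0), pr_my]; rfl

theorem tx_dy (Φ : MvPolynomial (Fin 2) k) (i : Fin 2) (p : PA k) :
    tx Φ (dy i p) = tx (X i * Φ) p := by
  rw [tx, evW_dy (wey_XX 0), pr_dy]; rfl

theorem evW_zero {V : Type*} [AddCommGroup V] [Module k V] (X' D' : Fin 2 → V →ₗ[k] V) :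
    evW X' D' (0 : PA k →ₗ[k] V) = 0 := by
  apply evPA_ext
  intro μ
  rw [evW_monomial, LinearMap.zero_apply, map_zero, LinearMap.zero_apply]

theorem tx_rd (Φ : MvPolynomial (Fin 2) k) (i : Fin 2) (p : PA k) : tx Φ (rd i p) = 0 := by
  rw [tx, evW_rd (wey_XX 0)]
  have : (XX k 0).d i ∘ₗ pr Φ = 0 := by
    apply evPA_ext
    intro μ
    rw [LinearMap.comp_apply, pr_monomial, LinearMap.zero_apply]
    exact pderiv_C
  rw [this, evW_zero, LinearMap.zero_apply]

theorem rx_rd' (i j : Fin 2) (p : PA k) :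
    rx i (rd j p) = rd j (rx i p) + if i = j then p else 0 := by
  rw [rx_apply, rd_apply, rd_apply, rx_apply, Derivation.leibniz, pderiv_X, smul_eq_mul,
    smul_eq_mul, Pi.single_apply]
  by_cases h : i = j
  · subst h; simp; ring
  · have h2 : ¬ (Vr.x j = Vr.x i) := fun e => h (by injection e with e; exact e.symm)
    rw [if_neg h]
    simp [h]
    ring

theorem tx_rx_rd (Φ : MvPolynomial (Fin 2) k) (i j : Fin 2) (p : PA k) :
    tx Φ (rx i (rd j p)) = if i = j then tx Φ p else 0 := by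
  rw [rx_rd', map_add, tx_rd, zero_add]
  split_ifs
  · rfl
  · exact map_zero _

/-! ### linearity in `Φ` -/

theorem pr_add (Φ Ψ : MvPolynomial (Fin 2) k) : pr (Φ + Ψ) = pr Φ + pr Ψ := by
  apply evPA_ext
  intro μ
  rw [LinearMap.add_apply, pr_monomial, pr_monomial, pr_monomial, coeff_add, mul_add, C_add]

theorem pr_smul (c : k) (Φ : MvPolynomial (Fin 2) k) : pr (C c * Φ) = c • pr Φ := by
  apply evPA_ext
  intro μ
  rw [LinearMap.smul_apply, pr_monomial, pr_monomial, coeff_C_mul, smul_eq_C_mul, ← C_mul]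
  congr 1
  ring

theorem evW_add' {V : Type*} [AddCommGroup V] [Module k V] (X' D' : Fin 2 → V →ₗ[k] V)
    (f g : PA k →ₗ[k] V) : evW X' D' (f + g) = evW X' D' f + evW X' D' g := by
  apply evPA_ext
  intro μ
  rw [LinearMap.add_apply, evW_monomial, evW_monomial, evW_monomial, LinearMap.add_apply, map_add]

theorem evW_smul' {V : Type*} [AddCommGroup V] [Module k V] (X' D' : Fin 2 → V →ₗ[k] V)
    (c : k) (f : PA k →ₗ[k] V) : evW X' D' (c • f) = c • evW X' D' f := by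
  apply evPA_ext
  intro μ
  rw [LinearMap.smul_apply, evW_monomial, evW_monomial, LinearMap.smul_apply, map_smul]

theorem tx_add (Φ Ψ : MvPolynomial (Fin 2) k) (p : PA k) : tx (Φ + Ψ) p = tx Φ p + tx Ψ p := by
  rw [tx, pr_add, evW_add', LinearMap.add_apply]; rfl

theorem tx_C_mul (c : k) (Φ : MvPolynomial (Fin 2) k) (p : PA k) :
    tx (C c * Φ) p = C c * tx Φ p := by
  rw [tx, pr_smul, evW_smul', LinearMap.smul_apply, smul_eq_C_mul]; rfl

theorem tx_zero (p : PA k) : tx (0 : MvPolynomial (Fin 2) k) p = 0 := by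
  have := tx_C_mul (0 : k) 0 p
  rwa [C_0, zero_mul, zero_mul] at this

theorem tx_neg (Φ : MvPolynomial (Fin 2) k) (p : PA k) : tx (-Φ) p = - tx Φ p := by
  have := tx_add Φ (-Φ) p
  rw [add_neg_cancel, tx_zero] at this
  exact (neg_eq_of_add_eq_zero_right this.symm).symm

theorem tx_sub (Φ Ψ : MvPolynomial (Fin 2) k) (p : PA k) : tx (Φ - Ψ) p = tx Φ p - tx Ψ p := by
  rw [sub_eq_add_neg, tx_add, tx_neg, sub_eq_add_neg]

theorem tx_n (Φ : MvPolynomial (Fin 2) k) (n : ℕ) (p : PA k) :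
    tx Φ ((n : PA k) * p) = C (n : k) * tx Φ p := by
  have : (n : PA k) * p = (n : k) • p := by rw [smul_eq_C_mul, map_natCast]
  rw [this, map_smul, smul_eq_C_mul]

theorem tx_n1 (Φ : MvPolynomial (Fin 2) k) (n : ℕ) (p : PA k) :
    tx Φ (((n : PA k) + 1) * p) = C ((n : k) + 1) * tx Φ p := by
  have := tx_n Φ (n + 1) p
  push_cast at this
  exact this

/-! ### filtrations -/

theorem tx_mem (Φ : MvPolynomial (Fin 2) k) {m a b c : ℤ} {p : PA k}
    (hp : p ∈ (G m a b : Submodule k (PA k))) : tx Φ p ∈ (XX k 0).F a c := by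
  have h := evW_mem (wf_XX (k := k) 0) (φ := pr Φ) (m := m) (a0 := 0) (b0 := 0) (a := a) (c := b)
    ?_ hp
  · rw [zero_add] at h
    exact h
  · intro v hv
    refine G_induction (pr Φ) _ ?_ v hv
    intro μ _
    rw [pr_monomial]
    exact monomial_mem_Hx 0 _ (by simp)

/-- value of `tx Φ` on `y^s` -/
theorem tx_y (Φ : MvPolynomial (Fin 2) k) {μ : Vr →₀ ℕ} (hx : xdeg μ = 0) (hd : ddeg μ = 0) :
    tx Φ (monomial μ 1) = C ((fc (ye μ) : k) * coeff (ye μ) Φ) := by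
  rw [tx, evW_of_zero hx hd, pr_monomial]

/-- the exponent of `y^s` -/
noncomputable def yv (s : Fin 2 →₀ ℕ) : Vr →₀ ℕ :=
  Finsupp.single (Vr.y 0) (s 0) + Finsupp.single (Vr.y 1) (s 1)

theorem ye_yv (s : Fin 2 →₀ ℕ) : ye (yv s) = s := by
  ext j
  rw [ye_apply]
  fin_cases j <;> simp [yv]

theorem xdeg_yv (s : Fin 2 →₀ ℕ) : xdeg (yv s) = 0 := by simp [xdeg, yv]
theorem ddeg_yv (s : Fin 2 →₀ ℕ) : ddeg (yv s) = 0 := by simp [ddeg, yv]
theorem ydeg_yv (s : Fin 2 →₀ ℕ) : ydeg (yv s) = s 0 + s 1 := by simp [ydeg, yv]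

theorem yv_mem {m : ℤ} {s : Fin 2 →₀ ℕ} (hs : ((s 0 : ℤ) + (s 1 : ℤ)) = m) :
    monomial (yv s) (1 : k) ∈ (G m 0 0 : Submodule k (PA k)) := by
  apply monomial_mem_G
  refine ⟨?_, ?_, ?_⟩
  · rw [ydeg_yv, ← hs]; push_cast; rfl
  · rw [xdeg_yv, ddeg_yv]; rfl
  · rw [ddeg_yv]; rfl

/-- injectivity -/
theorem tx_inj [CharZero k] {m : ℤ} {Φ : MvPolynomial (Fin 2) k} (hΦ : Φ ∈ SmallC.Hm k m)
    (h : ∀ p ∈ (G m 0 0 : Submodule k (PA k)), tx Φ p = 0) : Φ = 0 := by
  rw [SmallC.mem_Hm_coeff] at hΦ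
  ext s
  rw [coeff_zero]
  by_cases hs : ((s 0 : ℤ) + (s 1 : ℤ)) = m
  · have h1 := h _ (yv_mem hs)
    rw [tx_y _ (xdeg_yv s) (ddeg_yv s), ye_yv, C_eq_zero] at h1
    exact (mul_eq_zero.1 h1).resolve_left (fc_ne s)
  · exact hΦ s hs

theorem Hx_zero {p : MvPolynomial (Fin 2) k} (hp : p ∈ Hx k 0) : p = C (coeff 0 p) := by
  ext s
  rw [coeff_C]
  split_ifs with h
  · rw [← h]
  · by_contra hc
    have h1 := hp (mem_support_iff.2 hc)
    apply h
    ext j
    have h2 : (s 0 : ℤ) + (s 1 : ℤ) = 0 := h1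
    fin_cases j
    · simp; omega
    · simp; omega

/-- every map is of the form `tx Φ` -/
theorem exists_tx [CharZero k] {m : ℤ} {θ : PA k →ₗ[k] MvPolynomial (Fin 2) k}
    (hx : ∀ i p, θ (lx i p) = (XX k 0).x i (θ p)) (hd : ∀ i p, θ (ld i p) = (XX k 0).d i (θ p))
    (h0 : ∀ p ∈ (G m 0 0 : Submodule k (PA k)), θ p ∈ Hx k 0) :
    ∃ Φ ∈ SmallC.Hm k m, ∀ a b, ∀ p ∈ (G m a b : Submodule k (PA k)), θ p = tx Φ p := by
  classical
  let Sm : Finset (Fin 2 →₀ ℕ) :=
    (Finset.range (m.toNat + 1) ×ˢ Finset.range (m.toNat + 1)).image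
      (fun q => Finsupp.single 0 q.1 + Finsupp.single 1 q.2)
  have hSm : ∀ s : Fin 2 →₀ ℕ, ((s 0 : ℤ) + (s 1 : ℤ)) = m → s ∈ Sm := by
    intro s hs
    refine Finset.mem_image.2 ⟨(s 0, s 1), ?_, ?_⟩
    · rw [Finset.mem_product, Finset.mem_range, Finset.mem_range]
      constructor
      · change s 0 < m.toNat + 1
        omega
      · change s 1 < m.toNat + 1
        omega
    · ext j
      fin_cases j <;> simp
  let Φ : MvPolynomial (Fin 2) k := ∑ s ∈ Sm, if ((s 0 : ℤ) + (s 1 : ℤ)) = m then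
    monomial s ((fc s : k)⁻¹ * coeff 0 (θ (monomial (yv s) 1))) else 0
  have hc : ∀ s : Fin 2 →₀ ℕ, coeff s Φ = if ((s 0 : ℤ) + (s 1 : ℤ)) = m then
      ((fc s : k)⁻¹ * coeff 0 (θ (monomial (yv s) 1))) else 0 := by
    intro s
    have e : coeff s Φ = ∑ t ∈ Sm, coeff s (if ((t 0 : ℤ) + (t 1 : ℤ)) = m then
      monomial t ((fc t : k)⁻¹ * coeff 0 (θ (monomial (yv t) 1))) else 0) := coeff_sum _ _ _
    rw [e]
    split_ifs with hs
    · rw [Finset.sum_eq_single_of_mem s (hSm s hs), if_pos hs, coeff_monomial, if_pos rfl]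
      intro t _ hts
      split_ifs
      · rw [coeff_monomial, if_neg hts]
      · rw [coeff_zero]
    · refine Finset.sum_eq_zero fun t _ => ?_
      split_ifs with ht
      · rw [coeff_monomial, if_neg]
        rintro rfl
        exact hs ht
      · rw [coeff_zero]
  refine ⟨Φ, ?_, ?_⟩
  · rw [SmallC.mem_Hm_coeff]
    intro s hs
    rw [hc, if_neg hs]
  · intro a b p hp
    have key : ∀ μ : Vr →₀ ℕ, (ydeg μ : ℤ) = m → θ (monomial μ 1) = tx Φ (monomial μ 1) := by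
      intro μ hμ
      rw [evW_unique (X := (XX k 0).x) (D := (XX k 0).d) (F := θ) hx hd, tx, evW_monomial,
        evW_monomial]
      congr 1
      have hs : ((ye μ 0 : ℤ) + (ye μ 1 : ℤ)) = m := by
        rw [ye_zero, ye_one, ← hμ, ydeg]; push_cast; rfl
      have e1 : ypart μ = yv (ye μ) := by
        rw [ypart, yv, ye_zero, ye_one]
      rw [e1, pr_monomial, ye_yv, hc, if_pos hs, Hx_zero (h0 _ (yv_mem hs)), coeff_C, if_pos rfl]
      congr 1
      rw [← mul_assoc, mul_inv_cancel₀ (fc_ne _), one_mul]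
    rw [p.as_sum, map_sum, map_sum]
    refine Finset.sum_congr rfl fun μ hμ => ?_
    have e : monomial μ (coeff μ p) = coeff μ p • monomial μ (1 : k) := by
      rw [smul_monomial, smul_eq_mul, mul_one]
    rw [e, map_smul, map_smul, key μ (hp hμ).1]

end Vale.Agent.P195.AR.TX
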