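import Vale.Agent.Lib.P195.AR.Tx

/-!
# P195: the differentials of the complex `Hom(Q^(n), X_0)` in terms of polynomials

`tx Φ ∘ A`, `(tx Γ, tx Λ) ∘ B`, `tx Π ∘ C`.
-/

namespace Vale.Agent.P195.AR.TX

open MvPolynomial

variable {k : Type} [Field k]

theorem fA_eq (n : ℕ) (z : (PA k × PA k) × (PA k × PA k)) : H1.fA n z =
    rd 0 (H1.EE z.1.1) - (n : PA k) * dy 0 z.1.1 + (rd 1 (H1.EE z.1.2) - (n : PA k) * dy 1 z.1.2)
      - ((n : PA k) + 1) * (my 0 z.2.1 + my 1 z.2.2)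
      + (my 0 (rd 0 (H1.qq z.2)) + my 1 (rd 1 (H1.qq z.2))) := rfl

theorem tx_fA (n : ℕ) (Φ : MvPolynomial (Fin 2) k) (z : (PA k × PA k) × (PA k × PA k)) :
    tx Φ (H1.fA n z) = tx (-C (n : k) * (X 0 * Φ)) z.1.1 + tx (-C (n : k) * (X 1 * Φ)) z.1.2 +
      (tx (-C ((n : k) + 1) * pderiv 0 Φ) z.2.1 + tx (-C ((n : k) + 1) * pderiv 1 Φ) z.2.2) := by
  rw [fA_eq]
  simp only [LinearMap.map_add, LinearMap.map_sub, tx_rd, tx_n, tx_n1, my_rd, tx_my, tx_dy,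
    neg_mul, tx_neg, tx_C_mul]
  ring

theorem fB_eq (n : ℕ) (z : (PA k × PA k) × (PA k × PA k)) : H1.fB n z =
    ((((n : PA k) + 1) * (my 0 z.1.1 + my 1 z.1.2) + rd 1 (H1.kap z),
      ((n : PA k) + 1) * (my 0 z.2.1 + my 1 z.2.2) - rd 0 (H1.kap z)),
     (-(((n : PA k) + 1) * (dy 0 z.1.1 + dy 1 z.2.1)) + rx 1 (rd 0 (dy 1 z.1.1 - dy 0 z.1.2) +
        rd 1 (dy 1 z.2.1 - dy 0 z.2.2)),
      -(((n : PA k) + 1) * (dy 0 z.1.2 + dy 1 z.2.2)) - rx 0 (rd 0 (dy 1 z.1.1 - dy 0 z.1.2) +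
        rd 1 (dy 1 z.2.1 - dy 0 z.2.2)))) := rfl

/-- `(g, p) ↦ tx Γ₀ g₀ + tx Γ₁ g₁ + tx Λ₀ p₀ + tx Λ₁ p₁` -/
noncomputable def tx4 (G0 G1 L0 L1 : MvPolynomial (Fin 2) k)
    (z : (PA k × PA k) × (PA k × PA k)) : MvPolynomial (Fin 2) k :=
  tx G0 z.1.1 + tx G1 z.1.2 + (tx L0 z.2.1 + tx L1 z.2.2)

theorem tx_fB (n : ℕ) (G0 G1 L0 L1 : MvPolynomial (Fin 2) k)
    (z : (PA k × PA k) × (PA k × PA k)) :
    tx4 G0 G1 L0 L1 (H1.fB n z) = tx4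
      (C ((n : k) + 1) * pderiv 0 G0 - C ((n : k) + 1) * (X 0 * L0) - X 1 * L1)
      (C ((n : k) + 1) * pderiv 1 G0 - C (n : k) * (X 0 * L1))
      (C ((n : k) + 1) * pderiv 0 G1 - C (n : k) * (X 1 * L0))
      (C ((n : k) + 1) * pderiv 1 G1 - C ((n : k) + 1) * (X 1 * L1) - X 0 * L0) z := by
  rw [fB_eq, tx4, tx4]
  simp only [LinearMap.map_add, LinearMap.map_sub, LinearMap.map_neg, tx_rd, tx_n1, tx_my,
    tx_dy, tx_rx_rd, neg_mul, tx_neg, tx_C_mul, tx_sub, tx_add]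
  simp only [if_true, Fin.isValue, one_ne_zero, zero_ne_one, if_false]
  simp only [C_add, C_1]
  ring

theorem fC_eq (n : ℕ) (h : PA k) : H1.fC n h =
    ((-(((n : PA k) + 1) * h) + my 0 (dy 0 h) + rx 1 (rd 1 h), my 0 (dy 1 h) - rx 0 (rd 1 h)),
     (my 1 (dy 0 h) - rx 1 (rd 0 h), -(((n : PA k) + 1) * h) + my 1 (dy 1 h) + rx 0 (rd 0 h))) :=
  rfl

theorem tx_fC (n : ℕ) (P11 P12 P21 P22 : MvPolynomial (Fin 2) k) (h : PA k) :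
    tx4 P11 P12 P21 P22 (H1.fC n h) = tx (- C (n : k) * (P11 + P22) + (X 0 * pderiv 0 P11 +
      X 1 * pderiv 0 P12 + X 0 * pderiv 1 P21 + X 1 * pderiv 1 P22)) h := by
  rw [fC_eq, tx4]
  simp only [LinearMap.map_add, LinearMap.map_sub, LinearMap.map_neg, tx_rd, tx_n1, tx_my,
    tx_dy, tx_rx_rd, neg_mul, tx_neg, tx_C_mul, tx_sub, tx_add]
  simp only [if_true, Fin.isValue, one_ne_zero, zero_ne_one, if_false]
  simp only [C_add, C_1]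
  ring

end Vale.Agent.P195.AR.TX
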