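import Vale.Agent.Lib.P195.AR.TxD
import Vale.Agent.Lib.P195.AR.HHom

/-!
# P195: the complexes `Hom(Q^(n), X_0)`: exactness, at the level of filtered maps
-/

namespace Vale.Agent.P195.AR.TX

open MvPolynomial
open H1 (B0 B1 B2 B3)

variable {k : Type} [Field k]

/-! ### maps out of `SO`, `SP` -/

theorem hom_SO [CharZero k] {m b0 : ℤ} {θ : PA k →ₗ[k] MvPolynomial (Fin 2) k}
    (h : θ ∈ HomW (SO k m 0 b0) (XX k 0)) :
    ∃ Φ ∈ SmallC.Hm k m, ∀ a b, ∀ p ∈ (G m a b : Submodule k (PA k)), θ p = tx Φ p := by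
  refine exists_tx h.1 h.2.1 fun p hp => ?_
  have h1 := h.2.2 0 (-b0) p
  have e : p ∈ (SO k m 0 b0).F 0 (-b0) := by
    change p ∈ (G m (0 + 0) (-b0 + b0) : Submodule k (PA k))
    rwa [add_zero, neg_add_cancel]
  have h2 : θ p ∈ Hx k (0 + 0) := h1 e
  rwa [add_zero] at h2

theorem tx_HomW (Φ : MvPolynomial (Fin 2) k) (m b0 : ℤ) :
    tx Φ ∈ HomW (SO k m 0 b0) (XX k 0) := by
  refine ⟨tx_lx Φ, tx_ld Φ, fun a b v hv => ?_⟩
  have h : v ∈ (G m (a + 0) (b + b0) : Submodule k (PA k)) := hv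
  rw [add_zero] at h
  exact tx_mem Φ h

theorem hom_SP1 [CharZero k] {m e : ℤ} (he : 0 ≤ e)
    {θ : (PA k × PA k) →ₗ[k] MvPolynomial (Fin 2) k} (h : θ ∈ HomW (SP k m 0 e) (XX k 0)) :
    ∃ L0 ∈ SmallC.Hm k m, ∀ a b, ∀ p ∈ (G m a b : Submodule k (PA k)), θ (p, 0) = tx L0 p := by
  refine exists_tx (m := m) (θ := θ ∘ₗ LinearMap.inl k _ _) ?_ ?_ ?_
  · intro i p
    have h1 := h.1 i (p, 0)
    refine Eq.trans ?_ h1
    exact congrArg θ (Prod.ext rfl (map_zero (lx i)).symm)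
  · intro i p
    have h1 := h.2.1 i (p, 0)
    refine Eq.trans ?_ h1
    exact congrArg θ (Prod.ext rfl (map_zero (ld i)).symm)
  · intro p hp
    have h1 : θ (p, 0) ∈ Hx k (0 + 0) := by
      refine h.2.2 0 0 (p, 0) ⟨⟨?_, Submodule.zero_mem _⟩, ?_⟩
      · change p ∈ (G m (0 + 0) (0 + e) : Submodule k (PA k))
        rw [add_zero, zero_add]
        exact G_mono _ _ _ _ he hp
      · change rx 0 p + rx 1 0 ∈ (G m (0 + 0 + 1) 0 : Submodule k (PA k))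
        rw [map_zero, add_zero, add_zero]
        exact rx_mem _ _ _ _ _ hp
    rw [add_zero] at h1
    exact h1

theorem hom_SP2 [CharZero k] {m e : ℤ} (he : 0 ≤ e)
    {θ : (PA k × PA k) →ₗ[k] MvPolynomial (Fin 2) k} (h : θ ∈ HomW (SP k m 0 e) (XX k 0)) :
    ∃ L1 ∈ SmallC.Hm k m, ∀ a b, ∀ p ∈ (G m a b : Submodule k (PA k)), θ (0, p) = tx L1 p := by
  refine exists_tx (m := m) (θ := θ ∘ₗ LinearMap.inr k _ _) ?_ ?_ ?_
  · intro i p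
    have h1 := h.1 i (0, p)
    refine Eq.trans ?_ h1
    exact congrArg θ (Prod.ext (map_zero (lx i)).symm rfl)
  · intro i p
    have h1 := h.2.1 i (0, p)
    refine Eq.trans ?_ h1
    exact congrArg θ (Prod.ext (map_zero (ld i)).symm rfl)
  · intro p hp
    have h1 : θ (0, p) ∈ Hx k (0 + 0) := by
      refine h.2.2 0 0 (0, p) ⟨⟨Submodule.zero_mem _, ?_⟩, ?_⟩
      · change p ∈ (G m (0 + 0) (0 + e) : Submodule k (PA k))
        rw [add_zero, zero_add]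
        exact G_mono _ _ _ _ he hp
      · change rx 0 0 + rx 1 p ∈ (G m (0 + 0 + 1) 0 : Submodule k (PA k))
        have h3 := rx_mem 1 _ _ _ _ hp
        rw [map_zero, add_zero (0 : ℤ), zero_add (rx 1 p)]
        exact h3
    rw [add_zero] at h1
    exact h1

theorem hom_SP [CharZero k] {m e : ℤ} (he : 0 ≤ e)
    {θ : (PA k × PA k) →ₗ[k] MvPolynomial (Fin 2) k} (h : θ ∈ HomW (SP k m 0 e) (XX k 0)) :
    ∃ L0 ∈ SmallC.Hm k m, ∃ L1 ∈ SmallC.Hm k m, ∀ a b, ∀ p : PA k × PA k,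
      p.1 ∈ (G m a b : Submodule k (PA k)) → p.2 ∈ (G m a b : Submodule k (PA k)) →
      θ p = tx L0 p.1 + tx L1 p.2 := by
  obtain ⟨L0, hL0, e0⟩ := hom_SP1 he h
  obtain ⟨L1, hL1, e1⟩ := hom_SP2 he h
  refine ⟨L0, hL0, L1, hL1, fun a b p h1 h2 => ?_⟩
  have e3 : θ (p.1, 0) + θ (0, p.2) = θ p := by
    rw [← map_add]
    exact congrArg θ (Prod.ext (add_zero p.1) (zero_add p.2))
  rw [← e3, e0 a b p.1 h1, e1 a b p.2 h2]

/-- `p ↦ tx L0 p.1 + tx L1 p.2` -/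
noncomputable def tx2 (L0 L1 : MvPolynomial (Fin 2) k) :
    (PA k × PA k) →ₗ[k] MvPolynomial (Fin 2) k := (tx L0).coprod (tx L1)

theorem tx2_apply (L0 L1 : MvPolynomial (Fin 2) k) (p : PA k × PA k) :
    tx2 L0 L1 p = tx L0 p.1 + tx L1 p.2 := rfl

theorem tx2_HomW (L0 L1 : MvPolynomial (Fin 2) k) (m e : ℤ) :
    tx2 L0 L1 ∈ HomW (SP k m 0 e) (XX k 0) := by
  refine ⟨fun i v => ?_, fun i v => ?_, fun a b v hv => ?_⟩
  · change tx L0 (lx i v.1) + tx L1 (lx i v.2) = _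
    rw [tx_lx, tx_lx, ← map_add]; rfl
  · change tx L0 (ld i v.1) + tx L1 (ld i v.2) = _
    rw [tx_ld, tx_ld, ← map_add]; rfl
  · obtain ⟨⟨h1, h2⟩, -⟩ := hv
    rw [add_zero] at h1 h2
    exact Submodule.add_mem _ (tx_mem L0 h1) (tx_mem L1 h2)

/-- maps out of a product -/
theorem coprod_HomW {M N L : Bw k} {f : M.V →ₗ[k] L.V} {g : N.V →ₗ[k] L.V} (hf : f ∈ HomW M L)
    (hg : g ∈ HomW N L) : f.coprod g ∈ HomW (M.prod N) L := by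
  refine ⟨fun i v => ?_, fun i v => ?_, fun a b v hv => ?_⟩
  · rw [LinearMap.coprod_apply, LinearMap.coprod_apply, map_add, ← hf.1, ← hg.1]; rfl
  · rw [LinearMap.coprod_apply, LinearMap.coprod_apply, map_add, ← hf.2.1, ← hg.2.1]; rfl
  · rw [LinearMap.coprod_apply]
    exact Submodule.add_mem _ (hf.2.2 a b _ hv.1) (hg.2.2 a b _ hv.2)

theorem inl_HomW {M N L : Bw k} {f : (M.prod N).V →ₗ[k] L.V} (hf : f ∈ HomW (M.prod N) L) :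
    f ∘ₗ LinearMap.inl k M.V N.V ∈ HomW M L := by
  refine ⟨fun i v => ?_, fun i v => ?_, fun a b v hv => ?_⟩
  · rw [LinearMap.comp_apply, LinearMap.comp_apply, ← hf.1]
    exact congrArg f (Prod.ext rfl (map_zero (N.x i)).symm)
  · rw [LinearMap.comp_apply, LinearMap.comp_apply, ← hf.2.1]
    exact congrArg f (Prod.ext rfl (map_zero (N.d i)).symm)
  · exact hf.2.2 a b _ ⟨hv, Submodule.zero_mem _⟩

theorem inr_HomW {M N L : Bw k} {f : (M.prod N).V →ₗ[k] L.V} (hf : f ∈ HomW (M.prod N) L) :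
    f ∘ₗ LinearMap.inr k M.V N.V ∈ HomW N L := by
  refine ⟨fun i v => ?_, fun i v => ?_, fun a b v hv => ?_⟩
  · rw [LinearMap.comp_apply, LinearMap.comp_apply, ← hf.1]
    exact congrArg f (Prod.ext (map_zero (M.x i)).symm rfl)
  · rw [LinearMap.comp_apply, LinearMap.comp_apply, ← hf.2.1]
    exact congrArg f (Prod.ext (map_zero (M.d i)).symm rfl)
  · exact hf.2.2 a b _ ⟨Submodule.zero_mem _, hv⟩

theorem fst_snd {M N L : Bw k} (f : (M.prod N).V →ₗ[k] L.V) (v : (M.prod N).V) :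
    f v = (f ∘ₗ LinearMap.inl k M.V N.V) v.1 + (f ∘ₗ LinearMap.inr k M.V N.V) v.2 := by
  rw [LinearMap.comp_apply, LinearMap.comp_apply, ← map_add]
  refine congrArg f (Prod.ext ?_ ?_)
  · exact (add_zero v.1).symm
  · exact (zero_add v.2).symm

/-- the map with the four parts `tx` -/
noncomputable def t4 (G0 G1 L0 L1 : MvPolynomial (Fin 2) k) :
    ((PA k × PA k) × (PA k × PA k)) →ₗ[k] MvPolynomial (Fin 2) k :=
  (tx2 G0 G1).coprod (tx2 L0 L1)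

theorem t4_apply (G0 G1 L0 L1 : MvPolynomial (Fin 2) k) (z : (PA k × PA k) × (PA k × PA k)) :
    t4 G0 G1 L0 L1 z = tx4 G0 G1 L0 L1 z := rfl

theorem t4_B1 (n : ℕ) (G0 G1 L0 L1 : MvPolynomial (Fin 2) k) :
    t4 G0 G1 L0 L1 ∈ HomW (B1 k n) (XX k 0) :=
  coprod_HomW (M := (SO k (n + 1) 0 1).prod (SO k (n + 1) 0 1)) (N := SP k (n - 1) 0 2)
    (coprod_HomW (M := SO k (n + 1) 0 1) (N := SO k (n + 1) 0 1) (tx_HomW G0 _ _) (tx_HomW G1 _ _))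
    (tx2_HomW L0 L1 _ _)

theorem t4_B2 (n : ℕ) (G0 G1 L0 L1 : MvPolynomial (Fin 2) k) :
    t4 G0 G1 L0 L1 ∈ HomW (B2 k n) (XX k 0) :=
  coprod_HomW (M := SP k n 0 1) (N := SP k n 0 1) (tx2_HomW G0 G1 _ _) (tx2_HomW L0 L1 _ _)

theorem hom_B1 [CharZero k] {n : ℕ} {θ : ((PA k × PA k) × (PA k × PA k)) →ₗ[k] MvPolynomial (Fin 2) k}
    (h : θ ∈ HomW (B1 k n) (XX k 0)) :
    ∃ G0 ∈ SmallC.Hm k (n + 1), ∃ G1 ∈ SmallC.Hm k (n + 1), ∃ L0 ∈ SmallC.Hm k ((n : ℤ) - 1),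
      ∃ L1 ∈ SmallC.Hm k ((n : ℤ) - 1), ∀ a b, ∀ z ∈ (B1 k n).F a b, θ z = tx4 G0 G1 L0 L1 z := by
  have h1 := inl_HomW (M := (SO k (n + 1) 0 1).prod (SO k (n + 1) 0 1)) (N := SP k (n - 1) 0 2) h
  have h2 := inr_HomW (M := (SO k (n + 1) 0 1).prod (SO k (n + 1) 0 1)) (N := SP k (n - 1) 0 2) h
  obtain ⟨G0, hG0, e0⟩ := hom_SO (inl_HomW (M := SO k (n + 1) 0 1) (N := SO k (n + 1) 0 1) h1)
  obtain ⟨G1, hG1, e1⟩ := hom_SO (inr_HomW (M := SO k (n + 1) 0 1) (N := SO k (n + 1) 0 1) h1)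
  obtain ⟨L0, hL0, L1, hL1, e2⟩ := hom_SP (by norm_num) h2
  refine ⟨G0, hG0, G1, hG1, L0, hL0, L1, hL1, fun a b z hz => ?_⟩
  obtain ⟨⟨z1, z2⟩, ⟨z3, z4⟩, -⟩ := hz
  have a1 : z.1.1 ∈ (G (n + 1) (a + 0) (b + 1) : Submodule k (PA k)) := z1
  have a2 : z.1.2 ∈ (G (n + 1) (a + 0) (b + 1) : Submodule k (PA k)) := z2
  rw [fst_snd (M := (SO k (n + 1) 0 1).prod (SO k (n + 1) 0 1)) (N := SP k (n - 1) 0 2) (L := XX k 0)
    θ z, fst_snd (M := SO k (n + 1) 0 1) (N := SO k (n + 1) 0 1) (L := XX k 0) _ z.1,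
    e2 _ _ z.2 z3 z4]
  change (_ : MvPolynomial (Fin 2) k) + _ + _ = _
  rw [tx4]
  congr 1
  exact congrArg₂ (· + ·) (e0 _ _ _ a1) (e1 _ _ _ a2)

theorem hom_B2 [CharZero k] {n : ℕ} {θ : ((PA k × PA k) × (PA k × PA k)) →ₗ[k] MvPolynomial (Fin 2) k}
    (h : θ ∈ HomW (B2 k n) (XX k 0)) :
    ∃ P11 ∈ SmallC.Hm k n, ∃ P12 ∈ SmallC.Hm k n, ∃ P21 ∈ SmallC.Hm k n,
      ∃ P22 ∈ SmallC.Hm k n, ∀ a b, ∀ z ∈ (B2 k n).F a b, θ z = tx4 P11 P12 P21 P22 z := by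
  obtain ⟨G0, hG0, G1, hG1, e1⟩ := hom_SP (by norm_num)
    (inl_HomW (M := SP k n 0 1) (N := SP k n 0 1) h)
  obtain ⟨L0, hL0, L1, hL1, e2⟩ := hom_SP (by norm_num)
    (inr_HomW (M := SP k n 0 1) (N := SP k n 0 1) h)
  refine ⟨G0, hG0, G1, hG1, L0, hL0, L1, hL1, fun a b z hz => ?_⟩
  obtain ⟨⟨⟨z1, z2⟩, -⟩, ⟨z3, z4⟩, -⟩ := hz
  rw [fst_snd (M := SP k n 0 1) (N := SP k n 0 1) (L := XX k 0) θ z, e2 _ _ z.2 z3 z4,
    e1 _ _ z.1 z1 z2]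
  rfl

/-! ### equalities of `tx4` on the generators -/

theorem G0_B0 {n : ℕ} {p : PA k} (hp : p ∈ (G n 0 0 : Submodule k (PA k))) :
    p ∈ (B0 k n).F 0 0 := by
  change p ∈ (G n (0 + 0) (0 + 2) : Submodule k (PA k))
  rw [add_zero]
  exact G_mono _ _ _ _ (by norm_num) hp

theorem SP_F00 {m e : ℤ} (he : 0 ≤ e) {p q : PA k} (hp : p ∈ (G m 0 0 : Submodule k (PA k)))
    (hq : q ∈ (G m 0 0 : Submodule k (PA k))) : (p, q) ∈ (SP k m 0 e).F 0 0 := by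
  refine ⟨⟨?_, ?_⟩, ?_⟩
  · change p ∈ (G m (0 + 0) (0 + e) : Submodule k (PA k))
    rw [add_zero, zero_add]
    exact G_mono _ _ _ _ he hp
  · change q ∈ (G m (0 + 0) (0 + e) : Submodule k (PA k))
    rw [add_zero, zero_add]
    exact G_mono _ _ _ _ he hq
  · change rx 0 p + rx 1 q ∈ (G m (0 + 0 + 1) 0 : Submodule k (PA k))
    rw [add_zero]
    exact Submodule.add_mem _ (rx_mem _ _ _ _ _ hp) (rx_mem _ _ _ _ _ hq)

theorem SO_F00 {m b : ℤ} (hb : 0 ≤ b) {p : PA k} (hp : p ∈ (G m 0 0 : Submodule k (PA k))) :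
    p ∈ (SO k m 0 b).F 0 0 := by
  change p ∈ (G m (0 + 0) (0 + b) : Submodule k (PA k))
  rw [add_zero, zero_add]
  exact G_mono _ _ _ _ hb hp

theorem tx4_zero_B1 [CharZero k] {n : ℕ} {G0 G1 L0 L1 : MvPolynomial (Fin 2) k}
    (hG0 : G0 ∈ SmallC.Hm k (n + 1)) (hG1 : G1 ∈ SmallC.Hm k (n + 1))
    (hL0 : L0 ∈ SmallC.Hm k (n - 1)) (hL1 : L1 ∈ SmallC.Hm k (n - 1))
    (h : ∀ z ∈ (B1 k n).F 0 0, tx4 G0 G1 L0 L1 z = 0) : G0 = 0 ∧ G1 = 0 ∧ L0 = 0 ∧ L1 = 0 := by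
  refine ⟨tx_inj hG0 fun p hp => ?_, tx_inj hG1 fun p hp => ?_, tx_inj hL0 fun p hp => ?_,
    tx_inj hL1 fun p hp => ?_⟩
  · have := h ((p, 0), (0, 0)) ⟨⟨SO_F00 (by norm_num) hp, Submodule.zero_mem _⟩,
      Submodule.zero_mem _⟩
    simpa [tx4] using this
  · have := h ((0, p), (0, 0)) ⟨⟨Submodule.zero_mem _, SO_F00 (by norm_num) hp⟩,
      Submodule.zero_mem _⟩
    simpa [tx4] using this
  · have := h ((0, 0), (p, 0)) ⟨Submodule.zero_mem _, SP_F00 (by norm_num) hp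
      (Submodule.zero_mem _)⟩
    simpa [tx4] using this
  · have := h ((0, 0), (0, p)) ⟨Submodule.zero_mem _, SP_F00 (by norm_num)
      (Submodule.zero_mem _) hp⟩
    simpa [tx4] using this

theorem tx4_zero_B2 [CharZero k] {n : ℕ} {G0 G1 L0 L1 : MvPolynomial (Fin 2) k}
    (hG0 : G0 ∈ SmallC.Hm k n) (hG1 : G1 ∈ SmallC.Hm k n)
    (hL0 : L0 ∈ SmallC.Hm k n) (hL1 : L1 ∈ SmallC.Hm k n)
    (h : ∀ z ∈ (B2 k n).F 0 0, tx4 G0 G1 L0 L1 z = 0) : G0 = 0 ∧ G1 = 0 ∧ L0 = 0 ∧ L1 = 0 := by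
  refine ⟨tx_inj hG0 fun p hp => ?_, tx_inj hG1 fun p hp => ?_, tx_inj hL0 fun p hp => ?_,
    tx_inj hL1 fun p hp => ?_⟩
  · have := h ((p, 0), (0, 0)) ⟨SP_F00 (by norm_num) hp (Submodule.zero_mem _),
      Submodule.zero_mem _⟩
    simpa [tx4] using this
  · have := h ((0, p), (0, 0)) ⟨SP_F00 (by norm_num) (Submodule.zero_mem _) hp,
      Submodule.zero_mem _⟩
    simpa [tx4] using this
  · have := h ((0, 0), (p, 0)) ⟨Submodule.zero_mem _, SP_F00 (by norm_num) hp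
      (Submodule.zero_mem _)⟩
    simpa [tx4] using this
  · have := h ((0, 0), (0, p)) ⟨Submodule.zero_mem _, SP_F00 (by norm_num)
      (Submodule.zero_mem _) hp⟩
    simpa [tx4] using this

theorem tx_zero_B0 [CharZero k] {n : ℕ} {b0 : ℤ} (hb : 0 ≤ b0) {Φ : MvPolynomial (Fin 2) k}
    (hΦ : Φ ∈ SmallC.Hm k n) (h : ∀ z ∈ (SO k n 0 b0).F 0 0, tx Φ z = 0) : Φ = 0 :=
  tx_inj hΦ fun _ hp => h _ (SO_F00 hb hp)

/-! ### membership of the values of the differentials -/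

theorem M1_iff (n : ℕ) (a b : ℤ) (z : (PA k × PA k) × (PA k × PA k)) :
    z ∈ (B1 k n).F a b ↔ H1.M1 n a b z := by
  constructor
  · rintro ⟨⟨h1, h2⟩, ⟨h3, h4⟩, h5⟩
    have h1' : z.1.1 ∈ (G (n + 1) (a + 0) (b + 1) : Submodule k (PA k)) := h1
    have h2' : z.1.2 ∈ (G (n + 1) (a + 0) (b + 1) : Submodule k (PA k)) := h2
    have h3' : z.2.1 ∈ (G (n - 1) (a + 0) (b + 2) : Submodule k (PA k)) := h3
    have h4' : z.2.2 ∈ (G (n - 1) (a + 0) (b + 2) : Submodule k (PA k)) := h4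
    have h5' : H1.qq z.2 ∈ (G (n - 1) (a + 0 + 1) b : Submodule k (PA k)) := h5
    rw [add_zero] at h1' h2' h3' h4' h5'
    exact ⟨⟨h1', h2'⟩, h3', h4', h5'⟩
  · rintro ⟨⟨h1, h2⟩, h3, h4, h5⟩
    refine ⟨⟨?_, ?_⟩, ⟨?_, ?_⟩, ?_⟩
    · change z.1.1 ∈ (G (n + 1) (a + 0) (b + 1) : Submodule k (PA k))
      rwa [add_zero]
    · change z.1.2 ∈ (G (n + 1) (a + 0) (b + 1) : Submodule k (PA k))
      rwa [add_zero]
    · change z.2.1 ∈ (G (n - 1) (a + 0) (b + 2) : Submodule k (PA k))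
      rwa [add_zero]
    · change z.2.2 ∈ (G (n - 1) (a + 0) (b + 2) : Submodule k (PA k))
      rwa [add_zero]
    · change H1.qq z.2 ∈ (G (n - 1) (a + 0 + 1) b : Submodule k (PA k))
      rwa [add_zero]

theorem MP_iff (e m a b : ℤ) (z : PA k × PA k) :
    z ∈ (SP k m 0 e).F a b ↔ H1.MP e m a b z := by
  constructor
  · rintro ⟨⟨h3, h4⟩, h5⟩
    have h3' : z.1 ∈ (G m (a + 0) (b + e) : Submodule k (PA k)) := h3
    have h4' : z.2 ∈ (G m (a + 0) (b + e) : Submodule k (PA k)) := h4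
    have h5' : H1.qq z ∈ (G m (a + 0 + 1) b : Submodule k (PA k)) := h5
    rw [add_zero] at h3' h4' h5'
    exact ⟨h3', h4', h5'⟩
  · rintro ⟨h3, h4, h5⟩
    refine ⟨⟨?_, ?_⟩, ?_⟩
    · change z.1 ∈ (G m (a + 0) (b + e) : Submodule k (PA k))
      rwa [add_zero]
    · change z.2 ∈ (G m (a + 0) (b + e) : Submodule k (PA k))
      rwa [add_zero]
    · change H1.qq z ∈ (G m (a + 0 + 1) b : Submodule k (PA k))
      rwa [add_zero]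

theorem M2_iff (n : ℕ) (a b : ℤ) (z : (PA k × PA k) × (PA k × PA k)) :
    z ∈ (B2 k n).F a b ↔ H1.M2 n a b z := by
  constructor
  · rintro ⟨h1, h2⟩
    exact ⟨(MP_iff 1 n a b z.1).1 h1, (MP_iff 1 n a b z.2).1 h2⟩
  · rintro ⟨h1, h2⟩
    exact ⟨(MP_iff 1 n a b z.1).2 h1, (MP_iff 1 n a b z.2).2 h2⟩

/-! ### the four exactness statements -/

/-- exactness at `C^0` -/
theorem orth0 [CharZero k] {n : ℕ} (hn : n ≠ 0) {θ : PA k →ₗ[k] MvPolynomial (Fin 2) k}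
    (hθ : θ ∈ HomW (B0 k n) (XX k 0)) (h : ∀ u ∈ (B1 k n).F 0 0, θ (H1.mA n u) = 0) :
    ∀ a b, ∀ u ∈ (B0 k n).F a b, θ u = 0 := by
  obtain ⟨Φ, hΦ, e⟩ := hom_SO hθ
  have h1 : ∀ z ∈ (B1 k n).F 0 0, tx4 (-C (n : k) * (X 0 * Φ)) (-C (n : k) * (X 1 * Φ))
      (-C ((n : k) + 1) * pderiv 0 Φ) (-C ((n : k) + 1) * pderiv 1 Φ) z = 0 := by
    intro z hz
    rw [tx4, ← tx_fA]
    have h2 := h z hz
    rw [H1.mA_apply, e 0 (0 + 2) _ (H1.fA_mem ((M1_iff n 0 0 z).1 hz))] at h2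
    exact h2
  have m0 : -C (n : k) * (X 0 * Φ) ∈ SmallC.Hm k ((n : ℤ) + 1) := by
    rw [neg_mul]
    exact Submodule.neg_mem _ (SmallC.C_mul_mem (SmallC.X_mul_mem hΦ 0) _)
  have m1 : -C (n : k) * (X 1 * Φ) ∈ SmallC.Hm k ((n : ℤ) + 1) := by
    rw [neg_mul]
    exact Submodule.neg_mem _ (SmallC.C_mul_mem (SmallC.X_mul_mem hΦ 1) _)
  have m2 : -C ((n : k) + 1) * pderiv 0 Φ ∈ SmallC.Hm k ((n : ℤ) - 1) := by
    rw [neg_mul]
    exact Submodule.neg_mem _ (SmallC.C_mul_mem (SmallC.pderiv_mem hΦ 0) _)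
  have m3 : -C ((n : k) + 1) * pderiv 1 Φ ∈ SmallC.Hm k ((n : ℤ) - 1) := by
    rw [neg_mul]
    exact Submodule.neg_mem _ (SmallC.C_mul_mem (SmallC.pderiv_mem hΦ 1) _)
  obtain ⟨z0, -, -, -⟩ := tx4_zero_B1 m0 m1 m2 m3 h1
  have hz : Φ = 0 := SmallC.x0 hn Φ (by rw [mul_assoc]; exact z0)
  intro a b u hu
  have hu' : u ∈ (G n (a + 0) (b + 2) : Submodule k (PA k)) := hu
  rw [e _ _ u hu', hz, tx_zero]

/-- exactness at `C^1` -/
theorem orth1 [CharZero k] {n : ℕ}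
    {θ : ((PA k × PA k) × (PA k × PA k)) →ₗ[k] MvPolynomial (Fin 2) k}
    (hθ : θ ∈ HomW (B1 k n) (XX k 0)) (h : ∀ u ∈ (B2 k n).F 0 0, θ (H1.mB n u) = 0) :
    ∃ θ' ∈ HomW (B0 k n) (XX k 0), ∀ a b, ∀ u ∈ (B1 k n).F a b, θ u = θ' (H1.mA n u) := by
  obtain ⟨G0, hG0, G1, hG1, L0, hL0, L1, hL1, e⟩ := hom_B1 hθ
  have h1 : ∀ z ∈ (B2 k n).F 0 0, tx4
      (C ((n : k) + 1) * pderiv 0 G0 - C ((n : k) + 1) * (X 0 * L0) - X 1 * L1)
      (C ((n : k) + 1) * pderiv 1 G0 - C (n : k) * (X 0 * L1))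
      (C ((n : k) + 1) * pderiv 0 G1 - C (n : k) * (X 1 * L0))
      (C ((n : k) + 1) * pderiv 1 G1 - C ((n : k) + 1) * (X 1 * L1) - X 0 * L0) z = 0 := by
    intro z hz
    rw [← tx_fB]
    have h2 := h z hz
    rw [H1.mB_apply, e 0 0 _ ((M1_iff n 0 0 _).2 (H1.fB_mem ((M2_iff n 0 0 z).1 hz)))] at h2
    exact h2
  have dG : ∀ (j : Fin 2) {g : MvPolynomial (Fin 2) k}, g ∈ SmallC.Hm k ((n : ℤ) + 1) →
      C ((n : k) + 1) * pderiv j g ∈ SmallC.Hm k n := by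
    intro j g hg
    have := SmallC.pderiv_mem hg j
    rw [add_sub_cancel_right] at this
    exact SmallC.C_mul_mem this _
  have xL : ∀ (j : Fin 2) {g : MvPolynomial (Fin 2) k}, g ∈ SmallC.Hm k ((n : ℤ) - 1) →
      X j * g ∈ SmallC.Hm k n := by
    intro j g hg
    have := SmallC.X_mul_mem hg j
    rwa [sub_add_cancel] at this
  obtain ⟨z0, z1, z2, z3⟩ := tx4_zero_B2
    (Submodule.sub_mem _ (Submodule.sub_mem _ (dG 0 hG0) (SmallC.C_mul_mem (xL 0 hL0) _))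
      (xL 1 hL1))
    (Submodule.sub_mem _ (dG 1 hG0) (SmallC.C_mul_mem (xL 0 hL1) _))
    (Submodule.sub_mem _ (dG 0 hG1) (SmallC.C_mul_mem (xL 1 hL0) _))
    (Submodule.sub_mem _ (Submodule.sub_mem _ (dG 1 hG1) (SmallC.C_mul_mem (xL 1 hL1) _))
      (xL 0 hL0)) h1
  obtain ⟨Φ, hΦ, r0, r1, r2, r3⟩ := SmallC.x1 hG0 hG1 hL0 hL1 z0 z1 z2 z3
  refine ⟨tx Φ, tx_HomW Φ _ _, fun a b u hu => ?_⟩
  rw [e a b u hu, H1.mA_apply, tx_fA, tx4, ← r0, ← r1, ← r2, ← r3]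

/-- exactness at `C^2` -/
theorem orth2 [CharZero k] {n : ℕ}
    {θ : ((PA k × PA k) × (PA k × PA k)) →ₗ[k] MvPolynomial (Fin 2) k}
    (hθ : θ ∈ HomW (B2 k n) (XX k 0)) (h : ∀ u ∈ (B3 k n).F 0 0, θ (H1.mC n u) = 0) :
    ∃ θ' ∈ HomW (B1 k n) (XX k 0), ∀ a b, ∀ u ∈ (B2 k n).F a b, θ u = θ' (H1.mB n u) := by
  obtain ⟨P11, h11, P12, h12, P21, h21, P22, h22, e⟩ := hom_B2 hθ
  have h1 : ∀ z ∈ (B3 k n).F 0 0, tx (- C (n : k) * (P11 + P22) + (X 0 * pderiv 0 P11 +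
      X 1 * pderiv 0 P12 + X 0 * pderiv 1 P21 + X 1 * pderiv 1 P22)) z = 0 := by
    intro z hz
    rw [← tx_fC]
    have h2 := h z hz
    have hz' : z ∈ (G n (0 + 0) (0 + 0) : Submodule k (PA k)) := hz
    rw [add_zero] at hz'
    rw [H1.mC_apply, e 0 0 _ ((M2_iff n 0 0 _).2 (H1.fC_mem hz' (H1.Eul_of_mem hz')))] at h2
    exact h2
  have xd : ∀ (i j : Fin 2) {g : MvPolynomial (Fin 2) k}, g ∈ SmallC.Hm k (n : ℤ) →
      X i * pderiv j g ∈ SmallC.Hm k n := by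
    intro i j g hg
    have := SmallC.X_mul_mem (SmallC.pderiv_mem hg j) i
    rwa [sub_add_cancel] at this
  have hm : - C (n : k) * (P11 + P22) + (X 0 * pderiv 0 P11 +
      X 1 * pderiv 0 P12 + X 0 * pderiv 1 P21 + X 1 * pderiv 1 P22) ∈ SmallC.Hm k n := by
    refine Submodule.add_mem _ ?_ (Submodule.add_mem _ (Submodule.add_mem _ (Submodule.add_mem _
      (xd 0 0 h11) (xd 1 0 h12)) (xd 0 1 h21)) (xd 1 1 h22))
    rw [neg_mul]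
    exact Submodule.neg_mem _ (SmallC.C_mul_mem (Submodule.add_mem _ h11 h22) _)
  have hz := tx_zero_B0 le_rfl hm h1
  obtain ⟨G0, hG0, G1, hG1, L0, hL0, L1, hL1, r0, r1, r2, r3⟩ := SmallC.x2 h11 h12 h21 h22 hz
  refine ⟨t4 G0 G1 L0 L1, t4_B1 n _ _ _ _, fun a b u hu => ?_⟩
  rw [e a b u hu, H1.mB_apply, t4_apply, tx_fB, ← r0, ← r1, ← r2, ← r3]

/-- exactness at `C^3` -/
theorem orth3 [CharZero k] {n : ℕ} (hn : n ≠ 0) {θ : PA k →ₗ[k] MvPolynomial (Fin 2) k}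
    (hθ : θ ∈ HomW (B3 k n) (XX k 0)) :
    ∃ θ' ∈ HomW (B2 k n) (XX k 0), ∀ a b, ∀ u ∈ (B3 k n).F a b, θ u = θ' (H1.mC n u) := by
  obtain ⟨Ψ, hΨ, e⟩ := hom_SO hθ
  obtain ⟨P, -, hP⟩ := SmallC.x3 hn hΨ
  refine ⟨t4 P 0 0 P, t4_B2 n _ _ _ _, fun a b u hu => ?_⟩
  have hu' : u ∈ (G n (a + 0) (b + 0) : Submodule k (PA k)) := hu
  rw [e _ _ u hu', H1.mC_apply, t4_apply, tx_fC, map_zero, map_zero, mul_zero, mul_zero,
    add_zero, add_zero, ← hP]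

/-- level `0`: every map out of `B3 0` is a multiple of `tx 1` -/
theorem level0 [CharZero k] {θ : PA k →ₗ[k] MvPolynomial (Fin 2) k}
    (hθ : θ ∈ HomW (B3 k 0) (XX k 0)) :
    ∃ c : k, ∀ a b, ∀ u ∈ (B3 k 0).F a b, θ u = c • tx 1 u := by
  obtain ⟨Ψ, hΨ, e⟩ := hom_SO hθ
  have h1 : Ψ = C (coeff 0 Ψ) * 1 := by
    rw [mul_one]
    rw [SmallC.mem_Hm_coeff] at hΨ
    ext s
    rw [coeff_C]
    split_ifs with h
    · rw [← h]
    · apply hΨ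
      intro h2
      apply h
      push_cast at h2
      ext j
      fin_cases j
      · simp; omega
      · simp; omega
  refine ⟨coeff 0 Ψ, fun a b u hu => ?_⟩
  have hu' : u ∈ (G ((0 : ℕ) : ℤ) (a + 0) (b + 0) : Submodule k (PA k)) := hu
  rw [e _ _ u hu', h1, tx_C_mul, smul_eq_C_mul]
  simp

end Vale.Agent.P195.AR.TX
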