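import Vale.Agent.Lib.P195.AR.TxW
import Vale.Agent.Lib.P195.AR.HTw

/-!
# P195: orthogonality for the tower, endomorphisms of `X_0`, maps `Q3 0 → X_0`
-/

namespace Vale.Agent.P195.AR.TX

open MvPolynomial
open H1 (B0 B1 B2 B3 D0 D1 D2 D3)

variable {k : Type} [Field k]

/-- scalars act through the `k`-module structure -/
theorem alg_smul {N : Wd k} (c : k) (x : Wn N) : algebraMap k (R k) c • x = c • x := by
  apply Wn.ext
  rw [Wn.rsmul_f, Wn.smul_f]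
  apply LinearMap.ext
  intro u
  exact map_smul x.f c u

/-- the map `u ↦ u(1)` on windows -/
noncomputable def PP (b0 : ℤ) : Wn (WE (hat (SO k ((0 : ℕ) : ℤ) 0 b0))) →ₗ[R k] Wn (X0w k) :=
  Wn.mapE (L := hat (SO k ((0 : ℕ) : ℤ) 0 b0)) (N := X0w k) (ex (tx 1))
    (ex_mem (tx_HomW 1 _ _))

/-- smul of maps of windows -/
theorem mapE_ex_smul {Q : Bw k} {N : Wd k} {θ : Q.V →ₗ[k] N.L.V} (hθ : θ ∈ HomW Q N.L.toBw)
    (c : k) (x : Wn (WE (hat Q))) :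
    Wn.mapE (L := hat Q) (N := N) (ex (c • θ)) (ex_mem (Submodule.smul_mem _ c hθ)) x =
    c • Wn.mapE (L := hat Q) (N := N) (ex θ) (ex_mem hθ) x := by
  apply Wn.ext
  rw [Wn.smul_f, Wn.mapE_f, Wn.mapE_f]
  apply LinearMap.ext
  intro u
  rw [LinearMap.smul_apply, LinearMap.comp_apply, LinearMap.comp_apply, ex_apply, ex_apply,
    LinearMap.smul_apply, LinearMap.smul_apply, map_smul, smul_add]

variable [CharZero k]

theorem orth : (H1.tow k).Orth where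
  x0 := fun n f h => wx0 (Nat.succ_ne_zero n) (D0 k (n + 1)) f h
  x1 := fun n f h => wx1 (D1 k n) f h
  x2 := fun n f h => wx2 (D2 k n) f h
  x3 := fun n f => wx3 (Nat.succ_ne_zero n) (D3 k (n + 1)) f

theorem level0' {b0 : ℤ} {θ : PA k →ₗ[k] MvPolynomial (Fin 2) k}
    (hθ : θ ∈ HomW (SO k ((0 : ℕ) : ℤ) 0 b0) (XX k 0)) :
    ∃ c : k, ∀ a b, ∀ u ∈ (SO k ((0 : ℕ) : ℤ) 0 b0).F a b, θ u = (c • tx 1) u := by
  obtain ⟨Ψ, hΨ, e⟩ := hom_SO hθ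
  have h1 : Ψ = C (coeff 0 Ψ) * 1 := by
    rw [mul_one]
    rw [SmallC.mem_Hm_coeff] at hΨ
    ext s
    rw [coeff_C]
    split_ifs with h
    · rw [← h]
    · apply hΨ
      intro h2
      apply h
      push_cast at h2
      ext j
      fin_cases j
      · simp; omega
      · simp; omega
  refine ⟨coeff 0 Ψ, fun a b u hu => ?_⟩
  have hu' : u ∈ (G ((0 : ℕ) : ℤ) (a + 0) (b + b0) : Submodule k (PA k)) := hu
  rw [e _ _ u hu', h1, tx_C_mul, LinearMap.smul_apply, smul_eq_C_mul]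
  simp

/-- `Hom_R(R e_{O_b}, X_0)` is one-dimensional -/
theorem one_dim {b0 : ℤ} (D : Fp (SO k ((0 : ℕ) : ℤ) 0 b0))
    (f : Wn (WE (hat (SO k ((0 : ℕ) : ℤ) 0 b0))) →ₗ[R k] Wn (X0w k)) :
    ∃ c : k, ∀ x, f x = c • PP b0 x := by
  obtain ⟨θ, hθ, rfl⟩ := D.exists_th f
  obtain ⟨c, hc⟩ := level0' hθ
  refine ⟨c, fun x => ?_⟩
  have h1 := mapE_ex_congr (Q := SO k ((0 : ℕ) : ℤ) 0 b0) (N := X0w k) hθ
    (Submodule.smul_mem _ c (tx_HomW 1 ((0 : ℕ) : ℤ) b0)) (fun v hv => hc _ _ v hv)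
    (fun v hv => hc _ _ v hv)
  rw [h1, mapE_ex_smul (N := X0w k) (tx_HomW 1 ((0 : ℕ) : ℤ) b0)]
  rfl

/-- `End X_0 = k` -/
theorem hY' (f : Wn (X0w k) →ₗ[R k] Wn (X0w k)) :
    ∃ c : k, ∀ x, f x = algebraMap k (R k) c • x := by
  obtain ⟨p, hp⟩ : ∃ p : Wn (WE (hat (B0 k 0))) →ₗ[R k] Wn (X0w k), Function.Surjective p :=
    ⟨H1.pp 0 ∘ₗ H1.me 0, (H1.pp_surj 0).comp (H1.me_surj 0)⟩
  obtain ⟨c0, h0⟩ := one_dim (D0 k 0) p
  obtain ⟨c1, h1⟩ := one_dim (D0 k 0) (f ∘ₗ p)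
  by_cases hc : c0 = 0
  · refine ⟨0, fun x => ?_⟩
    obtain ⟨y, rfl⟩ := hp x
    have : p y = 0 := by rw [h0 y, hc, zero_smul]
    rw [this, map_zero, smul_zero]
  · refine ⟨c1 * c0⁻¹, fun x => ?_⟩
    obtain ⟨y, rfl⟩ := hp x
    have h2 : f (p y) = c1 • PP 2 y := h1 y
    rw [alg_smul, h2, h0 y, smul_smul, mul_assoc, inv_mul_cancel₀ hc, mul_one]

/-- `End X_0 = k` -/
theorem hY (f : (H1.tow k).Y 0 →ₗ[R k] (H1.tow k).Y 0) :
    ∃ c : k, ∀ x, f x = algebraMap k (R k) c • x := hY' f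

/-- all maps `Q3 0 → X_0` are multiples of a nonzero one -/
theorem nd2_of (f f0 : Wn (WE (hat (B3 k 0))) →ₗ[R k] Wn (X0w k)) (h : f0 ≠ 0) :
    ∃ c : k, ∀ x, f x = algebraMap k (R k) c • f0 x := by
  obtain ⟨c0, h0⟩ := one_dim (D3 k 0) f0
  obtain ⟨c1, h1⟩ := one_dim (D3 k 0) f
  have hc : c0 ≠ 0 := by
    rintro rfl
    apply h
    apply LinearMap.ext
    intro x
    rw [h0 x, zero_smul]
    rfl
  refine ⟨c1 * c0⁻¹, fun x => ?_⟩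
  rw [alg_smul, h1 x, h0 x, smul_smul, mul_assoc, inv_mul_cancel₀ hc, mul_one]

/-- the map `Hom(Q2 0, X_0) → Hom(Q3 0, X_0)` is zero -/
theorem mc0_zero (g : Wn (WE (hat (B2 k 0))) →ₗ[R k] Wn (X0w k)) (x : Wn (WE (hat (B3 k 0)))) :
    g (H1.mc 0 x) = 0 := by
  obtain ⟨θ, hθ, rfl⟩ := (D2 k 0).exists_th g
  obtain ⟨P11, h11, P12, h12, P21, h21, P22, h22, e⟩ := hom_B2 hθ
  have hz : ∀ a b, ∀ u ∈ (B3 k 0).F a b, (θ ∘ₗ H1.mC 0) u = 0 := by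
    intro a b u hu
    have hu2 := (H1.mC_hom 0).2.2 a b u hu
    rw [LinearMap.comp_apply, e a b _ hu2, H1.mC_apply, tx_fC]
    have d0 : ∀ (j : Fin 2) {P : MvPolynomial (Fin 2) k}, P ∈ SmallC.Hm k ((0 : ℕ) : ℤ) →
        pderiv j P = 0 := fun j P hP =>
      SmallC.eq_zero_of_neg (by norm_num) (SmallC.pderiv_mem hP j)
    rw [d0 0 h11, d0 0 h12, d0 1 h21, d0 1 h22]
    simp [tx_zero]
  exact LinearMap.congr_fun (mapE_ex_zero (Q := B3 k 0) (N := X0w k)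
    (HomW.comp hθ (H1.mC_hom 0)) hz) x

/-- the form of `nd1` -/
theorem nd1_of (f0 : Wn (WE (hat (B3 k 0))) →ₗ[R k] Wn (X0w k)) (h : f0 ≠ 0)
    (g : Wn (WE (hat (B2 k 0))) →ₗ[R k] Wn (X0w k)) :
    ∃ x, f0 x ≠ g (H1.mc 0 x) := by
  by_contra hc
  have hc' : ∀ x, f0 x = g (H1.mc 0 x) := fun x => by
    by_contra hx
    exact hc ⟨x, hx⟩
  apply h
  apply LinearMap.ext
  intro x
  rw [hc' x, mc0_zero]
  rfl

end Vale.Agent.P195.AR.TX
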