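import Vale.Agent.Lib.P195.AR.TxO
import Vale.Agent.Lib.P195.AR.Gen

/-!
# P195: `Hom_R(Q_i n, X_0)`: the statements `Orth`, `hY`, `nd2` on the level of `R`-modules
-/

namespace Vale.Agent.P195.AR.TX

open MvPolynomial
open H1 (B0 B1 B2 B3 mA mB mC mA_hom mB_hom mC_hom)

variable {k : Type} [Field k]

variable (k) in
/-- the module `X_0` -/
noncomputable abbrev X0w : Wd k := WE (triv (XX k 0))

variable [CharZero k]

theorem wx0 {n : ℕ} (hn : n ≠ 0) (D : Fp (B0 k n))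
    (f : Wn (WE (hat (B0 k n))) →ₗ[R k] Wn (X0w k))
    (h : ∀ x, f (Wn.mapE (L := hat (B1 k n)) (N := WE (hat (B0 k n))) (hm (mA n))
      (hm_mem (mA_hom n)) x) = 0) : f = 0 :=
  gen_zero (N := X0w k) D (mA_hom n) (fun _ hθ h => orth0 hn hθ h) f h

theorem wx1 {n : ℕ} (D : Fp (B1 k n))
    (f : Wn (WE (hat (B1 k n))) →ₗ[R k] Wn (X0w k))
    (h : ∀ x, f (Wn.mapE (L := hat (B2 k n)) (N := WE (hat (B1 k n))) (hm (mB n))
      (hm_mem (mB_hom n)) x) = 0) :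
    ∃ g : Wn (WE (hat (B0 k n))) →ₗ[R k] Wn (X0w k), ∀ x, f x =
      g (Wn.mapE (L := hat (B1 k n)) (N := WE (hat (B0 k n))) (hm (mA n))
      (hm_mem (mA_hom n)) x) :=
  gen_ex (N := X0w k) D (mB_hom n) (mA_hom n) (fun _ hθ h => orth1 hθ h) f h

theorem wx2 {n : ℕ} (D : Fp (B2 k n))
    (f : Wn (WE (hat (B2 k n))) →ₗ[R k] Wn (X0w k))
    (h : ∀ x, f (Wn.mapE (L := hat (B3 k n)) (N := WE (hat (B2 k n))) (hm (mC n))
      (hm_mem (mC_hom n)) x) = 0) :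
    ∃ g : Wn (WE (hat (B1 k n))) →ₗ[R k] Wn (X0w k), ∀ x, f x =
      g (Wn.mapE (L := hat (B2 k n)) (N := WE (hat (B1 k n))) (hm (mB n))
      (hm_mem (mB_hom n)) x) :=
  gen_ex (N := X0w k) D (mC_hom n) (mB_hom n) (fun _ hθ h => orth2 hθ h) f h

theorem wx3 {n : ℕ} (hn : n ≠ 0) (D : Fp (B3 k n))
    (f : Wn (WE (hat (B3 k n))) →ₗ[R k] Wn (X0w k)) :
    ∃ g : Wn (WE (hat (B2 k n))) →ₗ[R k] Wn (X0w k), ∀ x, f x =
      g (Wn.mapE (L := hat (B3 k n)) (N := WE (hat (B2 k n))) (hm (mC n))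
      (hm_mem (mC_hom n)) x) :=
  gen_surj (N := X0w k) D (mC_hom n) (fun _ hθ => orth3 hn hθ) f

end Vale.Agent.P195.AR.TX
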