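import Vale.Agent.Lib.P195.AR.RJ
import Vale.Agent.Lib.P195.AR.SeqH
import Vale.Agent.Lib.P195.Formal.Lin

/-!
# P195: the module `M` and the exact sequence `0 → M → R e_al → R e_be → M → X_0 → 0`
-/

namespace Vale.Agent.P195.AR

open MvPolynomial SeqM

variable {k : Type} [Field k]

variable (k) in
/-- the window of `M` -/
noncomputable abbrev WM : Wd k where
  L := hat (LL k)
  A := ⊥
  B := Submodule.span k {hm pi0}
  hA := bot_le
  hB := by
    rw [Submodule.span_le]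
    rintro g rfl
    exact hm_mem pi0_mem
  BA := by
    intro g hg
    obtain ⟨c, rfl⟩ := Submodule.mem_span_singleton.1 hg
    have e : hm (M := Tbe k) (N := LL k) pi0 ∘ₗ hm (M := Tal k) (N := Tbe k) Psi = 0 :=
      LinearMap.ext hpi_Psi
    rw [LinearMap.smul_comp, e, smul_zero]
    exact Submodule.zero_mem _
  AB := by
    intro g hg
    rw [Submodule.mem_bot] at hg
    rw [hg, LinearMap.zero_comp]
    exact Submodule.zero_mem _

theorem hwp_pi : hm (M := LL k) (N := Tal k) wp0 ∘ₗ hm (M := Tbe k) (N := LL k) pi0 =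
    hm (M := Tbe k) (N := Tal k) Ome := rfl

theorem cPsi_wp : hm (M := Tal k) (N := Tbe k) Psi ∘ₗ hm (M := LL k) (N := Tal k) wp0 = 0 :=
  LinearMap.ext hPsi_wp

theorem cpi_Psi : hm (M := Tbe k) (N := LL k) pi0 ∘ₗ hm (M := Tal k) (N := Tbe k) Psi = 0 :=
  LinearMap.ext hpi_Psi

theorem cap_pi : hm (M := LL k) (N := XX k (-1)) ap0 ∘ₗ hm (M := Tbe k) (N := LL k) pi0 = 0 :=
  LinearMap.ext hap_pi

theorem comp2 {V0 V1 V2 V3 : Type} [AddCommGroup V0] [Module k V0] [AddCommGroup V1] [Module k V1]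
    [AddCommGroup V2] [Module k V2] [AddCommGroup V3] [Module k V3] (a : V2 →ₗ[k] V3)
    (b : V1 →ₗ[k] V2) (h : a ∘ₗ b = 0) (c : V0 →ₗ[k] V1) : a ∘ₗ (b ∘ₗ c) = 0 := by
  rw [← LinearMap.comp_assoc, h, LinearMap.zero_comp]

theorem hPsi_Ome : hm (M := Tal k) (N := Tbe k) Psi ∘ₗ hm (M := Tbe k) (N := Tal k) Ome = 0 :=
  comp2 _ _ cPsi_wp (hm (M := Tbe k) (N := LL k) pi0)

/-- `M → R e_al` -/
noncomputable def mi : Wn (WM k) →ₗ[R k] Wn (WJ k Vx.al) :=
  Wn.map (N := WM k) (N' := WJ k Vx.al) (hm (M := LL k) (N := Tal k) wp0) (hm_mem wp0_mem)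
    (fun g hg => by
      rw [(Submodule.mem_bot k).1 hg, LinearMap.comp_zero]
      exact Submodule.zero_mem _)
    (fun g hg => by
      obtain ⟨c, rfl⟩ := Submodule.mem_span_singleton.1 hg
      change _ ∈ JB k Vx.al
      rw [JB_al, LinearMap.comp_smul, hwp_pi]
      exact Submodule.smul_mem _ c (Submodule.mem_span_singleton_self _))

/-- `R e_al → R e_be` -/
noncomputable def md2 : Wn (WJ k Vx.al) →ₗ[R k] Wn (WJ k Vx.be) :=
  Wn.map (N := WJ k Vx.al) (N' := WJ k Vx.be) (hm (M := Tal k) (N := Tbe k) Psi) (hm_mem Psi_mem)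
    (fun g hg => by
      change g ∈ JA k Vx.al at hg
      rw [JA_al] at hg
      obtain ⟨c, rfl⟩ := Submodule.mem_span_singleton.1 hg
      change _ ∈ JA k Vx.be
      rw [JA_be, LinearMap.comp_smul, LinearMap.comp_id]
      exact Submodule.smul_mem _ c (Submodule.mem_span_singleton_self _))
    (fun g hg => by
      change g ∈ JB k Vx.al at hg
      rw [JB_al] at hg
      obtain ⟨c, rfl⟩ := Submodule.mem_span_singleton.1 hg
      rw [LinearMap.comp_smul, hPsi_Ome, smul_zero]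
      exact Submodule.zero_mem _)

/-- `R e_be → M` -/
noncomputable def md1 : Wn (WJ k Vx.be) →ₗ[R k] Wn (WM k) :=
  Wn.map (N := WJ k Vx.be) (N' := WM k) (hm (M := Tbe k) (N := LL k) pi0) (hm_mem pi0_mem)
    (fun g hg => by
      change g ∈ JA k Vx.be at hg
      rw [JA_be] at hg
      obtain ⟨c, rfl⟩ := Submodule.mem_span_singleton.1 hg
      have e : hm (M := Tbe k) (N := LL k) pi0 ∘ₗ hm (M := Tal k) (N := Tbe k) Psi = 0 :=
        LinearMap.ext hpi_Psi
      rw [LinearMap.comp_smul, e, smul_zero]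
      exact Submodule.zero_mem _)
    (fun g hg => by
      change g ∈ JB k Vx.be at hg
      rw [JB_be] at hg
      obtain ⟨c, rfl⟩ := Submodule.mem_span_singleton.1 hg
      rw [LinearMap.comp_smul, LinearMap.comp_id]
      exact Submodule.smul_mem _ c (Submodule.mem_span_singleton_self _))

/-- `M → X_{-1}^` -/
noncomputable def mpp : Wn (WM k) →ₗ[R k] Wn (WE (hat (XX k (-1)))) :=
  Wn.map (N := WM k) (N' := WE (hat (XX k (-1)))) (hm (M := LL k) (N := XX k (-1)) ap0)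
    (hm_mem ap0_mem)
    (fun g hg => by
      rw [(Submodule.mem_bot k).1 hg, LinearMap.comp_zero]
      exact Submodule.zero_mem _)
    (fun g hg => by
      obtain ⟨c, rfl⟩ := Submodule.mem_span_singleton.1 hg
      have e : hm (M := LL k) (N := XX k (-1)) ap0 ∘ₗ hm (M := Tbe k) (N := LL k) pi0 = 0 :=
        LinearMap.ext hap_pi
      rw [LinearMap.comp_smul, e, smul_zero]
      exact Submodule.zero_mem _)

theorem id_shift (n : ℤ) : (LinearMap.id : (XX k (n + 1)).V →ₗ[k] (XX k n).V) ∈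
    HomW (XX k (n + 1)) ((XX k n).shift 1 0) := by
  refine ⟨fun _ _ => rfl, fun _ _ => rfl, fun a b v hv => ?_⟩
  change v ∈ Hx k (n + (a + 1))
  change v ∈ Hx k (n + 1 + a) at hv
  rwa [show n + (a + 1) = n + 1 + a by ring]

theorem id_shift0 : (LinearMap.id : (XX k ((0 : ℕ) : ℤ)).V →ₗ[k] (XX k (-1)).V) ∈
    HomW (XX k ((0 : ℕ) : ℤ)) ((XX k (-1)).shift 1 0) := id_shift (-1)

/-- the inclusion `X_0 → X_{-1}^` (bijective on windows) -/
noncomputable def mu : Wn (WE (triv (XX k ((0 : ℕ) : ℤ)))) →ₗ[R k] Wn (WE (hat (XX k (-1)))) :=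
  Wn.map (N := WE (triv (XX k ((0 : ℕ) : ℤ)))) (N' := WE (hat (XX k (-1))))
    (um (M := XX k ((0 : ℕ) : ℤ)) (N := XX k (-1)) LinearMap.id) (um_mem id_shift0)
    (fun g hg => by rw [WE_A hg, LinearMap.comp_zero]; exact Submodule.zero_mem _)
    (fun g hg => by rw [WE_B hg, LinearMap.comp_zero]; exact Submodule.zero_mem _)

/-! ### some non-zero maps -/

theorem Psi_ne : hm (M := Tal k) (N := Tbe k) Psi ≠ 0 := by
  intro h
  have h1 := congrArg (fun f : (hat (Tal k)).V →ₗ[k] (hat (Tbe k)).V => f ((u0, 0), 0)) h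
  have h2 : Psi (k := k) (u0, 0) = 0 := congrArg Prod.fst h1
  rw [Psi_apply] at h2
  have h3 : rd 1 (rx 0 (1 : PA k) + rx 1 0) = 0 :=
    congrArg (fun z : Y0 k × Y0 k => (z.1 : PA k)) h2
  rw [map_zero, add_zero] at h3
  have h4 := rx_inj 0 (fb3 1 h3)
  exact one_ne_zero h4

theorem pi_ne : hm (M := Tbe k) (N := LL k) pi0 ≠ 0 := by
  intro h
  have h1 := congrArg (fun f : (hat (Tbe k)).V →ₗ[k] (hat (LL k)).V => f ((u0, 0), 0)) h
  have h2 : pi0 (k := k) (u0, 0) = 0 := congrArg Prod.fst h1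
  rw [pi0_apply] at h2
  have h3 : rd 0 (1 : PA k) + rd 1 0 = 0 := congrArg Subtype.val h2
  rw [map_zero, add_zero] at h3
  exact one_ne_zero (fb3 0 h3)

theorem wp_ne {f : (hat (Tbe k)).V →ₗ[k] (hat (LL k)).V}
    (h : hm (M := LL k) (N := Tal k) wp0 ∘ₗ f = 0) : f = 0 :=
  LinearMap.ext fun v => hwp_inj (LinearMap.congr_fun h v)

/-! ### exactness -/

theorem mi_inj : Function.Injective (mi (k := k)) := by
  refine Wn.inj (N := WM k) (N' := WJ k Vx.al) _ _ _ _ ?_ ?_ ?_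
  · intro v _ h
    exact hwp_inj h
  · intro g hg _
    exact (Submodule.mem_bot k).1 hg
  · intro g _ h
    exact wp_ne h

theorem ex3 : Function.Exact (mi (k := k)) md2 := by
  refine Wn.exact (N1 := WM k) (N2 := WJ k Vx.al) (N3 := WJ k Vx.be) _ _ _ _ _ _ _ _ ?_ ?_ ?_ ?_ ?_ ?_ ?_
  · intro v _
    exact hPsi_wp v
  · intro g hg
    rw [(Submodule.mem_bot k).1 hg, LinearMap.comp_zero, LinearMap.comp_zero]
  · intro g _
    exact comp2 _ _ cPsi_wp g
  · intro b v hv h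
    exact h2 v hv h
  · intro e v1 hv1 v2 hv2 h12 z1 z2
    obtain ⟨y, ⟨hy1, hy2, hy3⟩, hy⟩ := p2 (k := k) (e := ((e : ℕ) : ℤ) + 1) (by positivity)
      (v1, v2) ⟨hv1, hv2, h12⟩ z1 z2
    exact ⟨y.1, hy1, y.2, hy2, hy3, congrArg Prod.fst hy, congrArg Prod.snd hy⟩
  · intro g hg h
    change g ∈ JA k Vx.al at hg
    rw [JA_al] at hg
    obtain ⟨c, rfl⟩ := Submodule.mem_span_singleton.1 hg
    rw [LinearMap.comp_smul, LinearMap.comp_id] at h
    have hc : c = 0 := by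
      rcases smul_eq_zero.1 h with h | h
      · exact h
      · exact absurd h Psi_ne
    refine ⟨0, Submodule.zero_mem _, ?_⟩
    rw [hc, zero_smul, LinearMap.comp_zero]
  · intro g hg _
    change g ∈ JB k Vx.al at hg
    rw [JB_al] at hg
    obtain ⟨c, rfl⟩ := Submodule.mem_span_singleton.1 hg
    refine ⟨c • hm (M := Tbe k) (N := LL k) pi0,
      Submodule.smul_mem _ c (Submodule.mem_span_singleton_self _), ?_⟩
    rw [LinearMap.comp_smul, hwp_pi]

theorem ex2 : Function.Exact (md2 (k := k)) md1 := by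
  refine Wn.exact (N1 := WJ k Vx.al) (N2 := WJ k Vx.be) (N3 := WM k) _ _ _ _ _ _ _ _ ?_ ?_ ?_ ?_ ?_ ?_ ?_
  · intro v _
    exact hpi_Psi v
  · intro g _
    exact comp2 _ _ cpi_Psi g
  · intro g _
    exact comp2 _ _ cpi_Psi g
  · intro b v hv h
    exact h3 le_rfl v hv h
  · intro e v1 hv1 v2 hv2 h12 z1 z2
    obtain ⟨y, ⟨hy1, hy2, hy3⟩, hy⟩ := p3 (k := k) (e := ((e : ℕ) : ℤ) + 1) (by positivity)
      (by omega) (v1, v2) ⟨hv1, hv2, h12⟩ z1 z2
    exact ⟨y.1, hy1, y.2, hy2, hy3, congrArg Prod.fst hy, congrArg Prod.snd hy⟩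
  · intro g hg _
    change g ∈ JA k Vx.be at hg
    rw [JA_be] at hg
    obtain ⟨c, rfl⟩ := Submodule.mem_span_singleton.1 hg
    refine ⟨c • LinearMap.id, ?_, ?_⟩
    · change _ ∈ JA k Vx.al
      rw [JA_al]
      exact Submodule.smul_mem _ c (Submodule.mem_span_singleton_self _)
    · rw [LinearMap.comp_smul, LinearMap.comp_id]
  · intro g hg h
    change g ∈ JB k Vx.be at hg
    rw [JB_be] at hg
    obtain ⟨c, rfl⟩ := Submodule.mem_span_singleton.1 hg
    rw [LinearMap.comp_smul, LinearMap.comp_id] at h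
    have hc : c = 0 := by
      rcases smul_eq_zero.1 h with h | h
      · exact h
      · exact absurd h pi_ne
    refine ⟨0, Submodule.zero_mem _, ?_⟩
    rw [hc, zero_smul, LinearMap.comp_zero]

theorem ex1 : Function.Exact (md1 (k := k)) mpp := by
  refine Wn.exact (N1 := WJ k Vx.be) (N2 := WM k) (N3 := WE (hat (XX k (-1)))) _ _ _ _ _ _ _ _ ?_ ?_ ?_ ?_ ?_ ?_ ?_
  · intro v _
    exact hap_pi v
  · intro g _
    exact comp2 _ _ cap_pi g
  · intro g _
    exact comp2 _ _ cap_pi g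
  · intro b v hv h
    exact h4 v hv h
  · intro e v1 hv1 v2 hv2 h12 z1 z2
    obtain ⟨y, ⟨hy1, hy2, hy3⟩, hy⟩ := p4 (k := k) (e := ((e : ℕ) : ℤ) + 1) (by positivity)
      (by omega) (v1, v2) ⟨hv1, hv2, h12⟩ z1 z2
    exact ⟨y.1, hy1, y.2, hy2, hy3, congrArg Prod.fst hy, congrArg Prod.snd hy⟩
  · intro g hg _
    refine ⟨0, Submodule.zero_mem _, ?_⟩
    rw [(Submodule.mem_bot k).1 hg, LinearMap.comp_zero]
  · intro g hg _
    obtain ⟨c, rfl⟩ := Submodule.mem_span_singleton.1 hg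
    refine ⟨c • LinearMap.id, ?_, ?_⟩
    · change _ ∈ JB k Vx.be
      rw [JB_be]
      exact Submodule.smul_mem _ c (Submodule.mem_span_singleton_self _)
    · rw [LinearMap.comp_smul, LinearMap.comp_id]

theorem mpp_surj : Function.Surjective (mpp (k := k)) := by
  refine Wn.surj (N1 := WM k) (N2 := WE (hat (XX k (-1)))) _ _ _ _ ?_ ?_ ?_ ?_
  · intro b v hv
    exact h5 (by omega) v hv
  · intro e v1 hv1 v2 hv2 h12
    obtain ⟨y, ⟨hy1, hy2, hy3⟩, hy⟩ := p5 (k := k) (e := ((e : ℕ) : ℤ) + 1) (by positivity)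
      (by omega) (v1, v2) ⟨hv1, hv2, h12⟩
    exact ⟨y.1, hy1, y.2, hy2, hy3, congrArg Prod.fst hy, congrArg Prod.snd hy⟩
  · intro g hg
    exact ⟨0, Submodule.zero_mem _, by rw [WE_A hg, LinearMap.comp_zero]⟩
  · intro g hg
    exact ⟨0, Submodule.zero_mem _, by rw [WE_B hg, LinearMap.comp_zero]⟩

/-- elements of `(hat X_{-1}).F 0 c` -/
theorem hatX_F0 {c : ℤ} {v : (hat (XX k (-1))).V} (hv : v ∈ (hat (XX k (-1))).F 0 c) :
    v = (0, v.2) ∧ v.2 ∈ (XX k ((0 : ℕ) : ℤ)).F 0 c := by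
  refine ⟨Prod.ext (Hx_neg (n := -1 + 0) (by norm_num) hv.1) rfl, ?_⟩
  have h : v.2 ∈ Hx k (-1 + (0 + 1)) := hv.2
  exact h

theorem mu_bij : Function.Bijective (mu (k := k)) := by
  constructor
  · refine Wn.inj (N := WE (triv (XX k ((0 : ℕ) : ℤ)))) (N' := WE (hat (XX k (-1)))) _ _ _ _ ?_ ?_ ?_
    · intro v _ h
      exact congrArg Prod.snd h
    · intro g hg _
      exact WE_A hg
    · intro g hg _
      exact WE_B hg
  · refine Wn.surj (N1 := WE (triv (XX k ((0 : ℕ) : ℤ)))) (N2 := WE (hat (XX k (-1)))) _ _ _ _ ?_ ?_ ?_ ?_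
    · intro b v hv
      obtain ⟨h1, h2⟩ := hatX_F0 hv
      exact ⟨v.2, h2, h1.symm⟩
    · intro e v1 hv1 v2 hv2 h12
      obtain ⟨h1, h2⟩ := hatX_F0 hv1
      obtain ⟨g1, g2⟩ := hatX_F0 hv2
      refine ⟨v1.2, h2, v2.2, g2, ?_, h1.symm, g1.symm⟩
      have h3 : X 1 * v1.2 - X 0 * v2.2 ∈ Hx k (-1 + (1 + 1)) := h12.2
      exact h3
    · intro g hg
      exact ⟨0, Submodule.zero_mem _, by rw [WE_A hg, LinearMap.comp_zero]⟩
    · intro g hg
      exact ⟨0, Submodule.zero_mem _, by rw [WE_B hg, LinearMap.comp_zero]⟩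

/-- the inverse of `mu` -/
noncomputable def muE : Wn (WE (triv (XX k ((0 : ℕ) : ℤ)))) ≃ₗ[R k] Wn (WE (hat (XX k (-1)))) :=
  LinearEquiv.ofBijective mu mu_bij

/-- `M → X_0` -/
noncomputable def mp : Wn (WM k) →ₗ[R k] Wn (WE (triv (XX k ((0 : ℕ) : ℤ)))) :=
  muE.symm.toLinearMap ∘ₗ mpp

theorem mu_mp (x : Wn (WM k)) : mu (mp x) = mpp x :=
  muE.apply_symm_apply (mpp x)

theorem mp_eq_zero (x : Wn (WM k)) : mp x = 0 ↔ mpp x = 0 := by
  rw [← mu_mp]
  constructor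
  · intro h; rw [h, map_zero]
  · intro h; exact mu_bij.1 (h.trans (map_zero mu).symm)

open Vale.Agent.P195.F in
/-- the exact sequence -/
noncomputable def EM : LEx4 (ModuleCat.of (R k) (Wn (WM k))) (ModuleCat.of (R k) (Wn (WJ k Vx.al)))
    (ModuleCat.of (R k) (Wn (WJ k Vx.be))) (ModuleCat.of (R k) (Wn (WM k)))
    (ModuleCat.of (R k) (Wn (WE (triv (XX k ((0 : ℕ) : ℤ)))))) where
  i := mi
  d2 := md2
  d1 := md1
  p := mp
  inj := mi_inj
  ex3 := ex3
  ex2 := ex2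
  ex1 := by
    intro x
    rw [mp_eq_zero]
    exact ex1 x
  surj := by
    intro y
    obtain ⟨x, hx⟩ := mpp_surj (mu y)
    refine ⟨x, mu_bij.1 ?_⟩
    rw [mu_mp, hx]

end Vale.Agent.P195.AR
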